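import Vale.Agent.P042.Weyl

namespace Vale.Agent.P042

open Finset Polynomial

/-- The additive character of `ℤ/qℤ`. -/
noncomputable def ch (q : ℕ) (x : ℤ) : ℂ := ee ((x : ℝ) / q)

lemma norm_ch (q : ℕ) (x : ℤ) : ‖ch q x‖ = 1 := norm_ee _

lemma ch_congr {q : ℕ} (hq : 1 ≤ q) {x y : ℤ} (h : (q : ℤ) ∣ x - y) : ch q x = ch q y := by
  obtain ⟨k, hk⟩ := h
  have hq0 : (q : ℝ) ≠ 0 := by exact_mod_cast (by omega : q ≠ 0)
  have : (x : ℝ) / q = (y : ℝ) / q + k := by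
    have hk' := congrArg (Int.cast (R := ℝ)) hk
    push_cast at hk'
    field_simp
    linarith
  rw [ch, ch, this, ee_add_int]

lemma ch_eval_periodic {q : ℕ} (hq : 1 ≤ q) (P : ℤ[X]) :
    Function.Periodic (fun n : ℕ => ch q (P.eval (n : ℤ))) q := fun n => by
  refine ch_congr hq (dvd_trans ?_ (sub_dvd_eval_sub _ _ P))
  push_cast; simp

/-- The average of `F` over `0, ..., P-1`. -/
noncomputable def avg (P : ℕ) (F : ℕ → ℂ) : ℂ := (∑ n ∈ range P, F n) / P

lemma sum_range_mul' {β : Type*} [AddCommMonoid β] (F : ℕ → β) (a b : ℕ) :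
    ∑ n ∈ range (a * b), F n = ∑ s ∈ range b, ∑ r ∈ range a, F (r + a * s) := by
  induction b with
  | zero => simp
  | succ b ih =>
    rw [sum_range_succ, ← ih, Nat.mul_succ, sum_range_add]
    simp [add_comm]

lemma sum_periodic_mul (F : ℕ → ℂ) (q R : ℕ) (h : Function.Periodic F q) :
    ∑ n ∈ range (q * R), F n = (R : ℂ) * ∑ n ∈ range q, F n := by
  rw [sum_range_mul']
  have : ∀ s ∈ range R, ∑ r ∈ range q, F (r + q * s) = ∑ r ∈ range q, F r := fun s _ =>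
    sum_congr rfl fun r _ => by rw [mul_comm]; exact h.nat_mul s r
  rw [sum_congr rfl this]; simp

lemma avg_periodic_mul (F : ℕ → ℂ) (q R : ℕ) (hR : 1 ≤ R) (h : Function.Periodic F q) :
    avg (q * R) F = avg q F := by
  have : (R : ℂ) ≠ 0 := by exact_mod_cast (by omega : R ≠ 0)
  rw [avg, avg, sum_periodic_mul F q R h, Nat.cast_mul, mul_comm (q : ℂ), mul_div_mul_left _ _ this]

lemma sum_shift (F : ℕ → ℂ) (M c : ℕ) (h : Function.Periodic F M) :
    ∑ n ∈ range M, F (n + c) = ∑ n ∈ range M, F n := by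
  induction c with
  | zero => simp
  | succ c ih =>
    rw [← ih]
    have h1 : ∑ n ∈ range (M + 1), F (n + c) = ∑ n ∈ range M, F (n + c) + F c := by
      rw [sum_range_succ]; congr 1
      rw [add_comm]; exact h c
    rw [sum_range_succ'] at h1
    simp only [zero_add, add_left_inj] at h1
    rw [← h1]
    exact sum_congr rfl fun n _ => by congr 1; omega

lemma norm_avg_le (P : ℕ) (F : ℕ → ℂ) (c : ℝ) (hc : 0 ≤ c) (h : ∀ n, ‖F n‖ ≤ c) :
    ‖avg P F‖ ≤ c := by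
  rcases Nat.eq_zero_or_pos P with hP | hP
  · subst hP; simp [avg, hc]
  rw [avg, norm_div, Complex.norm_natCast, div_le_iff₀ (by exact_mod_cast hP)]
  refine (norm_sum_le _ _).trans ((sum_le_card_nsmul _ _ c fun n _ => h n).trans ?_)
  simp [mul_comm]

theorem exact_major (K : ℕ) : ∃ B : ℕ, ∃ C : ℝ, 1 ≤ C ∧ ∀ P : ℤ[X], P.natDegree ≤ K + 1 →
    ∀ Q : ℕ, 1 ≤ Q → ∀ δ : ℝ, 0 < δ →
    δ * Q ≤ ‖∑ n ∈ range Q, ch Q (P.eval (n : ℤ))‖ →
    ∃ q : ℕ, 1 ≤ q ∧ (q : ℝ) ≤ C * (1 / δ) ^ B ∧ (Q : ℤ) ∣ (q : ℤ) * P.coeff (K + 1) := by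
  obtain ⟨B, C, hC, hW⟩ := weyl K
  refine ⟨B, C, hC, fun P hP Q hQ δ hδ hS => ?_⟩
  set X := C * (1 / δ) ^ B with hX
  have hX0 : 0 ≤ X := by positivity
  obtain ⟨R, hR⟩ := exists_nat_gt ((Q : ℝ) * X)
  have hR0 : (0 : ℝ) < R := lt_of_le_of_lt (by positivity) hR
  have hR1 : 1 ≤ R := by exact_mod_cast hR0
  set PR : ℝ[X] := (P.map (Int.castRingHom ℝ)) * Polynomial.C ((1 : ℝ) / Q) with hPR
  have hdeg : PR.natDegree ≤ K + 1 :=
    (natDegree_mul_C_le _ _).trans (natDegree_map_le.trans hP)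
  have hev : ∀ m : ℕ, ee (PR.eval (m : ℝ)) = ch Q (P.eval (m : ℤ)) := by
    intro m
    rw [ch, hPR, eval_mul, eval_C, mul_one_div]
    congr 2
    have := eval_map_apply (Int.castRingHom ℝ) (p := P) (m : ℤ)
    simpa using this
  have hsum : δ * ((Q * R : ℕ) : ℝ) ≤ ‖esum PR (Q * R)‖ := by
    rw [esum, sum_congr rfl (fun m _ => hev m),
      sum_periodic_mul _ Q R (ch_eval_periodic hQ P), norm_mul, Complex.norm_natCast]
    push_cast
    nlinarith
  obtain ⟨q, hq1, hq2, hq3⟩ := hW PR hdeg (Q * R) (Nat.one_le_iff_ne_zero.mpr (by positivity)) δ hδ hsum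
  refine ⟨q, hq1, hq2, ?_⟩
  have hQR : (0 : ℝ) < Q := by exact_mod_cast hQ
  have h1 : di ((q : ℝ) * PR.coeff (K + 1)) < 1 / Q := by
    refine hq3.trans_lt ?_
    rw [div_lt_div_iff₀ (by positivity) hQR, one_mul]
    have h1 : ((Q * R : ℕ) : ℝ) ≤ ((Q * R : ℕ) : ℝ) ^ (K + 1) :=
      le_self_pow₀ (by exact_mod_cast Nat.one_le_iff_ne_zero.mpr (by positivity)) (by omega)
    have h2 : (R : ℝ) ≤ ((Q * R : ℕ) : ℝ) := by exact_mod_cast Nat.le_mul_of_pos_left R (by omega)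
    linarith
  have hco : PR.coeff (K + 1) = (P.coeff (K + 1) : ℝ) / Q := by
    rw [hPR, coeff_mul_C, coeff_map]; simp [div_eq_mul_inv]
  rw [hco, di] at h1
  set a := round ((q : ℝ) * ((P.coeff (K + 1) : ℝ) / Q))
  have h2 : |(((q : ℤ) * P.coeff (K + 1) - Q * a : ℤ) : ℝ)| < 1 := by
    push_cast
    have h3 : (q : ℝ) * (P.coeff (K + 1) : ℝ) - Q * a =
        Q * ((q : ℝ) * ((P.coeff (K + 1) : ℝ) / Q) - a) := by field_simp
    rw [h3, abs_mul, abs_of_pos hQR]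
    rwa [lt_div_iff₀ hQR, mul_comm] at h1
  have h4 : |(q : ℤ) * P.coeff (K + 1) - Q * a| < 1 := by exact_mod_cast h2
  exact ⟨a, by have := Int.abs_lt_one_iff.mp h4; linarith⟩

theorem hua (K : ℕ) : ∃ B : ℕ, ∃ C : ℝ, 1 ≤ C ∧ ∀ P : ℤ[X], P.natDegree ≤ K →
    ∀ Q : ℕ, 1 ≤ Q → ∀ δ : ℝ, 0 < δ →
    δ * Q ≤ ‖∑ n ∈ range Q, ch Q (P.eval (n : ℤ))‖ →
    ∃ q : ℕ, 1 ≤ q ∧ (q : ℝ) ≤ C * (1 / δ) ^ B ∧
      ∀ i : ℕ, 1 ≤ i → (Q : ℤ) ∣ (q : ℤ) * P.coeff i := by
  induction K with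
  | zero =>
    refine ⟨0, 1, le_rfl, fun P hP Q _ δ _ _ => ⟨1, le_rfl, by simp, fun i hi => ?_⟩⟩
    rw [coeff_eq_zero_of_natDegree_lt (by omega), mul_zero]; exact dvd_zero _
  | succ K ih =>
    obtain ⟨B₂, C₂, hC₂, hih⟩ := ih
    obtain ⟨B₁, C₁, hC₁, hmaj⟩ := exact_major K
    refine ⟨B₂ + B₁ * (K + 1), C₂ * C₁ ^ (K + 1),
      one_le_mul_of_one_le_of_one_le hC₂ (one_le_pow₀ hC₁), fun P hP Q hQ δ hδ hS => ?_⟩
    obtain ⟨q₁, hq11, hq12, hq13⟩ := hmaj P hP Q hQ δ hδ hS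
    have hr : ∃ r ∈ range q₁,
        δ * Q ≤ ‖∑ s ∈ range Q, ch Q (P.eval ((r + q₁ * s : ℕ) : ℤ))‖ := by
      refine exists_le_of_sum_le (nonempty_range_iff.mpr (by omega)) ?_
      calc ∑ _r ∈ range q₁, δ * Q = q₁ * (δ * Q) := by simp
        _ ≤ q₁ * ‖∑ n ∈ range Q, ch Q (P.eval (n : ℤ))‖ :=
            mul_le_mul_of_nonneg_left hS (Nat.cast_nonneg _)
        _ = ‖∑ n ∈ range (Q * q₁), ch Q (P.eval (n : ℤ))‖ := by
            rw [sum_periodic_mul _ Q q₁ (ch_eval_periodic hQ P), norm_mul, Complex.norm_natCast]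
        _ ≤ _ := by
            rw [mul_comm Q q₁, sum_range_mul', sum_comm]
            exact norm_sum_le _ _
    obtain ⟨r, -, hr⟩ := hr
    set T := taylor (r : ℤ) P with hT
    set R := T.comp (Polynomial.C (q₁ : ℤ) * X)
      - monomial (K + 1) (P.coeff (K + 1) * (q₁ : ℤ) ^ (K + 1)) with hR
    have hTtop : ∀ n, K + 1 ≤ n → T.coeff n = P.coeff n := by
      intro n hn
      have : hasseDeriv n P = Polynomial.C (P.coeff n) := by
        ext j
        rw [hasseDeriv_coeff, coeff_C]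
        rcases eq_or_ne j 0 with hj | hj
        · subst hj; simp
        · rw [if_neg hj, coeff_eq_zero_of_natDegree_lt (lt_of_le_of_lt hP (by omega)), mul_zero]
      rw [hT, taylor_coeff, this, eval_C]
    have hRdeg : R.natDegree ≤ K := by
      rw [natDegree_le_iff_coeff_eq_zero]
      intro n hn
      rw [hR, coeff_sub, comp_C_mul_X_coeff, hTtop n (by omega), coeff_monomial]
      rcases eq_or_ne (K + 1) n with h | h
      · subst h; simp
      · rw [if_neg h, coeff_eq_zero_of_natDegree_lt (lt_of_le_of_lt hP (by omega)), zero_mul,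
          sub_zero]
    have hRsum : δ * Q ≤ ‖∑ s ∈ range Q, ch Q (R.eval (s : ℤ))‖ := by
      refine hr.trans (le_of_eq (congrArg norm (sum_congr rfl fun s _ => ch_congr hQ ?_)))
      rw [hR, eval_sub, eval_comp, eval_monomial, hT, taylor_eval]
      simp only [eval_mul, eval_C, eval_X]
      push_cast
      rw [add_comm (r : ℤ), sub_sub_cancel]
      obtain ⟨k, hk⟩ := hq13
      exact ⟨k * (q₁ : ℤ) ^ K * (s : ℤ) ^ (K + 1), by rw [pow_succ (q₁ : ℤ) K]; linear_combination ((q₁:ℤ)^K * (s:ℤ)^(K+1)) * hk⟩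
    obtain ⟨q₂, hq21, hq22, hq23⟩ := hih R hRdeg Q hQ δ hδ hRsum
    refine ⟨q₂ * q₁ ^ (K + 1), Nat.one_le_iff_ne_zero.mpr (by positivity), ?_, ?_⟩
    · push_cast
      refine (mul_le_mul hq22 (pow_le_pow_left₀ (Nat.cast_nonneg _) hq12 _) (by positivity)
        (by positivity)).trans (le_of_eq ?_)
      rw [mul_pow, ← pow_mul, pow_add (1 / δ) B₂]; ring
    suffices h : ∀ m i, 1 ≤ i → K + 2 ≤ i + m →
        (Q : ℤ) ∣ ((q₂ * q₁ ^ (K + 1) : ℕ) : ℤ) * P.coeff i from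
      fun i hi => h (K + 2) i hi (by omega)
    intro m
    induction m with
    | zero =>
      intro i _ hi
      rw [coeff_eq_zero_of_natDegree_lt (by omega), mul_zero]; exact dvd_zero _
    | succ m ihm =>
      intro i hi1 hi
      rcases Nat.lt_or_ge i (K + 1) with hlt | hge
      · have h1 : (Q : ℤ) ∣ ((q₂ * q₁ ^ (K + 1) : ℕ) : ℤ) * T.coeff i := by
          have h := hq23 i hi1
          rw [hR, coeff_sub, comp_C_mul_X_coeff, coeff_monomial, if_neg (by omega), sub_zero] at h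
          have e : (q₁ : ℤ) ^ (K + 1) = (q₁ : ℤ) ^ (K + 1 - i) * (q₁ : ℤ) ^ i := by
            rw [← pow_add]; congr 1; omega
          push_cast
          rw [e, show (q₂ : ℤ) * ((q₁ : ℤ) ^ (K + 1 - i) * (q₁ : ℤ) ^ i) * T.coeff i
            = ((q₂ : ℤ) * (T.coeff i * (q₁ : ℤ) ^ i)) * (q₁ : ℤ) ^ (K + 1 - i) by ring]
          exact h.mul_right _
        have h2 : (Q : ℤ) ∣ ((q₂ * q₁ ^ (K + 1) : ℕ) : ℤ) * (T.coeff i - P.coeff i) := by
          have e : T.coeff i - P.coeff i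
              = (hasseDeriv i P - Polynomial.C (P.coeff i)).eval (r : ℤ) := by
            rw [hT, taylor_coeff, eval_sub, eval_C]
          rw [e, eval_eq_sum_range, mul_sum]
          refine dvd_sum fun j _ => ?_
          rw [← mul_assoc, coeff_sub, hasseDeriv_coeff, coeff_C]
          refine Dvd.dvd.mul_right ?_ _
          rcases Nat.eq_zero_or_pos j with hj | hj
          · subst hj; simp
          · rw [if_neg (by omega), sub_zero,
              mul_comm (((j + i).choose i : ℕ) : ℤ), ← mul_assoc]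
            exact (ihm (j + i) (by omega) (by omega)).mul_right _
        have := dvd_sub h1 h2
        rwa [← mul_sub, sub_sub_cancel] at this
      · rcases Nat.eq_or_lt_of_le hge with he | hgt
        · subst he
          push_cast
          rw [show (q₂ : ℤ) * (q₁ : ℤ) ^ (K + 1) * P.coeff (K + 1)
            = ((q₁ : ℤ) * P.coeff (K + 1)) * ((q₂ : ℤ) * (q₁ : ℤ) ^ K) by rw [pow_succ]; ring]
          exact hq13.mul_right _
        · rw [coeff_eq_zero_of_natDegree_lt (by omega), mul_zero]; exact dvd_zero _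

theorem coeff_bound (K : ℕ) : ∃ θ : ℝ, 0 < θ ∧ ∃ C : ℝ, 1 ≤ C ∧ ∀ P : ℤ[X], P.natDegree ≤ K →
    ∀ Q : ℕ, 1 ≤ Q → ∀ i : ℕ, 1 ≤ i → ∀ d : ℕ, 1 ≤ d →
    (∀ q : ℕ, 1 ≤ q → (Q : ℤ) ∣ (q : ℤ) * P.coeff i → Q ≤ d * q) →
    ‖avg Q (fun n => ch Q (P.eval (n : ℤ)))‖ ≤ C * ((d : ℝ) / Q) ^ θ := by
  obtain ⟨B, C, hC, hh⟩ := hua K
  refine ⟨1 / ((B : ℝ) + 1), by positivity, C, hC, fun P hP Q hQ i hi d hd hdiv => ?_⟩
  set δ := ‖avg Q (fun n => ch Q (P.eval (n : ℤ)))‖ with hδdef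
  rcases eq_or_lt_of_le (norm_nonneg (avg Q (fun n => ch Q (P.eval (n : ℤ))))) with h0 | hδ
  · rw [hδdef, ← h0]; positivity
  rw [← hδdef] at hδ
  have hQR : (0 : ℝ) < Q := by exact_mod_cast hQ
  have hS : δ * Q ≤ ‖∑ n ∈ range Q, ch Q (P.eval (n : ℤ))‖ := by
    rw [hδdef, avg, norm_div, Complex.norm_natCast, div_mul_cancel₀ _ hQR.ne']
  obtain ⟨q, hq1, hq2, hq3⟩ := hh P hP Q hQ δ hδ hS
  have h1 : (Q : ℝ) ≤ d * q := by exact_mod_cast hdiv q hq1 (hq3 i hi)
  have hδ1 : δ ≤ 1 := norm_avg_le _ _ _ zero_le_one (fun n => (norm_ch _ _).le)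
  have h2 : (Q : ℝ) * δ ^ (B + 1) ≤ C * d := by
    have h3 : (q : ℝ) * δ ^ (B + 1) ≤ C := by
      calc (q : ℝ) * δ ^ (B + 1) ≤ C * (1 / δ) ^ B * δ ^ (B + 1) :=
            mul_le_mul_of_nonneg_right hq2 (by positivity)
        _ = C * δ := by
            rw [pow_succ, one_div, inv_pow]; field_simp
        _ ≤ C := mul_le_of_le_one_right (by linarith) hδ1
    calc (Q : ℝ) * δ ^ (B + 1) ≤ d * q * δ ^ (B + 1) :=
          mul_le_mul_of_nonneg_right h1 (by positivity)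
      _ = d * (q * δ ^ (B + 1)) := by ring
      _ ≤ d * C := mul_le_mul_of_nonneg_left h3 (by positivity)
      _ = C * d := mul_comm _ _
  calc δ = (δ ^ (B + 1)) ^ (1 / ((B : ℝ) + 1)) := by
        rw [one_div, show ((B : ℝ) + 1) = ((B + 1 : ℕ) : ℝ) by push_cast; ring,
          Real.pow_rpow_inv_natCast hδ.le (by omega)]
    _ ≤ (C * ((d : ℝ) / Q)) ^ (1 / ((B : ℝ) + 1)) := by
        refine Real.rpow_le_rpow (by positivity) ?_ (by positivity)
        rw [← mul_div_assoc, le_div_iff₀ hQR, mul_comm]; exact h2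
    _ = C ^ (1 / ((B : ℝ) + 1)) * ((d : ℝ) / Q) ^ (1 / ((B : ℝ) + 1)) :=
        Real.mul_rpow (by linarith) (by positivity)
    _ ≤ C * ((d : ℝ) / Q) ^ (1 / ((B : ℝ) + 1)) := by
        refine mul_le_mul_of_nonneg_right ?_ (by positivity)
        calc C ^ (1 / ((B : ℝ) + 1)) ≤ C ^ (1 : ℝ) := by
              refine Real.rpow_le_rpow_of_exponent_le hC ?_
              rw [div_le_one (by positivity)]; linarith [Nat.cast_nonneg (α := ℝ) B]
          _ = C := Real.rpow_one C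

/-- For coprime moduli, the average of a product is the product of the averages. -/
lemma avg_crt {m n : ℕ} (hm : 1 ≤ m) (hn : 1 ≤ n) (h : m.Coprime n) (F G : ℕ → ℂ)
    (hF : Function.Periodic F m) (hG : Function.Periodic G n) :
    avg (m * n) (fun x => F x * G x) = avg m F * avg n G := by
  have key : ∑ x ∈ range (m * n), F x * G x = (∑ a ∈ range m, F a) * ∑ b ∈ range n, G b := by
    rw [sum_mul_sum, ← sum_product']
    refine sum_bij' (fun x _ => (x % m, x % n))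
      (fun ab _ => (Nat.chineseRemainder h ab.1 ab.2 : ℕ)) ?_ ?_ ?_ ?_ ?_
    · intro x _
      simp [Nat.mod_lt, (by omega : 0 < m), (by omega : 0 < n)]
    · intro ab _
      exact mem_range.mpr (Nat.chineseRemainder_lt_mul h _ _ (by omega) (by omega))
    · intro x hx
      have hmod := Nat.chineseRemainder_modEq_unique h (a := x % m) (b := x % n) (z := x)
        (Nat.mod_modEq x m).symm (Nat.mod_modEq x n).symm
      have hlt := Nat.chineseRemainder_lt_mul h (x % m) (x % n) (by omega) (by omega)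
      exact (Nat.ModEq.eq_of_lt_of_lt hmod (mem_range.mp hx) hlt).symm
    · intro ab hab
      simp only [mem_product, mem_range] at hab
      have hp := (Nat.chineseRemainder h ab.1 ab.2).2
      ext
      · exact Eq.trans hp.1 (Nat.mod_eq_of_lt hab.1)
      · exact Eq.trans hp.2 (Nat.mod_eq_of_lt hab.2)
    · intro x _
      simp only []
      rw [hF.map_mod_nat, hG.map_mod_nat]
  rw [avg, avg, avg, key, Nat.cast_mul, div_mul_div_comm]

end Vale.Agent.P042
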