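import Vale.Agent.P042.CurveLocal

/-! Sums over small balls at a p-adic root of multiplicity `e` are sums of a constant times `v ^ e`. -/

namespace Vale.Agent.P042.Branch

open Finset Polynomial

variable {p : ℕ} [Fact p.Prime]

/-- The character of level `i` on the p-adic integers. -/
noncomputable def Ψ (i : ℕ) (x : ℤ_[p]) : ℂ := ZMod.stdAddChar (PadicInt.toZModPow i x)

lemma ch_eq_Ψ (i : ℕ) (x : ℤ) : ch (p ^ i) x = Ψ (p := p) i (x : ℤ_[p]) := by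
  rw [Ψ, map_intCast]
  unfold ch ee
  rw [ZMod.stdAddChar_coe]
  congr 1; push_cast; ring

lemma toZModPow_eq_iff (i : ℕ) (x y : ℤ_[p]) :
    PadicInt.toZModPow i x = PadicInt.toZModPow i y ↔ (p : ℤ_[p]) ^ i ∣ x - y := by
  rw [← sub_eq_zero, ← map_sub, ← RingHom.mem_ker, PadicInt.ker_toZModPow, Ideal.mem_span_singleton]

lemma Ψ_congr {i : ℕ} {x y : ℤ_[p]} (h : (p : ℤ_[p]) ^ i ∣ x - y) : Ψ i x = Ψ i y := by
  rw [Ψ, Ψ, (toZModPow_eq_iff i x y).mpr h]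

lemma Ψ_neg (i : ℕ) (x : ℤ_[p]) : Ψ i (-x) = (starRingEnd ℂ) (Ψ i x) := by
  rw [Ψ, Ψ, map_neg, AddChar.map_neg_eq_conj]

lemma Ψ_zero (i : ℕ) : Ψ (p := p) i 0 = 1 := by
  rw [Ψ, map_zero, AddChar.map_zero_eq_one]

lemma dvd_val_sub (i : ℕ) (x : ℤ_[p]) :
    (p : ℤ_[p]) ^ i ∣ (((PadicInt.toZModPow i x).val : ℕ) : ℤ_[p]) - x := by
  rw [← toZModPow_eq_iff, map_natCast, ZMod.natCast_zmod_val]

lemma dvd_intCast {i : ℕ} {x : ℤ} (h : (p : ℤ_[p]) ^ i ∣ (x : ℤ_[p])) : ((p ^ i : ℕ) : ℤ) ∣ x := by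
  rw [← ZMod.intCast_zmod_eq_zero_iff_dvd]
  have := (toZModPow_eq_iff i (x : ℤ_[p]) 0).mpr (by simpa using h)
  rwa [map_intCast, map_zero] at this

lemma eq_unit_mul_pow {x : ℤ_[p]} (hx : x ≠ 0) :
    ∃ (u : ℕ) (U : ℤ_[p]ˣ), x = (U : ℤ_[p]) * (p : ℤ_[p]) ^ u :=
  ⟨_, PadicInt.unitCoeff hx, PadicInt.unitCoeff_spec hx⟩

lemma isUnit_add_of_dvd {a b : ℤ_[p]} (ha : IsUnit a) (hb : (p : ℤ_[p]) ∣ b) : IsUnit (a + b) := by
  rw [PadicInt.isUnit_iff] at ha ⊢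
  obtain ⟨t, rfl⟩ := hb
  have h : ‖(p : ℤ_[p]) * t‖ < 1 := PadicInt.norm_lt_one_iff_dvd _ |>.mpr (dvd_mul_right _ _)
  rw [PadicInt.norm_add_eq_max_of_ne (by rw [ha]; exact (ne_of_lt h).symm), ha, max_eq_left h.le]

/-- The shift that moves the ball of level `j` at `z` to the multiples of `p ^ j`. -/
noncomputable def Kz (z : ℤ_[p]) (j : ℕ) : ℕ := (PadicInt.toZModPow j (-z)).val

/-- The sum at `p ^ i` over the ball of level `j` at `z`. -/
noncomputable def Bsum (h : ℤ[X]) (z : ℤ_[p]) (i : ℕ) (a : ℤ) (j : ℕ) : ℂ :=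
  avg (p ^ i) fun n => ((dlt p j (n + Kz z j) : ℝ) : ℂ) * ch (p ^ i) (a * h.eval (n : ℤ))

lemma dlt_Kz_sub (z : ℤ_[p]) {j l : ℕ} (hl : l ≤ j) (n : ℕ) :
    dlt p l (n + Kz z j) = dlt p l (n + Kz z l) := by
  have h : (p : ℤ_[p]) ^ l ∣ ((Kz z j : ℕ) : ℤ_[p]) - ((Kz z l : ℕ) : ℤ_[p]) := by
    have h1 := dvd_trans (pow_dvd_pow _ hl) (dvd_val_sub j (-z))
    have h2 := dvd_val_sub l (-z)
    simpa [Kz] using dvd_sub h1 h2
  have h' : ((p ^ l : ℕ) : ℤ) ∣ ((n + Kz z j : ℕ) : ℤ) - ((n + Kz z l : ℕ) : ℤ) := by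
    push_cast
    rw [add_sub_add_left_eq_sub]
    have := dvd_intCast (x := (Kz z j : ℤ) - Kz z l) (by push_cast; exact h)
    push_cast at this; exact this
  have hiff : p ^ l ∣ n + Kz z j ↔ p ^ l ∣ n + Kz z l := by
    rw [← Int.natCast_dvd_natCast, ← Int.natCast_dvd_natCast (n := n + Kz z l)]
    exact dvd_iff_dvd_of_dvd_sub h'
  simp only [dlt]
  exact if_congr hiff rfl rfl

lemma Bsum_zero (h : ℤ[X]) (z : ℤ_[p]) (i : ℕ) (a : ℤ) :
    Bsum h z i a 0 = avg (p ^ i) fun n => ch (p ^ i) (a * h.eval (n : ℤ)) := by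
  simp [Bsum, dlt]

lemma Bsum_eq (h : ℤ[X]) (z : ℤ_[p]) {i j : ℕ} (hji : j ≤ i) (a : ℤ) :
    Bsum h z i a j = avg (p ^ (i - j)) fun m =>
      Ψ i ((a : ℤ_[p]) * (h.map (Int.castRingHom ℤ_[p])).eval (z + (p : ℤ_[p]) ^ j * (m : ℤ_[p]))) := by
  have hp := (Fact.out : p.Prime)
  set zi := (PadicInt.toZModPow i z).val with hzi
  set F : ℕ → ℂ := fun n => ((dlt p j (n + Kz z j) : ℝ) : ℂ) * ch (p ^ i) (a * h.eval (n : ℤ)) with hF
  have hper : Function.Periodic F (p ^ i) := by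
    intro n
    simp only [hF]
    rw [add_right_comm, dlt_periodic (pow_dvd_pow p hji)]
    congr 1
    simpa [eval_mul, eval_C] using
      ch_eval_periodic (Nat.one_le_pow _ _ hp.pos) (Polynomial.C a * h) n
  have hdiv : p ^ j ∣ zi + Kz z j := by
    rw [← Int.natCast_dvd_natCast]
    refine dvd_intCast (p := p) ?_
    push_cast
    have h1 := dvd_trans (pow_dvd_pow _ hji) (dvd_val_sub i z)
    have h2 := dvd_val_sub j (-z)
    convert dvd_add h1 h2 using 1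
    simp [Kz, hzi]
  rw [Bsum, avg, ← hF, ← sum_shift F (p ^ i) zi hper]
  have e : ∀ n, F (n + zi) = ((dlt p j n : ℝ) : ℂ) *
      ch (p ^ i) (a * h.eval ((n + zi : ℕ) : ℤ)) := by
    intro n
    simp only [hF]
    rw [add_assoc, dlt_periodic hdiv]
  rw [sum_congr rfl fun n _ => e n]
  refine (avg_dlt p i j hp hji fun n => ch (p ^ i) (a * h.eval ((n + zi : ℕ) : ℤ))).trans ?_
  unfold avg
  congr 1
  refine sum_congr rfl fun m _ => ?_
  simp only []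
  rw [ch_eq_Ψ, Int.cast_mul]
  refine Ψ_congr ?_
  have hev : ((h.eval ((p ^ j * m + zi : ℕ) : ℤ) : ℤ) : ℤ_[p])
      = (h.map (Int.castRingHom ℤ_[p])).eval ((p : ℤ_[p]) ^ j * (m : ℤ_[p]) + (zi : ℤ_[p])) := by
    rw [← eq_intCast (Int.castRingHom ℤ_[p]), ← eval_map_apply]
    simp
  rw [hev, ← mul_sub]
  refine Dvd.dvd.mul_left (dvd_trans ?_ (sub_dvd_eval_sub _ _ _)) _
  convert dvd_val_sub i z using 1
  simp [hzi]; ring

/-- The substitution `m ↦ m w` that turns `h(z + p ^ j m)` into a monomial. -/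
lemma exists_subst {e : ℕ} (he : 1 ≤ e) (H : ℤ_[p][X]) (z : ℤ_[p]) {u v : ℕ} (U E : ℤ_[p]ˣ)
    (hU : H.eval z = (U : ℤ_[p]) * (p : ℤ_[p]) ^ u) (hE : (e : ℤ_[p]) = (E : ℤ_[p]) * (p : ℤ_[p]) ^ v)
    {j : ℕ} (hj : u + 2 * v + 1 ≤ j) :
    ∃ φ : ℤ_[p] → ℤ_[p],
      (∀ m, ((p : ℤ_[p]) ^ j * m) ^ e * H.eval (z + (p : ℤ_[p]) ^ j * m)
        = (p : ℤ_[p]) ^ u * (U : ℤ_[p]) * ((p : ℤ_[p]) ^ j * φ m) ^ e) ∧
      ∀ m m', ∀ r, (p : ℤ_[p]) ^ r ∣ φ m - φ m' → (p : ℤ_[p]) ^ r ∣ m - m' := by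
  have hp := (Fact.out : p.Prime)
  have hp0 : (p : ℤ_[p]) ≠ 0 := by exact_mod_cast hp.ne_zero
  have hw : ∀ m : ℤ_[p], ∃ w : ℤ_[p],
      H.eval (z + (p : ℤ_[p]) ^ j * m) = (p : ℤ_[p]) ^ u * (U : ℤ_[p]) * w ^ e ∧
      (p : ℤ_[p]) ^ (v + 1) ∣ w - 1 := by
    intro m
    obtain ⟨t, ht⟩ := sub_dvd_eval_sub (z + (p : ℤ_[p]) ^ j * m) z H
    rw [add_sub_cancel_left] at ht
    set ρ : ℤ_[p] := 1 + (p : ℤ_[p]) ^ (j - u) * ((U⁻¹ : ℤ_[p]ˣ) : ℤ_[p]) * m * t with hρ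
    have hev : H.eval (z + (p : ℤ_[p]) ^ j * m) = (p : ℤ_[p]) ^ u * (U : ℤ_[p]) * ρ := by
      rw [eq_add_of_sub_eq ht, hU, hρ,
        show (p : ℤ_[p]) ^ j = (p : ℤ_[p]) ^ u * (p : ℤ_[p]) ^ (j - u) by
          rw [← pow_add]; congr 1; omega]
      linear_combination (-((p : ℤ_[p]) ^ u * (p : ℤ_[p]) ^ (j - u) * m * t)) * U.mul_inv
    have hd : (p : ℤ_[p]) ^ (2 * v + 1) ∣ 1 - ρ := by
      rw [hρ, sub_add_cancel_left, dvd_neg]
      exact (((pow_dvd_pow _ (by omega)).mul_right _).mul_right _).mul_right _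
    have hnE : ‖(e : ℤ_[p])‖ = (p : ℝ) ^ (-(v : ℤ)) := by
      rw [hE, norm_mul, PadicInt.norm_units, one_mul, norm_pow, PadicInt.norm_p, inv_pow, zpow_neg,
        zpow_natCast]
    have hp1 : (1 : ℝ) < p := by exact_mod_cast hp.one_lt
    have hnorm : ‖aeval (1 : ℤ_[p]) ((X : ℤ_[p][X]) ^ e - C ρ)‖
        < ‖aeval (1 : ℤ_[p]) (derivative ((X : ℤ_[p][X]) ^ e - C ρ))‖ ^ 2 := by
      simp only [map_sub, map_pow, aeval_X, one_pow, aeval_C, derivative_X_pow, derivative_C,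
        sub_zero, map_mul, Algebra.algebraMap_self, RingHom.id_apply, mul_one, hnE]
      rw [← Ideal.mem_span_singleton, ← PadicInt.norm_le_pow_iff_mem_span_pow] at hd
      refine lt_of_le_of_lt hd ?_
      rw [← zpow_natCast (((p : ℝ)) ^ (-(v : ℤ))) 2, ← zpow_mul]
      exact zpow_lt_zpow_right₀ hp1 (by push_cast; omega)
    obtain ⟨w, hw0, hw1, -, -⟩ := hensels_lemma hnorm
    simp only [map_sub, map_pow, aeval_X, one_pow, aeval_C, derivative_X_pow, derivative_C,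
      sub_zero, map_mul, Algebra.algebraMap_self, RingHom.id_apply, mul_one, hnE, sub_eq_zero] at hw0 hw1
    refine ⟨w, by rw [hev, hw0], ?_⟩
    rw [← Ideal.mem_span_singleton, ← PadicInt.norm_le_pow_iff_mem_span_pow,
      PadicInt.norm_le_pow_iff_norm_lt_pow_add_one]
    refine lt_of_lt_of_le hw1 (le_of_eq ?_)
    congr 1; push_cast; ring
  choose w hw1 hw2 using hw
  refine ⟨fun m => m * w m, fun m => by rw [hw1]; ring, fun m m' r hr => ?_⟩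
  set q : ℤ_[p] := (p : ℤ_[p]) ^ (v + 1) with hq
  set S : ℤ_[p] := ∑ l ∈ range e, w m ^ l * w m' ^ (e - 1 - l) with hS
  have hSe : q ∣ S - (e : ℤ_[p]) := by
    rw [hS, show (e : ℤ_[p]) = ∑ l ∈ range e, (1 : ℤ_[p]) by simp, ← sum_sub_distrib]
    refine dvd_sum fun l _ => ?_
    have h1 := dvd_trans (hw2 m) (sub_one_dvd_pow_sub_one (w m) l)
    have h2 := dvd_trans (hw2 m') (sub_one_dvd_pow_sub_one (w m') (e - 1 - l))
    have := dvd_add (h1.mul_right (w m' ^ (e - 1 - l))) h2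
    convert this using 1; ring
  obtain ⟨s, hs⟩ := hSe
  have hSu : S = (p : ℤ_[p]) ^ v * ((E : ℤ_[p]) + (p : ℤ_[p]) * s) := by
    rw [eq_add_of_sub_eq hs, hE, hq, pow_succ]; ring
  obtain ⟨W, hW⟩ := isUnit_add_of_dvd E.isUnit (dvd_mul_right (p : ℤ_[p]) s)
  obtain ⟨t, ht⟩ := sub_dvd_eval_sub (z + (p : ℤ_[p]) ^ j * m) (z + (p : ℤ_[p]) ^ j * m') H
  have hsplit : (p : ℤ_[p]) ^ j = (p : ℤ_[p]) ^ u * (p : ℤ_[p]) ^ v * (p : ℤ_[p]) ^ (j - u - v) := by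
    rw [← pow_add, ← pow_add]; congr 1; omega
  have hgeom := geom_sum₂_mul (w m) (w m') e
  rw [← hS, hSu, ← hW] at hgeom
  rw [hw1, hw1, add_sub_add_left_eq_sub, ← mul_sub, ← mul_sub, hsplit, ← hgeom] at ht
  have ht' : (U : ℤ_[p]) * (W : ℤ_[p]) * (w m - w m')
      = (p : ℤ_[p]) ^ (j - u - v) * (m - m') * t := by
    refine mul_left_cancel₀ (mul_ne_zero (pow_ne_zero u hp0) (pow_ne_zero v hp0)) ?_
    linear_combination ht
  have hwd : w m - w m' = (p : ℤ_[p]) ^ (j - u - v) * (m - m') *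
      (t * ((U⁻¹ : ℤ_[p]ˣ) : ℤ_[p]) * ((W⁻¹ : ℤ_[p]ˣ) : ℤ_[p])) := by
    linear_combination ((U⁻¹ : ℤ_[p]ˣ) : ℤ_[p]) * ((W⁻¹ : ℤ_[p]ˣ) : ℤ_[p]) * ht'
      - (w m - w m') * (W : ℤ_[p]) * ((W⁻¹ : ℤ_[p]ˣ) : ℤ_[p]) * U.mul_inv
      - (w m - w m') * W.mul_inv
  set T := t * ((U⁻¹ : ℤ_[p]ˣ) : ℤ_[p]) * ((W⁻¹ : ℤ_[p]ˣ) : ℤ_[p])
  have hfac : m * w m - m' * w m'
      = (m - m') * (1 + ((w m - 1) + (p : ℤ_[p]) ^ (j - u - v) * (m' * T))) := by
    linear_combination m' * hwd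
  have hdvd : (p : ℤ_[p]) ∣ (w m - 1) + (p : ℤ_[p]) ^ (j - u - v) * (m' * T) :=
    dvd_add (dvd_trans (dvd_pow_self _ (by omega)) (hw2 m))
      ((dvd_pow_self _ (by omega)).mul_right _)
  simp only [hfac] at hr
  exact (isUnit_add_of_dvd isUnit_one hdvd).dvd_mul_right.mp hr

lemma sum_range_zmod_val (i : ℕ) (F : ℕ → ℂ) :
    ∑ n ∈ range (p ^ i), F n = ∑ x : ZMod (p ^ i), F x.val := by
  refine sum_bij' (fun n _ => (n : ZMod (p ^ i))) (fun x _ => x.val) (fun _ _ => mem_univ _)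
    (fun x _ => mem_range.mpr (ZMod.val_lt x)) (fun n hn => ?_) (fun x _ => ?_) (fun n hn => ?_)
  · exact ZMod.val_natCast_of_lt (mem_range.mp hn)
  · exact ZMod.natCast_zmod_val x
  · rw [ZMod.val_natCast_of_lt (mem_range.mp hn)]

/-- All ball sums at a root of multiplicity `e` at which `-1` is an `e`-th power. -/
theorem ball_root (h : ℤ[X]) (z : ℤ_[p]) (e : ℕ) (he : 1 ≤ e) (H : ℤ_[p][X])
    (hfac : h.map (Int.castRingHom ℤ_[p]) = (X - C z) ^ e * H) (hH0 : H.eval z ≠ 0)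
    (ζ : ℤ_[p]) (hζ : ζ ^ e = -1) :
    ∃ J u : ℕ, 1 ≤ J ∧ ((IsUnit (H.eval z) ∧ ¬ p ∣ e) → J = 1) ∧
      ∀ (i : ℕ) (a : ℤ), ¬ (p : ℤ) ∣ a → ∃ b : ℤ, ¬ (p : ℤ) ∣ b ∧
        ∀ j, j ≤ i →
          (J ≤ j → (Bsum h z i a j).im = 0 ∧
            (e * j + u < i → Bsum h z i a j = gG ((X : ℤ[X]) ^ e) p (i - u) b j)) ∧
          ((J ≤ j ∨ j = i) → i ≤ e * j + u → Bsum h z i a j = 1) := by
  classical
  have hp := (Fact.out : p.Prime)
  obtain ⟨u, U, hU⟩ := eq_unit_mul_pow hH0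
  obtain ⟨v, E, hE⟩ := eq_unit_mul_pow (x := (e : ℤ_[p])) (Nat.cast_ne_zero.mpr (by omega))
  refine ⟨u + 2 * v + 1, u, by omega, fun ⟨h1, h2⟩ => ?_, fun i a ha => ?_⟩
  · have hu : u = 0 := by
      by_contra hu
      rw [hU, IsUnit.mul_iff] at h1
      exact PadicInt.p_nonunit ((isUnit_pow_iff hu).mp h1.2)
    have hv : v = 0 := by
      by_contra hv
      refine h2 ?_
      rw [← Int.natCast_dvd_natCast]
      have hd : (p : ℤ_[p]) ^ 1 ∣ ((e : ℤ) : ℤ_[p]) := by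
        rw [Int.cast_natCast, hE, pow_one]
        exact (dvd_pow_self _ hv).mul_left _
      simpa using dvd_intCast hd
    omega
  set c : ℤ := ((PadicInt.toZModPow (i + 1) (U : ℤ_[p])).val : ℤ) with hc
  have hcU : (p : ℤ_[p]) ^ (i + 1) ∣ (c : ℤ_[p]) - (U : ℤ_[p]) := by
    rw [hc, Int.cast_natCast]; exact dvd_val_sub _ _
  have hcp : ¬ (p : ℤ) ∣ c := by
    intro hd
    have h1 : (p : ℤ_[p]) ∣ (c : ℤ_[p]) := by
      obtain ⟨q, hq⟩ := hd; exact ⟨(q : ℤ_[p]), by rw [hq]; push_cast; rfl⟩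
    have h2 := dvd_trans (dvd_pow_self (p : ℤ_[p]) (by omega : i + 1 ≠ 0)) hcU
    exact PadicInt.p_nonunit (isUnit_of_dvd_unit ((dvd_sub_right h1).mp h2) U.isUnit)
  refine ⟨a * c, fun hd => ((Nat.prime_iff_prime_int.mp hp).dvd_or_dvd hd).elim ha hcp,
    fun j hji => ?_⟩
  set R := i - j with hR
  have hpow : (p : ℤ_[p]) ^ i = (p : ℤ_[p]) ^ j * (p : ℤ_[p]) ^ R := by
    rw [← pow_add]; congr 1; omega
  have hB := Bsum_eq h z hji a
  rw [hfac] at hB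
  simp only [eval_mul, eval_pow, eval_sub, eval_X, eval_C, add_sub_cancel_left, ← hR] at hB
  refine ⟨fun hJ => ?_, fun hJ hle => ?_⟩
  · obtain ⟨φ, hφ, hinj⟩ := exists_subst he H z U E hU hE hJ
    set f : ZMod (p ^ R) → ℂ := fun y => Ψ i ((a : ℤ_[p]) *
      ((p : ℤ_[p]) ^ u * (U : ℤ_[p]) * ((p : ℤ_[p]) ^ j * (y.val : ℤ_[p])) ^ e)) with hf
    have hwd : ∀ x : ℤ_[p], f (PadicInt.toZModPow R x) = Ψ i ((a : ℤ_[p]) *
        ((p : ℤ_[p]) ^ u * (U : ℤ_[p]) * ((p : ℤ_[p]) ^ j * x) ^ e)) := by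
      intro x
      refine Ψ_congr ?_
      rw [← mul_sub, ← mul_sub]
      refine ((dvd_trans ?_ (sub_dvd_pow_sub_pow _ _ e)).mul_left _).mul_left _
      rw [← mul_sub, hpow]
      exact mul_dvd_mul_left _ (dvd_val_sub R x)
    set π : ZMod (p ^ R) → ZMod (p ^ R) := fun x => PadicInt.toZModPow R (φ (x.val : ℤ_[p])) with hπ
    have hπb : Function.Bijective π := by
      refine Finite.injective_iff_bijective.mp fun x y hxy => ?_
      have h1 := hinj _ _ R ((toZModPow_eq_iff R _ _).mp hxy)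
      rw [← toZModPow_eq_iff, map_natCast, map_natCast, ZMod.natCast_zmod_val,
        ZMod.natCast_zmod_val] at h1
      exact h1
    have hmain : Bsum h z i a j = (∑ y, f y) / ((p ^ R : ℕ) : ℂ) := by
      rw [hB, avg, sum_range_zmod_val, ← Equiv.sum_comp (Equiv.ofBijective π hπb) f]
      congr 1
      refine sum_congr rfl fun x _ => ?_
      simp only [Equiv.ofBijective_apply, hπ]
      rw [hwd, hφ]
    refine ⟨?_, fun hlt => ?_⟩
    · rw [← Complex.conj_eq_iff_im, hmain, map_div₀, map_natCast, map_sum]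
      congr 1
      have hζu : IsUnit ζ := (isUnit_pow_iff (by omega : e ≠ 0)).mp (hζ ▸ isUnit_one.neg)
      set ξ := (hζu.map (PadicInt.toZModPow (p := p) R)).unit with hξ
      rw [← Equiv.sum_comp (Units.mulLeft ξ) f]
      refine sum_congr rfl fun y _ => ?_
      rw [show (Units.mulLeft ξ) y = (ξ : ZMod (p ^ R)) * y from rfl, hξ, IsUnit.unit_spec]
      rw [show PadicInt.toZModPow R ζ * y = PadicInt.toZModPow R (ζ * (y.val : ℤ_[p])) by
        rw [map_mul, map_natCast, ZMod.natCast_zmod_val], hwd, ← Ψ_neg]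
      congr 1
      simp only [mul_pow, hζ]; ring
    · have hje : j ≤ e * j := Nat.le_mul_of_pos_left j he
      rw [hmain, gG, avg_dlt p (i - u) j hp (by omega)]
      set G : ℕ → ℂ := fun m => ch (p ^ (i - u))
        (a * c * ((X : ℤ[X]) ^ e).eval (((p ^ j * m : ℕ) : ℤ))) with hG
      have hper : Function.Periodic G (p ^ (i - u - j)) := by
        intro m
        refine ch_congr (Nat.one_le_pow _ _ hp.pos) ?_
        rw [← mul_sub]
        refine Dvd.dvd.mul_left (dvd_trans ?_ (sub_dvd_eval_sub _ _ _)) _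
        refine ⟨1, ?_⟩
        have e1 : (p : ℤ) ^ (i - u) = (p : ℤ) ^ j * (p : ℤ) ^ (i - u - j) := by
          rw [← pow_add]; congr 1; omega
        push_cast [e1]; ring
      rw [show (∑ y, f y) / ((p ^ R : ℕ) : ℂ) = avg (p ^ R) G by
        rw [avg, sum_range_zmod_val]
        congr 1
        refine sum_congr rfl fun y _ => ?_
        simp only [hG, eval_pow, eval_X]
        have hch : ch (p ^ (i - u)) (a * c * ((p ^ j * y.val : ℕ) : ℤ) ^ e)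
            = ch (p ^ i) ((p : ℤ) ^ u * (a * c * ((p ^ j * y.val : ℕ) : ℤ) ^ e)) := by
          simp only [ch]
          congr 1
          have hpR : (p : ℝ) ≠ 0 := by exact_mod_cast hp.ne_zero
          have e1 : (p : ℝ) ^ i = (p : ℝ) ^ u * (p : ℝ) ^ (i - u) := by
            rw [← pow_add]; congr 1; omega
          push_cast
          rw [e1]; field_simp
        rw [hch, ch_eq_Ψ]
        refine Ψ_congr ?_
        push_cast
        have h1 := dvd_trans (pow_dvd_pow (p : ℤ_[p]) (Nat.le_succ i)) hcU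
        rw [show (a : ℤ_[p]) * ((p : ℤ_[p]) ^ u * (U : ℤ_[p]) * ((p : ℤ_[p]) ^ j * (y.val : ℤ_[p])) ^ e)
            - (p : ℤ_[p]) ^ u * ((a : ℤ_[p]) * (c : ℤ_[p]) * ((p : ℤ_[p]) ^ j * (y.val : ℤ_[p])) ^ e)
          = -(((c : ℤ_[p]) - (U : ℤ_[p])) *
              ((a : ℤ_[p]) * (p : ℤ_[p]) ^ u * ((p : ℤ_[p]) ^ j * (y.val : ℤ_[p])) ^ e)) by ring,
          dvd_neg]
        exact h1.mul_right _]
      rw [show p ^ R = p ^ (i - u - j) * p ^ u by rw [← pow_add]; congr 1; omega,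
        avg_periodic_mul G _ _ (Nat.one_le_pow _ _ hp.pos) hper]
  · rw [hB]
    unfold avg
    have h1 : ∀ m : ℕ, Ψ i ((a : ℤ_[p]) * (((p : ℤ_[p]) ^ j * (m : ℤ_[p])) ^ e *
        H.eval (z + (p : ℤ_[p]) ^ j * (m : ℤ_[p])))) = 1 := by
      intro m
      rw [Ψ_congr (y := 0), Ψ_zero]
      rw [sub_zero]
      refine Dvd.dvd.mul_left ?_ _
      rcases hJ with hJ | hJ
      · obtain ⟨φ, hφ, -⟩ := exists_subst he H z U E hU hE hJ
        rw [hφ, mul_pow, ← pow_mul, mul_comm j e]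
        have h2 : (p : ℤ_[p]) ^ i ∣ (p : ℤ_[p]) ^ u * (p : ℤ_[p]) ^ (e * j) := by
          rw [← pow_add]; exact pow_dvd_pow _ (by omega)
        exact dvd_trans h2 ⟨(U : ℤ_[p]) * φ (m : ℤ_[p]) ^ e, by ring⟩
      · subst hJ
        exact ((dvd_mul_right _ _).trans (dvd_pow_self _ (by omega))).mul_right _
    simp only [h1, sum_const, card_range, nsmul_eq_mul, mul_one]
    exact div_self (by exact_mod_cast (pow_pos hp.pos _).ne')

end Vale.Agent.P042.Branch
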