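import Vale.Agent.P042.CurveComp

/-! The component of `m(x) + m(y) = 0` through a branch at a root of any multiplicity `e` at which
`-1` is an `e`-th power, and the weight it gives. -/

namespace Vale.Agent.P042.Branch

open Polynomial Finset Curve

set_option linter.unusedSectionVars false

/-- Evaluation along `x = z + X`, `y = z + X S`. -/
noncomputable def brHom {K : Type*} [CommRing K] (z : K) (S : PowerSeries K) :
    K[X][X] →+* PowerSeries K :=
  eval₂RingHom (eval₂RingHom PowerSeries.C (PowerSeries.C z + PowerSeries.X))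
    (PowerSeries.C z + PowerSeries.X * S)

lemma brHom_C {K : Type*} [CommRing K] (z : K) (S : PowerSeries K) (q : K[X]) :
    brHom z S (C q) = q.eval₂ PowerSeries.C (PowerSeries.C z + PowerSeries.X) := by
  simp [brHom]

lemma brHom_mapC {K : Type*} [CommRing K] (z : K) (S : PowerSeries K) (q : K[X]) :
    brHom z S (q.map C) = q.eval₂ PowerSeries.C (PowerSeries.C z + PowerSeries.X * S) := by
  rw [brHom, coe_eval₂RingHom, eval₂_map]
  congr 1
  ext a; simp

lemma brHom_map {K L : Type*} [CommRing K] [CommRing L] (f : K →+* L) (z : K) (S : PowerSeries K)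
    (Q : K[X][X]) :
    brHom (f z) (PowerSeries.map f S) (Q.map (mapRingHom f)) = PowerSeries.map f (brHom z S Q) := by
  have h : (brHom (f z) (PowerSeries.map f S)).comp (mapRingHom (mapRingHom f))
      = (PowerSeries.map f).comp (brHom z S) := by
    refine ringHom_ext' (ringHom_ext' ?_ ?_) ?_
    · ext a; simp [brHom]
    · simp [brHom]
    · simp [brHom]
  exact RingHom.congr_fun h Q

variable {p : ℕ} [Fact p.Prime]

/-- A series `S` along which `m(z + X) + m(z + X S) = 0`. -/
lemma exists_branch {m H : (ZMod p)[X]} {e : ℕ} (he : 1 ≤ e) (hep : e < p) (z ζ : ZMod p)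
    (hm : m = (X - C z) ^ e * H) (hH : H.eval z ≠ 0) (hζ : ζ ^ e = -1) :
    ∃ S : PowerSeries (ZMod p), IsUnit S ∧
      m.eval₂ PowerSeries.C (PowerSeries.C z + PowerSeries.X) +
        m.eval₂ PowerSeries.C (PowerSeries.C z + PowerSeries.X * S) = 0 := by
  set G := taylor z H with hG
  set d := G.natDegree with hd
  have hev : ∀ T : PowerSeries (ZMod p),
      m.eval₂ PowerSeries.C (PowerSeries.C z + T) = T ^ e * G.eval₂ PowerSeries.C T := by
    intro T
    rw [hm, eval₂_mul, eval₂_pow, eval₂_sub, eval₂_X, eval₂_C, add_sub_cancel_left]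
    congr 1
    rw [hG, taylor_apply, eval₂_comp, eval₂_add, eval₂_X, eval₂_C, add_comm]
  set G₀ := G.eval₂ PowerSeries.C PowerSeries.X with hG₀
  have hc : ∀ q : (ZMod p)[X], ∀ T : PowerSeries (ZMod p),
      PowerSeries.constantCoeff (q.eval₂ PowerSeries.C T) = q.eval (PowerSeries.constantCoeff T) := by
    intro q T
    rw [hom_eval₂]
    congr 1
  have hG0 : G.coeff 0 = H.eval z := by rw [hG, taylor_coeff_zero]
  have hG₀c : PowerSeries.constantCoeff G₀ = H.eval z := by
    rw [hG₀, hc, PowerSeries.constantCoeff_X, ← coeff_zero_eq_eval_zero, hG0]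
  obtain ⟨V, hV⟩ : IsUnit G₀ := by
    rw [PowerSeries.isUnit_iff_constantCoeff, hG₀c]; exact isUnit_iff_ne_zero.mpr hH
  set f : (PowerSeries (ZMod p))[X] := X ^ (e + d) + C ((V⁻¹ : (PowerSeries (ZMod p))ˣ) : PowerSeries (ZMod p)) *
    ∑ t ∈ range (d + 1), C (PowerSeries.C (G.coeff t) * PowerSeries.X ^ t) * X ^ (d - t) with hf
  have hmon : f.Monic := by
    refine monic_X_pow_add (lt_of_le_of_lt (degree_mul_le _ _) ?_)
    refine lt_of_le_of_lt (add_le_add degree_C_le ((degree_sum_le _ _).trans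
      (Finset.sup_le (f := fun t => degree _) (a := ((d : ℕ) : WithBot ℕ)) fun t _ => ?_)))
      (by rw [zero_add]; exact_mod_cast (show d < e + d by omega))
    exact (degree_C_mul_X_pow_le _ _).trans (by exact_mod_cast Nat.sub_le _ _)
  have hζ0 : ζ ≠ 0 := by
    intro h0; rw [h0, zero_pow (by omega)] at hζ
    exact one_ne_zero (neg_eq_zero.mp hζ.symm)
  set w₀ : PowerSeries (ZMod p) := PowerSeries.C ζ⁻¹ with hw₀
  have hsum : ∀ (F : ℕ → ZMod p), ∑ t ∈ range (d + 1), G.coeff t * (0 : ZMod p) ^ t * F t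
      = H.eval z * F 0 := by
    intro F
    rw [sum_range_succ']
    simp [hG0]
  have hVc : PowerSeries.constantCoeff ((V⁻¹ : (PowerSeries (ZMod p))ˣ) : PowerSeries (ZMod p))
      * H.eval z = 1 := by
    rw [← hG₀c, ← hV, ← map_mul, Units.inv_mul, map_one]
  have hmem : f.eval w₀ ∈ Ideal.span {(PowerSeries.X : PowerSeries (ZMod p))} := by
    rw [Ideal.mem_span_singleton, PowerSeries.X_dvd_iff]
    simp only [hf, eval_add, eval_mul, eval_pow, eval_X, eval_C, eval_finsetSum, map_add, map_mul,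
      map_pow, map_sum, PowerSeries.constantCoeff_C, PowerSeries.constantCoeff_X, hw₀]
    rw [hsum (fun t => (ζ⁻¹) ^ (d - t)), Nat.sub_zero, ← mul_assoc, hVc, one_mul, pow_add, inv_pow,
      hζ, inv_neg, inv_one]
    ring
  have hder : IsUnit (f.derivative.eval w₀) := by
    rw [PowerSeries.isUnit_iff_constantCoeff]
    simp only [hf, derivative_add, derivative_C_mul, derivative_sum, derivative_C_mul_X_pow,
      derivative_X_pow, eval_natCast]
    simp only [eval_add, eval_mul, eval_pow, eval_X, eval_C, eval_natCast, eval_finsetSum, map_add,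
      map_mul, map_pow, map_sum, map_natCast, PowerSeries.constantCoeff_C,
      PowerSeries.constantCoeff_X, hw₀]
    rw [hsum (fun t => ((d - t : ℕ) : ZMod p) * (ζ⁻¹) ^ (d - t - 1)), Nat.sub_zero, ← mul_assoc, hVc,
      one_mul, isUnit_iff_ne_zero]
    rcases Nat.eq_zero_or_pos d with hd0 | hd0
    · simp only [hd0, Nat.cast_zero, zero_mul, add_zero]
      refine mul_ne_zero (fun h0 => ?_) (pow_ne_zero _ (inv_ne_zero hζ0))
      rw [ZMod.natCast_eq_zero_iff] at h0
      have := Nat.le_of_dvd he h0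
      omega
    · rw [show e + d - 1 = e + (d - 1) by omega, pow_add, inv_pow, hζ, inv_neg, inv_one]
      push_cast
      rw [show ((e : ZMod p) + d) * (-1 * (ζ⁻¹) ^ (d - 1)) + (d : ZMod p) * (ζ⁻¹) ^ (d - 1)
        = -((e : ZMod p) * (ζ⁻¹) ^ (d - 1)) by ring, neg_ne_zero]
      refine mul_ne_zero (fun h0 => ?_) (pow_ne_zero _ (inv_ne_zero hζ0))
      rw [ZMod.natCast_eq_zero_iff] at h0
      have := Nat.le_of_dvd he h0
      omega
  obtain ⟨w, hw, hw0⟩ := HenselianRing.is_henselian (I := Ideal.span {(PowerSeries.X : PowerSeries (ZMod p))})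
    f hmon w₀ hmem (hder.map _)
  obtain ⟨W, hW⟩ : IsUnit w := by
    rw [Ideal.mem_span_singleton, PowerSeries.X_dvd_iff, map_sub, sub_eq_zero] at hw0
    rw [PowerSeries.isUnit_iff_constantCoeff, hw0, hw₀, PowerSeries.constantCoeff_C]
    exact isUnit_iff_ne_zero.mpr (inv_ne_zero hζ0)
  set S : PowerSeries (ZMod p) := ((W⁻¹ : (PowerSeries (ZMod p))ˣ) : PowerSeries (ZMod p)) with hS
  refine ⟨S, Units.isUnit _, ?_⟩
  rw [hev, hev, ← hG₀, mul_pow, mul_assoc, ← mul_add]
  refine mul_eq_zero_of_right _ ?_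
  rw [eval₂_eq_sum_range, ← hd]
  have h0 : (V : PowerSeries (ZMod p)) * w ^ (e + d) +
      ∑ t ∈ range (d + 1), PowerSeries.C (G.coeff t) * PowerSeries.X ^ t * w ^ (d - t) = 0 := by
    have := congrArg (fun q => (V : PowerSeries (ZMod p)) * q) hw.eq_zero
    simpa [hf, eval_finsetSum, mul_add, ← mul_assoc] using this
  rw [← hV]
  have hSw : S * w = 1 := by rw [hS, ← hW, Units.inv_mul]
  have key : (V : PowerSeries (ZMod p)) + S ^ e * ∑ t ∈ range (d + 1),
      PowerSeries.C (G.coeff t) * (PowerSeries.X * S) ^ t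
      = S ^ (e + d) * ((V : PowerSeries (ZMod p)) * w ^ (e + d) +
      ∑ t ∈ range (d + 1), PowerSeries.C (G.coeff t) * PowerSeries.X ^ t * w ^ (d - t)) := by
    rw [mul_add, mul_left_comm, ← mul_pow, hSw, one_pow, mul_one, mul_sum, mul_sum]
    refine congrArg₂ (· + ·) rfl (sum_congr rfl fun t ht => ?_)
    have htd : t ≤ d := Nat.lt_succ_iff.mp (mem_range.mp ht)
    rw [show e + d = e + t + (d - t) by omega, pow_add S (e + t) (d - t), mul_pow,
      show S ^ (e + t) * S ^ (d - t) * (PowerSeries.C (G.coeff t) * PowerSeries.X ^ t * w ^ (d - t))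
        = S ^ (e + t) * (PowerSeries.C (G.coeff t) * PowerSeries.X ^ t) * (S * w) ^ (d - t) by
          rw [mul_pow]; ring,
      hSw, one_pow, mul_one, pow_add]
    ring
  rw [key, h0, mul_zero]

/-- The absolutely irreducible component through the branch. -/
theorem exists_component {m H : (ZMod p)[X]} {k e : ℕ} (hk : m.natDegree = k) (he : 1 ≤ e)
    (hkp : k < p) (z ζ : ZMod p) (hm : m = (X - C z) ^ e * H) (hH : H.eval z ≠ 0) (hζ : ζ ^ e = -1) :
    ∃ P : (ZMod p)[X][X], P.Monic ∧ P.natDegree ≤ k ∧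
      (∀ i, (P.coeff i).natDegree + i ≤ P.natDegree ∨ P.coeff i = 0) ∧
      Irreducible (P.map (toKbar p)) ∧
      ∀ v ∈ pts P (ZMod p), m.eval v.1 + m.eval v.2 = 0 := by
  classical
  have hH0 : H ≠ 0 := fun h => hH (by rw [h, eval_zero])
  have hek : e ≤ k := by
    rw [← hk, hm, Polynomial.natDegree_mul (pow_ne_zero _ (X_sub_C_ne_zero z)) hH0, natDegree_pow,
      natDegree_X_sub_C, mul_one]
    exact Nat.le_add_right _ _
  have hk1 : 1 ≤ k := he.trans hek
  obtain ⟨hMm, hMd, hMc⟩ := sumPoly_props hk hk1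
  have hl : m.leadingCoeff ≠ 0 := leadingCoeff_ne_zero.mpr fun h => by simp [h] at hk; omega
  obtain ⟨S, hSu, hS⟩ := exists_branch he (by omega) z ζ hm hH hζ
  set ι := algebraMap (ZMod p) (kbar p) with hι
  set Mb := (sumPoly m).map (mapRingHom ι) with hMb
  set S' := PowerSeries.map ι S with hS'
  set ev := brHom (ι z) S' with hev
  have hez : ev Mb = 0 := by
    rw [hev, hS', hMb, brHom_map, sumPoly, map_mul, map_add (brHom z S), brHom_C, brHom_C,
      brHom_mapC, hS, mul_zero, map_zero]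
  obtain ⟨Pb, hPbm, hPbi, ⟨Rb, hR⟩, hPb0⟩ := exists_monic_factor (M := Mb) (hMm.map (mapRingHom ι)) ev hez
  have hder : ev (derivative Mb) ≠ 0 := by
    have h1 : derivative (sumPoly m) = C (C m.leadingCoeff⁻¹) * (derivative m).map C := by
      rw [sumPoly, derivative_C_mul, derivative_add, derivative_C, zero_add, derivative_map]
    rw [hev, hS', hMb, derivative_map, h1, brHom_map, map_ne_zero_iff _
      (PowerSeries.map_injective ι ι.injective), map_mul, brHom_C, brHom_mapC, eval₂_C]
    refine mul_ne_zero (fun h0 => inv_ne_zero hl ?_) (fun h0 => ?_)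
    · have := congrArg PowerSeries.constantCoeff h0
      simpa using this
    · have hd0 : derivative m ≠ 0 := by
        intro hd
        have h2 := congrArg (fun q : (ZMod p)[X] => q.coeff (k - 1)) hd
        simp only [coeff_derivative, coeff_zero] at h2
        rw [Nat.sub_add_cancel hk1, show m.coeff k = m.leadingCoeff from hk ▸ rfl] at h2
        rcases mul_eq_zero.mp h2 with h3 | h3
        · exact hl h3
        · rw [← Nat.cast_add_one, Nat.sub_add_cancel hk1, ZMod.natCast_eq_zero_iff] at h3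
          have := Nat.le_of_dvd hk1 h3
          omega
      obtain ⟨q, hq, hndvd⟩ := exists_eq_pow_rootMultiplicity_mul_and_not_dvd _ hd0 z
      rw [hq, eval₂_mul, eval₂_pow, eval₂_sub, eval₂_X, eval₂_C, add_sub_cancel_left,
        mul_eq_zero] at h0
      rcases h0 with h0 | h0
      · exact mul_ne_zero PowerSeries.X_ne_zero hSu.ne_zero (pow_eq_zero_iff' |>.mp h0).1
      · refine hndvd (dvd_iff_isRoot.mpr ?_)
        have := congrArg PowerSeries.constantCoeff h0
        rw [hom_eval₂, map_zero, map_add, map_mul, PowerSeries.constantCoeff_X,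
          PowerSeries.constantCoeff_C, zero_mul, add_zero,
          show PowerSeries.constantCoeff.comp PowerSeries.C = RingHom.id (ZMod p) from
            RingHom.ext fun a => PowerSeries.constantCoeff_C a] at this
        exact this
  have hR0 : ev Rb ≠ 0 := by
    intro h0
    apply hder
    rw [hR, derivative_mul, map_add, map_mul, map_mul, hPb0, h0, mul_zero, zero_mul, add_zero]
  have huniq : ∀ Q : (kbar p)[X][X], Irreducible Q → Q ∣ Mb → ev Q = 0 → Associated Q Pb := by
    intro Q hQ hQd hQ0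
    rw [hR] at hQd
    rcases hQ.prime.dvd_or_dvd hQd with h | h
    · exact hQ.associated_of_dvd hPbi h
    · obtain ⟨s, rfl⟩ := h
      exact absurd (by rw [map_mul, hQ0, zero_mul]) hR0
  -- Frobenius fixes the component
  let φ : kbar p ≃+* kbar p := frobeniusEquiv (kbar p) p
  let Φ : (kbar p)[X][X] ≃+* (kbar p)[X][X] := mapEquiv (mapEquiv φ)
  have hφι : ∀ c : ZMod p, φ (ι c) = ι c := fun c => by
    show (ι c) ^ p = ι c
    rw [← map_pow, ZMod.pow_card]
  have hΦ : ∀ Q, Φ Q = Q.map (mapRingHom φ.toRingHom) := fun Q => rfl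
  have hφS : PowerSeries.map φ.toRingHom S' = S' := by
    ext i; simp [hS', PowerSeries.coeff_map, hφι]
  have hΦM : Φ Mb = Mb := by
    rw [hΦ, hMb, Polynomial.map_map, mapRingHom_comp]
    congr 2
    exact RingHom.ext hφι
  have hΦP : Φ Pb = Pb := by
    have hmon : (Φ Pb).Monic := by rw [hΦ]; exact hPbm.map _
    refine eq_of_monic_of_associated hmon hPbm (huniq _ ((MulEquiv.irreducible_iff Φ).mpr hPbi) ?_ ?_)
    · rw [← hΦM, hR, map_mul]; exact dvd_mul_right _ _
    · rw [hΦ, hev, show ι z = φ.toRingHom (ι z) from (hφι z).symm, ← hφS, brHom_map,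
        show brHom (ι z) S' Pb = 0 from hPb0, map_zero]
  obtain ⟨P, hPmap⟩ : ∃ P : (ZMod p)[X][X], P.map (mapRingHom ι) = Pb := by
    rw [← mem_lifts, lifts_iff_coeff_lifts]
    intro i
    show Pb.coeff i ∈ Set.range (mapRingHom ι)
    have h2 : Pb.coeff i ∈ Polynomial.lifts ι := by
      rw [lifts_iff_coeff_lifts]
      intro a
      have h := congrArg (fun Q : (kbar p)[X][X] => (Q.coeff i).coeff a) hΦP
      simp only [hΦ, coeff_map, coe_mapRingHom] at h
      exact Weil.mem_base_of_pow h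
    exact h2
  have hinj : Function.Injective (mapRingHom ι) := Polynomial.map_injective ι ι.injective
  have hPm : P.Monic := monic_of_injective hinj (hPmap ▸ hPbm)
  have hPM : P ∣ sumPoly m := by
    refine (map_dvd_map (mapRingHom ι) hinj hPm).mp ?_
    rw [hPmap, ← hMb, hR]; exact dvd_mul_right _ _
  obtain ⟨R, hPR⟩ := hPM
  have hRm : R.Monic := hPm.of_mul_monic_left (hPR ▸ hMm)
  have hdeg := degree_bound_of_mul hPm hRm hPR.symm hMd hMc
  have hPk : P.natDegree ≤ k := by
    rw [← hMd, hPR, hPm.natDegree_mul hRm]; exact Nat.le_add_right _ _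
  have hirr : Irreducible (P.map (toKbar p)) := by
    rw [toKbar, ← Polynomial.map_map, ← hι, hPmap]
    exact hPbm.irreducible_iff_irreducible_map_fraction_map.mp hPbi
  refine ⟨P, hPm, hPk, hdeg, hirr, fun v hv => ?_⟩
  have hv' : Pb.evalEval (ι v.1) (ι v.2) = 0 := by
    rw [← hPmap, map_mapRingHom_evalEval, map_eq_zero]
    rw [mem_pts, evk] at hv
    rw [← map_evalRingHom_eval]
    exact hv
  have h : Mb.evalEval (ι v.1) (ι v.2) = 0 := by
    rw [hR, evalEval_mul, hv', zero_mul]
  rw [hMb, sumPoly_eval, aeval_algebraMap_apply_eq_algebraMap_eval,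
    aeval_algebraMap_apply_eq_algebraMap_eval, ← map_add, ← map_mul, map_eq_zero, mul_eq_zero] at h
  exact h.resolve_left (inv_ne_zero hl)

/-- At a large prime and a root `z` of multiplicity `e` with `-1` an `e`-th power, a weight on the
argument is supported away from critical points, has mass `p + O(√p)`, and its image under the
polynomial has real Fourier coefficients of size `O(√p)`. -/
def BranchWeightStmt (k : ℕ) : Prop :=
  ∃ C : ℝ, ∀ (p : ℕ) [Fact p.Prime], C ≤ p → ∀ m H : (ZMod p)[X], m.natDegree = k →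
    ∀ (z ζ : ZMod p) (e : ℕ), 1 ≤ e → m = (X - Polynomial.C z) ^ e * H → H.eval z ≠ 0 → ζ ^ e = -1 →
    ∃ w : ZMod p → ℝ, (∀ x, 0 ≤ w x ∧ w x ≤ k) ∧ (∀ x, (derivative m).eval x = 0 → w x = 0) ∧
      (∀ s : ZMod p, s ≠ 0 →
        (∑ x, (w x : ℂ) * Kloo.ψ (s * m.eval x)).im = 0 ∧
        ‖∑ x, (w x : ℂ) * Kloo.ψ (s * m.eval x)‖ ≤ C * Real.sqrt p) ∧
      |(∑ x, w x) - p| ≤ C * Real.sqrt p

open Classical in
theorem weight_stmt (k : ℕ) (hk1 : 1 ≤ k) : BranchWeightStmt k := by
  set C₁ := curveCst k k + 2 * (k * k) + k + 2 with hC₁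
  refine ⟨(C₁ : ℝ), fun p _ hpC m H hm z ζ e he hfac hH hζ => ?_⟩
  have hp := (Fact.out : p.Prime)
  have hkp : k < p := by
    have : C₁ ≤ p := by exact_mod_cast hpC
    omega
  obtain ⟨P, hPm, hPk, hdeg, hirr, hsum⟩ := exists_component hm he hkp z ζ hfac hH hζ
  set m' := derivative m with hm'
  set Q := (pts P (ZMod p)).filter (fun v => m'.eval v.1 ≠ 0 ∧ m'.eval v.2 ≠ 0) with hQ
  have hm0 : m ≠ 0 := fun h => by simp [h] at hm; omega
  have hm'0 : m' ≠ 0 := by
    intro hd
    have h2 := congrArg (fun q : (ZMod p)[X] => q.coeff (k - 1)) hd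
    simp only [hm', coeff_derivative, coeff_zero] at h2
    rw [Nat.sub_add_cancel hk1, show m.coeff k = m.leadingCoeff from hm ▸ rfl,
      ← Nat.cast_add_one, Nat.sub_add_cancel hk1, mul_eq_zero, ZMod.natCast_eq_zero_iff] at h2
    rcases h2 with h3 | h3
    · exact hm0 (leadingCoeff_eq_zero.mp h3)
    · have := Nat.le_of_dvd hk1 h3
      omega
  have hfib : ∀ x : ZMod p, ((pts P (ZMod p)).filter (fun v => v.1 = x)).card ≤ k := by
    intro x
    refine le_trans (card_le_card_of_injOn Prod.snd (t := (evk P x).roots.toFinset) (fun v hv => ?_)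
      fun a ha b hb h => ?_) ((Multiset.toFinset_card_le _).trans ((card_roots' _).trans
        (natDegree_map_le.trans hPk)))
    · obtain ⟨h1, h2⟩ := mem_filter.mp hv
      rw [mem_coe, Multiset.mem_toFinset, mem_roots (evk_monic hPm x).ne_zero, IsRoot.def]
      rw [← h2]; exact mem_pts.mp h1
    · exact Prod.ext ((mem_filter.mp (mem_coe.mp ha)).2.trans (mem_filter.mp (mem_coe.mp hb)).2.symm) h
  have hfib2 : ∀ y : ZMod p, ((pts P (ZMod p)).filter (fun v => v.2 = y)).card ≤ k := by
    intro y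
    have hd : (m + Polynomial.C (m.eval y)).natDegree = k := by rw [natDegree_add_C, hm]
    have hne : m + Polynomial.C (m.eval y) ≠ 0 := fun h0 => by rw [h0, natDegree_zero] at hd; omega
    refine le_trans (card_le_card_of_injOn Prod.fst (t := (m + Polynomial.C (m.eval y)).roots.toFinset)
      (fun v hv => ?_) fun a ha b hb h => ?_)
      ((Multiset.toFinset_card_le _).trans ((card_roots' _).trans hd.le))
    · obtain ⟨h1, h2⟩ := mem_filter.mp hv
      rw [mem_coe, Multiset.mem_toFinset, mem_roots hne, IsRoot.def, eval_add, eval_C, ← h2]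
      exact hsum v h1
    · exact Prod.ext h ((mem_filter.mp (mem_coe.mp ha)).2.trans (mem_filter.mp (mem_coe.mp hb)).2.symm)
  refine ⟨fun x => (((Q.filter (fun v => v.1 = x)).card : ℝ) + ((Q.filter (fun v => v.2 = x)).card : ℝ)) / 2,
    fun x => ⟨by positivity, ?_⟩, fun x hx => ?_, ?_⟩
  · have h1 : ((Q.filter (fun v => v.1 = x)).card : ℝ) ≤ k :=
      Nat.cast_le.mpr ((card_le_card (filter_subset_filter _ (filter_subset _ _))).trans (hfib x))
    have h2 : ((Q.filter (fun v => v.2 = x)).card : ℝ) ≤ k :=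
      Nat.cast_le.mpr ((card_le_card (filter_subset_filter _ (filter_subset _ _))).trans (hfib2 x))
    linarith
  · simp only []
    rw [show Q.filter (fun v => v.1 = x) = ∅ from
        filter_eq_empty_iff.mpr fun v hv he => (mem_filter.mp hv).2.1 (he ▸ hx),
      show Q.filter (fun v => v.2 = x) = ∅ from
        filter_eq_empty_iff.mpr fun v hv he => (mem_filter.mp hv).2.2 (he ▸ hx)]
    simp
  -- sums against the weight are sums over the points kept
  have hW : ∀ (π : ZMod p × ZMod p → ZMod p) (G : ZMod p → ℂ),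
      ∑ x, (((Q.filter (fun v => π v = x)).card : ℝ) : ℂ) * G x = ∑ v ∈ Q, G (π v) := by
    intro π G
    rw [← sum_fiberwise Q π (fun v => G (π v))]
    refine sum_congr rfl fun x _ => ?_
    rw [sum_congr rfl fun v hv => show G (π v) = G x by rw [(mem_filter.mp hv).2], sum_const, nsmul_eq_mul]
    norm_num
  set X₁ := (pts P (ZMod p)).filter (fun v => ¬ (m'.eval v.1 ≠ 0 ∧ m'.eval v.2 ≠ 0)) with hX₁
  have hrc : m'.roots.toFinset.card ≤ k := (Multiset.toFinset_card_le _).trans ((card_roots' _).trans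
    ((natDegree_derivative_le m).trans (by omega)))
  have hside : ∀ π : ZMod p × ZMod p → ZMod p,
      (∀ x, ((pts P (ZMod p)).filter (fun v => π v = x)).card ≤ k) →
      ((pts P (ZMod p)).filter (fun v => m'.eval (π v) = 0)).card ≤ k * k := by
    intro π hπ
    refine le_trans (card_le_mul_card_image_of_maps_to (f := π) (t := m'.roots.toFinset) ?_ k
      fun x _ => ?_) (Nat.mul_le_mul_left _ hrc)
    · intro v hv
      rw [Multiset.mem_toFinset, mem_roots hm'0]
      exact (mem_filter.mp hv).2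
    · exact (card_le_card (filter_subset_filter _ (filter_subset _ _))).trans (hπ x)
  have hX : X₁.card ≤ 2 * (k * k) := by
    refine le_trans (card_le_card (t := (pts P (ZMod p)).filter (fun v => m'.eval v.1 = 0) ∪
      (pts P (ZMod p)).filter (fun v => m'.eval v.2 = 0)) fun v hv => ?_) ((card_union_le _ _).trans ?_)
    · obtain ⟨h1, h2⟩ := mem_filter.mp hv
      rw [not_and_or, not_not, not_not] at h2
      rcases h2 with h | h
      · exact mem_union_left _ (mem_filter.mpr ⟨h1, h⟩)
      · exact mem_union_right _ (mem_filter.mpr ⟨h1, h⟩)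
    · have := hside Prod.fst hfib
      have := hside Prod.snd hfib2
      omega
  have hsp : 1 ≤ Real.sqrt p := Real.one_le_sqrt.mpr (by exact_mod_cast hp.one_lt.le)
  have hcst : (curveCst P.natDegree k : ℝ) ≤ (curveCst k k : ℝ) := by exact_mod_cast curveCst_mono hPk
  have hC : (C₁ : ℝ) = (curveCst k k : ℝ) + 2 * (k * k) + k + 2 := by rw [hC₁]; push_cast; ring
  have hbig : (curveCst P.natDegree k : ℝ) * Real.sqrt p + (X₁.card : ℝ) ≤ (C₁ : ℝ) * Real.sqrt p := by
    have h1 : (X₁.card : ℝ) ≤ 2 * (k * k) := by exact_mod_cast hX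
    have h2 := mul_le_mul_of_nonneg_right hcst (Real.sqrt_nonneg (p : ℝ))
    have h3 : (2 * ((k : ℝ) * k)) ≤ 2 * ((k : ℝ) * k) * Real.sqrt p := le_mul_of_one_le_right (by positivity) hsp
    have h4 : 0 ≤ ((k : ℝ) + 2) * Real.sqrt p := by positivity
    rw [hC]; linarith
  have hdp : P.natDegree < p := lt_of_le_of_lt hPk hkp
  refine ⟨fun s hs => ?_, ?_⟩
  · set A := ∑ v ∈ Q, Kloo.ψ (s * m.eval v.1) with hA
    have hconj : ∑ v ∈ Q, Kloo.ψ (s * m.eval v.2) = (starRingEnd ℂ) A := by
      rw [hA, map_sum]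
      refine sum_congr rfl fun v hv => ?_
      rw [← AddChar.map_neg_eq_conj]
      congr 1
      linear_combination s * hsum v (mem_filter.mp hv).1
    have htot : ∑ x, (((((Q.filter (fun v => v.1 = x)).card : ℝ) +
        ((Q.filter (fun v => v.2 = x)).card : ℝ)) / 2 : ℝ) : ℂ) * Kloo.ψ (s * m.eval x)
        = ((A.re : ℝ) : ℂ) := by
      have e : ∀ x : ZMod p, (((((Q.filter (fun v => v.1 = x)).card : ℝ) +
          ((Q.filter (fun v => v.2 = x)).card : ℝ)) / 2 : ℝ) : ℂ) * Kloo.ψ (s * m.eval x)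
          = (((((Q.filter (fun v => v.1 = x)).card : ℝ)) : ℂ) * Kloo.ψ (s * m.eval x)
            + ((((Q.filter (fun v => v.2 = x)).card : ℝ)) : ℂ) * Kloo.ψ (s * m.eval x)) / 2 := by
        intro x; push_cast; ring
      rw [sum_congr rfl fun x _ => e x, ← sum_div, sum_add_distrib,
        hW Prod.fst fun x => Kloo.ψ (s * m.eval x), hW Prod.snd fun x => Kloo.ψ (s * m.eval x),
        hconj, ← hA, Complex.add_conj]
      push_cast; ring
    rw [htot]
    refine ⟨Complex.ofReal_im _, ?_⟩
    rw [Complex.norm_real, Real.norm_eq_abs]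
    refine (Complex.abs_re_le_norm A).trans ?_
    obtain ⟨h1, -⟩ := curve_weil P hPm hdp hdeg hirr (Polynomial.C s * m)
      (by rw [natDegree_C_mul hs, hm]; exact hk1) (by rw [natDegree_C_mul hs, hm]; exact hkp)
    simp only [eval_mul, eval_C, natDegree_C_mul hs, hm] at h1
    have hsplit : A + ∑ v ∈ X₁, Kloo.ψ (s * m.eval v.1)
        = ∑ v ∈ pts P (ZMod p), Kloo.ψ (s * m.eval v.1) := sum_filter_add_sum_filter_not _ _ _
    have hx : ‖∑ v ∈ X₁, Kloo.ψ (s * m.eval v.1)‖ ≤ X₁.card := by
      refine (norm_sum_le _ _).trans ((sum_le_card_nsmul _ _ 1 fun v _ => (Kloo.norm_ψ _).le).trans ?_)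
      simp
    rw [← eq_sub_iff_add_eq] at hsplit
    rw [hsplit]
    exact (norm_sub_le _ _).trans ((add_le_add h1 hx).trans hbig)
  · obtain ⟨-, h2⟩ := curve_weil P hPm hdp hdeg hirr m (by omega) (by omega)
    rw [hm] at h2
    have hc : ∀ π : ZMod p × ZMod p → ZMod p,
        ∑ x, ((Q.filter (fun v => π v = x)).card : ℝ) = (Q.card : ℝ) := fun π => by
      rw [← Nat.cast_sum, ← card_eq_sum_card_fiberwise (fun _ _ => mem_univ _)]
    have hQc : (Q.card : ℝ) + X₁.card = ((pts P (ZMod p)).card : ℝ) := by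
      rw [← Nat.cast_add, hQ, hX₁, card_filter_add_card_filter_not]
    rw [← sum_div, sum_add_distrib, hc Prod.fst, hc Prod.snd, add_self_div_two]
    calc |(Q.card : ℝ) - p| = |(((pts P (ZMod p)).card : ℝ) - p) + -(X₁.card : ℝ)| := by
          congr 1; linarith
      _ ≤ _ + _ := abs_add_le _ _
      _ ≤ (curveCst P.natDegree k : ℝ) * Real.sqrt p + (X₁.card : ℝ) := by
          rw [abs_neg, show |(X₁.card : ℝ)| = X₁.card from abs_of_nonneg (Nat.cast_nonneg _)]
          exact add_le_add h2 le_rfl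
      _ ≤ _ := hbig

end Vale.Agent.P042.Branch
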