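import Vale.Agent.P042.Odd

/-! Geometric mixtures over the balls at a root have nonnegative Fourier coefficients. -/

namespace Vale.Agent.P042.Branch

open Finset Polynomial

lemma mix_core (θ K₀ : ℝ) (hθ : 0 < θ) (hK₀ : 1 ≤ K₀) :
    ∃ σ₀ : ℝ, 0 < σ₀ ∧ ∀ σ : ℝ, 0 < σ → σ ≤ σ₀ → ∀ p : ℕ, p.Prime → ∀ (G : ℕ → ℂ) (n m : ℕ),
      m ≤ n → (∀ j ≤ n, (G j).im = 0) →
      (∀ j < m, ‖G j‖ ≤ K₀ * ((p : ℝ) ^ (-θ)) ^ (m - j)) →
      (∀ j, m ≤ j → j ≤ n → G j = 1) →
      (G 0 + ∑ j ∈ Icc 1 n, ((ρp σ p ^ j : ℝ) : ℂ) * (G j - G (j - 1))).im = 0 ∧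
      0 ≤ (G 0 + ∑ j ∈ Icc 1 n, ((ρp σ p ^ j : ℝ) : ℂ) * (G j - G (j - 1))).re := by
  set z : ℝ := (2 : ℝ) ^ (-(θ / 2)) with hz
  have hz1 : z < 1 := Real.rpow_lt_one_of_one_lt_of_neg (by norm_num) (by linarith)
  have hz0 : 0 < z := by positivity
  refine ⟨min (θ / 2) ((1 - z) * θ / (2 * K₀)),
    lt_min (by linarith) (div_pos (mul_pos (by linarith) hθ) (by linarith)),
    fun σ hσ hσ0 p hp G n m hmn him hb hone => ?_⟩
  rw [abel_identity G (ρp σ p) n]
  set ρ := ρp σ p with hρ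
  have hp1 : (1 : ℝ) < p := by exact_mod_cast hp.one_lt
  have hρ0 : 0 < ρ := by rw [hρ, ρp]; positivity
  have hρ1 : ρ ≤ 1 := Real.rpow_le_one_of_one_le_of_nonpos hp1.le (by linarith)
  constructor
  · rw [Complex.add_im, Complex.im_sum]
    simp only [Complex.mul_im, Complex.ofReal_re, Complex.ofReal_im, zero_mul, add_zero]
    rw [him n le_rfl, sum_eq_zero (fun j hj => by rw [him j (mem_range.mp hj).le, mul_zero])]
    simp
  · rw [Complex.add_re, Complex.re_sum]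
    simp only [Complex.re_ofReal_mul]
    rw [hone n hmn le_rfl, Complex.one_re, mul_one]
    have htel : ∑ j ∈ Ico m n, (ρ ^ j - ρ ^ (j + 1)) * (G j).re = ρ ^ m - ρ ^ n := by
      rw [sum_congr rfl (fun j hj => by
        rw [hone j (mem_Ico.mp hj).1 (mem_Ico.mp hj).2.le, Complex.one_re, mul_one])]
      rw [sum_Ico_eq_sum_range]
      have h := sum_range_sub' (fun j => ρ ^ (m + j)) (n - m)
      rw [Nat.add_sub_cancel' hmn, add_zero] at h
      exact h
    rw [← sum_range_add_sum_Ico _ hmn, htel]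
    set x := (p : ℝ) ^ (-θ) / ρ with hx
    have hx0 : 0 ≤ x := by positivity
    have hxp : x ≤ (p : ℝ) ^ (-(θ / 2)) := by
      rw [hx, hρ, ρp, ← Real.rpow_sub (by linarith)]
      exact Real.rpow_le_rpow_of_exponent_le hp1.le
        (by linarith [hσ0.trans (min_le_left (θ / 2) ((1 - z) * θ / (2 * K₀)))])
    have hxz : x ≤ z := hxp.trans (Real.rpow_le_rpow_of_nonpos (by norm_num)
      (by exact_mod_cast hp.two_le) (by linarith))
    have hterm : ∀ j ∈ range m, -((1 - ρ) * K₀ * ρ ^ m * x ^ (m - j))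
        ≤ (ρ ^ j - ρ ^ (j + 1)) * (G j).re := by
      intro j hj
      have hjm := mem_range.mp hj
      have hb' : ‖G j‖ ≤ K₀ * (ρ ^ (m - j) * x ^ (m - j)) := by
        rw [← mul_pow, hx, mul_div_cancel₀ _ hρ0.ne']
        exact hb j hjm
      have hc : 0 ≤ ρ ^ j - ρ ^ (j + 1) :=
        sub_nonneg.mpr (pow_le_pow_of_le_one hρ0.le hρ1 (by omega))
      have h3 := mul_le_mul_of_nonneg_left
        ((neg_le_neg hb').trans (abs_le.mp (Complex.abs_re_le_norm (G j))).1) hc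
      refine le_trans (le_of_eq ?_) h3
      have e1 : ρ ^ m = ρ ^ j * ρ ^ (m - j) := by rw [← pow_add]; congr 1; omega
      rw [e1]; ring
    have hsum : ∑ j ∈ range m, x ^ (m - j) ≤ x / (1 - z) := by
      have e2 : ∑ j ∈ range m, x ^ (m - j) = x * ∑ j ∈ range m, x ^ j := by
        rw [mul_sum, ← sum_range_reflect]
        refine sum_congr rfl fun j hj => ?_
        rw [← pow_succ']; congr 1
        have := mem_range.mp hj; omega
      rw [e2, div_eq_mul_inv]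
      refine mul_le_mul_of_nonneg_left ?_ hx0
      have h := geom_sum_mul_neg x m
      have hpos : 0 < 1 - z := by linarith
      rw [inv_eq_one_div, le_div_iff₀ hpos]
      have : 0 ≤ ∑ j ∈ range m, x ^ j := sum_nonneg fun j _ => pow_nonneg hx0 j
      nlinarith [pow_nonneg hx0 m]
    have hkey : (1 - ρ) * K₀ * (x / (1 - z)) ≤ 1 := by
      rw [← mul_div_assoc, div_le_one (by linarith)]
      have hlog : 1 - ρ ≤ σ * ((p : ℝ) ^ (θ / 2) / (θ / 2)) := by
        have h1 : 1 - ρ ≤ σ * Real.log p := by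
          rw [hρ, ρp, Real.rpow_def_of_pos (by linarith)]
          have := Real.add_one_le_exp (Real.log p * -σ)
          linarith
        exact h1.trans (mul_le_mul_of_nonneg_left
          (Real.log_le_rpow_div (Nat.cast_nonneg p) (by linarith)) hσ.le)
      calc (1 - ρ) * K₀ * x
          ≤ σ * ((p : ℝ) ^ (θ / 2) / (θ / 2)) * K₀ * (p : ℝ) ^ (-(θ / 2)) :=
            mul_le_mul (mul_le_mul_of_nonneg_right hlog (by linarith)) hxp hx0 (by positivity)
        _ = σ * (2 * K₀ / θ) * ((p : ℝ) ^ (θ / 2) * (p : ℝ) ^ (-(θ / 2))) := by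
            field_simp
        _ = σ * (2 * K₀ / θ) := by
            rw [← Real.rpow_add (by linarith), add_neg_cancel, Real.rpow_zero, mul_one]
        _ ≤ (1 - z) * θ / (2 * K₀) * (2 * K₀ / θ) :=
            mul_le_mul_of_nonneg_right (hσ0.trans (min_le_right _ _)) (by positivity)
        _ = 1 - z := by field_simp
    have h4 := sum_le_sum hterm
    rw [sum_neg_distrib, ← mul_sum] at h4
    have h5 : (1 - ρ) * K₀ * ρ ^ m * ∑ j ∈ range m, x ^ (m - j) ≤ ρ ^ m := by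
      calc (1 - ρ) * K₀ * ρ ^ m * ∑ j ∈ range m, x ^ (m - j)
          ≤ (1 - ρ) * K₀ * ρ ^ m * (x / (1 - z)) := mul_le_mul_of_nonneg_left hsum
            (mul_nonneg (mul_nonneg (by linarith) (by linarith)) (by positivity))
        _ = ρ ^ m * ((1 - ρ) * K₀ * (x / (1 - z))) := by ring
        _ ≤ ρ ^ m := mul_le_of_le_one_right (by positivity) hkey
    linarith

/-- Levels up to `J` telescope to the ball of level `J`. -/
lemma shift_identity (G : ℕ → ℂ) (ρ : ℝ) (J i : ℕ) :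
    G 0 + ∑ j ∈ Icc 1 i, ((ρ ^ (j - J) : ℝ) : ℂ) * (G j - G (j - 1))
      = G (min J i) + ∑ k ∈ Icc 1 (i - J), ((ρ ^ k : ℝ) : ℂ) * (G (J + k) - G (J + (k - 1))) := by
  induction i with
  | zero => simp
  | succ k ih =>
    rw [sum_Icc_succ_top (by omega), ← add_assoc, ih, Nat.add_sub_cancel]
    rcases Nat.lt_or_ge k J with h | h
    · rw [min_eq_right h.le, min_eq_right (show k + 1 ≤ J by omega), Nat.sub_eq_zero_of_le h.le,
        Nat.sub_eq_zero_of_le (show k + 1 ≤ J by omega)]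
      simp
    · rw [min_eq_left h, min_eq_left (show J ≤ k + 1 by omega),
        show k + 1 - J = (k - J) + 1 by omega, sum_Icc_succ_top (by omega), Nat.add_sub_cancel,
        show J + (k - J + 1) = k + 1 by omega, show J + (k - J) = k by omega, add_assoc]

/-- The mixture at the root, for every exponent up to `k`: the only input is the size of the sums
over balls. -/
theorem mix_exists (k : ℕ) : ∃ σ : ℝ, 0 < σ ∧ σ ≤ 1 / 4 ∧
    ∀ e, 1 ≤ e → e ≤ k → ∀ p : ℕ, p.Prime → ∀ (G : ℕ → ℂ) (i u J : ℕ) (b : ℤ), ¬ (p : ℤ) ∣ b →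
      (∀ j, J ≤ j → j ≤ i → (G j).im = 0) →
      (∀ j, J ≤ j → j ≤ i → e * j + u < i → G j = gG ((X : ℤ[X]) ^ e) p (i - u) b j) →
      (∀ j, j ≤ i → (J ≤ j ∨ j = i) → i ≤ e * j + u → G j = 1) →
      (G 0 + ∑ j ∈ Icc 1 i, ((ρp σ p ^ (j - J) : ℝ) : ℂ) * (G j - G (j - 1))).im = 0 ∧
      0 ≤ (G 0 + ∑ j ∈ Icc 1 i, ((ρp σ p ^ (j - J) : ℝ) : ℂ) * (G j - G (j - 1))).re := by
  have hb : ∀ e : ℕ, ∃ σ₀ : ℝ, 0 < σ₀ ∧ (1 ≤ e → ∀ σ : ℝ, 0 < σ → σ ≤ σ₀ →
      ∀ p : ℕ, p.Prime → ∀ (G : ℕ → ℂ) (i u J : ℕ) (b : ℤ), ¬ (p : ℤ) ∣ b →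
      (∀ j, J ≤ j → j ≤ i → (G j).im = 0) →
      (∀ j, J ≤ j → j ≤ i → e * j + u < i → G j = gG ((X : ℤ[X]) ^ e) p (i - u) b j) →
      (∀ j, j ≤ i → (J ≤ j ∨ j = i) → i ≤ e * j + u → G j = 1) →
      (G 0 + ∑ j ∈ Icc 1 i, ((ρp σ p ^ (j - J) : ℝ) : ℂ) * (G j - G (j - 1))).im = 0 ∧
      0 ≤ (G 0 + ∑ j ∈ Icc 1 i, ((ρp σ p ^ (j - J) : ℝ) : ℂ) * (G j - G (j - 1))).re) := by
    intro e
    by_cases he : 1 ≤ e
    swap
    · exact ⟨1, one_pos, fun h => absurd h he⟩
    obtain ⟨θ, hθ, K₀, hK₀, hG⟩ := gG_bound ((X : ℤ[X]) ^ e) e he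
      (fun t ht => by rw [coeff_X_pow, if_neg (by omega)]) (by simp)
    obtain ⟨σ₀, hσ₀, hcore⟩ := mix_core θ K₀ hθ hK₀
    refine ⟨σ₀, hσ₀, fun _ σ hσ hσle p hp G i u J b hpb him hbd hone => ?_⟩
    rw [shift_identity G (ρp σ p) J i]
    rcases Nat.lt_or_ge i J with hiJ | hJi
    · rw [min_eq_right hiJ.le, Nat.sub_eq_zero_of_le hiJ.le,
        hone i le_rfl (Or.inr rfl) (le_trans (Nat.le_mul_of_pos_left i he) (Nat.le_add_right _ _))]
      simp
    rw [min_eq_left hJi]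
    have hex : ∃ j, i ≤ e * j + u :=
      ⟨i, le_trans (Nat.le_mul_of_pos_left i he) (Nat.le_add_right _ _)⟩
    set m₀ := Nat.find hex with hm₀
    have hmi : m₀ ≤ i :=
      Nat.find_min' hex (le_trans (Nat.le_mul_of_pos_left i he) (Nat.le_add_right _ _))
    refine hcore σ hσ hσle p hp (fun j => G (J + j)) (i - J) (m₀ - J) (by omega)
      (fun j hj => him _ (Nat.le_add_right _ _) (by omega)) (fun j hj => ?_) (fun j hj hjn => ?_)
    · have hlt : J + j < m₀ := by omega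
      have hej : e * (J + j) + u < i := not_le.mp (Nat.find_min hex hlt)
      have hm1 : e * (m₀ - 1) + u < i := not_le.mp (Nat.find_min hex (by omega))
      have h1 : e * (m₀ - 1) = e * (m₀ - 1 - (J + j)) + e * (J + j) := by
        rw [← Nat.mul_add]; congr 1; omega
      have h2 : m₀ - 1 - (J + j) ≤ e * (m₀ - 1 - (J + j)) := Nat.le_mul_of_pos_left _ he
      rw [hbd _ (Nat.le_add_right _ _) (by omega) hej]
      refine (hG p (i - u) (J + j) b hp hpb (by omega)).trans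
        (mul_le_mul_of_nonneg_left ?_ (by linarith))
      exact pow_le_pow_of_le_one (by positivity)
        (Real.rpow_le_one_of_one_le_of_nonpos (by exact_mod_cast hp.one_lt.le) (by linarith))
        (by omega)
    · exact hone _ (by omega) (Or.inl (Nat.le_add_right _ _)) ((Nat.find_spec hex).trans
        (Nat.add_le_add_right (Nat.mul_le_mul_left e (by omega)) u))
  choose σ₀ hσ₀ hmain using hb
  have hne : (insert (1 / 4 : ℝ) ((range (k + 1)).image σ₀)).Nonempty := insert_nonempty _ _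
  set σ := (insert (1 / 4 : ℝ) ((range (k + 1)).image σ₀)).min' hne with hσdef
  have hσ : 0 < σ := by
    rw [hσdef, lt_min'_iff]
    intro y hy
    rcases mem_insert.mp hy with rfl | hy
    · norm_num
    · obtain ⟨e, _, rfl⟩ := mem_image.mp hy; exact hσ₀ e
  refine ⟨σ, hσ, min'_le _ _ (mem_insert_self _ _), fun e he hek => ?_⟩
  exact hmain e he σ hσ
    (min'_le _ _ (mem_insert_of_mem (mem_image_of_mem _ (mem_range.mpr (by omega)))))

end Vale.Agent.P042.Branch
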