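import Vale.Agent.P042.Roots

/-! Roots of odd multiplicity give p-adic roots with `-1` a power of the multiplicity, and the leading
Taylor coefficient at a p-adic root divides a fixed integer. -/

namespace Vale.Agent.P042.Branch

open Polynomial

lemma hasse_map {R S : Type*} [CommRing R] [CommRing S] (f : R →+* S) (P : R[X]) (e : ℕ) :
    hasseDeriv e (P.map f) = (hasseDeriv e P).map f := by
  ext n; simp [hasseDeriv_coeff]

lemma eval_hasse_mult {R : Type*} [CommRing R] {P H : R[X]} {z : R} {e : ℕ}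
    (h : P = (X - C z) ^ e * H) : (hasseDeriv e P).eval z = H.eval z := by
  rw [← taylor_coeff, h, taylor_mul, taylor_pow, map_sub, taylor_X, taylor_C, add_sub_cancel_right]
  simpa [taylor_coeff_zero] using coeff_X_pow_mul (taylor z H) e 0

open Classical in
/-- The first nonzero Taylor coefficient at a p-adic root divides a fixed integer. -/
theorem disc_bound (h : ℤ[X]) (hh : h ≠ 0) : ∃ D : ℤ, D ≠ 0 ∧ ∀ (p : ℕ) [Fact p.Prime],
    ∀ (z : ℤ_[p]) (e : ℕ), e ≤ h.natDegree → (h.map (Int.castRingHom ℤ_[p])).eval z = 0 →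
      (hasseDeriv e (h.map (Int.castRingHom ℤ_[p]))).eval z ≠ 0 →
      (hasseDeriv e (h.map (Int.castRingHom ℤ_[p]))).eval z ∣ (D : ℤ_[p]) := by
  set hQ := h.map (Int.castRingHom ℚ) with hhQ
  have hQ0 : hQ ≠ 0 := (Polynomial.map_ne_zero_iff Int.cast_injective).mpr hh
  set S := (UniqueFactorizationMonoid.normalizedFactors hQ).toFinset with hS
  have hd : ∀ (q : ℚ[X]) (e : ℕ), ∃ d : ℤ, d ≠ 0 ∧
      (IsCoprime q ((hasseDeriv e h).map (Int.castRingHom ℚ)) → ∃ B : ℤ[X], ∃ A : ℚ[X],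
        A * q + (B * hasseDeriv e h).map (Int.castRingHom ℚ) = C (d : ℚ)) := by
    intro q e
    by_cases hc : IsCoprime q ((hasseDeriv e h).map (Int.castRingHom ℚ))
    · obtain ⟨A, B, hAB⟩ := hc
      obtain ⟨dB, B', hdB, hB'⟩ := Roots.clear_den B
      refine ⟨dB, hdB, fun _ => ⟨B', C (dB : ℚ) * A, ?_⟩⟩
      rw [Polynomial.map_mul, hB', mul_assoc, mul_assoc, ← mul_add, hAB, mul_one]
    · exact ⟨1, one_ne_zero, fun h' => absurd h' hc⟩
  choose d hd0 hd1 using hd
  refine ⟨∏ x ∈ S ×ˢ Finset.range (h.natDegree + 1), d x.1 x.2,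
    Finset.prod_ne_zero_iff.mpr fun x _ => hd0 _ _, fun p _ z e he hz hz' => ?_⟩
  have hev : ∀ P : ℤ[X], aeval (z : ℚ_[p]) (P.map (Int.castRingHom ℚ))
      = (((P.map (Int.castRingHom ℤ_[p])).eval z : ℤ_[p]) : ℚ_[p]) := by
    intro P
    rw [aeval_def, eval₂_map, eval_map, show ((((P.eval₂ (Int.castRingHom ℤ_[p]) z) : ℤ_[p])) : ℚ_[p])
      = PadicInt.Coe.ringHom (P.eval₂ (Int.castRingHom ℤ_[p]) z) from rfl, hom_eval₂]
    congr 1
  obtain ⟨q, hq, hq0⟩ : ∃ q ∈ UniqueFactorizationMonoid.normalizedFactors hQ,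
      aeval (z : ℚ_[p]) q = 0 := by
    obtain ⟨v, hv⟩ := UniqueFactorizationMonoid.prod_normalizedFactors hQ0
    have h0 := congrArg (aeval (z : ℚ_[p])) hv
    rw [hhQ, hev, hz, PadicInt.coe_zero, map_mul, mul_eq_zero] at h0
    have h1 := h0.resolve_right (v.isUnit.map _).ne_zero
    rw [map_multiset_prod, Multiset.prod_eq_zero_iff, Multiset.mem_map] at h1
    exact h1
  have hcop : IsCoprime q ((hasseDeriv e h).map (Int.castRingHom ℚ)) := by
    refine ((UniqueFactorizationMonoid.irreducible_of_normalized_factor q hq).coprime_iff_not_dvd).mpr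
      fun hdvd => hz' ?_
    obtain ⟨r, hr⟩ := hdvd
    have h0 := congrArg (aeval (z : ℚ_[p])) hr
    rw [map_mul, hq0, zero_mul, hev, ← hasse_map] at h0
    exact PadicInt.coe_eq_zero.mp h0
  obtain ⟨B, A, hAB⟩ := hd1 q e hcop
  have h0 := congrArg (aeval (z : ℚ_[p])) hAB
  rw [map_add, map_mul, hq0, mul_zero, zero_add, hev, aeval_C, map_intCast, Polynomial.map_mul,
    eval_mul, ← hasse_map] at h0
  have h1 : (hasseDeriv e (h.map (Int.castRingHom ℤ_[p]))).eval z ∣ (d q e : ℤ_[p]) := by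
    refine ⟨(B.map (Int.castRingHom ℤ_[p])).eval z, ?_⟩
    rw [mul_comm]
    refine PadicInt.ext ?_
    rw [h0, PadicInt.coe_intCast]
  refine h1.trans ?_
  rw [Int.cast_prod]
  exact Finset.dvd_prod_of_mem (fun x : ℚ[X] × ℕ => ((d x.1 x.2 : ℤ) : ℤ_[p]))
    (Finset.mem_product.mpr ⟨Multiset.mem_toFinset.mpr hq, Finset.mem_range.mpr (by omega)⟩ :
      (q, e) ∈ S ×ˢ Finset.range (h.natDegree + 1))

/-- Every prime has a root at which `-1` is a power of the multiplicity. -/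
def RootCond (h : ℤ[X]) : Prop :=
  ∀ (p : ℕ) [Fact p.Prime], ∃ z : ℤ_[p], (h.map (Int.castRingHom ℤ_[p])).eval z = 0 ∧
    ∃ ζ : ℤ_[p], ζ ^ (h.map (Int.castRingHom ℤ_[p])).rootMultiplicity z = -1

/-- An intersective polynomial whose complex roots are roots of odd multiplicity of `h` is enough. -/
theorem rootCond_of_odd (h h1 : ℤ[X]) (hh : h ≠ 0)
    (hint : ∀ q : ℕ, 1 ≤ q → ∃ t : ℤ, (q : ℤ) ∣ h1.eval t)
    (hodd : ∀ r : ℂ, (h1.map (Int.castRingHom ℂ)).eval r = 0 →
      Odd ((h.map (Int.castRingHom ℂ)).rootMultiplicity r)) : RootCond h := by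
  have h10 : h1 ≠ 0 := by
    intro h0
    obtain ⟨r, hr⟩ : ∃ r : ℂ, ¬ (h.map (Int.castRingHom ℂ)).IsRoot r :=
      Polynomial.exists_eval_ne_zero_of_natDegree_lt_card _
        ((Polynomial.map_ne_zero_iff Int.cast_injective).mpr hh)
        (lt_of_lt_of_le Cardinal.natCast_lt_aleph0 (Cardinal.aleph0_le_mk ℂ))
    obtain ⟨m, hm⟩ := hodd r (by simp [h0])
    rw [rootMultiplicity_eq_zero hr] at hm
    omega
  intro p _
  obtain ⟨z, hz⟩ := Roots.root_exists h1 hint p
  set zq : ℚ_[p] := (z : ℚ_[p]) with hzq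
  have hev : ∀ P : ℤ[X], aeval zq (P.map (Int.castRingHom ℚ))
      = (((P.map (Int.castRingHom ℤ_[p])).eval z : ℤ_[p]) : ℚ_[p]) := by
    intro P
    rw [aeval_def, eval₂_map, eval_map, show ((((P.eval₂ (Int.castRingHom ℤ_[p]) z) : ℤ_[p])) : ℚ_[p])
      = PadicInt.Coe.ringHom (P.eval₂ (Int.castRingHom ℤ_[p]) z) from rfl, hom_eval₂]
    congr 1
  have hint' : IsIntegral ℚ zq := by
    refine IsAlgebraic.isIntegral ⟨h1.map (Int.castRingHom ℚ),
      (Polynomial.map_ne_zero_iff Int.cast_injective).mpr h10, ?_⟩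
    rw [hev, hz, PadicInt.coe_zero]
  set q := minpoly ℚ zq with hq
  obtain ⟨r, hr⟩ := IsAlgClosed.exists_aeval_eq_zero ℂ q (degree_pos_of_irreducible (minpoly.irreducible hint')).ne'
  have hqr : q = minpoly ℚ r :=
    minpoly.eq_of_irreducible_of_monic (minpoly.irreducible hint') hr (minpoly.monic hint')
  have hiff : ∀ P : ℤ[X], (P.map (Int.castRingHom ℤ_[p])).eval z = 0 ↔
      (P.map (Int.castRingHom ℂ)).eval r = 0 := by
    intro P
    rw [← PadicInt.coe_eq_zero, ← hev, ← minpoly.dvd_iff, ← hq, hqr, minpoly.dvd_iff, aeval_def,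
      eval₂_map, eval_map, RingHom.ext_int ((algebraMap ℚ ℂ).comp (Int.castRingHom ℚ)) (Int.castRingHom ℂ)]
  have hm : (h.map (Int.castRingHom ℤ_[p])).rootMultiplicity z
      = (h.map (Int.castRingHom ℂ)).rootMultiplicity r := by
    have hlt : ∀ n, n < (h.map (Int.castRingHom ℤ_[p])).rootMultiplicity z ↔
        n < (h.map (Int.castRingHom ℂ)).rootMultiplicity r := by
      intro n
      rw [lt_rootMultiplicity_iff_isRoot_iterate_derivative
          ((Polynomial.map_ne_zero_iff (RingHom.injective_int _)).mpr hh),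
        lt_rootMultiplicity_iff_isRoot_iterate_derivative
          ((Polynomial.map_ne_zero_iff (RingHom.injective_int _)).mpr hh)]
      simp only [IsRoot.def, iterate_derivative_map, hiff]
    exact le_antisymm (le_of_forall_lt fun n hn => (hlt n).mp hn) (le_of_forall_lt fun n hn => (hlt n).mpr hn)
  have hodd' := hodd r ((hiff h1).mp hz)
  refine ⟨z, ?_, -1, by rw [hm]; exact hodd'.neg_one_pow⟩
  have hpos : 0 < (h.map (Int.castRingHom ℤ_[p])).rootMultiplicity z := hm ▸ hodd'.pos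
  exact (rootMultiplicity_pos ((Polynomial.map_ne_zero_iff (RingHom.injective_int _)).mpr hh)).mp hpos

end Vale.Agent.P042.Branch
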