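import Vale.Agent.P042.BranchBall
import Vale.Agent.P042.BranchMix
import Vale.Agent.P042.BranchComp
import Vale.Agent.P042.BranchRoots

/-! Local densities from roots at which `-1` is a power of the multiplicity. -/

namespace Vale.Agent.P042.Branch

open Finset Polynomial

variable {h : ℤ[X]}

/-- The properties of the densities at one prime. -/
def GoodAt (h : ℤ[X]) (σ C : ℝ) (p : ℕ) (d : ℕ → ℕ → ℝ) : Prop :=
  (∀ j, Function.Periodic (d j) (p ^ j)) ∧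
  (∀ j, 1 ≤ j → ∀ n, ∑ s ∈ range p, d j (n + p ^ (j - 1) * s) = 0) ∧
  (∀ j, 1 ≤ j → ∀ n, |d j n| ≤ (((p ^ j : ℕ)) : ℝ) ^ 3) ∧
  (∀ i j, 1 ≤ j → j ≤ i → ∀ a : ℤ, ¬ (p : ℤ) ∣ a →
    ‖avg (p ^ i) (fun n => (d j n : ℂ) * ch (p ^ i) (a * h.eval (n : ℤ)))‖
      ≤ C * (((p ^ j : ℕ)) : ℝ) ^ (-σ)) ∧
  (∀ i, 1 ≤ i → ∀ a : ℤ, ¬ (p : ℤ) ∣ a →
    (avg (p ^ i) (fun n => ch (p ^ i) (a * h.eval (n : ℤ))) + ∑ j ∈ Icc 1 i,
        avg (p ^ i) (fun n => (d j n : ℂ) * ch (p ^ i) (a * h.eval (n : ℤ)))).im = 0 ∧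
    0 ≤ (avg (p ^ i) (fun n => ch (p ^ i) (a * h.eval (n : ℤ))) + ∑ j ∈ Icc 1 i,
        avg (p ^ i) (fun n => (d j n : ℂ) * ch (p ^ i) (a * h.eval (n : ℤ)))).re)

lemma avg_smul_add (P : ℕ) (c : ℝ) (f g : ℕ → ℝ) (χ : ℕ → ℂ) :
    avg P (fun n => ((c * f n + g n : ℝ) : ℂ) * χ n)
      = (c : ℂ) * avg P (fun n => (f n : ℂ) * χ n) + avg P (fun n => (g n : ℂ) * χ n) := by
  simp only [avg, ← mul_div_assoc, mul_sum, ← add_div, ← sum_add_distrib]
  congr 1
  refine sum_congr rfl fun n _ => ?_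
  push_cast; ring

lemma localData_of_goodAt {σ : ℝ} (C₀ : ℝ) (hC1 : 1 ≤ C₀) (hσ : 0 < σ) {Cp : ℕ → ℝ}
    (d : ℕ → ℕ → ℕ → ℝ) (hd : ∀ p, p.Prime → GoodAt h σ (Cp p) p (d p))
    (hCle : ∀ p, p.Prime → Cp p ≤ C₀) : Nonempty (LocalData h) :=
  ⟨{ δ := d, A := 3, C := C₀, σ := σ, one_le_C := hC1, σ_pos := hσ,
     per := fun p j hp => (hd p hp).1 j
     mean := fun p j hp hj => (hd p hp).2.1 j hj
     sup := fun p j hp hj => (hd p hp).2.2.1 j hj
     decay := fun p i j hp hj hji a ha => ((hd p hp).2.2.2.1 i j hj hji a ha).trans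
       (mul_le_mul_of_nonneg_right (hCle p hp) (Real.rpow_nonneg (Nat.cast_nonneg _) _))
     pos := fun p i hp hi a ha => (hd p hp).2.2.2.2 i hi a ha }⟩

section Prime

variable {p : ℕ} [Fact p.Prime]

/-- The densities of the mixture at `z`. -/
noncomputable def d0 (σ : ℝ) (z : ℤ_[p]) (J j n : ℕ) : ℝ :=
  ρp σ p ^ (j - J) * dodd 0 p j (n + Kz z j)

lemma avg_d0 (h : ℤ[X]) (σ : ℝ) (z : ℤ_[p]) (J i j : ℕ) (a : ℤ) :
    avg (p ^ i) (fun n => (d0 σ z J j n : ℂ) * ch (p ^ i) (a * h.eval (n : ℤ)))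
      = ((ρp σ p ^ (j - J) : ℝ) : ℂ) * (Bsum h z i a j - Bsum h z i a (j - 1)) := by
  simp only [Bsum, avg, d0, dodd, ← dlt_Kz_sub z (Nat.sub_le j 1)]
  rw [← sub_div, ← sum_sub_distrib, ← mul_div_assoc, mul_sum]
  congr 1
  refine sum_congr rfl fun n _ => ?_
  simp only [ρp, neg_zero, Real.rpow_zero, one_pow, one_mul]
  push_cast; ring

lemma norm_Bsum_le (h : ℤ[X]) (z : ℤ_[p]) {i j : ℕ} (hji : j ≤ i) (a : ℤ) : ‖Bsum h z i a j‖ ≤ 1 := by
  rw [Bsum_eq h z hji a]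
  exact norm_avg_le _ _ _ zero_le_one fun n => (AddChar.norm_apply _ _).le

/-- The mixture at a suitable root. -/
lemma mix_data (h : ℤ[X]) (z : ℤ_[p]) (e : ℕ) (he : 1 ≤ e) (H : ℤ_[p][X])
    (hfac : h.map (Int.castRingHom ℤ_[p]) = (X - C z) ^ e * H) (hH0 : H.eval z ≠ 0)
    (ζ : ℤ_[p]) (hζ : ζ ^ e = -1) {k : ℕ} (hek : e ≤ k) (σ : ℝ) (hσ : 0 < σ)
    (hmix : ∀ e, 1 ≤ e → e ≤ k → ∀ p : ℕ, p.Prime → ∀ (G : ℕ → ℂ) (i u J : ℕ) (b : ℤ), ¬ (p : ℤ) ∣ b →
      (∀ j, J ≤ j → j ≤ i → (G j).im = 0) →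
      (∀ j, J ≤ j → j ≤ i → e * j + u < i → G j = gG ((X : ℤ[X]) ^ e) p (i - u) b j) →
      (∀ j, j ≤ i → (J ≤ j ∨ j = i) → i ≤ e * j + u → G j = 1) →
      (G 0 + ∑ j ∈ Icc 1 i, ((ρp σ p ^ (j - J) : ℝ) : ℂ) * (G j - G (j - 1))).im = 0 ∧
      0 ≤ (G 0 + ∑ j ∈ Icc 1 i, ((ρp σ p ^ (j - J) : ℝ) : ℂ) * (G j - G (j - 1))).re) :
    ∃ J : ℕ, 1 ≤ J ∧ ((IsUnit (H.eval z) ∧ ¬ p ∣ e) → J = 1) ∧
      (∀ j, Function.Periodic (d0 σ z J j) (p ^ j)) ∧
      (∀ j, 1 ≤ j → ∀ n, ∑ s ∈ range p, d0 σ z J j (n + p ^ (j - 1) * s) = 0) ∧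
      (∀ j, 1 ≤ j → ∀ n, |d0 σ z J j n| ≤ ((p ^ j : ℕ) : ℝ)) ∧
      (∀ i j, 1 ≤ j → j ≤ i → ∀ a : ℤ,
        ‖avg (p ^ i) (fun n => (d0 σ z J j n : ℂ) * ch (p ^ i) (a * h.eval (n : ℤ)))‖
          ≤ 2 * ρp σ p ^ (j - J)) ∧
      (∀ i, 1 ≤ i → ∀ a : ℤ, ¬ (p : ℤ) ∣ a →
        (avg (p ^ i) (fun n => ch (p ^ i) (a * h.eval (n : ℤ))) + ∑ j ∈ Icc 1 i,
            avg (p ^ i) (fun n => (d0 σ z J j n : ℂ) * ch (p ^ i) (a * h.eval (n : ℤ)))).im = 0 ∧
        0 ≤ (avg (p ^ i) (fun n => ch (p ^ i) (a * h.eval (n : ℤ))) + ∑ j ∈ Icc 1 i,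
            avg (p ^ i) (fun n => (d0 σ z J j n : ℂ) * ch (p ^ i) (a * h.eval (n : ℤ)))).re ∧
        (i = 1 → J = 1 →
          avg (p ^ i) (fun n => ch (p ^ i) (a * h.eval (n : ℤ))) + ∑ j ∈ Icc 1 i,
            avg (p ^ i) (fun n => (d0 σ z J j n : ℂ) * ch (p ^ i) (a * h.eval (n : ℤ))) = 1)) := by
  have hp := (Fact.out : p.Prime)
  obtain ⟨J, u, hJ1, hJ, hball⟩ := ball_root h z e he H hfac hH0 ζ hζ
  have hρ0 : 0 ≤ ρp σ p := by unfold ρp; positivity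
  have hρ1 : ρp σ p ≤ 1 :=
    Real.rpow_le_one_of_one_le_of_nonpos (by exact_mod_cast hp.one_lt.le) (by linarith)
  refine ⟨J, hJ1, hJ, fun j n => ?_, fun j hj n => ?_, fun j _ n => ?_, fun i j hj hji a => ?_,
    fun i hi a ha => ?_⟩
  · simp only [d0]
    rw [add_right_comm, dodd_periodic 0 p j]
  · simp only [d0, ← mul_sum]
    rw [sum_congr rfl (fun s _ => by rw [add_right_comm]), dodd_mean 0 p j hp hj, mul_zero]
  · simp only [d0, abs_mul, abs_of_nonneg (pow_nonneg hρ0 _)]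
    refine (mul_le_of_le_one_left (abs_nonneg _) (pow_le_one₀ hρ0 hρ1)).trans ?_
    simpa using dodd_sup 0 le_rfl p j hp (n + Kz z j)
  · rw [avg_d0, norm_mul, Complex.norm_real, Real.norm_eq_abs, abs_of_nonneg (pow_nonneg hρ0 _),
      mul_comm (2 : ℝ)]
    refine mul_le_mul_of_nonneg_left ((norm_sub_le _ _).trans ?_) (pow_nonneg hρ0 _)
    have := norm_Bsum_le h z hji a
    have := norm_Bsum_le h z (le_trans (Nat.sub_le j 1) hji) a
    linarith
  · obtain ⟨b, hb, hj⟩ := hball i a ha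
    simp only [avg_d0, ← Bsum_zero h z i a]
    obtain ⟨h1, h2⟩ := hmix e he hek p hp (Bsum h z i a) i u J b hb (fun j a b => ((hj j b).1 a).1)
      (fun j a b c => ((hj j b).1 a).2 c) (fun j a b c => (hj j a).2 b c)
    refine ⟨h1, h2, fun hi1 hJ1 => ?_⟩
    subst hi1 hJ1
    rw [Icc_self, sum_singleton, Nat.sub_self, pow_zero, Complex.ofReal_one, one_mul,
      add_sub_cancel, (hj 1 le_rfl).2 (Or.inl le_rfl)
        (le_trans he (by rw [mul_one]; exact Nat.le_add_right _ _))]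

/-- The weight at a large prime, on the natural numbers. -/
lemma weight_nat {k : ℕ} {Cw : ℝ} (Cn : ℕ) (hCn : Cw ≤ Cn) (hCp : Cn ≤ p)
    (hW : ∀ (p : ℕ) [Fact p.Prime], Cw ≤ p → ∀ m H : (ZMod p)[X], m.natDegree = k →
      ∀ (z ζ : ZMod p) (e : ℕ), 1 ≤ e → m = (X - C z) ^ e * H → H.eval z ≠ 0 → ζ ^ e = -1 →
      ∃ w : ZMod p → ℝ, (∀ x, 0 ≤ w x ∧ w x ≤ k) ∧ (∀ x, (derivative m).eval x = 0 → w x = 0) ∧
        (∀ s : ZMod p, s ≠ 0 →
          (∑ x, (w x : ℂ) * Kloo.ψ (s * m.eval x)).im = 0 ∧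
          ‖∑ x, (w x : ℂ) * Kloo.ψ (s * m.eval x)‖ ≤ Cw * Real.sqrt p) ∧
        |(∑ x, w x) - p| ≤ Cw * Real.sqrt p)
    (hk : h.natDegree = k) (hpl : ¬ (p : ℤ) ∣ h.leadingCoeff)
    (z : ℤ_[p]) (e : ℕ) (he : 1 ≤ e) (H : ℤ_[p][X])
    (hfac : h.map (Int.castRingHom ℤ_[p]) = (X - C z) ^ e * H) (hH : IsUnit (H.eval z))
    (ζ : ℤ_[p]) (hζ : ζ ^ e = -1) :
    ∃ w : ℕ → ℝ, Function.Periodic w p ∧ (∀ n, 0 ≤ w n ∧ w n ≤ k) ∧
      (∀ r : ℕ, (p : ℤ) ∣ (derivative h).eval (r : ℤ) → w r = 0) ∧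
      (∀ t : ℤ, ¬ (p : ℤ) ∣ t →
        (∑ n ∈ range p, (w n : ℂ) * ch p (t * h.eval (n : ℤ))).im = 0 ∧
        ‖∑ n ∈ range p, (w n : ℂ) * ch p (t * h.eval (n : ℤ))‖ ≤ Cn * Real.sqrt p) ∧
      |(∑ n ∈ range p, w n) - p| ≤ Cn * Real.sqrt p := by
  set φ := Int.castRingHom (ZMod p) with hφ
  set m := h.map φ with hm
  have hev : ∀ (P : ℤ[X]) (n : ℕ), (P.map φ).eval (n : ZMod p) = ((P.eval (n : ℤ) : ℤ) : ZMod p) := by
    intro P n; simp [hφ, eval_map, eval₂_at_natCast]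
  have hdeg : m.natDegree = k := by
    rw [← hk]
    refine natDegree_map_of_leadingCoeff_ne_zero _ ?_
    exact fun h0 => hpl ((ZMod.intCast_zmod_eq_zero_iff_dvd _ p).mp h0)
  have hfac' : m = (X - C (PadicInt.toZMod z)) ^ e * H.map PadicInt.toZMod := by
    have h1 := congrArg (Polynomial.map (PadicInt.toZMod (p := p))) hfac
    rw [Polynomial.map_map, RingHom.ext_int (PadicInt.toZMod.comp (Int.castRingHom ℤ_[p])) φ] at h1
    rw [hm, h1]
    simp
  obtain ⟨w, hw, hwc, hhat, htot⟩ := hW p (hCn.trans (by exact_mod_cast hCp)) m (H.map PadicInt.toZMod)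
    hdeg (PadicInt.toZMod z) (PadicInt.toZMod ζ) e he hfac'
    (by rw [eval_map_apply]; exact (hH.map _).ne_zero)
    (by rw [← map_pow, hζ, map_neg, map_one])
  have hsq : 0 ≤ Real.sqrt p := Real.sqrt_nonneg _
  refine ⟨fun n => w (n : ZMod p), fun n => ?_, fun n => hw _, fun r hr => ?_, fun t ht => ?_, ?_⟩
  · simp only [Nat.cast_add, ZMod.natCast_self, add_zero]
  · refine hwc _ ?_
    rw [derivative_map, hev]
    exact (ZMod.intCast_zmod_eq_zero_iff_dvd _ p).mpr hr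
  · have hs : (t : ZMod p) ≠ 0 := fun h0 => ht ((ZMod.intCast_zmod_eq_zero_iff_dvd t p).mp h0)
    have e : ∑ n ∈ range p, (w (n : ZMod p) : ℂ) * ch p (t * h.eval (n : ℤ))
        = ∑ x : ZMod p, (w x : ℂ) * Kloo.ψ ((t : ZMod p) * m.eval x) := by
      rw [← sum_range_zmod p fun x => (w x : ℂ) * Kloo.ψ ((t : ZMod p) * m.eval x)]
      refine sum_congr rfl fun n _ => ?_
      rw [ch_eq_ψ, hev, Int.cast_mul]
    rw [e]
    exact ⟨(hhat _ hs).1, (hhat _ hs).2.trans (mul_le_mul_of_nonneg_right hCn hsq)⟩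
  · rw [sum_range_zmod p w]
    exact htot.trans (mul_le_mul_of_nonneg_right hCn hsq)

/-- A large prime. -/
lemma big_prime (z : ℤ_[p]) (J : ℕ) (σ : ℝ) (hσ : 0 < σ) (hσ4 : σ ≤ 1 / 4) (Cn : ℕ)
    (hC : (2 * Cn + 1) ^ 4 < p) (hk : 1 ≤ h.natDegree) (hkp : h.natDegree < p)
    (hpl : ¬ (p : ℤ) ∣ h.leadingCoeff) (hJ : J = 1)
    (hper : ∀ j, Function.Periodic (d0 σ z J j) (p ^ j))
    (hmean : ∀ j, 1 ≤ j → ∀ n, ∑ s ∈ range p, d0 σ z J j (n + p ^ (j - 1) * s) = 0)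
    (hsup : ∀ j, 1 ≤ j → ∀ n, |d0 σ z J j n| ≤ ((p ^ j : ℕ) : ℝ))
    (hdec : ∀ i j, 1 ≤ j → j ≤ i → ∀ a : ℤ,
        ‖avg (p ^ i) (fun n => (d0 σ z J j n : ℂ) * ch (p ^ i) (a * h.eval (n : ℤ)))‖
          ≤ 2 * ρp σ p ^ (j - J))
    (hpos : ∀ i, 1 ≤ i → ∀ a : ℤ, ¬ (p : ℤ) ∣ a →
        (avg (p ^ i) (fun n => ch (p ^ i) (a * h.eval (n : ℤ))) + ∑ j ∈ Icc 1 i,
            avg (p ^ i) (fun n => (d0 σ z J j n : ℂ) * ch (p ^ i) (a * h.eval (n : ℤ)))).im = 0 ∧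
        0 ≤ (avg (p ^ i) (fun n => ch (p ^ i) (a * h.eval (n : ℤ))) + ∑ j ∈ Icc 1 i,
            avg (p ^ i) (fun n => (d0 σ z J j n : ℂ) * ch (p ^ i) (a * h.eval (n : ℤ)))).re ∧
        (i = 1 → J = 1 →
          avg (p ^ i) (fun n => ch (p ^ i) (a * h.eval (n : ℤ))) + ∑ j ∈ Icc 1 i,
            avg (p ^ i) (fun n => (d0 σ z J j n : ℂ) * ch (p ^ i) (a * h.eval (n : ℤ))) = 1))
    (w : ℕ → ℝ) (hwper : Function.Periodic w p) (hw : ∀ n, 0 ≤ w n ∧ w n ≤ h.natDegree)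
    (hwc : ∀ r : ℕ, (p : ℤ) ∣ (derivative h).eval (r : ℤ) → w r = 0)
    (hhat : ∀ t : ℤ, ¬ (p : ℤ) ∣ t →
      (∑ n ∈ range p, (w n : ℂ) * ch p (t * h.eval (n : ℤ))).im = 0 ∧
      ‖∑ n ∈ range p, (w n : ℂ) * ch p (t * h.eval (n : ℤ))‖ ≤ Cn * Real.sqrt p)
    (htot : |(∑ n ∈ range p, w n) - p| ≤ Cn * Real.sqrt p) :
    ∃ d, GoodAt h σ (6 * Cn + 3 + 2 * h.natDegree : ℕ) p d := by
  classical
  subst hJ
  have hp := (Fact.out : p.Prime)
  set k := h.natDegree with hkdef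
  set Z := ∑ n ∈ range p, w n with hZ
  have hp0 : (0 : ℝ) < p := by exact_mod_cast hp.pos
  have hp1 : (1 : ℝ) ≤ p := by exact_mod_cast hp.one_lt.le
  have hp2 : (2 : ℝ) ≤ p := by exact_mod_cast hp.two_le
  have hC0 : (0 : ℝ) ≤ Cn := Nat.cast_nonneg Cn
  set q := (p : ℝ) ^ (-(1 / 4) : ℝ) with hq
  have hq0 : 0 < q := by positivity
  set r := Real.sqrt (Real.sqrt p) with hr
  have hr4 : r ^ 4 = p := by
    rw [show r ^ 4 = (r ^ 2) ^ 2 by ring, hr, Real.sq_sqrt (Real.sqrt_nonneg _),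
      Real.sq_sqrt hp0.le]
  have hrC : 2 * (Cn : ℝ) + 1 ≤ r := by
    by_contra hcon
    push Not at hcon
    have h1 := pow_lt_pow_left₀ hcon (Real.sqrt_nonneg _) (show (4 : ℕ) ≠ 0 by norm_num)
    rw [hr4] at h1
    have h2 : ((2 * (Cn : ℝ) + 1)) ^ 4 ≤ (p : ℝ) := by exact_mod_cast hC.le
    linarith
  have hr1 : 1 ≤ r := by linarith
  have hrq : q = r⁻¹ := by
    rw [hq, hr, Real.sqrt_eq_rpow, Real.sqrt_eq_rpow, ← Real.rpow_mul hp0.le,
      ← Real.rpow_neg hp0.le]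
    norm_num
  have hsq : Real.sqrt p = r ^ 2 := by rw [hr, Real.sq_sqrt (Real.sqrt_nonneg _)]
  have hqp : Real.sqrt p / p ≤ q := by
    rw [hrq, hsq, div_le_iff₀ hp0, ← hr4, show r⁻¹ * r ^ 4 = r ^ 3 by field_simp]
    exact pow_le_pow_right₀ hr1 (by norm_num)
  have hZlow : (p : ℝ) / 2 ≤ Z := by
    have h1 := (abs_le.mp htot).1
    have h2 : 2 * ((Cn : ℝ) * Real.sqrt p) ≤ p := by
      rw [hsq, ← hr4]
      calc 2 * ((Cn : ℝ) * r ^ 2) = (2 * Cn) * r ^ 2 := by ring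
        _ ≤ r ^ 2 * r ^ 2 := by
            refine mul_le_mul_of_nonneg_right ?_ (by positivity)
            linarith [le_self_pow₀ hr1 (show (2 : ℕ) ≠ 0 by norm_num)]
        _ = r ^ 4 := by ring
    linarith
  have hZ0 : 0 < Z := lt_of_lt_of_le (by positivity) hZlow
  set π : ℝ := (2 * (Cn : ℝ) + 1) * q with hπ
  have hπ0 : 0 ≤ π := by positivity
  have hπ1 : π ≤ 1 := by rw [hπ, hrq, ← div_eq_mul_inv, div_le_one (by linarith)]; exact hrC
  -- the weight part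
  set ω : ℕ → ℝ := fun n => (p : ℝ) * w n / Z with hω
  have hωper : Function.Periodic ω p := fun n => by simp only [hω]; rw [hwper n]
  set f : ℕ → ℝ := fun n => (1 - π) * (ω n - 1) with hf
  set d : ℕ → ℕ → ℝ := fun j n => π * d0 σ z 1 j n + (if j = 1 then f n else 0) with hd
  have havgω : ∀ i, 1 ≤ i → ∀ t : ℤ, ¬ (p : ℤ) ∣ t →
      (avg (p ^ i) (fun n => (ω n : ℂ) * ch (p ^ i) (t * h.eval (n : ℤ)))).im = 0 ∧
      ‖avg (p ^ i) (fun n => (ω n : ℂ) * ch (p ^ i) (t * h.eval (n : ℤ)))‖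
        ≤ (if i = 1 then 2 * Cn * q else 0) := by
    intro i hi t ht
    rcases Nat.eq_or_lt_of_le hi with hi1 | hi2
    · subst hi1
      rw [if_pos rfl, pow_one]
      have e : avg p (fun n => (ω n : ℂ) * ch p (t * h.eval (n : ℤ)))
          = (∑ n ∈ range p, (w n : ℂ) * ch p (t * h.eval (n : ℤ))) / (Z : ℂ) := by
        have hpC : (p : ℂ) ≠ 0 := by exact_mod_cast hp.ne_zero
        rw [avg, sum_div, sum_div]
        refine sum_congr rfl fun n _ => ?_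
        simp only [hω]
        push_cast
        field_simp
      obtain ⟨h1, h2⟩ := hhat t ht
      rw [e]
      refine ⟨by rw [Complex.div_ofReal_im, h1, zero_div], ?_⟩
      rw [norm_div, Complex.norm_real, Real.norm_eq_abs, abs_of_pos hZ0, div_le_iff₀ hZ0]
      have h3 : Real.sqrt p ≤ q * p := by rwa [div_le_iff₀ hp0] at hqp
      calc ‖∑ n ∈ range p, (w n : ℂ) * ch p (t * h.eval (n : ℤ))‖ ≤ (Cn : ℝ) * Real.sqrt p := h2
        _ ≤ Cn * (q * p) := mul_le_mul_of_nonneg_left h3 hC0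
        _ = 2 * Cn * q * (p / 2) := by ring
        _ ≤ 2 * Cn * q * Z := mul_le_mul_of_nonneg_left hZlow (by positivity)
    · rw [if_neg (by omega), Curve.good_avg_zero hp i hi2 t ht (fun n => (ω n : ℂ))
        (fun n => by simp only []; rw [hωper n]) (fun r hr => by simp [hω, hwc r hr])]
      simp
  have hplain : ∀ i, 1 ≤ i → ∀ t : ℤ, ¬ (p : ℤ) ∣ t →
      ‖avg (p ^ i) (fun n => ch (p ^ i) (t * h.eval (n : ℤ)))‖ ≤ k * q := by
    intro i hi t ht
    have hdeg : (Polynomial.C t * h).natDegree ≤ k := natDegree_C_mul_le _ _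
    have hlead : ¬ (p : ℤ) ∣ (Polynomial.C t * h).coeff k := by
      rw [coeff_C_mul]
      intro hd
      rcases (Nat.prime_iff_prime_int.mp hp).dvd_or_dvd hd with h1 | h1
      · exact ht h1
      · exact hpl h1
    have hk0 : (0 : ℝ) ≤ k := Nat.cast_nonneg k
    rcases Nat.eq_or_lt_of_le hi with hi1 | hi2
    · subst hi1
      rw [pow_one]
      have h1 := Gen.Mid.prime_sum hp (Polynomial.C t * h) hk hdeg hlead
      simp only [eval_mul, eval_C] at h1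
      refine h1.trans (mul_le_mul_of_nonneg_left ?_ hk0)
      refine le_trans (le_of_eq ?_) hqp
      rw [Gen.Sq.rp, Real.sqrt_div_self', one_div]
    · have h1 := Gen.Mid.power_sum hp (Polynomial.C t * h) hk hkp hdeg hlead hi2
      simp only [eval_mul, eval_C] at h1
      refine h1.trans ?_
      have h2 : (1 : ℝ) / p ≤ q := by
        refine le_trans ?_ hqp
        rw [div_le_div_iff_of_pos_right hp0]
        exact Real.one_le_sqrt.mpr hp1
      calc (k : ℝ) / p = k * (1 / p) := by ring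
        _ ≤ k * q := mul_le_mul_of_nonneg_left h2 hk0
  have havgf : ∀ i (t : ℤ), avg (p ^ i) (fun n => (f n : ℂ) * ch (p ^ i) (t * h.eval (n : ℤ)))
      = ((1 - π : ℝ) : ℂ) * (avg (p ^ i) (fun n => (ω n : ℂ) * ch (p ^ i) (t * h.eval (n : ℤ)))
          - avg (p ^ i) (fun n => ch (p ^ i) (t * h.eval (n : ℤ)))) := by
    intro i t
    simp only [avg, ← sub_div, ← sum_sub_distrib, ← mul_div_assoc, mul_sum, hf]
    congr 1
    refine sum_congr rfl fun n _ => ?_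
    push_cast; ring
  have havgd : ∀ i j (t : ℤ), avg (p ^ i) (fun n => (d j n : ℂ) * ch (p ^ i) (t * h.eval (n : ℤ)))
      = (π : ℂ) * avg (p ^ i) (fun n => (d0 σ z 1 j n : ℂ) * ch (p ^ i) (t * h.eval (n : ℤ)))
        + if j = 1 then avg (p ^ i) (fun n => (f n : ℂ) * ch (p ^ i) (t * h.eval (n : ℤ))) else 0 := by
    intro i j t
    simp only [hd]
    rw [avg_smul_add]
    congr 1
    split_ifs with hj <;> simp [avg]
  refine ⟨d, fun j n => ?_, fun j hj n => ?_, fun j hj n => ?_, fun i j hj hji t ht => ?_,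
    fun i hi t ht => ?_⟩
  · simp only [hd]
    rw [hper j n]
    split_ifs with hj
    · subst hj; simp only [hf]; rw [pow_one, hωper n]
    · rfl
  · simp only [hd]
    rw [sum_add_distrib, ← mul_sum, hmean j hj n, mul_zero, zero_add]
    split_ifs with hj1
    · subst hj1
      simp only [hf, ← mul_sum, sum_sub_distrib, Nat.sub_self, pow_zero, one_mul, hω, ← sum_div]
      have hsh : ∑ s ∈ range p, w (n + s) = Z := by
        apply Complex.ofReal_injective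
        rw [hZ]; push_cast
        rw [← sum_shift (fun s => (w s : ℂ)) p n (fun s => by simp only []; rw [hwper s])]
        exact sum_congr rfl fun s _ => by rw [add_comm]
      rw [hsh, sum_const, card_range, nsmul_eq_mul, mul_div_assoc, div_self hZ0.ne']
      simp
    · simp
  · simp only [hd]
    have h1 : |π * d0 σ z 1 j n| ≤ ((p ^ j : ℕ) : ℝ) := by
      rw [abs_mul, abs_of_nonneg hπ0]
      exact (mul_le_of_le_one_left (abs_nonneg _) hπ1).trans (hsup j hj n)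
    have hkp' : (k : ℝ) ≤ p := by exact_mod_cast hkp.le
    have h2 : |if j = 1 then f n else 0| ≤ 2 * ((p ^ j : ℕ) : ℝ) := by
      split_ifs with hj1
      · subst hj1
        rw [pow_one]
        have hω0 : 0 ≤ ω n := by simp only [hω]; have := (hw n).1; positivity
        have hω2 : ω n ≤ 2 * p := by
          simp only [hω]
          rw [div_le_iff₀ hZ0]
          calc (p : ℝ) * w n ≤ p * p := mul_le_mul_of_nonneg_left ((hw n).2.trans hkp') hp0.le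
            _ = 2 * p * (p / 2) := by ring
            _ ≤ 2 * p * Z := mul_le_mul_of_nonneg_left hZlow (by positivity)
        simp only [hf, abs_mul, abs_of_nonneg (sub_nonneg.mpr hπ1)]
        refine (mul_le_of_le_one_left (abs_nonneg _) (by linarith)).trans ?_
        rw [abs_le]; constructor <;> linarith
      · simp
    have hpj : (2 : ℝ) ≤ ((p ^ j : ℕ) : ℝ) := by
      exact_mod_cast le_trans hp.two_le (Nat.le_self_pow (by omega) p)
    refine (abs_add_le _ _).trans ((add_le_add h1 h2).trans ?_)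
    calc _ = 3 * ((p ^ j : ℕ) : ℝ) := by ring
      _ ≤ ((p ^ j : ℕ) : ℝ) ^ 2 * ((p ^ j : ℕ) : ℝ) :=
        mul_le_mul_of_nonneg_right (by nlinarith) (by positivity)
      _ = _ := by ring
  · rw [havgd]
    refine (norm_add_le _ _).trans ?_
    have hρ : (((p ^ j : ℕ)) : ℝ) ^ (-σ) = ρp σ p ^ j := by
      push_cast; rw [ρp, Real.rpow_pow_comm (Nat.cast_nonneg p)]
    rw [hρ]
    have hqρ : q ≤ ρp σ p := Real.rpow_le_rpow_of_exponent_le hp1 (by linarith)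
    have hρ0 : 0 ≤ ρp σ p := by unfold ρp; positivity
    have h1 : ‖(π : ℂ) * avg (p ^ i) (fun n => (d0 σ z 1 j n : ℂ) * ch (p ^ i) (t * h.eval (n : ℤ)))‖
        ≤ (2 * (2 * (Cn : ℝ) + 1)) * ρp σ p ^ j := by
      rw [norm_mul, Complex.norm_real, Real.norm_eq_abs, abs_of_nonneg hπ0]
      refine (mul_le_mul_of_nonneg_left (hdec i j hj hji t) hπ0).trans ?_
      calc π * (2 * ρp σ p ^ (j - 1)) = 2 * (2 * (Cn : ℝ) + 1) * (q * ρp σ p ^ (j - 1)) := by
            rw [hπ]; ring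
        _ ≤ 2 * (2 * (Cn : ℝ) + 1) * (ρp σ p * ρp σ p ^ (j - 1)) := by
            exact mul_le_mul_of_nonneg_left (mul_le_mul_of_nonneg_right hqρ (by positivity)) (by positivity)
        _ = _ := by rw [← pow_succ', Nat.sub_add_cancel hj]
    have h2 : ‖if j = 1 then avg (p ^ i) (fun n => (f n : ℂ) * ch (p ^ i) (t * h.eval (n : ℤ))) else 0‖
        ≤ (2 * (Cn : ℝ) + k) * ρp σ p ^ j := by
      split_ifs with hj1
      · subst hj1
        rw [havgf, norm_mul, Complex.norm_real, Real.norm_eq_abs, abs_of_nonneg (sub_nonneg.mpr hπ1),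
          pow_one]
        refine (mul_le_of_le_one_left (norm_nonneg _) (by linarith)).trans ?_
        refine (norm_sub_le _ _).trans ((add_le_add (havgω i hji t ht).2 (hplain i hji t ht)).trans ?_)
        have h3 : (if i = 1 then 2 * (Cn : ℝ) * q else 0) ≤ 2 * Cn * q := by
          split_ifs <;> [exact le_rfl; positivity]
        calc _ ≤ 2 * (Cn : ℝ) * q + k * q := add_le_add h3 le_rfl
          _ = (2 * (Cn : ℝ) + k) * q := by ring
          _ ≤ _ := mul_le_mul_of_nonneg_left hqρ (by positivity)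
      · rw [norm_zero]; positivity
    refine (add_le_add h1 h2).trans ?_
    rw [← add_mul]
    refine mul_le_mul_of_nonneg_right ?_ (by positivity)
    push_cast
    linarith [Nat.cast_nonneg (α := ℝ) k]
  · obtain ⟨him, hre, hone⟩ := hpos i hi t ht
    obtain ⟨hωim, hωn⟩ := havgω i hi t ht
    set M := avg (p ^ i) (fun n => ch (p ^ i) (t * h.eval (n : ℤ))) + ∑ j ∈ Icc 1 i,
        avg (p ^ i) (fun n => (d0 σ z 1 j n : ℂ) * ch (p ^ i) (t * h.eval (n : ℤ))) with hM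
    set Ω := avg (p ^ i) (fun n => (ω n : ℂ) * ch (p ^ i) (t * h.eval (n : ℤ))) with hΩ
    have e : avg (p ^ i) (fun n => ch (p ^ i) (t * h.eval (n : ℤ))) + ∑ j ∈ Icc 1 i,
        avg (p ^ i) (fun n => (d j n : ℂ) * ch (p ^ i) (t * h.eval (n : ℤ)))
        = (π : ℂ) * M + ((1 - π : ℝ) : ℂ) * Ω := by
      rw [sum_congr rfl (fun j _ => havgd i j t), sum_add_distrib, ← mul_sum, sum_ite_eq' (Icc 1 i) 1,
        if_pos (mem_Icc.mpr ⟨le_rfl, hi⟩), havgf, ← hΩ, hM]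
      push_cast; ring
    rw [e]
    refine ⟨by rw [Complex.add_im, Complex.im_ofReal_mul, Complex.im_ofReal_mul, him, hωim]; ring, ?_⟩
    rw [Complex.add_re, Complex.re_ofReal_mul, Complex.re_ofReal_mul]
    have hb := (abs_le.mp ((Complex.abs_re_le_norm Ω).trans hωn)).1
    by_cases hi1 : i = 1
    · rw [if_pos hi1] at hb
      rw [hone hi1 rfl, Complex.one_re, mul_one]
      have h4 : 2 * (Cn : ℝ) * q ≤ π := by rw [hπ]; linarith
      have h5 := mul_le_mul_of_nonneg_left hb (sub_nonneg.mpr hπ1)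
      have h6 : (1 - π) * (2 * (Cn : ℝ) * q) ≤ 2 * Cn * q :=
        mul_le_of_le_one_left (by positivity) (by linarith)
      linarith
    · rw [if_neg hi1] at hb
      have := mul_nonneg hπ0 hre
      have := mul_nonneg (sub_nonneg.mpr hπ1) (show 0 ≤ Ω.re by linarith)
      linarith

end Prime

open Classical in
/-- Local densities exist as soon as every prime has a suitable root. -/
theorem root_local (h : ℤ[X]) (hk : 2 ≤ h.natDegree) (hl : 0 < h.leadingCoeff) (hs : RootCond h) :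
    Nonempty (LocalData h) := by
  set k := h.natDegree with hkdef
  have hh : h ≠ 0 := ne_zero_of_natDegree_gt (show 0 < h.natDegree by omega)
  obtain ⟨D, hD, hdisc⟩ := disc_bound h hh
  obtain ⟨σ, hσ, hσ4, hmix⟩ := mix_exists k
  obtain ⟨Cw, hW⟩ := weight_stmt k (by omega)
  obtain ⟨Cn, hCn⟩ := exists_nat_ge Cw
  set P₀ := (h.leadingCoeff * D).natAbs + k + (2 * Cn + 1) ^ 4 with hP₀
  set C₁ : ℝ := ((6 * Cn + 3 + 2 * k : ℕ) : ℝ) with hC₁
  have hprime : ∀ p : ℕ, ∃ C : ℝ, ∃ d : ℕ → ℕ → ℝ, p.Prime → GoodAt h σ C p d ∧ (P₀ < p → C = C₁) := by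
    intro p
    by_cases hp : p.Prime
    swap
    · exact ⟨0, fun _ _ => 0, fun h' => absurd h' hp⟩
    haveI := Fact.mk hp
    obtain ⟨z, hz, ζ, hζ⟩ := hs p
    set P := h.map (Int.castRingHom ℤ_[p]) with hP
    have hP0 : P ≠ 0 := (Polynomial.map_ne_zero_iff (RingHom.injective_int _)).mpr hh
    set e := P.rootMultiplicity z with he'
    have he : 1 ≤ e := (rootMultiplicity_pos hP0).mpr hz
    obtain ⟨H, hfac, hnd⟩ := exists_eq_pow_rootMultiplicity_mul_and_not_dvd P hP0 z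
    have hH0 : H.eval z ≠ 0 := fun h0 => hnd (dvd_iff_isRoot.mpr h0)
    have hek : e ≤ k := by
      have h1 := congrArg Polynomial.natDegree hfac
      rw [Polynomial.natDegree_mul (pow_ne_zero _ (X_sub_C_ne_zero z)) (fun h0 => hH0 (by rw [h0, eval_zero])),
        natDegree_pow, natDegree_X_sub_C, mul_one] at h1
      have h2 : P.natDegree ≤ k := natDegree_map_le
      omega
    obtain ⟨J, hJ1, hJbig, hper, hmean, hsup, hdec, hpos⟩ :=
      mix_data h z e he H hfac hH0 ζ hζ hek σ hσ hmix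
    by_cases hbig : P₀ < p
    · have h0 : ¬ (p : ℤ) ∣ h.leadingCoeff * D := by
        intro hdv
        have h2 := Int.natAbs_dvd_natAbs.mpr hdv
        simp only [Int.natAbs_natCast] at h2
        have := Nat.le_of_dvd (Int.natAbs_pos.mpr (mul_ne_zero hl.ne' hD)) h2
        omega
      have hpl : ¬ (p : ℤ) ∣ h.leadingCoeff := fun h' => h0 (h'.mul_right _)
      have hDu : IsUnit (D : ℤ_[p]) := by
        rw [PadicInt.isUnit_iff]
        refine le_antisymm (PadicInt.norm_le_one _) (not_lt.mp fun hlt => h0 (Dvd.dvd.mul_left ?_ _))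
        exact (PadicInt.norm_int_lt_one_iff_dvd D).mp hlt
      have hHu : IsUnit (H.eval z) := by
        rw [← eval_hasse_mult hfac]
        refine isUnit_of_dvd_unit (hdisc p z e hek hz ?_) hDu
        rw [eval_hasse_mult hfac]; exact hH0
      have hpe : ¬ p ∣ e := fun hd => by have := Nat.le_of_dvd he hd; omega
      have hCp : Cn ≤ p := le_trans (le_trans (by omega) (Nat.le_self_pow (by norm_num : 4 ≠ 0) _))
        (le_trans (Nat.le_add_left _ _) hbig.le)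
      obtain ⟨w, hwper, hw, hwc, hhat, htot⟩ :=
        weight_nat (h := h) Cn hCn hCp hW rfl hpl z e he H hfac hHu ζ hζ
      obtain ⟨d, hd⟩ := big_prime (h := h) z J σ hσ hσ4 Cn (by omega) (by omega) (by omega) hpl
        (hJbig ⟨hHu, hpe⟩) hper hmean hsup hdec hpos w hwper hw hwc hhat htot
      exact ⟨C₁, d, fun _ => ⟨hd, fun _ => rfl⟩⟩
    · refine ⟨2 * ((p : ℝ) ^ J), d0 σ z J, fun _ => ⟨⟨hper, hmean, fun j hj n => ?_,
        fun i j hj hji t _ => ?_, fun i hi t ht => ⟨(hpos i hi t ht).1, (hpos i hi t ht).2.1⟩⟩,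
        fun h' => absurd h' hbig⟩⟩
      · exact (hsup j hj n).trans (le_self_pow₀ (by exact_mod_cast Nat.one_le_pow _ _ hp.pos) (by norm_num))
      · refine (hdec i j hj hji t).trans ?_
        rw [mul_assoc]
        refine mul_le_mul_of_nonneg_left ?_ (by norm_num)
        have hp1 : (1 : ℝ) ≤ p := by exact_mod_cast hp.one_lt.le
        have hρ0 : 0 < ρp σ p := by unfold ρp; positivity
        have hρ1 : ρp σ p ≤ 1 := Real.rpow_le_one_of_one_le_of_nonpos hp1 (by linarith)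
        have hρp : 1 ≤ (p : ℝ) * ρp σ p := by
          rw [ρp, ← Real.rpow_one_add' (by linarith) (by linarith)]
          exact Real.one_le_rpow hp1 (by linarith)
        rw [show (((p ^ j : ℕ)) : ℝ) ^ (-σ) = ρp σ p ^ j by
          push_cast; rw [ρp, Real.rpow_pow_comm (Nat.cast_nonneg p)]]
        rcases Nat.le_or_le J j with hJj | hjJ
        · calc ρp σ p ^ (j - J) = 1 * ρp σ p ^ (j - J) := (one_mul _).symm
            _ ≤ ((p : ℝ) * ρp σ p) ^ J * ρp σ p ^ (j - J) :=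
                mul_le_mul_of_nonneg_right (one_le_pow₀ hρp) (by positivity)
            _ = _ := by rw [mul_pow, mul_assoc, ← pow_add, Nat.add_sub_cancel' hJj]
        · rw [Nat.sub_eq_zero_of_le hjJ, pow_zero]
          calc (1 : ℝ) ≤ ((p : ℝ) * ρp σ p) ^ j := one_le_pow₀ hρp
            _ = (p : ℝ) ^ j * ρp σ p ^ j := mul_pow _ _ _
            _ ≤ _ := mul_le_mul_of_nonneg_right (pow_le_pow_right₀ hp1 hjJ) (by positivity)
  choose Cp d hd using hprime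
  set T := insert C₁ ((range (P₀ + 1)).image Cp) with hT
  set C₀ := T.max' (insert_nonempty _ _) with hC₀
  have hC1 : (1 : ℝ) ≤ C₀ := by
    refine le_trans ?_ (le_max' T C₁ (mem_insert_self _ _))
    rw [hC₁]; exact_mod_cast (show 1 ≤ 6 * Cn + 3 + 2 * k by omega)
  have hCle : ∀ p, p.Prime → Cp p ≤ C₀ := by
    intro p hp
    by_cases hbig : P₀ < p
    · rw [(hd p hp).2 hbig]; exact le_max' T C₁ (mem_insert_self _ _)
    · exact le_max' T _ (mem_insert_of_mem (mem_image_of_mem _ (mem_range.mpr (by omega))))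
  exact localData_of_goodAt C₀ hC1 hσ d (fun p hp => (hd p hp).1) hCle

/-- Power saving when every prime has a root at which `-1` is a power of the multiplicity. -/
theorem power_saving_root (h : ℤ[X]) (hk : 2 ≤ h.natDegree) (hl : 0 < h.leadingCoeff)
    (hs : RootCond h) :
    ∃ c : ℝ, 0 < c ∧ ∃ C : ℝ, ∀ N : ℕ, ∀ A : Finset ℕ, A ⊆ Icc 1 N →
      (∀ x ∈ A, ∀ y ∈ A, ∀ n : ℕ, 1 ≤ n → (x : ℤ) - y = h.eval (n : ℤ) → x = y) →
      (A.card : ℝ) ≤ C * (N : ℝ) ^ (1 - c) := by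
  obtain ⟨L⟩ := root_local h hk hl hs
  exact core L hk hl 1

end Vale.Agent.P042.Branch
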