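import Vale.Agent.P042.Local

namespace Vale.Agent.P042

open Finset Polynomial

lemma sum_ee_div (M : ℕ) (d : ℤ) (hM : 1 ≤ M) (hd : |d| < (M : ℤ)) :
    ∑ j ∈ range M, ee ((j : ℝ) / M * d) = if d = 0 then (M : ℂ) else 0 := by
  split_ifs with h
  · subst h; simp [ee_zero]
  have hM0 : (M : ℝ) ≠ 0 := by exact_mod_cast (by omega : M ≠ 0)
  have e : ∀ j : ℕ, ee ((j : ℝ) / M * d) = ee ((d : ℝ) / M) ^ j := by
    intro j; rw [← ee_nat_mul]; congr 1; field_simp
  simp only [e]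
  have hne : ee ((d : ℝ) / M) ≠ 1 := by
    intro h1
    unfold ee at h1
    rw [Complex.exp_eq_one_iff] at h1
    obtain ⟨n, hn⟩ := h1
    have h2 := congrArg Complex.im hn
    simp at h2
    have h3 : (d : ℝ) = ((n * M : ℤ) : ℝ) := by
      field_simp at h2; push_cast; linarith
    have h4 : d = n * M := by exact_mod_cast h3
    have : n = 0 := by
      by_contra hn0
      have : (M : ℤ) ≤ |d| := by
        rw [h4, abs_mul, abs_of_nonneg (by positivity : (0:ℤ) ≤ M)]
        exact le_mul_of_one_le_left (by positivity) (Int.one_le_abs hn0)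
      omega
    subst this; simp at h4; exact h h4
  have h5 : (∑ j ∈ range M, ee ((d : ℝ) / M) ^ j) * (ee ((d : ℝ) / M) - 1) = 0 := by
    rw [geom_sum_mul, ← ee_nat_mul, show (M : ℝ) * ((d : ℝ) / M) = (d : ℝ) by field_simp, ee_int,
      sub_self]
  exact (mul_eq_zero.mp h5).resolve_right (sub_ne_zero.mpr hne)

/-- The linear programming bound. -/
lemma lp_bound (A : Finset ℕ) (N V : ℕ) (S : Finset ℕ) (v : ℕ → ℤ) (b : ℕ → ℝ) (E : ℝ)
    (hA : A ⊆ Icc 1 N) (hv : ∀ n ∈ S, 0 < v n ∧ v n ≤ (V : ℤ))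
    (hne : ∀ x ∈ A, ∀ y ∈ A, ∀ n ∈ S, (x : ℤ) - y ≠ v n)
    (hT : ∀ α : ℝ, -E ≤ (∑ n ∈ S, (b n : ℂ) * ee (α * v n)).re) :
    (A.card : ℝ) * ((∑ n ∈ S, b n) + E) ≤ E * ((N + V + 1 : ℕ) : ℝ) ∨ A.card = 0 := by
  rcases Nat.eq_zero_or_pos A.card with h0 | hpos
  · exact Or.inr h0
  left
  set M := N + V + 1 with hM
  have hM1 : 1 ≤ M := by omega
  set F : ℝ → ℂ := fun α => ∑ x ∈ A, ee (α * x) with hF
  set T : ℝ → ℂ := fun α => ∑ n ∈ S, (b n : ℂ) * ee (α * v n) with hTdef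
  set J : ℕ → ℝ := fun j => (F ((j : ℝ) / M) * (starRingEnd ℂ) (F ((j : ℝ) / M))
    * (T ((j : ℝ) / M) + (E : ℂ))).re with hJ
  have hbd : ∀ x ∈ A, 1 ≤ x ∧ x ≤ N := fun x hx => mem_Icc.mp (hA hx)
  have hFF : ∀ α, F α * (starRingEnd ℂ) (F α) = ∑ x ∈ A, ∑ y ∈ A, ee (α * (((x : ℤ) - y : ℤ) : ℝ)) := by
    intro α
    simp only [hF, map_sum, sum_mul_sum]
    refine sum_congr rfl fun x _ => sum_congr rfl fun y _ => ?_
    rw [ee_conj, ← ee_add]; congr 1; push_cast; ring
  have h1 : ∀ j ∈ range M, 0 ≤ J j := by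
    intro j _
    simp only [hJ]
    rw [Complex.mul_conj, Complex.re_ofReal_mul, Complex.add_re, Complex.ofReal_re]
    have h := hT ((j : ℝ) / M)
    exact mul_nonneg (Complex.normSq_nonneg _) (by simp only [hTdef]; linarith)
  have h2 : J 0 = (A.card : ℝ) ^ 2 * ((∑ n ∈ S, b n) + E) := by
    have hF0 : F ((0 : ℕ) / (M : ℝ)) = (((A.card : ℝ)) : ℂ) := by simp [hF, ee_zero]
    have hT0 : T ((0 : ℕ) / (M : ℝ)) = (((∑ n ∈ S, b n) : ℝ) : ℂ) := by simp [hTdef, ee_zero]
    simp only [hJ]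
    rw [hF0, hT0, Complex.conj_ofReal, ← Complex.ofReal_mul, ← Complex.ofReal_add,
      ← Complex.ofReal_mul, Complex.ofReal_re, sq]
  have h3 : ∑ j ∈ range M, J j = (A.card : ℝ) * E * M := by
    have e1 : ∑ j ∈ range M, F ((j : ℝ) / M) * (starRingEnd ℂ) (F ((j : ℝ) / M))
        * (T ((j : ℝ) / M) + (E : ℂ)) = ((A.card : ℝ) * E * M : ℝ) := by
      have e2 : ∑ j ∈ range M, F ((j : ℝ) / M) * (starRingEnd ℂ) (F ((j : ℝ) / M))
          * T ((j : ℝ) / M) = 0 := by
        have : ∀ j : ℕ, F ((j : ℝ) / M) * (starRingEnd ℂ) (F ((j : ℝ) / M)) * T ((j : ℝ) / M)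
            = ∑ x ∈ A, ∑ y ∈ A, ∑ n ∈ S, (b n : ℂ) *
              ee ((j : ℝ) / M * (((x : ℤ) - y + v n : ℤ) : ℝ)) := by
          intro j
          rw [hFF, hTdef, sum_mul]
          refine sum_congr rfl fun x _ => ?_
          rw [sum_mul]
          refine sum_congr rfl fun y _ => ?_
          rw [mul_sum]
          refine sum_congr rfl fun n _ => ?_
          rw [mul_left_comm, ← ee_add]; congr 2; push_cast; ring
        rw [sum_congr rfl fun j _ => this j, sum_comm]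
        refine sum_eq_zero fun x hx => ?_
        rw [sum_comm]
        refine sum_eq_zero fun y hy => ?_
        rw [sum_comm]
        refine sum_eq_zero fun n hn => ?_
        rw [← mul_sum]
        have hx' := hbd x hx
        have hy' := hbd y hy
        have hn' := hv n hn
        rw [sum_ee_div M _ hM1 (by rw [abs_lt]; omega), if_neg (fun h => hne y hy x hx n hn (by omega)),
          mul_zero]
      have e3 : ∑ j ∈ range M, F ((j : ℝ) / M) * (starRingEnd ℂ) (F ((j : ℝ) / M))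
          = (A.card : ℂ) * M := by
        simp only [hFF]
        rw [sum_comm]
        have : ∀ x ∈ A, ∑ j ∈ range M, ∑ y ∈ A, ee ((j : ℝ) / M * (((x : ℤ) - y : ℤ) : ℝ))
            = (M : ℂ) := by
          intro x hx
          rw [sum_comm, sum_eq_single_of_mem x hx]
          · rw [sum_ee_div M _ hM1 (by simp; omega), if_pos (sub_self _)]
          · intro y hy hyx
            have hx' := hbd x hx
            have hy' := hbd y hy
            rw [sum_ee_div M _ hM1 (by rw [abs_lt]; omega), if_neg (by omega)]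
        rw [sum_congr rfl this, sum_const, nsmul_eq_mul]
      simp only [mul_add]
      rw [sum_add_distrib, e2, ← sum_mul, e3, zero_add]
      push_cast; ring
    rw [← Complex.re_sum] at *
    rw [e1, Complex.ofReal_re]
  have h4 : J 0 ≤ ∑ j ∈ range M, J j := single_le_sum h1 (mem_range.mpr (by omega))
  rw [h2, h3] at h4
  have hposR : (0 : ℝ) < A.card := by exact_mod_cast hpos
  nlinarith

/-- `g` as a real polynomial. -/
noncomputable def rpoly (g : ℤ[X]) : ℝ[X] := g.map (Int.castRingHom ℝ)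

lemma rpoly_eval (g : ℤ[X]) (n : ℕ) : (rpoly g).eval (n : ℝ) = ((g.eval (n : ℤ) : ℤ) : ℝ) := by
  have := eval_map_apply (Int.castRingHom ℝ) (p := g) (n : ℤ)
  rw [rpoly]
  simpa using this

lemma eval_bound (P : ℝ[X]) (m : ℕ) (hP : P.natDegree ≤ m) :
    ∃ H : ℝ, 0 ≤ H ∧ ∀ x : ℝ, 1 ≤ x → |P.eval x| ≤ H * x ^ m := by
  refine ⟨∑ i ∈ range (m + 1), |P.coeff i|, sum_nonneg fun _ _ => abs_nonneg _, fun x hx => ?_⟩
  rw [eval_eq_sum_range' (Nat.lt_succ_of_le hP), sum_mul]
  refine (abs_sum_le_sum_abs _ _).trans (sum_le_sum fun i hi => ?_)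
  rw [abs_mul, abs_pow, abs_of_nonneg (by linarith : (0:ℝ) ≤ x)]
  exact mul_le_mul_of_nonneg_left
    (pow_le_pow_right₀ hx (Nat.lt_succ_iff.mp (mem_range.mp hi))) (abs_nonneg _)

lemma eval_lower (P : ℝ[X]) (hP : 1 ≤ P.natDegree) (hl : 0 < P.leadingCoeff) :
    ∃ x₀ : ℕ, 1 ≤ x₀ ∧ ∀ x : ℝ, (x₀ : ℝ) ≤ x → P.leadingCoeff / 2 * x ^ P.natDegree ≤ P.eval x := by
  obtain ⟨H, hH, hHb⟩ := eval_bound P.eraseLead (P.natDegree - 1) P.eraseLead_natDegree_le
  obtain ⟨N, hN⟩ := exists_nat_ge (2 * H / P.leadingCoeff)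
  refine ⟨N + 1, by omega, fun x hx => ?_⟩
  push_cast at hx
  have hN0 : (0 : ℝ) ≤ N := Nat.cast_nonneg N
  have hx1 : 1 ≤ x := by linarith
  have h1 := hHb x hx1
  have h2 : P.eval x = P.eraseLead.eval x + P.leadingCoeff * x ^ P.natDegree := by
    have := congrArg (eval x) P.eraseLead_add_monomial_natDegree_leadingCoeff
    rw [eval_add, eval_monomial] at this
    exact this.symm
  have h3 : 2 * H ≤ P.leadingCoeff * x := by
    rw [div_le_iff₀ hl] at hN
    nlinarith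
  have h4 : x ^ P.natDegree = x ^ (P.natDegree - 1) * x := by
    rw [← pow_succ]; congr 1; omega
  have h5 : 0 ≤ x ^ (P.natDegree - 1) := by positivity
  rw [h2]
  have := neg_abs_le (P.eraseLead.eval x)
  rw [h4]
  nlinarith

/-- The Fejer weight, transported by `g`. -/
noncomputable def wgt (g : ℤ[X]) (U x : ℝ) : ℝ :=
  (rpoly g).derivative.eval x * (1 - (rpoly g).eval x / U)

/-- The derivative of `wgt`. -/
noncomputable def wgt' (g : ℤ[X]) (U x : ℝ) : ℝ :=
  (rpoly g).derivative.derivative.eval x * (1 - (rpoly g).eval x / U)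
    - (rpoly g).derivative.eval x * ((rpoly g).derivative.eval x / U)

lemma wgt_hasDerivAt (g : ℤ[X]) (U x : ℝ) : HasDerivAt (wgt g U) (wgt' g U x) x := by
  have h := ((rpoly g).derivative.hasDerivAt x).mul
    ((((rpoly g).hasDerivAt x).div_const U).const_sub 1)
  refine h.congr_deriv ?_
  simp only [wgt']
  ring

/-- An antiderivative of `(1 - u/U) e(βu)`. -/
noncomputable def prim (β U u : ℝ) : ℂ :=
  if β = 0 then ((u - u ^ 2 / (2 * U) : ℝ) : ℂ)
  else ((1 - u / U : ℝ) : ℂ) * ee (β * u) / (Complex.I * ((2 * Real.pi * β : ℝ) : ℂ))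
    + ee (β * u) / ((U : ℂ) * (Complex.I * ((2 * Real.pi * β : ℝ) : ℂ)) ^ 2)

lemma ee_hasDerivAt (β u : ℝ) :
    HasDerivAt (fun t : ℝ => ee (β * t)) (ee (β * u) * (Complex.I * ((2 * Real.pi * β : ℝ) : ℂ))) u := by
  have h1 : HasDerivAt (fun t : ℝ => Complex.I * ((2 * Real.pi * (β * t) : ℝ) : ℂ))
      (Complex.I * ((2 * Real.pi * β : ℝ) : ℂ)) u := by
    have h0 : HasDerivAt (fun t : ℝ => 2 * Real.pi * (β * t)) (2 * Real.pi * β) u := by
      simpa using ((hasDerivAt_id u).const_mul β).const_mul (2 * Real.pi)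
    exact (h0.ofReal_comp).const_mul Complex.I
  exact h1.cexp

lemma prim_hasDerivAt (β U u : ℝ) (hU : U ≠ 0) :
    HasDerivAt (prim β U) (((1 - u / U : ℝ) : ℂ) * ee (β * u)) u := by
  unfold prim
  by_cases hβ : β = 0
  · subst hβ
    simp only [if_true, zero_mul, ee_zero, mul_one]
    refine HasDerivAt.ofReal_comp ?_
    have := (hasDerivAt_id u).sub (((hasDerivAt_id u).pow 2).div_const (2 * U))
    refine this.congr_deriv ?_
    simp; field_simp
  · simp only [if_neg hβ]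
    have h1 : HasDerivAt (fun t : ℝ => ((1 - t / U : ℝ) : ℂ)) (((-(1 / U)) : ℝ) : ℂ) u := by
      refine HasDerivAt.ofReal_comp ?_
      simpa using ((hasDerivAt_id u).div_const U).const_sub 1
    have h2 := ee_hasDerivAt β u
    set c := Complex.I * ((2 * Real.pi * β : ℝ) : ℂ) with hc
    have hc0 : c ≠ 0 := mul_ne_zero Complex.I_ne_zero (by
      exact_mod_cast mul_ne_zero (by positivity) hβ)
    refine (((h1.mul h2).div_const c).add (h2.div_const ((U : ℂ) * c ^ 2))).congr_deriv ?_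
    have hU' : (U : ℂ) ≠ 0 := by exact_mod_cast hU
    push_cast
    field_simp
    ring

lemma prim_diff_re_ge (β U u₀ : ℝ) (hU : 1 ≤ U) :
    -(|u₀| + 2 * u₀ ^ 2) ≤ (prim β U U - prim β U u₀).re := by
  by_cases hβ : β = 0
  · subst hβ
    simp only [prim, if_true, Complex.sub_re, Complex.ofReal_re]
    have h1 : U - U ^ 2 / (2 * U) = U / 2 := by field_simp; ring
    have h2 : 0 ≤ u₀ ^ 2 / (2 * U) := by positivity
    rw [h1]
    have := le_abs_self u₀
    nlinarith
  · set b := 2 * Real.pi * β with hb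
    have hb0 : b ≠ 0 := mul_ne_zero (by positivity) hβ
    have hre : ∀ u, (prim β U u).re = (1 - u / U) * Real.sin (b * u) / b
        - Real.cos (b * u) / (U * b ^ 2) := by
      intro u
      simp only [prim, if_neg hβ]
      rw [← hb]
      have e : ee (β * u) = Complex.exp (((b * u : ℝ) : ℂ) * Complex.I) := by
        unfold ee; rw [hb]; congr 1; push_cast; ring
      rw [e, Complex.add_re]
      have e2 : ((U : ℂ) * (Complex.I * (b : ℂ)) ^ 2) = (((-(U * b ^ 2)) : ℝ) : ℂ) := by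
        push_cast; rw [mul_pow, Complex.I_sq]; ring
      rw [e2, Complex.div_ofReal_re, Complex.exp_ofReal_mul_I_re]
      have e3 : ((1 - u / U : ℝ) : ℂ) * Complex.exp (((b * u : ℝ) : ℂ) * Complex.I) / (Complex.I * (b : ℂ))
          = ((((1 - u / U) / b : ℝ)) : ℂ) * (Complex.exp (((b * u : ℝ) : ℂ) * Complex.I) * (-Complex.I)) := by
        rw [div_eq_mul_inv, mul_inv, Complex.inv_I]
        push_cast; ring
      rw [e3, Complex.re_ofReal_mul, Complex.mul_re, Complex.exp_ofReal_mul_I_re,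
        Complex.exp_ofReal_mul_I_im]
      simp
      rw [div_neg]
      ring
    rw [Complex.sub_re, hre, hre, div_self (by positivity : U ≠ 0), sub_self, zero_mul, zero_div]
    have h1 : |(1 - u₀ / U) * Real.sin (b * u₀) / b| ≤ |u₀| + u₀ ^ 2 := by
      rw [abs_div, abs_mul, div_le_iff₀ (abs_pos.mpr hb0)]
      have hs : |Real.sin (b * u₀)| ≤ |b| * |u₀| := by
        rw [← abs_mul]; exact Real.abs_sin_le_abs
      have hv : |1 - u₀ / U| ≤ 1 + |u₀| := by
        refine (abs_sub _ _).trans ?_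
        rw [abs_one, abs_div, abs_of_pos (by linarith : (0:ℝ) < U)]
        linarith [div_le_self (abs_nonneg u₀) hU]
      refine (mul_le_mul hv hs (abs_nonneg _) (by positivity)).trans (le_of_eq ?_)
      rw [← sq_abs u₀]; ring
    have h2 : Real.cos (b * U) / (U * b ^ 2) - Real.cos (b * u₀) / (U * b ^ 2) ≤ u₀ ^ 2 := by
      rw [← sub_div, div_le_iff₀ (by positivity)]
      have := Real.cos_le_one (b * U)
      have h3 := Real.one_sub_sq_div_two_le_cos (x := b * u₀)
      nlinarith [mul_nonneg (mul_nonneg (sq_nonneg u₀) (sq_nonneg b)) (by linarith : (0:ℝ) ≤ U - 1)]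
    have := (abs_le.mp h1).2
    linarith

lemma riemann (Ψ f f' : ℝ → ℂ) (lo hi L : ℝ) (hL : 0 ≤ L)
    (hΨ : ∀ x ∈ Set.Icc lo hi, HasDerivAt Ψ (f x) x)
    (hf : ∀ x ∈ Set.Icc lo hi, HasDerivAt f (f' x) x)
    (hb : ∀ x ∈ Set.Icc lo hi, ‖f' x‖ ≤ L) (D a : ℝ) (hD : 0 ≤ D) (len : ℕ)
    (ha : lo ≤ a) (he : a + D * len ≤ hi) :
    ‖(D : ℂ) * ∑ s ∈ range len, f (a + D * s) - (Ψ (a + D * len) - Ψ a)‖ ≤ len * (L * D ^ 2) := by
  induction len with
  | zero => simp
  | succ n ih =>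
    push_cast at he
    have hn : a + D * n ≤ hi := by linarith
    have hi' := ih hn
    set p := a + D * n with hp
    have hpD : p + D = a + D * ((n : ℝ) + 1) := by rw [hp]; ring
    have hsub : Set.Icc p (p + D) ⊆ Set.Icc lo hi := by
      refine Set.Icc_subset_Icc ?_ (by linarith)
      have : 0 ≤ D * (n : ℝ) := by positivity
      linarith
    have hpmem : p ∈ Set.Icc p (p + D) := ⟨le_rfl, by linarith⟩
    have hqmem : p + D ∈ Set.Icc p (p + D) := ⟨by linarith, le_rfl⟩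
    have hlip : ∀ x ∈ Set.Icc p (p + D), ‖f x - f p‖ ≤ L * D := by
      intro x hx
      refine ((convex_Icc p (p + D)).norm_image_sub_le_of_norm_hasDerivWithin_le
        (fun y hy => (hf y (hsub hy)).hasDerivWithinAt) (fun y hy => hb y (hsub hy)) hpmem hx).trans ?_
      refine mul_le_mul_of_nonneg_left ?_ hL
      rw [Real.norm_eq_abs, abs_of_nonneg (by linarith [hx.1])]; linarith [hx.2]
    have hstep : ‖(D : ℂ) * f p - (Ψ (p + D) - Ψ p)‖ ≤ L * D ^ 2 := by
      have hd : ∀ x ∈ Set.Icc p (p + D),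
          HasDerivWithinAt (fun t : ℝ => Ψ t - (t : ℂ) * f p) (f x - f p) (Set.Icc p (p + D)) x := by
        intro x hx
        refine (((hΨ x (hsub hx))).sub ?_).hasDerivWithinAt
        simpa using ((hasDerivAt_id x).ofReal_comp).mul_const (f p)
      have h := (convex_Icc p (p + D)).norm_image_sub_le_of_norm_hasDerivWithin_le hd hlip hpmem hqmem
      rw [Real.norm_eq_abs, add_sub_cancel_left, abs_of_nonneg hD] at h
      rw [norm_sub_rev]
      calc ‖Ψ (p + D) - Ψ p - (D : ℂ) * f p‖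
          = ‖(Ψ (p + D) - ((p + D : ℝ) : ℂ) * f p) - (Ψ p - (p : ℂ) * f p)‖ := by
            congr 1; push_cast; ring
        _ ≤ L * D * D := h
        _ = L * D ^ 2 := by ring
    rw [sum_range_succ, mul_add, ← hp]
    push_cast
    rw [← hpD, show (D : ℂ) * ∑ s ∈ range n, f (a + D * s) + D * f p - (Ψ (p + D) - Ψ a)
      = ((D : ℂ) * ∑ s ∈ range n, f (a + D * s) - (Ψ p - Ψ a)) + ((D : ℂ) * f p - (Ψ (p + D) - Ψ p))
      by ring, add_mul, one_mul]
    exact (norm_add_le _ _).trans (add_le_add hi' hstep)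

lemma abel (w : ℕ → ℝ) (z : ℕ → ℂ) (F d Z : ℝ) (len : ℕ) (hF : |w len| ≤ F)
    (hd : ∀ s < len, |w (s + 1) - w s| ≤ d) (hZ : ∀ j ≤ len, ‖∑ s ∈ range j, z s‖ ≤ Z) :
    ‖∑ s ∈ range len, (w s : ℂ) * z s‖ ≤ (F + len * d) * Z := by
  have hZ0 : 0 ≤ Z := (norm_nonneg _).trans (hZ 0 (Nat.zero_le _))
  have key : ∀ n, n ≤ len →
      ‖(∑ s ∈ range n, (w s : ℂ) * z s) - (w n : ℂ) * ∑ s ∈ range n, z s‖ ≤ n * d * Z := by
    intro n
    induction n with
    | zero => simp
    | succ m ih =>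
      intro hm
      have h1 := ih (by omega)
      rw [sum_range_succ, sum_range_succ]
      rw [show (∑ s ∈ range m, (w s : ℂ) * z s) + (w m : ℂ) * z m
          - (w (m + 1) : ℂ) * ((∑ s ∈ range m, z s) + z m)
        = ((∑ s ∈ range m, (w s : ℂ) * z s) - (w m : ℂ) * ∑ s ∈ range m, z s)
          + ((w m - w (m + 1) : ℝ) : ℂ) * ((∑ s ∈ range m, z s) + z m) by push_cast; ring]
      refine (norm_add_le _ _).trans ?_
      rw [norm_mul, Complex.norm_real, Real.norm_eq_abs, abs_sub_comm, ← sum_range_succ]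
      have h2 := mul_le_mul (hd m (by omega)) (hZ (m + 1) hm) (norm_nonneg _)
        ((abs_nonneg _).trans (hd m (by omega)))
      push_cast
      linarith
  have h1 := key len le_rfl
  have h2 : ‖(w len : ℂ) * ∑ s ∈ range len, z s‖ ≤ F * Z := by
    rw [norm_mul, Complex.norm_real, Real.norm_eq_abs]
    exact mul_le_mul hF (hZ len le_rfl) (norm_nonneg _) ((abs_nonneg _).trans hF)
  have h3 := norm_le_norm_sub_add (∑ s ∈ range len, (w s : ℂ) * z s)
    ((w len : ℂ) * ∑ s ∈ range len, z s)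
  linarith

/-- The weight is polynomially bounded with its derivative. -/
def Bounds (g : ℤ[X]) (x₀ : ℕ) (H c : ℝ) : Prop :=
  1 ≤ x₀ ∧ 1 ≤ H ∧ 0 < c ∧
    (∀ x : ℝ, (x₀ : ℝ) ≤ x → 0 < (rpoly g).eval x ∧ c * x ^ g.natDegree ≤ (rpoly g).eval x) ∧
    (∀ x : ℝ, 1 ≤ x → |(rpoly g).eval x| ≤ H * x ^ g.natDegree) ∧
    (∀ X : ℕ, x₀ ≤ X → 1 ≤ (rpoly g).eval (X : ℝ)) ∧
    (∀ X : ℕ, x₀ ≤ X → ∀ x : ℝ, 1 ≤ x → x ≤ 2 * X →
      |wgt g ((rpoly g).eval (X : ℝ)) x| ≤ H * (X : ℝ) ^ (g.natDegree - 1) ∧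
      |wgt' g ((rpoly g).eval (X : ℝ)) x| ≤ H * (X : ℝ) ^ (g.natDegree - 2) ∧
      |(rpoly g).derivative.eval x| ≤ H * (X : ℝ) ^ (g.natDegree - 1))

lemma exists_bounds (g : ℤ[X]) (hK : 2 ≤ g.natDegree) (hl : 0 < g.leadingCoeff) :
    ∃ x₀ H c, Bounds g x₀ H c := by
  set G := rpoly g with hG
  set K := g.natDegree with hKdef
  have hinj : Function.Injective (Int.castRingHom ℝ) := Int.cast_injective
  have hdeg : G.natDegree = K := natDegree_map_eq_of_injective hinj g
  have hlc : G.leadingCoeff = (g.leadingCoeff : ℝ) := by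
    rw [hG, rpoly, leadingCoeff_map_of_injective hinj]; simp
  have hlc1 : (1 : ℝ) ≤ G.leadingCoeff := by rw [hlc]; exact_mod_cast hl
  obtain ⟨x₀, hx₀, hlow⟩ := eval_lower G (by omega) (by linarith)
  obtain ⟨H₀, hH₀, hb₀⟩ := eval_bound G K (le_of_eq hdeg)
  obtain ⟨H₁, hH₁, hb₁⟩ := eval_bound G.derivative (K - 1)
    ((natDegree_derivative_le _).trans (by omega))
  obtain ⟨H₂, hH₂, hb₂⟩ := eval_bound G.derivative.derivative (K - 2)
    ((natDegree_derivative_le _).trans (by have := natDegree_derivative_le G; omega))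
  set c := G.leadingCoeff / 2 with hc
  have hc0 : 0 < c := by rw [hc]; linarith
  rw [hdeg] at hlow
  set R := 1 + H₀ * 2 ^ K / c with hR
  have hR1 : 1 ≤ R := by rw [hR]; linarith [show 0 ≤ H₀ * 2 ^ K / c by positivity]
  obtain ⟨N₁, hN₁⟩ := exists_nat_ge (1 / c)
  set P1 := H₁ * 2 ^ (K - 1) with hP1
  set P2 := H₂ * 2 ^ (K - 2) with hP2
  set H := 1 + H₀ + P1 + P1 * R + P2 * R + P1 ^ 2 / c with hH
  have hP10 : 0 ≤ P1 := by positivity
  have hP20 : 0 ≤ P2 := by positivity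
  have hq : 0 ≤ P1 ^ 2 / c := by positivity
  have hp1r : 0 ≤ P1 * R := by positivity
  have hp2r : 0 ≤ P2 * R := by positivity
  refine ⟨max x₀ (N₁ + 1), H, c, le_trans hx₀ (le_max_left _ _), by linarith, hc0, ?_, ?_, ?_, ?_⟩
  · intro x hx
    have hx' : (x₀ : ℝ) ≤ x := le_trans (by exact_mod_cast le_max_left _ _) hx
    have : (1 : ℝ) ≤ x := le_trans (by exact_mod_cast hx₀) hx'
    exact ⟨lt_of_lt_of_le (by positivity) (hlow x hx'), hlow x hx'⟩
  · intro x hx
    exact (hb₀ x hx).trans (mul_le_mul_of_nonneg_right (by linarith) (by positivity))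
  · intro X hX
    have hX1 : N₁ + 1 ≤ X := le_trans (le_max_right _ _) hX
    have hX' : (N₁ : ℝ) + 1 ≤ X := by exact_mod_cast hX1
    have hX0 : (1 : ℝ) ≤ X := by linarith [Nat.cast_nonneg (α := ℝ) N₁]
    refine le_trans ?_ (hlow X (by exact_mod_cast le_trans (le_max_left _ _) hX))
    have : (X : ℝ) ≤ (X : ℝ) ^ K := le_self_pow₀ hX0 (by omega)
    rw [div_le_iff₀ hc0] at hN₁
    nlinarith
  · intro X hX x hx1 hx2
    have hX0 : x₀ ≤ X := le_trans (le_max_left _ _) hX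
    have hXr : (1 : ℝ) ≤ X := by exact_mod_cast le_trans hx₀ hX0
    have hU := hlow X (by exact_mod_cast hX0)
    set U := G.eval (X : ℝ)
    have hUpos : 0 < U := lt_of_lt_of_le (by positivity) hU
    have hG1 : |G.derivative.eval x| ≤ P1 * (X : ℝ) ^ (K - 1) := by
      refine (hb₁ x hx1).trans ?_
      rw [hP1, mul_assoc, ← mul_pow]
      exact mul_le_mul_of_nonneg_left (pow_le_pow_left₀ (by linarith) hx2 _) hH₁
    have hG2 : |G.derivative.derivative.eval x| ≤ P2 * (X : ℝ) ^ (K - 2) := by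
      refine (hb₂ x hx1).trans ?_
      rw [hP2, mul_assoc, ← mul_pow]
      exact mul_le_mul_of_nonneg_left (pow_le_pow_left₀ (by linarith) hx2 _) hH₂
    have hfac : |1 - G.eval x / U| ≤ R := by
      refine (abs_sub _ _).trans ?_
      rw [abs_one, hR, abs_div, abs_of_pos hUpos]
      refine add_le_add le_rfl ?_
      rw [div_le_div_iff₀ hUpos hc0]
      calc |G.eval x| * c ≤ H₀ * (2 * (X : ℝ)) ^ K * c := by
            refine mul_le_mul_of_nonneg_right ((hb₀ x hx1).trans ?_) hc0.le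
            exact mul_le_mul_of_nonneg_left (pow_le_pow_left₀ (by linarith) hx2 _) hH₀
        _ = H₀ * 2 ^ K * (c * (X : ℝ) ^ K) := by rw [mul_pow]; ring
        _ ≤ H₀ * 2 ^ K * U := mul_le_mul_of_nonneg_left hU (by positivity)
    refine ⟨?_, ?_, hG1.trans (mul_le_mul_of_nonneg_right (by linarith) (by positivity))⟩
    · rw [wgt, abs_mul, ← hG]
      refine (mul_le_mul hG1 hfac (abs_nonneg _) (by positivity)).trans ?_
      rw [mul_right_comm]
      exact mul_le_mul_of_nonneg_right (by linarith) (by positivity)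
    · rw [wgt', ← hG]
      refine (abs_sub _ _).trans ?_
      rw [abs_mul, abs_mul, abs_div, abs_of_pos hUpos]
      have t1 := mul_le_mul hG2 hfac (abs_nonneg _) (by positivity)
      have t2 : |G.derivative.eval x| * (|G.derivative.eval x| / U) ≤ P1 ^ 2 / c * (X : ℝ) ^ (K - 2) := by
        rw [mul_div_assoc', div_le_iff₀ hUpos]
        refine (mul_le_mul hG1 hG1 (abs_nonneg _) (by positivity)).trans ?_
        have e : (X : ℝ) ^ (K - 2) * (X : ℝ) ^ K = (X : ℝ) ^ (K - 1) * (X : ℝ) ^ (K - 1) := by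
          rw [← pow_add, ← pow_add]; congr 1; omega
        calc P1 * (X : ℝ) ^ (K - 1) * (P1 * (X : ℝ) ^ (K - 1))
            = P1 ^ 2 / c * c * ((X : ℝ) ^ (K - 1) * (X : ℝ) ^ (K - 1)) := by
              rw [div_mul_cancel₀ _ hc0.ne']; ring
          _ = P1 ^ 2 / c * (X : ℝ) ^ (K - 2) * (c * (X : ℝ) ^ K) := by rw [← e]; ring
          _ ≤ _ := mul_le_mul_of_nonneg_left hU (by positivity)
      have t3 : 0 ≤ (X : ℝ) ^ (K - 2) := by positivity
      nlinarith

end Vale.Agent.P042
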