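import Vale.Agent.P042.Kloo

namespace Vale.Agent.P042.Cubic

open Finset

variable {p : ℕ} [Fact p.Prime]

/-- A cubic map on `ZMod p`. -/
def f (a b c d x : ZMod p) : ZMod p := a * x ^ 3 + b * x ^ 2 + c * x + d

/-- The derivative of the cubic map. -/
def fd (a b c x : ZMod p) : ZMod p := 3 * a * x ^ 2 + 2 * b * x + c

lemma cast_ne_zero {m : ℕ} (hm : 0 < m) (hmp : m < p) : ((m : ℕ) : ZMod p) ≠ 0 := fun h => by
  have h2 := Nat.le_of_dvd hm ((ZMod.natCast_eq_zero_iff m p).mp h)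
  omega

lemma three_ne (hp : 3 < p) : (3 : ZMod p) ≠ 0 := by
  simpa using cast_ne_zero (p := p) (m := 3) (by norm_num) hp

lemma two_ne (hp : 3 < p) : (2 : ZMod p) ≠ 0 := by
  simpa using cast_ne_zero (p := p) (m := 2) (by norm_num) (by omega)

variable {a b c d : ZMod p}

lemma crit_card (hp : 3 < p) (ha : a ≠ 0) :
    (univ.filter fun x : ZMod p => fd a b c x = 0).card ≤ 2 := by
  classical
  by_contra h
  push Not at h
  obtain ⟨x, y, z, hx, hy, hz, hxy, hxz, hyz⟩ := two_lt_card_iff.mp h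
  have hx := (mem_filter.mp hx).2
  have hy := (mem_filter.mp hy).2
  have hz := (mem_filter.mp hz).2
  simp only [fd] at hx hy hz
  have h1 : (x - y) * (3 * a * (x + y) + 2 * b) = 0 := by linear_combination hx - hy
  have h2 : (x - z) * (3 * a * (x + z) + 2 * b) = 0 := by linear_combination hx - hz
  have e1 := (mul_eq_zero.mp h1).resolve_left (sub_ne_zero.mpr hxy)
  have e2 := (mul_eq_zero.mp h2).resolve_left (sub_ne_zero.mpr hxz)
  have h3 : 3 * a * (y - z) = 0 := by linear_combination e1 - e2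
  exact sub_ne_zero.mpr hyz ((mul_eq_zero.mp h3).resolve_left (mul_ne_zero (three_ne hp) ha))

lemma conic_count (hp : 3 < p) {R : ZMod p} (hR : R ≠ 0) :
    (univ.filter fun v : ZMod p × ZMod p => v.1 ^ 2 + 3 * v.2 ^ 2 = R).card ≤ p + 2 := by
  classical
  set T := univ.filter fun v : ZMod p × ZMod p => v.1 ^ 2 + 3 * v.2 ^ 2 = R with hT
  rcases T.eq_empty_or_nonempty with h | ⟨P₀, hP₀⟩
  · simp [h]
  have hP : P₀.1 ^ 2 + 3 * P₀.2 ^ 2 = R := (mem_filter.mp hP₀).2
  set σ : ZMod p × ZMod p → Option (ZMod p) := fun v =>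
    if v.1 = P₀.1 then none else some ((v.2 - P₀.2) / (v.1 - P₀.1)) with hσ
  have hinj : Set.InjOn σ (T.erase P₀ : Set (ZMod p × ZMod p)) := by
    intro v hv w hw he
    rw [coe_erase] at hv hw
    obtain ⟨hvT, hvne⟩ := hv
    obtain ⟨hwT, hwne⟩ := hw
    simp only [Set.mem_singleton_iff] at hvne hwne
    have hv2 : v.1 ^ 2 + 3 * v.2 ^ 2 = R := (mem_filter.mp hvT).2
    have hw2 : w.1 ^ 2 + 3 * w.2 ^ 2 = R := (mem_filter.mp hwT).2
    simp only [hσ] at he
    split_ifs at he with h1 h2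
    · have key : ∀ u : ZMod p × ZMod p, u.1 = P₀.1 → u.1 ^ 2 + 3 * u.2 ^ 2 = R → u ≠ P₀ →
          u = (P₀.1, -P₀.2) := by
        intro u hu1 hu2 hune
        have h3 : 3 * ((u.2 - P₀.2) * (u.2 + P₀.2)) = 0 := by
          rw [hu1] at hu2; linear_combination hu2 - hP
        rcases mul_eq_zero.mp ((mul_eq_zero.mp h3).resolve_left (three_ne hp)) with h4 | h4
        · exact absurd (Prod.ext hu1 (sub_eq_zero.mp h4)) hune
        · exact Prod.ext hu1 (by linear_combination h4)
      rw [key v h1 hv2 hvne, key w h2 hw2 hwne]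
    · have he' := Option.some.inj he
      set m := (v.2 - P₀.2) / (v.1 - P₀.1) with hm
      have hvy : v.2 = P₀.2 + m * (v.1 - P₀.1) := by
        rw [hm, div_mul_cancel₀ _ (sub_ne_zero.mpr h1)]; ring
      have hwy : w.2 = P₀.2 + m * (w.1 - P₀.1) := by
        rw [he', div_mul_cancel₀ _ (sub_ne_zero.mpr (by assumption))]; ring
      have key : ∀ u : ZMod p × ZMod p, u.1 ≠ P₀.1 → u.2 = P₀.2 + m * (u.1 - P₀.1) →
          u.1 ^ 2 + 3 * u.2 ^ 2 = R →
          (u.1 - P₀.1) * (1 + 3 * m ^ 2) + 2 * (P₀.1 + 3 * m * P₀.2) = 0 := by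
        intro u hu1 hu2 hu3
        refine (mul_eq_zero.mp (?_ : (u.1 - P₀.1) * ((u.1 - P₀.1) * (1 + 3 * m ^ 2)
          + 2 * (P₀.1 + 3 * m * P₀.2)) = 0)).resolve_left (sub_ne_zero.mpr hu1)
        rw [hu2] at hu3
        linear_combination hu3 - hP
      have k1 := key v h1 hvy hv2
      have k2 := key w (by assumption) hwy hw2
      have hA : (1 : ZMod p) + 3 * m ^ 2 ≠ 0 := by
        intro hA
        rw [hA, mul_zero, zero_add] at k1
        have k3 := (mul_eq_zero.mp k1).resolve_left (two_ne hp)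
        apply hR
        linear_combination (P₀.1 - 3 * m * P₀.2) * k3 + (3 * P₀.2 ^ 2) * hA - hP
      have h5 : (v.1 - w.1) * (1 + 3 * m ^ 2) = 0 := by linear_combination k1 - k2
      have h6 : v.1 = w.1 := sub_eq_zero.mp ((mul_eq_zero.mp h5).resolve_right hA)
      exact Prod.ext h6 (by rw [hvy, hwy, h6])
  have h1 : (T.erase P₀).card ≤ p + 1 := by
    refine (card_le_card_of_injOn σ (fun v _ => mem_univ (σ v)) hinj).trans ?_
    rw [card_univ, Fintype.card_option, ZMod.card]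
  rw [card_erase_of_mem hP₀] at h1
  omega

lemma fiber_le (hp : 3 < p) (ha : a ≠ 0) (v : ZMod p) :
    (univ.filter fun x => f a b c d x = v).card ≤ 3 := by
  classical
  by_contra h
  push Not at h
  obtain ⟨S, hS, hS3⟩ := exists_subset_card_eq (n := 4) (by omega :
    4 ≤ (univ.filter fun x => f a b c d x = v).card)
  obtain ⟨x, hx⟩ := card_pos.mp (by omega : 0 < S.card)
  have hfx : f a b c d x = v := (mem_filter.mp (hS hx)).2
  have hsub : S.erase x ⊆ univ.filter fun y =>
      a * (x ^ 2 + x * y + y ^ 2) + b * (x + y) + c = 0 := by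
    intro y hy
    obtain ⟨hyx, hyS⟩ := mem_erase.mp hy
    have hfy : f a b c d y = v := (mem_filter.mp (hS hyS)).2
    refine mem_filter.mpr ⟨mem_univ _, ?_⟩
    have h1 : (x - y) * (a * (x ^ 2 + x * y + y ^ 2) + b * (x + y) + c) = 0 := by
      simp only [f] at hfx hfy
      linear_combination hfx - hfy
    exact (mul_eq_zero.mp h1).resolve_left (sub_ne_zero.mpr (Ne.symm hyx))
  have h2 : (univ.filter fun y => a * (x ^ 2 + x * y + y ^ 2) + b * (x + y) + c = 0).card ≤ 2 := by
    by_contra h'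
    push Not at h'
    obtain ⟨r, s, t, hr, hs, ht, hrs, hrt, hst⟩ := two_lt_card_iff.mp h'
    have hr := (mem_filter.mp hr).2
    have hs := (mem_filter.mp hs).2
    have ht := (mem_filter.mp ht).2
    have h1 : (r - s) * (a * (r + s + x) + b) = 0 := by linear_combination hr - hs
    have h2 : (r - t) * (a * (r + t + x) + b) = 0 := by linear_combination hr - ht
    have e1 := (mul_eq_zero.mp h1).resolve_left (sub_ne_zero.mpr hrs)
    have e2 := (mul_eq_zero.mp h2).resolve_left (sub_ne_zero.mpr hrt)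
    have h3 : a * (s - t) = 0 := by linear_combination e1 - e2
    exact sub_ne_zero.mpr hst ((mul_eq_zero.mp h3).resolve_left ha)
  have h3 := card_le_card hsub
  rw [card_erase_of_mem hx] at h3
  omega

lemma double_crit (hp : 3 < p) (ha : a ≠ 0) {v : ZMod p}
    (h : (univ.filter fun x => f a b c d x = v).card = 2) :
    ∃ x, fd a b c x = 0 ∧ f a b c d x = v := by
  classical
  obtain ⟨x, y, hxy, he⟩ := card_eq_two.mp h
  have hmem : ∀ z, f a b c d z = v → z = x ∨ z = y := fun z hz => by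
    have : z ∈ univ.filter fun x => f a b c d x = v := mem_filter.mpr ⟨mem_univ _, hz⟩
    rw [he] at this; simpa using this
  have hfx : f a b c d x = v :=
    (mem_filter.mp (show x ∈ univ.filter fun x => f a b c d x = v by rw [he]; simp)).2
  have hfy : f a b c d y = v :=
    (mem_filter.mp (show y ∈ univ.filter fun x => f a b c d x = v by rw [he]; simp)).2
  simp only [f] at hfx hfy
  have h1 : a * (x ^ 2 + x * y + y ^ 2) + b * (x + y) + c = 0 := by
    have h1' : (x - y) * (a * (x ^ 2 + x * y + y ^ 2) + b * (x + y) + c) = 0 := by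
      linear_combination hfx - hfy
    exact (mul_eq_zero.mp h1').resolve_left (sub_ne_zero.mpr hxy)
  obtain ⟨z, hz⟩ : ∃ z, a * z = -b - a * (x + y) :=
    ⟨a⁻¹ * (-b - a * (x + y)), by rw [← mul_assoc, mul_inv_cancel₀ ha, one_mul]⟩
  have hfz : f a b c d z = v := by
    simp only [f]
    linear_combination (z - x) * (z - y) * hz + (z - x) * h1 + hfx
  rcases hmem z hfz with rfl | rfl
  · exact ⟨z, by simp only [fd]; linear_combination h1 + (z - y) * hz, hfz⟩
  · exact ⟨z, by simp only [fd]; linear_combination h1 + (z - x) * hz, hfz⟩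

lemma image_big (hp : 3 < p) (ha : a ≠ 0) (hR : b ^ 2 - 3 * a * c ≠ 0) :
    2 * p ≤ 3 * (univ.image (f a b c d)).card + 4 := by
  classical
  set T := univ.filter fun v : ZMod p × ZMod p => f a b c d v.1 = f a b c d v.2 with hT
  have hTle : T.card ≤ 2 * p + 2 := by
    have h1 : (T.filter fun v => v.1 = v.2).card ≤ p := by
      refine (card_le_card_of_injOn Prod.fst (fun v _ => mem_univ v.1) ?_).trans (le_of_eq (by simp))
      intro v hv w hw he
      have hv' := (mem_filter.mp hv).2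
      have hw' := (mem_filter.mp hw).2
      exact Prod.ext he (by rw [← hv', ← hw', he])
    have h2 : (T.filter fun v => ¬ v.1 = v.2).card ≤ p + 2 := by
      refine le_trans (card_le_card_of_injOn
        (t := univ.filter fun v : ZMod p × ZMod p => v.1 ^ 2 + 3 * v.2 ^ 2 = 4 * (b ^ 2 - 3 * a * c))
        (fun v => (3 * a * (v.1 + v.2) + 2 * b, a * (v.1 - v.2))) ?_ ?_)
        (conic_count hp (mul_ne_zero ?_ hR))
      · intro v hv
        obtain ⟨h3, h4⟩ := mem_filter.mp hv
        have h3 := (mem_filter.mp h3).2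
        simp only [f] at h3
        have h5 : (v.1 - v.2) *
            (a * (v.1 ^ 2 + v.1 * v.2 + v.2 ^ 2) + b * (v.1 + v.2) + c) = 0 := by
          linear_combination h3
        have h6 := (mul_eq_zero.mp h5).resolve_left (sub_ne_zero.mpr h4)
        refine mem_filter.mpr ⟨mem_univ _, ?_⟩
        linear_combination (12 * a) * h6
      · intro v _ w _ he
        simp only [Prod.mk.injEq] at he
        obtain ⟨e1, e2⟩ := he
        have h2a : 2 * (3 * a) ≠ 0 := mul_ne_zero (two_ne hp) (mul_ne_zero (three_ne hp) ha)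
        have f1 : 2 * (3 * a) * (v.1 - w.1) = 0 := by linear_combination e1 + 3 * e2
        have f2 : 2 * (3 * a) * (v.2 - w.2) = 0 := by linear_combination e1 - 3 * e2
        exact Prod.ext (sub_eq_zero.mp ((mul_eq_zero.mp f1).resolve_left h2a))
          (sub_eq_zero.mp ((mul_eq_zero.mp f2).resolve_left h2a))
      · simpa using cast_ne_zero (p := p) (m := 4) (by norm_num) (by
          rcases Nat.lt_or_ge 4 p with h | h
          · exact h
          · exact absurd (Fact.out : p.Prime) (by rw [show p = 4 by omega]; norm_num))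
    have h3 := card_filter_add_card_filter_not (s := T) (fun v => v.1 = v.2)
    omega
  set I := univ.image (f a b c d) with hI
  set ν := fun v => (univ.filter fun x => f a b c d x = v).card with hν
  have hp1 : ∑ v ∈ I, ν v = p :=
    ((card_eq_sum_card_image (f a b c d) univ).symm).trans (by simp)
  have hp2 : ∑ v ∈ I, ν v ^ 2 = T.card := by
    rw [hT, card_eq_sum_card_fiberwise (f := fun v : ZMod p × ZMod p => f a b c d v.1) (t := I)
      (fun v _ => mem_image_of_mem _ (mem_univ _))]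
    refine sum_congr rfl fun v _ => ?_
    rw [pow_two, hν, ← card_product]
    congr 1
    ext u
    simp only [mem_product, mem_filter, mem_univ, true_and]
    constructor
    · rintro ⟨h1, h2⟩; exact ⟨h1.trans h2.symm, h1⟩
    · rintro ⟨h1, h2⟩; exact ⟨h2, h1.symm.trans h2⟩
  have hd : (I.filter fun v => ν v = 2).card ≤ 2 := by
    refine le_trans (le_trans (card_le_card (t := (univ.filter fun x => fd a b c x = 0).image
      (f a b c d)) fun v hv => ?_) card_image_le) (crit_card (a := a) (b := b) (c := c) hp ha)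
    obtain ⟨x, hx1, hx2⟩ := double_crit hp ha (mem_filter.mp hv).2
    exact mem_image.mpr ⟨x, mem_filter.mpr ⟨mem_univ _, hx1⟩, hx2⟩
  have key : ∀ v ∈ I, 4 * ν v ≤ ν v ^ 2 + 3 + (if ν v = 2 then 1 else 0) := by
    intro v hv
    have h1 := fiber_le (b := b) (c := c) (d := d) hp ha v
    have h2 : 0 < ν v := by
      obtain ⟨x, _, hx⟩ := mem_image.mp hv
      exact card_pos.mpr ⟨x, mem_filter.mpr ⟨mem_univ _, hx⟩⟩
    change ν v ≤ 3 at h1
    generalize ν v = n at h1 h2 ⊢
    interval_cases n <;> simp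
  have h1 := sum_le_sum key
  rw [sum_add_distrib, sum_add_distrib, ← mul_sum, hp1, hp2, sum_const, smul_eq_mul, ← sum_filter,
    sum_const, smul_eq_mul, mul_one] at h1
  omega

lemma sym_of_image_big (hp : 3 < p) (hI : 2 * p ≤ 3 * (univ.image (f a b c d)).card + 4) :
    ∃ S : Finset (ZMod p), p ≤ 18 * S.card + 48 ∧ S ⊆ univ.image (f a b c d) ∧ ∀ v ∈ S, -v ∈ S := by
  classical
  set I := univ.image (f a b c d) with hIdef
  set J := I.image (fun v => -v) with hJ
  refine ⟨I ∩ J, ?_, inter_subset_left, fun v hv => ?_⟩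
  · have h1 := card_union_add_card_inter I J
    have h2 : (I ∪ J).card ≤ p := (card_le_univ _).trans (le_of_eq (ZMod.card p))
    have h3 : J.card = I.card := card_image_of_injective _ neg_injective
    omega
  · obtain ⟨h1, h2⟩ := mem_inter.mp hv
    obtain ⟨w, hw, hwv⟩ := mem_image.mp h2
    exact mem_inter.mpr ⟨by rw [← hwv, neg_neg]; exact hw, mem_image_of_mem _ h1⟩

lemma cube_pairs (hp : 5184 ≤ p) {E : ZMod p} (hE : E ≠ 0) :
    p ≤ 2 * (univ.filter fun v : ZMod p × ZMod p => v.1 ^ 3 + v.2 ^ 3 = E).card := by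
  classical
  have hp3 : 3 < p := by omega
  set G : ZMod p → ℂ := fun t => ∑ u : ZMod p, Kloo.ψ (t * u ^ 3) with hG
  set N := (univ.filter fun v : ZMod p × ZMod p => v.1 ^ 3 + v.2 ^ 3 = E).card with hN
  have hpR : (5184 : ℝ) ≤ p := by exact_mod_cast hp
  have hcount : ∀ (P : ZMod p × ZMod p → Prop) [DecidablePred P] (u : ZMod p × ZMod p → ZMod p),
      (∀ v, P v ↔ u v = 0) →
      ∑ t : ZMod p, ∑ v : ZMod p × ZMod p, Kloo.ψ (t * u v) = ((univ.filter P).card : ℂ) * p := by
    intro P _ u hP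
    rw [sum_comm]
    simp only [Kloo.sum_ψ, ← hP]
    rw [← sum_filter, sum_const, nsmul_eq_mul]
  have hfibre : ∀ w : ZMod p, (univ.filter fun x : ZMod p => x ^ 3 = w).card ≤ 3 := by
    intro w
    have := fiber_le (a := (1 : ZMod p)) (b := 0) (c := 0) (d := 0) hp3 one_ne_zero w
    simpa [f] using this
  have hL2 : ∑ t : ZMod p, ‖G t‖ ^ 2 ≤ 3 * (p : ℝ) ^ 2 := by
    have h1 : ((∑ t : ZMod p, ‖G t‖ ^ 2 : ℝ) : ℂ)
        = ((univ.filter fun v : ZMod p × ZMod p => v.1 ^ 3 = v.2 ^ 3).card : ℂ) * p := by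
      rw [← hcount _ (fun v => v.1 ^ 3 - v.2 ^ 3) (fun v => sub_eq_zero.symm), Complex.ofReal_sum]
      refine sum_congr rfl fun t _ => ?_
      rw [Complex.ofReal_pow, ← Complex.mul_conj', hG, map_sum, sum_mul_sum, ← sum_product']
      refine sum_congr rfl fun v _ => ?_
      rw [← AddChar.map_neg_eq_conj, ← AddChar.map_add_eq_mul]
      congr 1; ring
    have h2 : (univ.filter fun v : ZMod p × ZMod p => v.1 ^ 3 = v.2 ^ 3).card ≤ 3 * p := by
      rw [card_eq_sum_card_fiberwise (f := fun v : ZMod p × ZMod p => v.2) (t := univ)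
        (fun _ _ => mem_univ _)]
      refine (sum_le_card_nsmul _ _ 3 fun y _ => ?_).trans (by simp [mul_comm])
      refine le_trans (card_le_card_of_injOn Prod.fst ?_ ?_) (hfibre (y ^ 3))
      · intro v hv
        obtain ⟨h3, h4⟩ := mem_filter.mp hv
        exact mem_filter.mpr ⟨mem_univ _, by rw [← h4]; exact (mem_filter.mp h3).2⟩
      · intro v hv w hw he
        exact Prod.ext he ((mem_filter.mp hv).2.trans (mem_filter.mp hw).2.symm)
    have h3 : (∑ t : ZMod p, ‖G t‖ ^ 2)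
        = ((univ.filter fun v : ZMod p × ZMod p => v.1 ^ 3 = v.2 ^ 3).card : ℝ) * p := by
      exact_mod_cast h1
    rw [h3]
    calc _ ≤ ((3 * p : ℕ) : ℝ) * p := mul_le_mul_of_nonneg_right (by exact_mod_cast h2)
          (Nat.cast_nonneg p)
      _ = _ := by push_cast; ring
  have hinv : ∀ t c : ZMod p, c ≠ 0 → G (t * c ^ 3) = G t := by
    intro t c hc
    refine Fintype.sum_equiv (Equiv.mulLeft₀ c hc) _ _ fun u => ?_
    change Kloo.ψ (t * c ^ 3 * u ^ 3) = Kloo.ψ (t * (c * u) ^ 3)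
    congr 1; ring
  set U := univ.filter fun c : ZMod p => c ≠ 0 with hU
  have hUcard : U.card = p - 1 := by
    rw [hU, filter_ne', card_erase_of_mem (mem_univ _), card_univ, ZMod.card]
  have hUR : (U.card : ℝ) = p - 1 := by
    rw [hUcard, Nat.cast_sub (by omega), Nat.cast_one]
  have hsup : ∀ t : ZMod p, t ≠ 0 → ‖G t‖ ^ 2 ≤ 18 * (p : ℝ) := by
    intro t ht
    have h1 : ∑ c ∈ U, ‖G (t * c ^ 3)‖ ^ 2 ≤ 3 * ∑ s : ZMod p, ‖G s‖ ^ 2 := by
      rw [← sum_fiberwise_of_maps_to (s := U) (t := univ) (g := fun c => t * c ^ 3)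
        (fun _ _ => mem_univ _), mul_sum]
      refine sum_le_sum fun s _ => ?_
      refine (sum_le_card_nsmul _ _ (‖G s‖ ^ 2) fun c hc => ?_).trans ?_
      · rw [(mem_filter.mp hc).2]
      · rw [nsmul_eq_mul]
        refine mul_le_mul_of_nonneg_right ?_ (sq_nonneg _)
        refine le_trans ?_ (le_of_eq (Nat.cast_ofNat (R := ℝ) (n := 3)))
        refine Nat.cast_le.mpr (le_trans (card_le_card fun c hc => ?_) (hfibre (t⁻¹ * s)))
        refine mem_filter.mpr ⟨mem_univ _, ?_⟩
        rw [← (mem_filter.mp hc).2, ← mul_assoc, inv_mul_cancel₀ ht, one_mul]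
    rw [sum_congr rfl (fun c hc => by rw [hinv t c (mem_filter.mp hc).2]), sum_const, nsmul_eq_mul,
      hUR] at h1
    nlinarith [sq_nonneg ‖G t‖]
  have hbound : ∀ t : ZMod p, t ≠ 0 → ‖G t - 1‖ ≤ 6 * Real.sqrt p := by
    intro t ht
    have h1 : ‖G t‖ ≤ 5 * Real.sqrt p := by
      refine abs_le_of_sq_le_sq' ?_ (by positivity) |>.2
      rw [mul_pow, Real.sq_sqrt (Nat.cast_nonneg p)]
      linarith [hsup t ht]
    have h2 : (1 : ℝ) ≤ Real.sqrt p := Real.one_le_sqrt.mpr (by linarith)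
    refine (norm_sub_le _ _).trans ?_
    rw [norm_one]
    linarith
  set Z := ∑ t ∈ U, G t ^ 2 * Kloo.ψ (-(t * E)) with hZ
  have hNZ : (N : ℂ) * p = (p : ℂ) ^ 2 + Z := by
    rw [hN, ← hcount _ (fun v => v.1 ^ 3 + v.2 ^ 3 - E) (fun v => sub_eq_zero.symm),
      ← add_sum_erase univ _ (mem_univ (0 : ZMod p)), hZ, hU, filter_ne']
    congr 1
    · simp [pow_two, AddChar.map_zero_eq_one]
    · refine sum_congr rfl fun t _ => ?_
      rw [pow_two, hG, sum_mul_sum, ← sum_product', sum_mul]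
      refine sum_congr rfl fun v _ => ?_
      rw [← AddChar.map_add_eq_mul, ← AddChar.map_add_eq_mul]
      congr 1; ring
  have havg : (U.card : ℂ) * Z = ∑ t ∈ U, G t ^ 2 * (G (-(t * E)) - 1) := by
    have h1 : ∀ c ∈ U, Z = ∑ t ∈ U, G t ^ 2 * Kloo.ψ (-(t * E) * c ^ 3) := by
      intro c hc
      have hc0 : c ≠ 0 := (mem_filter.mp hc).2
      have hc3 : c ^ 3 ≠ 0 := pow_ne_zero _ hc0
      refine sum_bij' (fun t _ => t * (c ^ 3)⁻¹) (fun t _ => t * c ^ 3) ?_ ?_ ?_ ?_ ?_
      · exact fun t ht => mem_filter.mpr ⟨mem_univ _,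
          mul_ne_zero (mem_filter.mp ht).2 (inv_ne_zero hc3)⟩
      · exact fun t ht => mem_filter.mpr ⟨mem_univ _, mul_ne_zero (mem_filter.mp ht).2 hc3⟩
      · intro t _; rw [mul_assoc, inv_mul_cancel₀ hc3, mul_one]
      · intro t _; rw [mul_assoc, mul_inv_cancel₀ hc3, mul_one]
      · intro t _
        rw [← hinv (t * (c ^ 3)⁻¹) c hc0, mul_assoc t, inv_mul_cancel₀ hc3, mul_one]
        congr 2
        field_simp
    rw [show (U.card : ℂ) * Z = ∑ _c ∈ U, Z by rw [sum_const, nsmul_eq_mul],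
      sum_congr rfl h1, sum_comm]
    refine sum_congr rfl fun t _ => ?_
    rw [← mul_sum]
    congr 1
    have h2 := sum_erase_add univ (fun c : ZMod p => Kloo.ψ (-(t * E) * c ^ 3)) (mem_univ 0)
    have h3 : U = univ.erase 0 := by rw [hU, filter_ne']
    have h4 : G (-(t * E)) = ∑ c : ZMod p, Kloo.ψ (-(t * E) * c ^ 3) := rfl
    rw [h3, h4, ← h2]
    simp [AddChar.map_zero_eq_one]
  have hZn : ((p : ℝ) - 1) * ‖Z‖ ≤ 6 * Real.sqrt p * (3 * (p : ℝ) ^ 2) := by
    have h1 := congrArg norm havg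
    rw [norm_mul, Complex.norm_natCast, hUR] at h1
    rw [h1]
    refine (norm_sum_le _ _).trans ?_
    refine le_trans (sum_le_sum (g := fun t => 6 * Real.sqrt p * ‖G t‖ ^ 2) fun t ht => ?_) ?_
    · rw [norm_mul, norm_pow, mul_comm]
      refine mul_le_mul_of_nonneg_right (hbound _ ?_) (sq_nonneg _)
      exact neg_ne_zero.mpr (mul_ne_zero (mem_filter.mp ht).2 hE)
    · rw [← mul_sum]
      exact mul_le_mul_of_nonneg_left ((sum_le_sum_of_subset_of_nonneg (filter_subset _ _)
        fun _ _ _ => sq_nonneg _).trans hL2) (by positivity)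
  have hre : (N : ℝ) * p = (p : ℝ) ^ 2 + Z.re := by
    have h1 := congrArg Complex.re hNZ
    simpa [pow_two] using h1
  have hs72 : 72 * Real.sqrt p ≤ p := by
    have h1 : 72 ≤ Real.sqrt p := Real.le_sqrt_of_sq_le (by linarith)
    have h2 := Real.mul_self_sqrt (Nat.cast_nonneg (α := ℝ) p)
    nlinarith
  have hZ2 : ‖Z‖ ≤ (p : ℝ) ^ 2 / 2 := by
    have h1 : ((p : ℝ) - 1) * ‖Z‖ ≤ ((p : ℝ) - 1) * ((p : ℝ) ^ 2 / 2) := by
      refine hZn.trans ?_
      nlinarith
    exact le_of_mul_le_mul_left h1 (by linarith)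
  have h1 := (abs_le.mp ((Complex.abs_re_le_norm Z).trans hZ2)).1
  have h2 : (p : ℝ) ≤ 2 * N := by
    refine le_of_mul_le_mul_right ?_ (by linarith : (0 : ℝ) < p)
    nlinarith
  exact_mod_cast h2

lemma sym_of_pure (hp : 5184 ≤ p) (ha : a ≠ 0) (hR : b ^ 2 - 3 * a * c = 0)
    (hD : b * c - 9 * a * d ≠ 0) :
    ∃ S : Finset (ZMod p), p ≤ 18 * S.card + 48 ∧ S ⊆ univ.image (f a b c d) ∧ ∀ v ∈ S, -v ∈ S := by
  classical
  have hp3 : 3 < p := by omega
  obtain ⟨r, hr⟩ : ∃ r, 3 * a * r = -b :=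
    ⟨(3 * a)⁻¹ * -b, by rw [← mul_assoc, mul_inv_cancel₀ (mul_ne_zero (three_ne hp3) ha), one_mul]⟩
  have hbe : b = -(3 * a * r) := by linear_combination hr
  have hce : c = 3 * a * r ^ 2 := by
    refine mul_left_cancel₀ (mul_ne_zero (three_ne hp3) ha) ?_
    linear_combination -hR + (b - 3 * a * r) * hbe
  set D₀ := a * r ^ 3 + d with hD₀
  have hfr : ∀ u, f a b c d (r + u) = a * u ^ 3 + D₀ := fun u => by
    rw [hD₀, hbe, hce]; simp only [f]; ring
  have hD0 : D₀ ≠ 0 := fun h0 => hD (by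
    rw [hbe, hce]
    linear_combination (-(9 * a)) * h0)
  obtain ⟨E, hE⟩ : ∃ E, a * E = -(2 * D₀) :=
    ⟨a⁻¹ * -(2 * D₀), by rw [← mul_assoc, mul_inv_cancel₀ ha, one_mul]⟩
  have hE0 : E ≠ 0 := fun h0 => by
    rw [h0, mul_zero] at hE
    exact mul_ne_zero (two_ne hp3) hD0 (neg_eq_zero.mp hE.symm)
  set T := univ.filter fun v : ZMod p × ZMod p => v.1 ^ 3 + v.2 ^ 3 = E with hT
  set S := T.image fun v => a * v.1 ^ 3 + D₀ with hS
  refine ⟨S, ?_, fun v hv => ?_, fun v hv => ?_⟩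
  · have h1 : T.card ≤ 9 * S.card := by
      refine card_le_mul_card_image _ _ fun s _ => ?_
      set B := univ.filter fun u : ZMod p => f a 0 0 D₀ u = s with hB
      refine le_trans (card_le_card (t := B.biUnion fun u =>
        (univ.filter fun w : ZMod p => f (1 : ZMod p) 0 0 0 w = E - u ^ 3).image fun w => (u, w))
        fun v hv => ?_) ?_
      · obtain ⟨hvT, hvs⟩ := mem_filter.mp hv
        have h2 := (mem_filter.mp hvT).2
        refine mem_biUnion.mpr ⟨v.1, mem_filter.mpr ⟨mem_univ _, ?_⟩,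
          mem_image.mpr ⟨v.2, mem_filter.mpr ⟨mem_univ _, ?_⟩, rfl⟩⟩
        · simp only [f]; linear_combination hvs
        · simp only [f]; linear_combination h2
      · refine card_biUnion_le.trans ((sum_le_card_nsmul _ _ 3 fun u _ =>
          card_image_le.trans (fiber_le hp3 one_ne_zero _)).trans ?_)
        rw [smul_eq_mul]
        exact le_trans (Nat.mul_le_mul_right 3 (fiber_le hp3 ha s)) (by norm_num)
    have h2 := cube_pairs hp hE0
    rw [← hT] at h2
    omega
  · obtain ⟨u, -, rfl⟩ := mem_image.mp hv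
    exact mem_image.mpr ⟨r + u.1, mem_univ _, hfr _⟩
  · obtain ⟨u, hu, rfl⟩ := mem_image.mp hv
    have h2 := (mem_filter.mp hu).2
    refine mem_image.mpr ⟨(u.2, u.1), mem_filter.mpr ⟨mem_univ _, by linear_combination h2⟩, ?_⟩
    linear_combination a * h2 + hE

theorem pair_set (hp : 5184 ≤ p) (ha : a ≠ 0)
    (h3 : b ^ 2 - 3 * a * c ≠ 0 ∨ (b ^ 2 - 3 * a * c = 0 ∧ b * c - 9 * a * d ≠ 0)) :
    ∃ T : Finset (ZMod p), p ≤ 18 * T.card + 120 ∧ (∀ x ∈ T, fd a b c x ≠ 0) ∧
      (∀ x ∈ T, ∃ y ∈ T, f a b c d x + f a b c d y = 0) ∧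
      ∀ x ∈ T, ∀ y ∈ T, f a b c d x = f a b c d y → x = y := by
  classical
  have hp3 : 3 < p := by omega
  obtain ⟨S, hS, hSI, hSn⟩ : ∃ S : Finset (ZMod p),
      p ≤ 18 * S.card + 48 ∧ S ⊆ univ.image (f a b c d) ∧ ∀ v ∈ S, -v ∈ S := by
    rcases h3 with h | ⟨h, h'⟩
    · exact sym_of_image_big hp3 (image_big hp3 ha h)
    · exact sym_of_pure hp ha h h'
  set CV := (univ.filter fun x : ZMod p => fd a b c x = 0).image (f a b c d) with hCV
  set Bad := CV ∪ CV.image (fun v => -v) with hBad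
  have hBadc : Bad.card ≤ 4 := by
    refine (card_union_le _ _).trans ?_
    have h1 : CV.card ≤ 2 := card_image_le.trans (crit_card hp3 ha)
    have h2 : (CV.image fun v => -v).card ≤ 2 := card_image_le.trans h1
    omega
  set G := S \ Bad with hG
  have hGneg : ∀ v ∈ G, -v ∈ G := fun v hv => by
    obtain ⟨h1, h2⟩ := mem_sdiff.mp hv
    refine mem_sdiff.mpr ⟨hSn v h1, fun h => h2 ?_⟩
    rcases mem_union.mp h with h | h
    · exact mem_union_right _ (mem_image.mpr ⟨-v, h, neg_neg v⟩)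
    · obtain ⟨w, hw, he⟩ := mem_image.mp h
      exact mem_union_left _ (neg_injective he ▸ hw)
  have hpre : ∀ v : ZMod p, ∃ x, v ∈ G → f a b c d x = v := fun v => by
    by_cases hv : v ∈ G
    · obtain ⟨x, -, hx⟩ := mem_image.mp (hSI (mem_sdiff.mp hv).1)
      exact ⟨x, fun _ => hx⟩
    · exact ⟨0, fun h => absurd h hv⟩
  choose pick hpick using hpre
  refine ⟨G.image pick, ?_, fun x hx hfd => ?_, fun x hx => ?_, fun x hx y hy he => ?_⟩
  · rw [card_image_of_injOn fun v hv w hw he => by rw [← hpick v hv, he, hpick w hw]]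
    have := card_le_card_sdiff_add_card (s := S) (t := Bad)
    rw [← hG] at this
    omega
  · obtain ⟨v, hv, rfl⟩ := mem_image.mp hx
    exact (mem_sdiff.mp hv).2 (mem_union_left _ (mem_image.mpr
      ⟨pick v, mem_filter.mpr ⟨mem_univ _, hfd⟩, hpick v hv⟩))
  · obtain ⟨v, hv, rfl⟩ := mem_image.mp hx
    exact ⟨pick (-v), mem_image_of_mem _ (hGneg v hv), by
      rw [hpick v hv, hpick (-v) (hGneg v hv), add_neg_cancel]⟩
  · obtain ⟨v, hv, rfl⟩ := mem_image.mp hx
    obtain ⟨w, hw, rfl⟩ := mem_image.mp hy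
    rw [hpick v hv, hpick w hw] at he
    rw [he]

lemma simple_root (hp : 3 < p) (ha : a ≠ 0)
    (h3 : b ^ 2 - 3 * a * c ≠ 0 ∨ b * c - 9 * a * d ≠ 0) {z : ZMod p} (hz : f a b c d z = 0) :
    ∃ w, f a b c d w = 0 ∧ fd a b c w ≠ 0 := by
  by_cases hd : fd a b c z = 0
  · obtain ⟨w, hw⟩ : ∃ w, a * w = -b - 2 * a * z :=
      ⟨a⁻¹ * (-b - 2 * a * z), by rw [← mul_assoc, mul_inv_cancel₀ ha, one_mul]⟩
    have hbe : b = -(a * w) - 2 * a * z := by linear_combination hw
    have hce : c = a * z ^ 2 + 2 * a * z * w := by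
      simp only [fd] at hd
      rw [hbe] at hd
      linear_combination hd
    have hde : d = -(a * z ^ 2 * w) := by
      simp only [f] at hz
      rw [hbe, hce] at hz
      linear_combination hz
    have hwz : w ≠ z := fun h => by
      rw [hbe, hce, hde, h] at h3
      rcases h3 with h3 | h3 <;> exact h3 (by ring)
    refine ⟨w, ?_, fun h => ?_⟩
    · simp only [f]; rw [hbe, hce, hde]; ring
    · simp only [fd] at h
      rw [hbe, hce] at h
      have h4 : a * (w - z) ^ 2 = 0 := by linear_combination h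
      exact hwz (sub_eq_zero.mp (pow_eq_zero_iff two_ne_zero |>.mp ((mul_eq_zero.mp h4).resolve_left ha)))
  · exact ⟨z, hz, hd⟩

end Vale.Agent.P042.Cubic
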