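import Vale.Agent.P042.NearMain

namespace Vale.Agent.P042.Gen.Near

open Finset Polynomial Filter

theorem exists_par (h : ℤ[X]) (hk : 2 ≤ h.natDegree)
    (hint : ∀ q : ℕ, 1 ≤ q → ∃ t : ℤ, (q : ℤ) ∣ h.eval t)
    (hpair : ∃ κ : ℝ, 0 < κ ∧ ∃ p₀ : ℕ, ∀ p : ℕ, p.Prime → p₀ ≤ p → PairAt h κ p) :
    Nonempty (Par h h.natDegree) := by
  classical
  obtain ⟨κ₀, hκ₀, p₁, hp₁⟩ := hpair
  obtain ⟨θ, hθ, C, hC, hcb⟩ := coeff_bound h.natDegree
  obtain ⟨z, e, N, hR⟩ := exists_rootData h (by omega) hint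
  set κ := min κ₀ 1 with hκdef
  have hκ : 0 < κ := lt_min hκ₀ one_pos
  have hκ1 : κ ≤ 1 := min_le_right _ _
  set γ := Real.cos (2 * Real.pi * (κ / 8)) with hγdef
  have hγ : γ < 1 := by
    rw [hγdef, ← Real.cos_zero]
    have hπ := Real.pi_pos
    exact Real.cos_lt_cos_of_nonneg_of_le_pi le_rfl (by nlinarith) (by positivity)
  have hγ' : -1 ≤ γ := Real.neg_one_le_cos _
  set ρ₁ := 1 - (1 - γ) / 4 with hρ₁
  have hρ₁0 : 0 < ρ₁ := by linarith
  have hρ₁1 : ρ₁ < 1 := by linarith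
  set τ := min (1 / 4) (Real.log ((1 + ρ₁) / (2 * ρ₁))) with hτdef
  have hrat : 1 < (1 + ρ₁) / (2 * ρ₁) := by rw [lt_div_iff₀ (by positivity)]; linarith
  have hτ : 0 < τ := lt_min (by norm_num) (Real.log_pos hrat)
  set l : ℝ := (h.leadingCoeff.natAbs : ℝ) with hl
  have hev : ∀ᶠ p : ℕ in atTop, C * l ^ θ * (p : ℝ) ^ (-θ) ≤ min (1 / 24) ((1 - ρ₁) / 12) ∧
      8 ≤ κ * p := by
    have h1 : Tendsto (fun p : ℕ => C * l ^ θ * (p : ℝ) ^ (-θ)) atTop (nhds (C * l ^ θ * 0)) :=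
      ((tendsto_rpow_neg_atTop hθ).comp tendsto_natCast_atTop_atTop).const_mul _
    rw [mul_zero] at h1
    exact (h1.eventually (eventually_le_nhds (lt_min (by norm_num) (by linarith)))).and
      ((tendsto_natCast_atTop_atTop.const_mul_atTop hκ).eventually (eventually_ge_atTop 8))
  obtain ⟨p₂, hp₂⟩ := eventually_atTop.mp hev
  set p₀ := max p₁ p₂ with hp₀
  have hpp : ∀ p, p.Prime → p₀ ≤ p → PairAt h κ p := fun p hp hpp => by
    obtain ⟨h1, S, hS, h2⟩ := hp₁ p hp (le_trans (le_max_left _ _) hpp)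
    exact ⟨h1, S, le_trans (mul_le_mul_of_nonneg_right (min_le_left _ _) (Nat.cast_nonneg _)) hS, h2⟩
  simp only [PairAt] at hpp
  choose! z₁ hz₁ S hS hSlt hSd hSsym hSinj using fun (p : ℕ) (hp : p.Prime) (hp' : p₀ ≤ p) =>
    show ∃ z : ℕ, ((p : ℤ) ∣ h.eval (z : ℤ) ∧ ¬ (p : ℤ) ∣ (derivative h).eval (z : ℤ)) ∧
      ∃ X : Finset ℕ, κ * p ≤ X.card ∧ (∀ x ∈ X, x < p) ∧
      (∀ x ∈ X, ¬ (p : ℤ) ∣ (derivative h).eval (x : ℤ)) ∧
      (∀ x ∈ X, ∃ y ∈ X, (p : ℤ) ∣ h.eval (x : ℤ) + h.eval (y : ℤ)) ∧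
      ∀ x ∈ X, ∀ y ∈ X, (p : ℤ) ∣ h.eval (x : ℤ) - h.eval (y : ℤ) → x = y from by
      obtain ⟨⟨w, hw⟩, hX⟩ := hpp p hp hp'
      exact ⟨w, hw, hX⟩
  choose! zm hzm using fun (p : ℕ) (hp : p.Prime) (hp' : p₀ ≤ p) j (hj : 1 ≤ j) =>
    lift_root hp (hz₁ p hp hp').1 (hz₁ p hp hp').2 j hj
  set K₁ := C * (N : ℝ) ^ θ / (1 - (2 : ℝ) ^ (-(θ / 2))) with hK₁
  have hw1 : (2 : ℝ) ^ (-(θ / 2)) < 1 :=
    Real.rpow_lt_one_of_one_lt_of_neg (by norm_num) (by linarith)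
  have hK₁0 : 0 < K₁ := by
    have : (1 : ℝ) ≤ N := by exact_mod_cast hR.1
    exact div_pos (by positivity) (by linarith)
  set σ₁ := min (θ / 2) (θ / (24 * K₁ * ((p₀ : ℝ) + 1))) with hσ₁
  have hσ₁0 : 0 < σ₁ := lt_min (by linarith) (by positivity)
  refine ⟨{
    θ := θ, C := C, hCB := ⟨hθ, hC, hcb⟩, hdeg := rfl, hk := by omega, N := N, e := e
    c := {
      σ := fun p => if p < p₀ then σ₁ else θ / 2
      σ_nonneg := fun p => by split_ifs <;> linarith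
      z := z, p₀ := p₀, zm := zm, S := S
      zm_root := fun p j hp hp' hj => hzm p hp hp' j hj
      S_pos := fun p hp hp' => ?_
      S_deriv := fun p hp hp' => hSd p hp hp' }
    hR := hR, σ₁ := σ₁, τ := τ, ρ₁ := ρ₁, σ₁_pos := hσ₁0, σ₁_le := min_le_left _ _
    τ_pos := hτ, τ_le := min_le_left _ _, σ_eq := fun p => rfl, small := ?_, gw := ?_
    ρ₁_le := hρ₁1.le, slack := ?_, beta := ?_ }⟩
  · have h1 := hS p hp hp'
    have h2 : (0 : ℝ) < p := by exact_mod_cast hp.pos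
    have h3 : (0 : ℝ) < (S p).card := lt_of_lt_of_le (by positivity) h1
    exact_mod_cast h3
  · show σ₁ * (2 * K₁ / θ) ≤ 1 / (12 * ((p₀ : ℝ) + 1))
    calc σ₁ * (2 * K₁ / θ) ≤ θ / (24 * K₁ * ((p₀ : ℝ) + 1)) * (2 * K₁ / θ) :=
          mul_le_mul_of_nonneg_right (min_le_right _ _) (by positivity)
      _ = _ := by field_simp; ring
  · intro p hp hp' t ht
    have hr := hzm p hp hp' 1 le_rfl
    exact Gw_one h hp hκ hκ1 (hp₂ p (le_trans (le_max_right _ _) hp')).2 (zm p 1)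
      (by simpa using hr.1) (S p) (hS p hp hp') (hSsym p hp hp') (hSinj p hp hp') t ht
  · have h1 : Real.exp τ ≤ (1 + ρ₁) / (2 * ρ₁) :=
      (Real.exp_le_exp.mpr (min_le_right _ _)).trans (le_of_eq (Real.exp_log (by linarith)))
    have h2 := mul_le_mul_of_nonneg_left h1 hρ₁0.le
    have h3 : ρ₁ * ((1 + ρ₁) / (2 * ρ₁)) = (1 + ρ₁) / 2 := by field_simp
    linarith
  · intro p _ hp'
    exact (hp₂ p (le_trans (le_max_right _ _) hp')).1

lemma conv_near {r Λ ℓ : ℝ} {m : ℕ} (hr : 0 < r) (hm1 : 1 ≤ m) (hΛ : 1 ≤ Λ) (hl1 : 1 ≤ Real.log Λ)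
    (hl2 : Real.log Λ ^ 2 / Λ ≤ r) (hℓle : ℓ ≤ 2 * m * Λ) (hℓge : Λ ≤ ℓ) :
    Real.sqrt Λ * Real.exp (-(r * (Λ / Real.log Λ)))
      ≤ Real.exp (-(r / (4 * m) * (ℓ / Real.log ℓ))) := by
  have hmR : (0 : ℝ) < m := by exact_mod_cast hm1
  have e1 : Real.sqrt Λ = Real.exp (Real.log Λ / 2) := by
    rw [← Real.log_sqrt (by linarith), Real.exp_log (Real.sqrt_pos.mpr (by linarith))]
  have e2 : Real.log Λ / 2 ≤ r / 2 * (Λ / Real.log Λ) := by
    rw [mul_div_assoc', le_div_iff₀ (by linarith)]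
    rw [div_le_iff₀ (by linarith)] at hl2
    linarith
  have e3 : r / (4 * m) * (ℓ / Real.log ℓ) ≤ r / 2 * (Λ / Real.log Λ) := by
    calc r / (4 * m) * (ℓ / Real.log ℓ) ≤ r / (4 * m) * (2 * m * Λ / Real.log Λ) :=
          mul_le_mul_of_nonneg_left (div_le_div₀ (by positivity) hℓle (by linarith)
            (Real.log_le_log (by linarith) hℓge)) (by positivity)
      _ = _ := by field_simp; ring
  rw [e1, ← Real.exp_add]
  exact Real.exp_le_exp.mpr (by linarith)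

theorem near_power (h : ℤ[X]) (hk : 2 ≤ h.natDegree) (hl : 0 < h.leadingCoeff)
    (hint : ∀ q : ℕ, 1 ≤ q → ∃ t : ℤ, (q : ℤ) ∣ h.eval t)
    (hpair : ∃ κ : ℝ, 0 < κ ∧ ∃ p₀ : ℕ, ∀ p : ℕ, p.Prime → p₀ ≤ p → PairAt h κ p) :
    ∃ c : ℝ, 0 < c ∧ ∃ C : ℝ, ∀ N : ℕ, 3 ≤ N → ∀ A : Finset ℕ, A ⊆ Icc 1 N →
      (∀ x ∈ A, ∀ y ∈ A, ∀ n : ℕ, 1 ≤ n → (x : ℤ) - y = h.eval (n : ℤ) → x = y) →
      (A.card : ℝ) ≤ C * N * Real.exp (-(c * (Real.log N / Real.log (Real.log N)))) := by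
  obtain ⟨π⟩ := exists_par h hk hint hpair
  obtain ⟨H, hB⟩ := exists_gbounds hk hl
  obtain ⟨E, hE, C₁, hC₁, B', C₅, hC₅, D₀, hT⟩ := tsum_lower_mix hk hl hB
  obtain ⟨hH1, -, hup, -⟩ := id hB
  have hr := π.rate_pos
  set r := π.rate / 2 with hrdef
  set m := E * h.natDegree with hm
  have hm1 : 1 ≤ m := Nat.one_le_iff_ne_zero.mpr (Nat.mul_ne_zero (by omega) (by omega))
  have hmR : (0 : ℝ) < m := by exact_mod_cast hm1
  set a : ℝ := (h.leadingCoeff : ℝ) with hadef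
  have ha0 : 0 < a := by rw [hadef]; exact_mod_cast hl
  have hinj : Function.Injective (Int.castRingHom ℝ) := Int.cast_injective
  obtain ⟨n₀, hn₀, hlow⟩ := eval_lower (rpoly h)
    (by rw [rpoly, natDegree_map_eq_of_injective hinj]; omega)
    (by rw [rpoly, leadingCoeff_map_of_injective hinj]; simpa using hl)
  set c := r / (4 * m) with hcdef
  have hc : 0 < c := by positivity
  refine ⟨c, hc, ?_⟩
  have hlog : Tendsto (fun D : ℕ => Real.log (D : ℝ)) atTop atTop :=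
    Real.tendsto_log_atTop.comp tendsto_natCast_atTop_atTop
  have hsq : Tendsto (fun x : ℝ => Real.log x ^ 2 / x) atTop (nhds 0) := by
    have := Real.tendsto_pow_log_div_mul_add_atTop 1 0 2 one_ne_zero
    simpa using this
  have hev : ∀ᶠ D : ℕ in atTop, D₀ ≤ D ∧ n₀ ≤ D ∧ 1 ≤ D ∧ 8 ≤ Real.log (D : ℝ) ∧
      2 * r ≤ Real.log (Real.log (D : ℝ)) ∧ 1 ≤ Real.log (Real.log (D : ℝ)) ∧
      Real.log (Real.log (D : ℝ)) ^ 2 / Real.log (D : ℝ) ≤ min r 1 ∧
      ∃ L : Dens h, ∀ q : ℕ, 1 ≤ q → (q : ℝ) ≤ C₁ * (D : ℝ) ^ B' → ∀ b : ℤ, IsCoprime b (q : ℤ) →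
        (|(major L D q b).im| ≤ (major L D q b).re ∧ ‖major L D q b‖ ≤ 2) ∨
          ‖major L D q b‖ ≤ Real.exp (-(r * (Real.log D / Real.log (Real.log D)))) := by
    filter_upwards [eventually_ge_atTop D₀, eventually_ge_atTop n₀, eventually_ge_atTop 1,
      hlog.eventually (eventually_ge_atTop 8),
      (Real.tendsto_log_atTop.comp hlog).eventually (eventually_ge_atTop (2 * r)),
      (Real.tendsto_log_atTop.comp hlog).eventually (eventually_ge_atTop 1),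
      (hsq.comp hlog).eventually (eventually_le_nhds (lt_min (show 0 < r by rw [hrdef]; linarith) one_pos)),
      near_good π B' C₁ hC₁] with D h1 h2 h3 h4 h5 h6 h7 h8
    exact ⟨h1, h2, h3, h4, h5, h6, h7, by simpa only [hrdef] using h8⟩
  obtain ⟨D₂, hD₂⟩ := eventually_atTop.mp hev
  set M₂ : ℝ := ((D₂ : ℝ) + 1) ^ m with hM₂
  set ℓ₃ := Real.log (3 : ℝ) with hℓ₃
  have hℓ₃1 : 1 < ℓ₃ := by
    rw [hℓ₃, Real.lt_log_iff_exp_lt (by norm_num)]
    exact lt_trans Real.exp_one_lt_d9 (by norm_num)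
  set C₃ := C₅ / Real.sqrt a * (H + 3) with hC₃
  have hC₃0 : 0 ≤ C₃ := by positivity
  refine ⟨C₃ + M₂ * Real.exp (c * (Real.log M₂ / Real.log ℓ₃)), fun N hN A hA hav => ?_⟩
  have hNR : (3 : ℝ) ≤ N := by exact_mod_cast hN
  rcases Nat.eq_zero_or_pos A.card with hA0 | hA0
  · rw [hA0, Nat.cast_zero]; positivity
  have hcard : (A.card : ℝ) ≤ N := by
    have := card_le_card hA
    rw [Nat.card_Icc, Nat.add_sub_cancel] at this
    exact_mod_cast this
  set ℓ := Real.log (N : ℝ) with hℓ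
  have hℓ3 : ℓ₃ ≤ ℓ := Real.log_le_log (by norm_num) hNR
  set D := ⌊(N : ℝ) ^ (1 / (m : ℝ))⌋₊ with hD
  by_cases hsmall : D < D₂
  · have h1 : (N : ℝ) ^ (1 / (m : ℝ)) ≤ (D₂ : ℝ) + 1 := by
      refine (Nat.lt_floor_add_one _).le.trans ?_
      rw [← hD]; have : (D : ℝ) ≤ D₂ := by exact_mod_cast hsmall.le
      linarith
    have h2 : (N : ℝ) ≤ M₂ := by
      have h := pow_le_pow_left₀ (by positivity) h1 m
      rwa [← Real.rpow_natCast ((N : ℝ) ^ _) m, ← Real.rpow_mul (by positivity),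
        one_div_mul_cancel hmR.ne', Real.rpow_one] at h
    have hlM : ℓ ≤ Real.log M₂ := Real.log_le_log (by linarith) h2
    have h3 : c * (ℓ / Real.log ℓ) ≤ c * (Real.log M₂ / Real.log ℓ₃) := by
      refine mul_le_mul_of_nonneg_left ?_ hc.le
      exact div_le_div₀ (by linarith) hlM (Real.log_pos hℓ₃1) (Real.log_le_log (by linarith) hℓ3)
    have h4 : 1 ≤ Real.exp (c * (Real.log M₂ / Real.log ℓ₃)) * Real.exp (-(c * (ℓ / Real.log ℓ))) := by
      rw [← Real.exp_add]; exact Real.one_le_exp (by linarith)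
    have hM0 : 0 ≤ M₂ := by linarith
    calc (A.card : ℝ) ≤ M₂ * 1 * 1 := by linarith
      _ ≤ M₂ * N * (Real.exp (c * (Real.log M₂ / Real.log ℓ₃)) * Real.exp (-(c * (ℓ / Real.log ℓ)))) :=
          mul_le_mul (mul_le_mul_of_nonneg_left (by linarith) hM0) h4 zero_le_one (by positivity)
      _ = M₂ * Real.exp (c * (Real.log M₂ / Real.log ℓ₃)) * N * Real.exp (-(c * (ℓ / Real.log ℓ))) := by
          ring
      _ ≤ _ := mul_le_mul_of_nonneg_right (mul_le_mul_of_nonneg_right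
          (le_add_of_nonneg_left hC₃0) (by linarith)) (Real.exp_pos _).le
  push Not at hsmall
  obtain ⟨hDD₀, hDn₀, hD1, hΛ8, hl2r, hl1, hl2, L, hgood⟩ := hD₂ D hsmall
  set Λ := Real.log (D : ℝ) with hΛdef
  set ε := Real.exp (-(r * (Λ / Real.log Λ))) with hε
  have hhalf : Real.exp (-(Λ / 2)) ≤ ε := by
    refine Real.exp_le_exp.mpr (neg_le_neg ?_)
    rw [mul_div_assoc', div_le_iff₀ (by linarith)]
    have := mul_le_mul_of_nonneg_left hl2r (show 0 ≤ Λ / 2 by linarith)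
    linarith
  obtain ⟨lam, hTlow, hT0⟩ := hT D hDD₀ (by linarith) Unit {()} (fun _ => 1) (fun _ => L)
    (fun _ _ => zero_le_one) (by simp) ε hhalf (fun q hq hqb b hb => by
      simpa [majorMix] using hgood q hq hqb b hb)
  simp only [tMix, sum_singleton, Complex.ofReal_one, one_mul] at hTlow hT0
  have hDR : (1 : ℝ) ≤ D := by exact_mod_cast hD1
  set X := D ^ E with hX
  set x₀ := D ^ (E - 1) with hx₀
  have hx₀1 : 1 ≤ x₀ := Nat.one_le_pow _ _ hD1
  have hx₀n : n₀ ≤ x₀ := hDn₀.trans (Nat.le_self_pow (by omega) D)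
  have hDle : (D : ℝ) ≤ (N : ℝ) ^ (1 / (m : ℝ)) := Nat.floor_le (by positivity)
  have hDm : (D : ℝ) ^ m ≤ N := by
    have h := pow_le_pow_left₀ (by positivity) hDle m
    rwa [← Real.rpow_natCast ((N : ℝ) ^ _) m, ← Real.rpow_mul (by positivity),
      one_div_mul_cancel hmR.ne', Real.rpow_one] at h
  have hYN : (X : ℝ) ^ h.natDegree ≤ N := by rw [hX, Nat.cast_pow, ← pow_mul]; exact hDm
  set V := ⌈H * N⌉₊ with hV
  have hvV : ∀ i ∈ range (X - x₀), 0 < h.eval ((x₀ + i : ℕ) : ℤ) ∧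
      h.eval ((x₀ + i : ℕ) : ℤ) ≤ (V : ℤ) := by
    intro i hi
    have hi' := mem_range.mp hi
    set n := x₀ + i with hn
    have hn1 : (1 : ℝ) ≤ n := by exact_mod_cast (le_trans hx₀1 (Nat.le_add_right x₀ i))
    have h2 : (n : ℝ) ≤ X := by exact_mod_cast (show n ≤ X by omega)
    refine ⟨?_, ?_⟩
    · have h3 := hlow (n : ℝ) (by exact_mod_cast (le_trans hx₀n (Nat.le_add_right x₀ i)))
      have h4 : 0 < (rpoly h).leadingCoeff := by
        rw [rpoly, leadingCoeff_map_of_injective hinj]; simpa using hl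
      have h5 : 0 < (rpoly h).eval (n : ℝ) := lt_of_lt_of_le (by positivity) h3
      rw [rpoly_eval] at h5
      exact_mod_cast h5
    · have h4 := (le_abs_self _).trans (hup _ hn1)
      rw [rpoly_eval] at h4
      have h5 : ((h.eval (n : ℤ) : ℤ) : ℝ) ≤ ((V : ℕ) : ℝ) := by
        refine h4.trans (le_trans ?_ (Nat.le_ceil _))
        exact mul_le_mul_of_nonneg_left
          ((pow_le_pow_left₀ (Nat.cast_nonneg n) h2 h.natDegree).trans hYN) (by linarith)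
      exact_mod_cast h5
  set S := Sz h X with hS
  have hS0 : 0 < S := by
    have : (0 : ℝ) < X := by exact_mod_cast Nat.one_le_pow E D hD1
    rw [hS, Sz]; positivity
  have hlp := lp_bound A N V (range (X - x₀)) (fun i => h.eval ((x₀ + i : ℕ) : ℤ))
    (fun i => (∑ f ∈ Icc 1 D, wt L f (x₀ + i)) * wG h lam ((x₀ + i : ℕ) : ℝ))
    (C₅ * S * ε) hA hvV ?_ hTlow
  rotate_left
  · intro x hx y hy i hi he
    have := hav x hx y hy (x₀ + i) (le_trans hx₀1 (Nat.le_add_right _ _)) he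
    subst this
    have := (hvV i hi).1
    rw [← he] at this; simp at this
  have hsum : Real.sqrt a * S / Real.sqrt Λ ≤ (∑ i ∈ range (X - x₀),
      (∑ f ∈ Icc 1 D, wt L f (x₀ + i)) * wG h lam ((x₀ + i : ℕ) : ℝ)) + C₅ * S * ε := by
    rw [← sub_le_iff_le_add]
    refine hT0.trans (le_of_eq ?_)
    rw [tG, Complex.re_sum]
    refine sum_congr rfl fun i _ => ?_
    rw [zero_mul, ee_zero, mul_one, Complex.ofReal_re]
  rcases hlp with hlp | hlp
  swap
  · omega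
  have hsΛ : 0 < Real.sqrt Λ := Real.sqrt_pos.mpr (by linarith)
  have hsa : 0 < Real.sqrt a := Real.sqrt_pos.mpr ha0
  have h2 : ((N + V + 1 : ℕ) : ℝ) ≤ (H + 3) * N := by
    push_cast
    have := (Nat.ceil_lt_add_one (by positivity : 0 ≤ H * (N : ℝ))).le
    rw [← hV] at this
    linarith
  have h3 : (A.card : ℝ) ≤ C₃ * N * (Real.sqrt Λ * ε) := by
    have h4 : (A.card : ℝ) * (Real.sqrt a * S / Real.sqrt Λ)
        ≤ C₃ * N * (Real.sqrt Λ * ε) * (Real.sqrt a * S / Real.sqrt Λ) := by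
      refine ((mul_le_mul_of_nonneg_left hsum (Nat.cast_nonneg _)).trans hlp).trans
        ((mul_le_mul_of_nonneg_left h2 (by positivity)).trans (le_of_eq ?_))
      rw [hC₃]; field_simp
    exact le_of_mul_le_mul_right h4 (by positivity)
  have h4 : Real.sqrt Λ * ε ≤ Real.exp (-(c * (ℓ / Real.log ℓ))) := by
    refine conv_near (show 0 < r by rw [hrdef]; linarith) hm1 (by linarith) hl1
      (hl2.trans (min_le_left _ _)) ?_ ?_
    · have h6 : (N : ℝ) ^ (1 / (m : ℝ)) ≤ 2 * D := by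
        have := Nat.lt_floor_add_one ((N : ℝ) ^ (1 / (m : ℝ)))
        rw [← hD] at this; linarith
      have h7 := Real.log_le_log (by positivity) h6
      rw [Real.log_rpow (by linarith), Real.log_mul (by norm_num) (by linarith), ← hℓ, ← hΛdef,
        div_mul_eq_mul_div, one_mul, div_le_iff₀ hmR] at h7
      have h8 := mul_le_mul_of_nonneg_right
        (show Real.log 2 + Λ ≤ 2 * Λ by
          linarith [Real.log_le_sub_one_of_pos (show (0:ℝ) < 2 by norm_num)]) hmR.le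
      linarith
    · have h6 := Real.log_le_log (by positivity) hDm
      rw [Real.log_pow, ← hℓ, ← hΛdef] at h6
      exact (le_mul_of_one_le_left (by linarith) (by exact_mod_cast hm1)).trans h6
  calc (A.card : ℝ) ≤ C₃ * N * Real.exp (-(c * (ℓ / Real.log ℓ))) :=
        h3.trans (mul_le_mul_of_nonneg_left h4 (by positivity))
    _ ≤ _ := mul_le_mul_of_nonneg_right (mul_le_mul_of_nonneg_right
        (le_add_of_nonneg_right (by
          have : (0 : ℝ) ≤ M₂ := by positivity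
          positivity)) (by linarith)) (Real.exp_pos _).le

end Vale.Agent.P042.Gen.Near
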