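import Vale.Agent.P042.Main

namespace Vale.Agent.P042

open Finset Polynomial

/-- The multiples of `p ^ j`, with total mass one. -/
noncomputable def dlt (p j n : ℕ) : ℝ := if p ^ j ∣ n then ((p : ℝ) ^ j) else 0

/-- The parameter of the geometric mixture at the prime `p`. -/
noncomputable def ρp (σ : ℝ) (p : ℕ) : ℝ := (p : ℝ) ^ (-σ)

/-- The local densities for an odd polynomial. -/
noncomputable def dodd (σ : ℝ) (p j n : ℕ) : ℝ := ρp σ p ^ j * (dlt p j n - dlt p (j - 1) n)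

lemma dlt_periodic {p j m : ℕ} (h : p ^ j ∣ m) : Function.Periodic (dlt p j) m := by
  intro n; simp only [dlt, Nat.dvd_add_left h]

lemma dodd_periodic (σ : ℝ) (p j : ℕ) : Function.Periodic (dodd σ p j) (p ^ j) := by
  intro n
  simp only [dodd]
  rw [dlt_periodic dvd_rfl n, dlt_periodic (pow_dvd_pow p (Nat.sub_le j 1)) n]

lemma dodd_mean (σ : ℝ) (p j : ℕ) (hp : p.Prime) (hj : 1 ≤ j) (n : ℕ) :
    ∑ s ∈ range p, dodd σ p j (n + p ^ (j - 1) * s) = 0 := by
  simp only [dodd]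
  rw [← mul_sum]
  refine mul_eq_zero_of_right _ ?_
  obtain ⟨k, rfl⟩ : ∃ k, j = k + 1 := ⟨j - 1, by omega⟩
  rw [Nat.add_sub_cancel]
  by_cases hn : p ^ k ∣ n
  · obtain ⟨m, rfl⟩ := hn
    have e : ∀ s, dlt p (k + 1) (p ^ k * m + p ^ k * s) - dlt p k (p ^ k * m + p ^ k * s)
        = (if p ∣ m + s then (p : ℝ) ^ (k + 1) else 0) - (p : ℝ) ^ k := by
      intro s
      rw [← mul_add, dlt, dlt, if_pos (dvd_mul_right _ _)]
      congr 1
      refine if_congr ?_ rfl rfl
      rw [pow_succ]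
      exact Nat.mul_dvd_mul_iff_left (pow_pos hp.pos k)
    rw [sum_congr rfl (fun s _ => e s), sum_sub_distrib]
    have h0 : (p - m % p) % p ∈ range p := mem_range.mpr (Nat.mod_lt _ hp.pos)
    rw [sum_eq_single_of_mem _ h0]
    · rw [if_pos]
      · simp [pow_succ]; ring
      · have h1 : m % p < p := Nat.mod_lt _ hp.pos
        rw [Nat.dvd_iff_mod_eq_zero, Nat.add_mod_mod, Nat.add_mod]
        rcases Nat.eq_zero_or_pos (m % p) with h | h
        · simp [h]
        · rw [Nat.mod_eq_of_lt (by omega : p - m % p < p), show m % p + (p - m % p) = p by omega,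
            Nat.mod_self]
    · intro s hs hne
      rw [if_neg]
      intro hd
      apply hne
      have hs' := mem_range.mp hs
      have h1 : m % p < p := Nat.mod_lt _ hp.pos
      rw [Nat.dvd_iff_mod_eq_zero, Nat.add_mod, Nat.mod_eq_of_lt hs'] at hd
      rcases Nat.eq_zero_or_pos (m % p) with h | h
      · rw [h, zero_add, Nat.mod_eq_of_lt hs'] at hd
        simp [h, hd]
      · rw [Nat.mod_eq_of_lt (by omega : p - m % p < p)]
        by_contra hne'
        rcases Nat.lt_or_ge (m % p + s) p with h2 | h2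
        · rw [Nat.mod_eq_of_lt h2] at hd; omega
        · rw [Nat.mod_eq_sub_mod h2, Nat.mod_eq_of_lt (by omega)] at hd; omega
  · refine sum_eq_zero fun s _ => ?_
    have h1 : ¬ p ^ k ∣ n + p ^ k * s := fun h => hn ((Nat.dvd_add_left (dvd_mul_right _ _)).mp h)
    rw [dlt, dlt, if_neg h1, if_neg (fun h => h1 (dvd_trans (pow_dvd_pow p (by omega)) h)), sub_zero]

lemma dodd_sup (σ : ℝ) (hσ : 0 ≤ σ) (p j : ℕ) (hp : p.Prime) (n : ℕ) :
    |dodd σ p j n| ≤ (((p ^ j : ℕ)) : ℝ) ^ 1 := by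
  have hp1 : (1 : ℝ) ≤ p := by exact_mod_cast hp.one_lt.le
  have hρ0 : 0 ≤ ρp σ p := by unfold ρp; positivity
  have hρ1 : ρp σ p ≤ 1 := Real.rpow_le_one_of_one_le_of_nonpos hp1 (by linarith)
  rw [dodd, abs_mul, abs_of_nonneg (pow_nonneg hρ0 j), pow_one]
  push_cast
  refine le_trans (mul_le_of_le_one_left (abs_nonneg _) (pow_le_one₀ hρ0 hρ1)) ?_
  have hle : (p : ℝ) ^ (j - 1) ≤ (p : ℝ) ^ j := pow_le_pow_right₀ hp1 (Nat.sub_le _ _)
  have h1 : 0 ≤ (p : ℝ) ^ (j - 1) := by positivity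
  rw [dlt, dlt, abs_le]
  split_ifs <;> constructor <;> linarith

/-- The sum at `p ^ i` over the multiples of `p ^ j`. -/
noncomputable def gG (g : ℤ[X]) (p i : ℕ) (a : ℤ) (j : ℕ) : ℂ :=
  avg (p ^ i) fun n => ((dlt p j n : ℝ) : ℂ) * ch (p ^ i) (a * g.eval (n : ℤ))

lemma avg_dlt (p i j : ℕ) (hp : p.Prime) (hji : j ≤ i) (F : ℕ → ℂ) :
    avg (p ^ i) (fun n => ((dlt p j n : ℝ) : ℂ) * F n)
      = avg (p ^ (i - j)) (fun m => F (p ^ j * m)) := by
  have hpi : p ^ i = p ^ j * p ^ (i - j) := by rw [← pow_add]; congr 1; omega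
  rw [avg, avg, hpi, sum_range_mul']
  have hin : ∀ s : ℕ, ∑ r ∈ range (p ^ j), ((dlt p j (r + p ^ j * s) : ℝ) : ℂ) * F (r + p ^ j * s)
      = ((p : ℂ) ^ j) * F (p ^ j * s) := by
    intro s
    rw [sum_eq_single_of_mem 0 (mem_range.mpr (pow_pos hp.pos j))]
    · simp [dlt]
    · intro r hr hr0
      rw [dlt, if_neg]
      · simp
      · intro h
        exact hr0 (Nat.eq_zero_of_dvd_of_lt ((Nat.dvd_add_left (dvd_mul_right _ _)).mp h)
          (mem_range.mp hr))
  rw [sum_congr rfl (fun s _ => hin s), ← mul_sum]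
  push_cast
  rw [mul_div_mul_left _ _ (pow_ne_zero _ (by exact_mod_cast hp.ne_zero))]

lemma avg_term_eq (g : ℤ[X]) (σ : ℝ) (p i j : ℕ) (a : ℤ) :
    avg (p ^ i) (fun n => (dodd σ p j n : ℂ) * ch (p ^ i) (a * g.eval (n : ℤ)))
      = ((ρp σ p ^ j : ℝ) : ℂ) * (gG g p i a j - gG g p i a (j - 1)) := by
  simp only [gG, avg, dodd]
  rw [← sub_div, ← sum_sub_distrib, ← mul_div_assoc, mul_sum]
  congr 1
  refine sum_congr rfl fun n _ => ?_
  push_cast; ring

lemma norm_gG_le_one (g : ℤ[X]) (p i j : ℕ) (a : ℤ) (hp : p.Prime) (hji : j ≤ i) :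
    ‖gG g p i a j‖ ≤ 1 := by
  rw [gG, avg_dlt p i j hp hji]
  exact norm_avg_le _ _ _ zero_le_one fun n => (norm_ch _ _).le

lemma dodd_decay (g : ℤ[X]) (σ : ℝ) (p i j : ℕ) (hp : p.Prime) (hji : j ≤ i)
    (a : ℤ) :
    ‖avg (p ^ i) (fun n => (dodd σ p j n : ℂ) * ch (p ^ i) (a * g.eval (n : ℤ)))‖
      ≤ 2 * (((p ^ j : ℕ)) : ℝ) ^ (-σ) := by
  have hρ0 : 0 ≤ ρp σ p := by unfold ρp; positivity
  rw [avg_term_eq, norm_mul, Complex.norm_real, Real.norm_eq_abs, abs_of_nonneg (pow_nonneg hρ0 j)]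
  have e : (((p ^ j : ℕ)) : ℝ) ^ (-σ) = ρp σ p ^ j := by
    push_cast; rw [ρp, Real.rpow_pow_comm (Nat.cast_nonneg p)]
  rw [e, mul_comm (2 : ℝ)]
  refine mul_le_mul_of_nonneg_left ?_ (pow_nonneg hρ0 j)
  refine (norm_sub_le _ _).trans ?_
  have := norm_gG_le_one g p i j a hp hji
  have := norm_gG_le_one g p i (j - 1) a hp (le_trans (Nat.sub_le _ _) hji)
  linarith

lemma gG_im (g : ℤ[X]) (hodd : ∀ x : ℤ, g.eval (-x) = -g.eval x) (p i j : ℕ) (a : ℤ)
    (hp : p.Prime) (hji : j ≤ i) : (gG g p i a j).im = 0 := by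
  rw [gG, avg_dlt p i j hp hji]
  set R := p ^ (i - j) with hR
  have hpi1 : 1 ≤ p ^ i := Nat.one_le_pow _ _ hp.pos
  set F : ℕ → ℂ := fun m => ch (p ^ i) (a * g.eval ((p ^ j * m : ℕ) : ℤ)) with hF
  have hRe : p ^ j * R = p ^ i := by rw [hR, ← pow_add]; congr 1; omega
  have hper : Function.Periodic F R := by
    intro m
    refine ch_congr hpi1 ?_
    rw [← mul_sub]
    refine Dvd.dvd.mul_left (dvd_trans ?_ (sub_dvd_eval_sub _ _ g)) _
    refine ⟨1, ?_⟩
    push_cast [← hRe]; ring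
  have hconj : ∀ m, m < R → (starRingEnd ℂ) (F (R - 1 - m + 1)) = F m := by
    intro m hm
    simp only [hF, ch]
    rw [ee_conj, ← neg_div, ← Int.cast_neg]
    refine ch_congr hpi1 ?_
    rw [← mul_neg, ← mul_sub, ← hodd]
    refine Dvd.dvd.mul_left (dvd_trans ?_ (sub_dvd_eval_sub _ _ g)) _
    refine ⟨-1, ?_⟩
    rw [show R - 1 - m + 1 = R - m by omega]
    push_cast [← hRe, Nat.cast_sub hm.le]; ring
  have hconjper : Function.Periodic (fun m => (starRingEnd ℂ) (F m)) R := fun m => by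
    simp only []; rw [hper m]
  rw [← Complex.conj_eq_iff_im]
  show (starRingEnd ℂ) (avg R F) = avg R F
  rw [avg, map_div₀, map_natCast, map_sum]
  congr 1
  rw [← sum_shift _ R 1 hconjper, ← sum_range_reflect]
  exact sum_congr rfl fun m hm => hconj m (mem_range.mp hm)

lemma gG_eq_one (g : ℤ[X]) (e : ℕ) (hlow : ∀ t < e, g.coeff t = 0) (p i j : ℕ) (a : ℤ)
    (hp : p.Prime) (hji : j ≤ i) (hej : i ≤ e * j) : gG g p i a j = 1 := by
  rw [gG, avg_dlt p i j hp hji, avg]
  have : ∀ m : ℕ, ch (p ^ i) (a * g.eval ((p ^ j * m : ℕ) : ℤ)) = 1 := by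
    intro m
    rw [ch_congr (Nat.one_le_pow _ _ hp.pos) (y := 0), ch]
    · simp [ee_zero]
    · rw [sub_zero]
      refine Dvd.dvd.mul_left ?_ _
      rw [eval_eq_sum_range]
      refine dvd_sum fun t _ => ?_
      rcases Nat.lt_or_ge t e with ht | ht
      · rw [hlow t ht]; simp
      · refine Dvd.dvd.mul_left ?_ _
        push_cast
        rw [mul_pow, ← pow_mul]
        refine Dvd.dvd.mul_right (pow_dvd_pow _ (hej.trans ?_)) _
        rw [mul_comm]; exact Nat.mul_le_mul_left j ht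
  simp only [this, sum_const, card_range, nsmul_eq_mul, mul_one]
  exact div_self (by exact_mod_cast (pow_pos hp.pos _).ne')

lemma gG_bound (g : ℤ[X]) (e : ℕ) (he : 1 ≤ e) (hlow : ∀ t < e, g.coeff t = 0)
    (hce : g.coeff e ≠ 0) : ∃ θ : ℝ, 0 < θ ∧ ∃ K₀ : ℝ, 1 ≤ K₀ ∧
      ∀ p i j : ℕ, ∀ a : ℤ, p.Prime → ¬ (p : ℤ) ∣ a → e * j < i →
        ‖gG g p i a j‖ ≤ K₀ * ((p : ℝ) ^ (-θ)) ^ (i - e * j) := by
  obtain ⟨θ, hθ, C, hC, hcb⟩ := coeff_bound g.natDegree
  set d := (g.coeff e).natAbs with hd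
  have hd1 : 1 ≤ d := Int.natAbs_pos.mpr hce
  refine ⟨θ, hθ, C * (d : ℝ) ^ θ,
    one_le_mul_of_one_le_of_one_le hC (Real.one_le_rpow (by exact_mod_cast hd1) hθ.le),
    fun p i j a hp hpa hej => ?_⟩
  have hje : j ≤ e * j := Nat.le_mul_of_pos_left j he
  rw [gG, avg_dlt p i j hp (by omega)]
  set r := i - e * j with hr
  have hdvd : Polynomial.C ((p : ℤ) ^ (e * j)) ∣ g.comp (Polynomial.C ((p : ℤ) ^ j) * Polynomial.X) := by
    rw [C_dvd_iff_dvd_coeff]
    intro t
    rw [comp_C_mul_X_coeff]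
    rcases Nat.lt_or_ge t e with ht | ht
    · rw [hlow t ht]; simp
    · rw [← pow_mul]
      refine Dvd.dvd.mul_left (pow_dvd_pow _ ?_) _
      rw [mul_comm]; exact Nat.mul_le_mul_left j ht
  obtain ⟨Q, hQ⟩ := hdvd
  have hp0 : (p : ℤ) ≠ 0 := by exact_mod_cast hp.ne_zero
  have hcoef : Q.coeff e = g.coeff e := by
    have h := congrArg (fun P : ℤ[X] => P.coeff e) hQ
    simp only [comp_C_mul_X_coeff, coeff_C_mul, ← pow_mul, mul_comm j e] at h
    rw [mul_comm] at h
    exact (mul_left_cancel₀ (pow_ne_zero _ hp0) h).symm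
  have hdeg : (Polynomial.C a * Q).natDegree ≤ g.natDegree := by
    refine (natDegree_C_mul_le _ _).trans ?_
    have h := congrArg natDegree hQ
    rw [natDegree_C_mul (pow_ne_zero _ hp0), natDegree_comp,
      natDegree_C_mul (pow_ne_zero _ hp0), natDegree_X, mul_one] at h
    exact h.ge
  have hfun : ∀ m : ℕ, ch (p ^ i) (a * g.eval ((p ^ j * m : ℕ) : ℤ))
      = ch (p ^ r) ((Polynomial.C a * Q).eval (m : ℤ)) := by
    intro m
    have h := congrArg (fun P : ℤ[X] => P.eval (m : ℤ)) hQ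
    simp only [eval_comp, eval_mul, eval_C, eval_X] at h
    push_cast
    rw [h, eval_mul, eval_C, ch, ch]
    congr 1
    have hpi : (p : ℝ) ^ i = (p : ℝ) ^ (e * j) * (p : ℝ) ^ r := by
      rw [← pow_add]; congr 1; omega
    have hpR : (p : ℝ) ≠ 0 := by exact_mod_cast hp.ne_zero
    push_cast
    rw [hpi]
    field_simp
  simp only [hfun]
  have hsp : p ^ (i - j) = p ^ r * p ^ (e * j - j) := by rw [← pow_add]; congr 1; omega
  rw [hsp, avg_periodic_mul _ (p ^ r) _ (Nat.one_le_pow _ _ hp.pos)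
    (ch_eval_periodic (Nat.one_le_pow _ _ hp.pos) _)]
  refine (hcb _ hdeg (p ^ r) (Nat.one_le_pow _ _ hp.pos) e he d hd1 (fun q hq hdiv => ?_)).trans
    (le_of_eq ?_)
  · rw [coeff_C_mul, hcoef, mul_left_comm] at hdiv
    have hco : IsCoprime ((p ^ r : ℕ) : ℤ) a := by
      push_cast
      exact ((Nat.prime_iff_prime_int.mp hp).coprime_iff_not_dvd.mpr hpa).pow_left
    have h2 := Int.natAbs_dvd_natAbs.mpr (hco.dvd_of_dvd_mul_left hdiv)
    simp only [Int.natAbs_natCast, Int.natAbs_mul, ← hd] at h2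
    rw [mul_comm d q]
    exact Nat.le_of_dvd (by positivity) h2
  · push_cast
    rw [Real.div_rpow (Nat.cast_nonneg d) (by positivity), Real.rpow_pow_comm (Nat.cast_nonneg p),
      Real.rpow_neg (by positivity)]
    ring

lemma abel_identity (G : ℕ → ℂ) (ρ : ℝ) (n : ℕ) :
    G 0 + ∑ j ∈ Icc 1 n, ((ρ ^ j : ℝ) : ℂ) * (G j - G (j - 1))
      = (∑ j ∈ range n, ((ρ ^ j - ρ ^ (j + 1) : ℝ) : ℂ) * G j) + ((ρ ^ n : ℝ) : ℂ) * G n := by
  induction n with
  | zero => simp
  | succ k ih =>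
    rw [sum_Icc_succ_top (by omega), ← add_assoc, ih, sum_range_succ, Nat.add_sub_cancel]
    push_cast; ring

theorem odd_local (g : ℤ[X]) (hg : g ≠ 0) (hodd : ∀ x : ℤ, g.eval (-x) = -g.eval x) :
    Nonempty (LocalData g) := by
  set e := g.natTrailingDegree with he
  have hce : g.coeff e ≠ 0 := trailingCoeff_nonzero_iff_nonzero.mpr hg
  have hlow : ∀ t < e, g.coeff t = 0 := fun t ht => coeff_eq_zero_of_lt_natTrailingDegree ht
  have he1 : 1 ≤ e := by
    by_contra h
    have h0 : e = 0 := by omega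
    have := hodd 0
    rw [neg_zero, ← coeff_zero_eq_eval_zero] at this
    rw [h0] at hce
    omega
  obtain ⟨θ, hθ, K₀, hK₀, hG⟩ := gG_bound g e he1 hlow hce
  set z : ℝ := (2 : ℝ) ^ (-(θ / 2)) with hz
  have hz1 : z < 1 := Real.rpow_lt_one_of_one_lt_of_neg (by norm_num) (by linarith)
  have hz0 : 0 < z := by positivity
  set σ := min (θ / 2) ((1 - z) * θ / (2 * K₀)) with hσdef
  have hσ : 0 < σ := lt_min (by linarith) (div_pos (mul_pos (by linarith) hθ) (by linarith))
  refine ⟨{ δ := dodd σ, A := 1, C := 2, σ := σ, one_le_C := one_le_two, σ_pos := hσ,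
            per := fun p j _ => dodd_periodic σ p j
            mean := fun p j hp hj n => dodd_mean σ p j hp hj n
            sup := fun p j hp _ n => dodd_sup σ hσ.le p j hp n
            decay := fun p i j hp _ hji a _ => dodd_decay g σ p i j hp hji a
            pos := ?_ }⟩
  intro p i hp hi a hpa
  have h0 : avg (p ^ i) (fun n => ch (p ^ i) (a * g.eval (n : ℤ))) = gG g p i a 0 := by
    simp [gG, dlt]
  simp only [avg_term_eq, h0]
  rw [abel_identity (gG g p i a) (ρp σ p) i]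
  set ρ := ρp σ p with hρ
  set G := gG g p i a with hGdef
  have hp1 : (1 : ℝ) < p := by exact_mod_cast hp.one_lt
  have hρ0 : 0 < ρ := by rw [hρ, ρp]; positivity
  have hρ1 : ρ ≤ 1 := Real.rpow_le_one_of_one_le_of_nonpos hp1.le (by linarith)
  constructor
  · have him : ∀ j ≤ i, (G j).im = 0 := fun j hj => gG_im g hodd p i j a hp hj
    rw [Complex.add_im, Complex.im_sum]
    simp only [Complex.mul_im, Complex.ofReal_re, Complex.ofReal_im, zero_mul, add_zero]
    rw [him i le_rfl, sum_eq_zero (fun j hj => by rw [him j (mem_range.mp hj).le, mul_zero])]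
    simp
  · have hex : ∃ j, i ≤ e * j := ⟨i, Nat.le_mul_of_pos_left i he1⟩
    set m := Nat.find hex with hm
    have hmi : m ≤ i := Nat.find_min' hex (Nat.le_mul_of_pos_left i he1)
    have hone : ∀ j, m ≤ j → j ≤ i → G j = 1 := fun j hj hji =>
      gG_eq_one g e hlow p i j a hp hji ((Nat.find_spec hex).trans (Nat.mul_le_mul_left e hj))
    rw [Complex.add_re, Complex.re_sum]
    simp only [Complex.re_ofReal_mul]
    rw [hone i hmi le_rfl, Complex.one_re, mul_one]
    have htel : ∑ j ∈ Ico m i, (ρ ^ j - ρ ^ (j + 1)) * (G j).re = ρ ^ m - ρ ^ i := by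
      rw [sum_congr rfl (fun j hj => by
        rw [hone j (mem_Ico.mp hj).1 (mem_Ico.mp hj).2.le, Complex.one_re, mul_one])]
      rw [sum_Ico_eq_sum_range]
      have h := sum_range_sub' (fun j => ρ ^ (m + j)) (i - m)
      rw [Nat.add_sub_cancel' hmi, add_zero] at h
      exact h
    rw [← sum_range_add_sum_Ico _ hmi, htel]
    set x := (p : ℝ) ^ (-θ) / ρ with hx
    have hx0 : 0 ≤ x := by positivity
    have hxp : x ≤ (p : ℝ) ^ (-(θ / 2)) := by
      rw [hx, hρ, ρp, ← Real.rpow_sub (by linarith)]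
      exact Real.rpow_le_rpow_of_exponent_le hp1.le (by linarith [min_le_left (θ / 2) ((1 - z) * θ / (2 * K₀))])
    have hxz : x ≤ z := hxp.trans (Real.rpow_le_rpow_of_nonpos (by norm_num)
      (by exact_mod_cast hp.two_le) (by linarith))
    have hterm : ∀ j ∈ range m, -((1 - ρ) * K₀ * ρ ^ m * x ^ (m - j))
        ≤ (ρ ^ j - ρ ^ (j + 1)) * (G j).re := by
      intro j hj
      have hjm := mem_range.mp hj
      have hej : e * j < i := not_le.mp (Nat.find_min hex hjm)
      have hm1 : e * (m - 1) < i := not_le.mp (Nat.find_min hex (by omega))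
      have hr : m - j ≤ i - e * j := by
        have h1 : e * (m - 1) = e * (m - 1 - j) + e * j := by
          rw [← Nat.mul_add]; congr 1; omega
        have h2 : m - 1 - j ≤ e * (m - 1 - j) := Nat.le_mul_of_pos_left _ he1
        omega
      have hpθ0 : 0 ≤ (p : ℝ) ^ (-θ) := by positivity
      have hpθ1 : (p : ℝ) ^ (-θ) ≤ 1 := Real.rpow_le_one_of_one_le_of_nonpos hp1.le (by linarith)
      have hb : ‖G j‖ ≤ K₀ * (ρ ^ (m - j) * x ^ (m - j)) := by
        refine (hG p i j a hp hpa hej).trans (mul_le_mul_of_nonneg_left ?_ (by linarith))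
        rw [← mul_pow, hx, mul_div_cancel₀ _ hρ0.ne']
        exact pow_le_pow_of_le_one hpθ0 hpθ1 hr
      have hc : 0 ≤ ρ ^ j - ρ ^ (j + 1) :=
        sub_nonneg.mpr (pow_le_pow_of_le_one hρ0.le hρ1 (by omega))
      have h3 := mul_le_mul_of_nonneg_left
        ((neg_le_neg hb).trans (abs_le.mp (Complex.abs_re_le_norm (G j))).1) hc
      refine le_trans (le_of_eq ?_) h3
      have e1 : ρ ^ m = ρ ^ j * ρ ^ (m - j) := by rw [← pow_add]; congr 1; omega
      rw [e1]; ring
    have hsum : ∑ j ∈ range m, x ^ (m - j) ≤ x / (1 - z) := by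
      have e2 : ∑ j ∈ range m, x ^ (m - j) = x * ∑ j ∈ range m, x ^ j := by
        rw [mul_sum, ← sum_range_reflect]
        refine sum_congr rfl fun j hj => ?_
        rw [← pow_succ']; congr 1
        have := mem_range.mp hj; omega
      rw [e2, div_eq_mul_inv]
      refine mul_le_mul_of_nonneg_left ?_ hx0
      have h := geom_sum_mul_neg x m
      have hpos : 0 < 1 - z := by linarith
      rw [inv_eq_one_div, le_div_iff₀ hpos]
      have : 0 ≤ ∑ j ∈ range m, x ^ j := sum_nonneg fun j _ => pow_nonneg hx0 j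
      nlinarith [pow_nonneg hx0 m]
    have hkey : (1 - ρ) * K₀ * (x / (1 - z)) ≤ 1 := by
      rw [← mul_div_assoc, div_le_one (by linarith)]
      have hlog : 1 - ρ ≤ σ * ((p : ℝ) ^ (θ / 2) / (θ / 2)) := by
        have h1 : 1 - ρ ≤ σ * Real.log p := by
          rw [hρ, ρp, Real.rpow_def_of_pos (by linarith)]
          have := Real.add_one_le_exp (Real.log p * -σ)
          linarith
        exact h1.trans (mul_le_mul_of_nonneg_left
          (Real.log_le_rpow_div (Nat.cast_nonneg p) (by linarith)) hσ.le)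
      calc (1 - ρ) * K₀ * x
          ≤ σ * ((p : ℝ) ^ (θ / 2) / (θ / 2)) * K₀ * (p : ℝ) ^ (-(θ / 2)) :=
            mul_le_mul (mul_le_mul_of_nonneg_right hlog (by linarith)) hxp hx0 (by positivity)
        _ = σ * (2 * K₀ / θ) * ((p : ℝ) ^ (θ / 2) * (p : ℝ) ^ (-(θ / 2))) := by
            field_simp
        _ = σ * (2 * K₀ / θ) := by
            rw [← Real.rpow_add (by linarith), add_neg_cancel, Real.rpow_zero, mul_one]
        _ ≤ (1 - z) * θ / (2 * K₀) * (2 * K₀ / θ) :=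
            mul_le_mul_of_nonneg_right (min_le_right _ _) (by positivity)
        _ = 1 - z := by field_simp
    have h4 := sum_le_sum hterm
    rw [sum_neg_distrib, ← mul_sum] at h4
    have h5 : (1 - ρ) * K₀ * ρ ^ m * ∑ j ∈ range m, x ^ (m - j) ≤ ρ ^ m := by
      calc (1 - ρ) * K₀ * ρ ^ m * ∑ j ∈ range m, x ^ (m - j)
          ≤ (1 - ρ) * K₀ * ρ ^ m * (x / (1 - z)) := mul_le_mul_of_nonneg_left hsum
            (mul_nonneg (mul_nonneg (by linarith) (by linarith)) (by positivity))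
        _ = ρ ^ m * ((1 - ρ) * K₀ * (x / (1 - z))) := by ring
        _ ≤ ρ ^ m := mul_le_of_le_one_right (by positivity) hkey
    linarith

/-- A power-saving bound when some polynomial substitution makes `h` odd. -/
theorem power_saving_odd (h P : ℤ[X]) (hk : 2 ≤ h.natDegree) (hl : 0 < h.leadingCoeff)
    (hP : 1 ≤ P.natDegree) (hodd : ∀ x : ℤ, h.eval (P.eval (-x)) = -h.eval (P.eval x)) :
    ∃ c : ℝ, 0 < c ∧ ∃ C : ℝ, ∀ N : ℕ, ∀ A : Finset ℕ, A ⊆ Icc 1 N →
      (∀ x ∈ A, ∀ y ∈ A, ∀ n : ℕ, 1 ≤ n → (x : ℤ) - y = h.eval (n : ℤ) → x = y) →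
      (A.card : ℝ) ≤ C * (N : ℝ) ^ (1 - c) := by
  have hPne : P ≠ 0 := ne_zero_of_natDegree_gt hP
  have hlP : P.leadingCoeff ≠ 0 := leadingCoeff_ne_zero.mpr hPne
  have key : ∃ P' : ℤ[X], 1 ≤ P'.natDegree ∧ 0 < P'.leadingCoeff ∧
      ∀ x : ℤ, h.eval (P'.eval (-x)) = -h.eval (P'.eval x) := by
    rcases lt_or_gt_of_ne hlP with hneg | hpos
    · have hdegodd : Odd P.natDegree := by
        have hcomp : (h.comp P).comp (-Polynomial.X) = -(h.comp P) := by
          refine Polynomial.funext fun x => ?_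
          simp [eval_comp, hodd x]
        have h1 := congrArg leadingCoeff hcomp
        rw [leadingCoeff_comp (by simp), leadingCoeff_neg, leadingCoeff_neg, leadingCoeff_X,
          natDegree_comp] at h1
        have hne : (h.comp P).leadingCoeff ≠ 0 := by
          rw [leadingCoeff_comp (by omega)]
          exact mul_ne_zero hl.ne' (pow_ne_zero _ hlP)
        rcases Nat.even_or_odd P.natDegree with he | ho
        · rw [(he.mul_left _).neg_one_pow, mul_one] at h1
          omega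
        · exact ho
      refine ⟨P.comp (-Polynomial.X), by simp [natDegree_comp, hP], ?_, fun x => ?_⟩
      · rw [leadingCoeff_comp (by simp), leadingCoeff_neg, leadingCoeff_X, hdegodd.neg_one_pow]
        linarith
      · have := hodd (-x)
        simpa [eval_comp] using this
    · exact ⟨P, hP, hpos, hodd⟩
  obtain ⟨P', hP', hlP', hodd'⟩ := key
  set g := h.comp P' with hg
  have hgdeg : 2 ≤ g.natDegree := by
    rw [hg, natDegree_comp]
    exact le_trans hk (Nat.le_mul_of_pos_right _ hP')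
  have hgl : 0 < g.leadingCoeff := by
    rw [hg, leadingCoeff_comp (by omega)]; exact mul_pos hl (pow_pos hlP' _)
  have hgodd : ∀ x : ℤ, g.eval (-x) = -g.eval x := fun x => by
    rw [hg, eval_comp, eval_comp]; exact hodd' x
  obtain ⟨L⟩ := odd_local g (ne_zero_of_natDegree_gt (show 0 < g.natDegree by omega)) hgodd
  have hinj : Function.Injective (Int.castRingHom ℝ) := Int.cast_injective
  obtain ⟨n₀, hn₀1, hn₀⟩ := eval_lower (rpoly P')
    (by rw [rpoly, natDegree_map_eq_of_injective hinj]; exact hP')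
    (by rw [rpoly, leadingCoeff_map_of_injective hinj]; simpa using hlP')
  obtain ⟨c, hc, C, hC⟩ := core L hgdeg hgl n₀
  refine ⟨c, hc, C, fun N A hA hav => hC N A hA fun x hx y hy n hn he => ?_⟩
  have h1 := hn₀ (n : ℝ) (by exact_mod_cast hn)
  have h2 : (0 : ℝ) < (rpoly P').eval (n : ℝ) := by
    refine lt_of_lt_of_le ?_ h1
    have : (1 : ℝ) ≤ n := by exact_mod_cast le_trans hn₀1 hn
    have hl' : (0 : ℝ) < (rpoly P').leadingCoeff := by
      rw [rpoly, leadingCoeff_map_of_injective hinj]; simpa using hlP'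
    positivity
  rw [rpoly_eval] at h2
  have h3 : 0 < P'.eval (n : ℤ) := by exact_mod_cast h2
  refine hav x hx y hy (P'.eval (n : ℤ)).toNat (by omega) ?_
  rw [he, hg, eval_comp, Int.toNat_of_nonneg h3.le]

end Vale.Agent.P042
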