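import Vale.Agent.P042.CubicCount
import Vale.Agent.P042.NearFinal
import Vale.Agent.P042.Odd

namespace Vale.Agent.P042.Cubic

open Finset Polynomial

lemma pair_at_cubic {h : ℤ[X]} {a b c d : ℤ}
    (hev : ∀ t : ℤ, h.eval t = a * t ^ 3 + b * t ^ 2 + c * t + d)
    (hdv : ∀ t : ℤ, (derivative h).eval t = 3 * a * t ^ 2 + 2 * b * t + c)
    (ha : a ≠ 0) (hnd : b ^ 2 - 3 * a * c ≠ 0 ∨ b * c - 9 * a * d ≠ 0)
    (hint : ∀ q : ℕ, 1 ≤ q → ∃ t : ℤ, (q : ℤ) ∣ h.eval t) :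
    ∃ κ : ℝ, 0 < κ ∧ ∃ p₀ : ℕ, ∀ p : ℕ, p.Prime → p₀ ≤ p → Gen.Near.PairAt h κ p := by
  refine ⟨1 / 36, by norm_num, 5184 + a.natAbs + (b ^ 2 - 3 * a * c).natAbs +
    (b * c - 9 * a * d).natAbs, fun p hp hp₀ => ?_⟩
  have : Fact p.Prime := ⟨hp⟩
  have hne : ∀ u : ℤ, u ≠ 0 → u.natAbs < p → (u : ZMod p) ≠ 0 := fun u hu hlt h0 =>
    hu (Int.natAbs_eq_zero.mp (Nat.eq_zero_of_dvd_of_lt
      (Int.natCast_dvd.mp ((ZMod.intCast_zmod_eq_zero_iff_dvd u p).mp h0)) hlt))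
  have hA : (a : ZMod p) ≠ 0 := hne a ha (by omega)
  have hcr : (b : ZMod p) ^ 2 - 3 * a * c ≠ 0 ∨ (b : ZMod p) * c - 9 * a * d ≠ 0 := by
    rcases hnd with hR | hD
    · exact Or.inl (by simpa using hne _ hR (by omega))
    · exact Or.inr (by simpa using hne _ hD (by omega))
  have hcast : ∀ x : ZMod p, ((h.eval (x.val : ℤ) : ℤ) : ZMod p) = f (a : ZMod p) b c d x :=
    fun x => by simp [hev, f, ZMod.natCast_zmod_val]
  have hcastd : ∀ x : ZMod p,
      (((derivative h).eval (x.val : ℤ) : ℤ) : ZMod p) = fd (a : ZMod p) b c x :=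
    fun x => by simp [hdv, fd, ZMod.natCast_zmod_val]
  constructor
  · obtain ⟨t, ht⟩ := hint p hp.one_le
    have hz : f (a : ZMod p) b c d (t : ZMod p) = 0 := by
      have := (ZMod.intCast_zmod_eq_zero_iff_dvd _ p).mpr ht
      simpa [hev, f] using this
    obtain ⟨w, hw, hwd⟩ := simple_root (by omega) hA hcr hz
    refine ⟨w.val, (ZMod.intCast_zmod_eq_zero_iff_dvd _ p).mp ((hcast w).trans hw), fun hd => hwd ?_⟩
    rw [← hcastd, (ZMod.intCast_zmod_eq_zero_iff_dvd _ p).mpr hd]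
  · have h3 : (b : ZMod p) ^ 2 - 3 * a * c ≠ 0 ∨
        ((b : ZMod p) ^ 2 - 3 * a * c = 0 ∧ (b : ZMod p) * c - 9 * a * d ≠ 0) := by
      by_cases hR : (b : ZMod p) ^ 2 - 3 * a * c = 0
      · exact Or.inr ⟨hR, hcr.resolve_left (not_not.mpr hR)⟩
      · exact Or.inl hR
    obtain ⟨T, hT, hTd, hTs, hTi⟩ := pair_set (by omega) hA h3
    refine ⟨T.image ZMod.val, ?_, ?_, ?_, ?_, ?_⟩
    · rw [card_image_of_injective _ (ZMod.val_injective p)]
      have h1 : (p : ℝ) ≤ 18 * T.card + 120 := by exact_mod_cast hT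
      have h2 : (5184 : ℝ) ≤ p := by exact_mod_cast (show 5184 ≤ p by omega)
      linarith
    · intro x hx
      obtain ⟨u, -, rfl⟩ := Finset.mem_image.mp hx
      exact ZMod.val_lt u
    · intro x hx hd
      obtain ⟨u, hu, rfl⟩ := Finset.mem_image.mp hx
      exact hTd u hu (by rw [← hcastd, (ZMod.intCast_zmod_eq_zero_iff_dvd _ p).mpr hd])
    · intro x hx
      obtain ⟨u, hu, rfl⟩ := Finset.mem_image.mp hx
      obtain ⟨v, hv, huv⟩ := hTs u hu
      refine ⟨v.val, mem_image_of_mem _ hv, (ZMod.intCast_zmod_eq_zero_iff_dvd _ p).mp ?_⟩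
      rw [Int.cast_add, hcast, hcast, huv]
    · intro x hx y hy hxy
      obtain ⟨u, hu, rfl⟩ := Finset.mem_image.mp hx
      obtain ⟨v, hv, rfl⟩ := Finset.mem_image.mp hy
      have h0 := (ZMod.intCast_zmod_eq_zero_iff_dvd _ p).mpr hxy
      rw [Int.cast_sub, hcast, hcast, sub_eq_zero] at h0
      rw [hTi u hu v hv h0]

/-- `r_h(N) ≪ N exp(-c log N / log log N)` for every intersective cubic. -/
theorem cubic_bound (h : ℤ[X]) (hdeg : h.natDegree = 3) (hl : 0 < h.leadingCoeff)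
    (hint : ∀ q : ℕ, 1 ≤ q → ∃ t : ℤ, (q : ℤ) ∣ h.eval t) :
    ∃ c : ℝ, 0 < c ∧ ∃ C : ℝ, ∀ N : ℕ, 3 ≤ N → ∀ A : Finset ℕ, A ⊆ Icc 1 N →
      (∀ x ∈ A, ∀ y ∈ A, ∀ n : ℕ, 1 ≤ n → (x : ℤ) - y = h.eval (n : ℤ) → x = y) →
      (A.card : ℝ) ≤ C * N * Real.exp (-(c * (Real.log N / Real.log (Real.log N)))) := by
  obtain ⟨a, b, c, d, hh⟩ : ∃ a b c d : ℤ,
      h = C a * Polynomial.X ^ 3 + C b * Polynomial.X ^ 2 + C c * Polynomial.X + C d := by
    refine ⟨h.coeff 3, h.coeff 2, h.coeff 1, h.coeff 0, ?_⟩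
    conv_lhs => rw [h.as_sum_range_C_mul_X_pow, hdeg]
    simp [Finset.sum_range_succ]
    ring
  have hev : ∀ t : ℤ, h.eval t = a * t ^ 3 + b * t ^ 2 + c * t + d := fun t => by simp [hh]
  have hdv : ∀ t : ℤ, (derivative h).eval t = 3 * a * t ^ 2 + 2 * b * t + c := fun t => by
    simp [hh]; ring
  have ha : 0 < a := by
    have h3 : h.coeff 3 = a := by
      rw [hh]; simp only [coeff_add, coeff_C_mul, coeff_X_pow, coeff_C, coeff_X]; norm_num
    rwa [leadingCoeff, hdeg, h3] at hl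
  by_cases hnd : b ^ 2 - 3 * a * c ≠ 0 ∨ b * c - 9 * a * d ≠ 0
  · exact Gen.Near.near_power h (by omega) hl hint (pair_at_cubic hev hdv ha.ne' hnd hint)
  · push Not at hnd
    obtain ⟨hR, hD⟩ := hnd
    obtain ⟨r, hr⟩ : 3 * a ∣ b := by
      obtain ⟨t, k, hk⟩ := hint a.toNat (by omega)
      rw [Int.toNat_of_nonneg ha.le, hev] at hk
      have h1 : (3 * a) ^ 3 ∣ (3 * a * t + b) ^ 3 :=
        ⟨k, by linear_combination (27 * a ^ 2) * hk + (b + 9 * a * t) * hR + (3 * a) * hD⟩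
      exact (dvd_add_right (dvd_mul_right _ _)).mp ((Int.pow_dvd_pow_iff three_ne_zero).mp h1)
    have hce : c = 3 * a * r ^ 2 :=
      mul_left_cancel₀ (show 3 * a ≠ 0 by omega) (by rw [hr] at hR; linear_combination -hR)
    have hde : d = a * r ^ 3 :=
      mul_left_cancel₀ (show 9 * a ≠ 0 by omega) (by rw [hr, hce] at hD; linear_combination -hD)
    obtain ⟨c', hc', C', hC'⟩ := power_saving_odd h (Polynomial.X - C r) (by omega) hl
      (le_of_eq (natDegree_X_sub_C r).symm) (fun x => by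
        simp only [hev, eval_sub, eval_X, eval_C, hr, hce, hde]; ring)
    have hlog3 : 1 < Real.log 3 := by
      rw [Real.lt_log_iff_exp_lt (by norm_num)]
      exact lt_trans Real.exp_one_lt_d9 (by norm_num)
    set κ := Real.log (Real.log 3) with hκ
    have hκ0 : 0 < κ := Real.log_pos hlog3
    refine ⟨c' * κ, by positivity, |C'|, fun N hN A hA hav => (hC' N A hA hav).trans ?_⟩
    have hNR : (3 : ℝ) ≤ N := by exact_mod_cast hN
    have hl3 : Real.log 3 ≤ Real.log N := Real.log_le_log (by norm_num) hNR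
    have hκle : κ ≤ Real.log (Real.log N) := Real.log_le_log (by linarith) hl3
    rw [sub_eq_add_neg, Real.rpow_add (by linarith), Real.rpow_one,
      Real.rpow_def_of_pos (by linarith), ← mul_assoc]
    refine mul_le_mul (mul_le_mul_of_nonneg_right (le_abs_self _) (by linarith))
      (Real.exp_le_exp.mpr ?_) (Real.exp_pos _).le (by positivity)
    have h1 : κ * (Real.log N / Real.log (Real.log N)) ≤ Real.log N := by
      rw [← mul_div_assoc, div_le_iff₀ (by linarith), mul_comm (Real.log N)]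
      exact mul_le_mul_of_nonneg_right hκle (by linarith)
    have h2 := mul_le_mul_of_nonneg_left h1 hc'.le
    linarith

end Vale.Agent.P042.Cubic
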