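import Vale.Agent.P042.CurveLink

/-! The splitting field that carries both the curve and the Artin-Schreier cover, and the sums over
points of an absolutely irreducible plane curve over the extensions of the prime field. -/

namespace Vale.Agent.P042.Curve

open Polynomial Finset

set_option linter.unusedSectionVars false
set_option linter.style.haveILetI false

lemma exists_lift {K L : Type*} [Field K] [Field L] [Algebra K L] (G : K[X]) [IsSplittingField K L G]
    (φ : K →+* K) (hG : G.map φ = G) :
    ∃ τ : L →+* L, ∀ c, τ (algebraMap K L c) = algebraMap K L (φ c) := by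
  have hs : (G.map ((algebraMap K L).comp φ)).Splits := by
    rw [← Polynomial.map_map, hG]; exact IsSplittingField.splits L G
  let τ := @IsSplittingField.lift L K L _ _ _ _ ((algebraMap K L).comp φ).toAlgebra G _ hs
  exact ⟨(@AlgHom.toRingHom K L L _ _ _ _ ((algebraMap K L).comp φ).toAlgebra τ),
    fun c => @AlgHom.commutes K L L _ _ _ _ ((algebraMap K L).comp φ).toAlgebra τ c⟩

lemma separable_of_small_degree {K : Type*} [Field K] {p : ℕ} [CharP K p] {Q : K[X]} (hQ : Irreducible Q)
    (hd : Q.natDegree < p) : Q.Separable := by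
  rw [separable_iff_derivative_ne_zero hQ]
  intro h
  have h1 : 1 ≤ Q.natDegree := hQ.natDegree_pos
  have h2 : (derivative Q).coeff (Q.natDegree - 1) = 0 := by rw [h, coeff_zero]
  rw [coeff_derivative, Nat.sub_add_cancel h1, mul_eq_zero] at h2
  rcases h2 with h2 | h2
  · exact hQ.ne_zero (leadingCoeff_eq_zero.mp h2)
  · rw [← Nat.cast_add_one, Nat.sub_add_cancel h1, CharP.cast_eq_zero_iff K p] at h2
    have := Nat.le_of_dvd h1 h2
    omega

section Setting

variable (p : ℕ) [Fact p.Prime]

/-- An algebraic closure of the prime field. -/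
abbrev kbar := AlgebraicClosure (ZMod p)

/-- Rational functions over it. -/
abbrev Kbar := FractionRing (kbar p)[X]

/-- The embedding of `F[x]` into rational functions. -/
noncomputable def toKbar : (ZMod p)[X] →+* Kbar p :=
  (algebraMap (kbar p)[X] (Kbar p)).comp (mapRingHom (algebraMap (ZMod p) (kbar p)))

/-- The polynomial with both the curve and the cover. -/
noncomputable def coverPoly (P : (ZMod p)[X][X]) (f : (ZMod p)[X]) : (Kbar p)[X] :=
  P.map (toKbar p) * (X ^ p - X - C (toKbar p f))

lemma as_monic (f : (ZMod p)[X]) : (X ^ p - X - C (toKbar p f) : (Kbar p)[X]).Monic := by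
  have hp := (Fact.out : p.Prime)
  rw [sub_sub]
  refine monic_X_pow_sub (lt_of_le_of_lt (degree_add_le _ _) (max_lt ?_ ?_))
  · rw [degree_X]; exact_mod_cast hp.one_lt
  · exact lt_of_le_of_lt degree_C_le (by exact_mod_cast hp.pos)

/-- The Frobenius of the base field on rational functions. -/
lemma exists_frob (n : ℕ) : ∃ φ : Kbar p →+* Kbar p, (∀ g, φ (toKbar p g) = toKbar p g) ∧
    φ (algebraMap (kbar p)[X] (Kbar p) X) = algebraMap (kbar p)[X] (Kbar p) X ∧
    ∀ c : kbar p, φ (algebraMap (kbar p)[X] (Kbar p) (C c)) = algebraMap (kbar p)[X] (Kbar p) (C (c ^ p ^ n)) := by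
  set F := iterateFrobenius (kbar p) p n with hF
  have hinj : Function.Injective ((algebraMap (kbar p)[X] (Kbar p)).comp (mapRingHom F)) :=
    (IsFractionRing.injective _ _).comp (Polynomial.map_injective F F.injective)
  refine ⟨IsFractionRing.lift hinj, fun g => ?_, ?_, fun c => ?_⟩
  · rw [toKbar, RingHom.comp_apply, IsFractionRing.lift_algebraMap, RingHom.comp_apply, coe_mapRingHom,
      coe_mapRingHom, Polynomial.map_map]
    congr 2
    refine RingHom.ext fun a => ?_
    rw [RingHom.comp_apply, hF, iterateFrobenius_def, ← map_pow, ZMod.pow_card_pow]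
  · rw [IsFractionRing.lift_algebraMap, RingHom.comp_apply, coe_mapRingHom, map_X]
  · rw [IsFractionRing.lift_algebraMap, RingHom.comp_apply, coe_mapRingHom, map_C, hF, iterateFrobenius_def]

variable {L : Type*} [Field L] [Algebra (kbar p) L] [Algebra (kbar p)[X] L]
  [IsScalarTower (kbar p) (kbar p)[X] L] [Algebra (Kbar p) L] [IsScalarTower (kbar p)[X] (Kbar p) L]
  [FiniteDimensional (Kbar p) L] [IsGalois (Kbar p) L]

open Classical in
/-- Square root cancellation on the points over extension fields, in the abstract splitting field. -/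
theorem point_sums_abstract (P : (ZMod p)[X][X]) (hPm : P.Monic) (hd : P.natDegree < p)
    (hirr : Irreducible (P.map (toKbar p))) (f : (ZMod p)[X]) (hf1 : 1 ≤ f.natDegree) (hfp : f.natDegree < p)
    (hsplit : IsSplittingField (Kbar p) L (coverPoly p P f)) :
    ∃ C : ℝ, ∀ n : ℕ, n ≠ 0 →
      ‖∑ x ∈ Fq (kbar p) p n, ((evk P x).roots.toFinset.filter (fun r => r ^ p ^ n = r)).card •
          ZMod.stdAddChar (trk f n x)‖ ≤ C * Real.sqrt ((p : ℝ) ^ n) ∧
      |(∑ x ∈ Fq (kbar p) p n, (((evk P x).roots.toFinset.filter (fun r => r ^ p ^ n = r)).card : ℝ))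
          - (p : ℝ) ^ n| ≤ C * Real.sqrt ((p : ℝ) ^ n) := by
  have hp := (Fact.out : p.Prime)
  haveI : FaithfulSMul (kbar p)[X] L := (faithfulSMul_iff_algebraMap_injective _ _).mpr (by
    rw [IsScalarTower.algebraMap_eq (kbar p)[X] (Kbar p) L]
    exact (algebraMap (Kbar p) L).injective.comp (IsFractionRing.injective _ _))
  haveI : CharP (Kbar p) p := charP_of_injective_algebraMap (IsFractionRing.injective (kbar p)[X] (Kbar p)) p
  haveI : CharP L p := charP_of_injective_algebraMap (algebraMap (Kbar p) L).injective p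
  have hΨ : Ψ p (kbar p) L = (algebraMap (Kbar p) L).comp (toKbar p) := by
    rw [Ψ, toKbar, IsScalarTower.algebraMap_eq (kbar p)[X] (Kbar p) L, RingHom.comp_assoc]
  -- roots of the curve polynomial
  set Q := P.map (toKbar p) with hQ
  have hQm : Q.Monic := hPm.map _
  have hQd : Q.natDegree = P.natDegree := hPm.natDegree_map _
  have hsp : (Q.map (algebraMap (Kbar p) L)).Splits := by
    have h := IsSplittingField.splits L (coverPoly p P f)
    rw [coverPoly, Polynomial.map_mul] at h
    exact h.of_dvd (mul_ne_zero ((hQm.map _).ne_zero) (((as_monic p f).map _).ne_zero)) (dvd_mul_right _ _)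
  have hsep : (Q.map (algebraMap (Kbar p) L)).Separable :=
    (separable_of_small_degree (p := p) hirr (by rw [hQd]; exact hd)).map
  set Y := (Q.map (algebraMap (Kbar p) L)).roots.toFinset with hYdef
  have hY : P.map (Ψ p (kbar p) L) = ∏ y ∈ Y, (X - C y) := by
    rw [hΨ, ← Polynomial.map_map, ← hQ]
    conv_lhs => rw [hsp.eq_prod_roots_of_monic (hQm.map _)]
    rw [hYdef, prod_eq_multiset_prod, Multiset.toFinset_val, (nodup_roots hsep).dedup]
  have hmin : ∀ y ∈ Y, minpoly (Kbar p) y = Q := by
    intro y hy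
    rw [hYdef, Multiset.mem_toFinset, mem_roots (hQm.map _).ne_zero, IsRoot.def, eval_map_algebraMap] at hy
    exact (minpoly.eq_of_irreducible_of_monic hirr hy hQm).symm
  have htr : ∀ y ∈ Y, ∀ y' ∈ Y, ∃ σ : L ≃ₐ[Kbar p] L, σ y = y' := fun y hy y' hy' =>
    Normal.minpoly_eq_iff_mem_orbit L |>.mp ((hmin y' hy').trans (hmin y hy).symm)
  obtain ⟨y₁, hy₁⟩ : Y.Nonempty := by
    have hd0 : (Q.map (algebraMap (Kbar p) L)).degree ≠ 0 := by
      rw [degree_map]; exact hirr.degree_pos.ne'
    obtain ⟨y, hy⟩ := hsp.exists_eval_eq_zero hd0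
    exact ⟨y, by rw [hYdef, Multiset.mem_toFinset, mem_roots (hQm.map _).ne_zero]; exact hy⟩
  -- the cover
  obtain ⟨z, hz⟩ : ∃ z : L, z ^ p = z + Ψ p (kbar p) L f := by
    have h := IsSplittingField.splits L (coverPoly p P f)
    rw [coverPoly, Polynomial.map_mul] at h
    have h2 := h.of_dvd (mul_ne_zero ((hQm.map _).ne_zero) (((as_monic p f).map _).ne_zero))
      (dvd_mul_left _ _)
    obtain ⟨z, hz⟩ := h2.exists_eval_eq_zero (by
      rw [degree_map]
      intro h0
      have h1 : (X ^ p - X - C (toKbar p f) : (Kbar p)[X]).natDegree = 0 :=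
        natDegree_eq_zero_iff_degree_le_zero.mpr h0.le
      have h3 : (X ^ p - X - C (toKbar p f) : (Kbar p)[X]).coeff p = 0 :=
        coeff_eq_zero_of_natDegree_lt (by omega)
      simp [coeff_X, coeff_C, hp.ne_one.symm, hp.ne_zero] at h3)
    refine ⟨z, ?_⟩
    simp only [Polynomial.map_sub, Polynomial.map_pow, map_X, map_C, eval_sub, eval_pow, eval_X, eval_C] at hz
    rw [hΨ, RingHom.comp_apply]
    linear_combination hz
  -- lower bound for the filtration
  obtain ⟨s, b, hb⟩ := FiniteDimensional.exists_is_basis_integral (kbar p)[X] (Kbar p) L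
  choose c hc using fun i : s => exists_mem (F := kbar p) (hb i)
  set c₀ := ∑ i : s, c i with hc₀def
  have hc₀ : ∀ n, Module.finrank (Kbar p) L * n ≤ Module.finrank (kbar p) (lt (kbar p) L n) + c₀ := by
    intro n
    have h := finrank_lt_ge (F := kbar p) (L := L) (Kbar p) (fun i : s => b i) b.linearIndependent c
      (fun i => lt_succ_le _ (hc i)) n
    rwa [← Module.finrank_eq_card_basis b] at h
  -- Frobenius lifts
  have hτ : ∀ n : ℕ, n ≠ 0 → ∃ τ : L →+* L, Semi (k := kbar p) τ (p ^ n) := by
    intro n _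
    obtain ⟨φ, hφ1, hφ2, hφ3⟩ := exists_frob p n
    have hG : (coverPoly p P f).map φ = coverPoly p P f := by
      simp only [coverPoly, Polynomial.map_mul, Polynomial.map_sub, Polynomial.map_pow, map_X, map_C,
        Polynomial.map_map, hφ1]
      congr 2
      exact RingHom.ext hφ1
    obtain ⟨τ, hτ⟩ := exists_lift (L := L) (coverPoly p P f) φ hG
    refine ⟨τ, ?_, fun d => ?_⟩
    · rw [xx, IsScalarTower.algebraMap_apply (kbar p)[X] (Kbar p) L, hτ, hφ2]
    · rw [IsScalarTower.algebraMap_apply (kbar p) (kbar p)[X] L,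
        IsScalarTower.algebraMap_apply (kbar p)[X] (Kbar p) L, Polynomial.algebraMap_eq, hτ, hφ3,
        ← IsScalarTower.algebraMap_apply, ← Polynomial.algebraMap_eq, ← IsScalarTower.algebraMap_apply]
  obtain ⟨C, hC⟩ := link_main (K := Kbar p) (p := p) hc₀ P hPm f Y hY htr y₁ z hy₁ hz hτ
  refine ⟨C, fun n hn => ?_⟩
  obtain ⟨a₀, B, hB, hw⟩ := hC n hn
  set H := univ.filter (fun h : L ≃ₐ[Kbar p] L => h y₁ = y₁) with hH
  have hH1 : ∀ h, h ∈ H ↔ h y₁ = y₁ := fun h => by simp [hH]
  have hkL : Function.Injective fun a : ZMod p =>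
      algebraMap (kbar p) L (algebraMap (ZMod p) (kbar p) a) :=
    (algebraMap (kbar p) L).injective.comp (algebraMap (ZMod p) (kbar p)).injective
  -- the shift is not trivial
  obtain ⟨h₁, hh₁, hB₁⟩ : ∃ h₁ ∈ H, B h₁ ≠ 0 := by
    by_contra hcon
    push Not at hcon
    have hfix : ∀ h ∈ H, h z = z := fun h hh => by
      rw [hB h ((hH1 h).mp hh), hcon h hh, map_zero, map_zero, add_zero]
    choose! σy hσy using fun y hy => htr y₁ hy₁ y hy
    set t := ∑ y ∈ Y, σy y z with ht
    have hval : ∀ σ : L ≃ₐ[Kbar p] L, ∀ y ∈ Y, σ y₁ = y → σ z = σy y z := by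
      intro σ y hy h
      have h2 : ((σy y)⁻¹ * σ) ∈ H := by
        rw [hH1]
        show (σy y).symm (σ y₁) = y₁
        apply (σy y).injective
        rw [AlgEquiv.apply_symm_apply, h, hσy y hy]
      have h3 := hfix _ h2
      have h4 : (σy y).symm (σ z) = z := h3
      conv_rhs => rw [← h4, AlgEquiv.apply_symm_apply]
    have hperm : ∀ (σ : L ≃ₐ[Kbar p] L), ∀ y ∈ Y, σ y ∈ Y := fun σ y hy => by
      rw [hYdef, Multiset.mem_toFinset, mem_roots (hQm.map _).ne_zero, IsRoot.def, eval_map_algebraMap] at hy ⊢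
      show aeval ((σ : L →ₐ[Kbar p] L) y) Q = 0
      rw [aeval_algHom_apply, hy, map_zero]
    have hfixt : ∀ σ : L ≃ₐ[Kbar p] L, σ t = t := by
      intro σ
      rw [ht, map_sum]
      refine sum_bij (fun y _ => σ y) (fun y hy => hperm σ y hy) (fun a _ b _ h => σ.injective h)
        (fun y hy => ⟨σ.symm y, hperm σ.symm y hy, σ.apply_symm_apply y⟩) fun y hy => ?_
      exact hval (σ * σy y) (σ y) (hperm σ y hy) (congrArg σ (hσy y hy))
    have hzint : IsIntegral (kbar p)[X] z := by
      refine ⟨X ^ p - X - Polynomial.C (f.map (algebraMap (ZMod p) (kbar p))), ?_, ?_⟩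
      · rw [sub_sub]
        refine monic_X_pow_sub (lt_of_le_of_lt (degree_add_le _ _) (max_lt ?_ ?_))
        · rw [degree_X]; exact_mod_cast hp.one_lt
        · exact lt_of_le_of_lt degree_C_le (by exact_mod_cast hp.pos)
      · simp only [eval₂_sub, eval₂_X_pow, eval₂_X, eval₂_C]
        rw [hz]
        show z + Ψ p (kbar p) L f - z - Ψ p (kbar p) L f = 0
        ring
    obtain ⟨u, hu⟩ := (IsGalois.mem_range_algebraMap_iff_fixed t).mpr hfixt
    have hui : IsIntegral (kbar p)[X] u := by
      have hti : IsIntegral (kbar p)[X] t := IsIntegral.sum _ fun y _ =>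
        hzint.map ((σy y).restrictScalars (kbar p)[X])
      rw [← hu] at hti
      exact (isIntegral_algebraMap_iff (algebraMap (Kbar p) L).injective).mp hti
    obtain ⟨T, hT⟩ := IsIntegrallyClosed.isIntegral_iff.mp hui
    have hTp : T ^ p = T + Polynomial.C (Y.card : kbar p) * f.map (algebraMap (ZMod p) (kbar p)) := by
      apply FaithfulSMul.algebraMap_injective (kbar p)[X] L
      have hTt : algebraMap (kbar p)[X] L T = t := by
        rw [IsScalarTower.algebraMap_apply (kbar p)[X] (Kbar p) L, hT, hu]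
      rw [map_pow, map_add, map_mul, hTt, map_natCast Polynomial.C, map_natCast, ht, sum_pow_char]
      simp only [← map_pow, hz, map_add, sum_add_distrib]
      congr 1
      rw [sum_congr rfl fun y _ => show σy y (Ψ p (kbar p) L f) = Ψ p (kbar p) L f by
        rw [hΨ]; exact (σy y).commutes _, sum_const, nsmul_eq_mul]
      rfl
    have hYc : (Y.card : kbar p) ≠ 0 := by
      rw [Ne, CharP.cast_eq_zero_iff (kbar p) p]
      intro h
      have h1 : Y.card ≤ P.natDegree := by
        rw [← hQd]
        exact (Multiset.toFinset_card_le _).trans ((card_roots' _).trans natDegree_map_le)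
      have := Nat.le_of_dvd (card_pos.mpr ⟨y₁, hy₁⟩) h
      omega
    set g := Polynomial.C (Y.card : kbar p) * f.map (algebraMap (ZMod p) (kbar p)) with hg
    have hgd : g.natDegree = f.natDegree := by
      rw [hg, natDegree_C_mul hYc, natDegree_map]
    by_cases hT0 : T.natDegree = 0
    · have h5 : g.natDegree ≤ 0 := by
        rw [show g = T ^ p - T by rw [hTp]; ring]
        refine (natDegree_sub_le _ _).trans (max_le ?_ hT0.le)
        rw [natDegree_pow, hT0, mul_zero]
      omega
    · have h5 : (T ^ p).natDegree ≤ max T.natDegree g.natDegree := hTp ▸ natDegree_add_le _ _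
      rw [natDegree_pow] at h5
      have : p ≤ p * T.natDegree := Nat.le_mul_of_pos_right _ (Nat.pos_of_ne_zero hT0)
      have : 2 * T.natDegree ≤ p * T.natDegree := Nat.mul_le_mul_right _ hp.two_le
      omega
  have hhom : ∀ h ∈ H, h₁ * h ∈ H ∧ B (h₁ * h) = B h₁ + B h := by
    intro h hh
    have hm : h₁ * h ∈ H := by
      rw [hH1]; show h₁ (h y₁) = y₁
      rw [(hH1 h).mp hh, (hH1 h₁).mp hh₁]
    refine ⟨hm, hkL ?_⟩
    have hcomm : ∀ c : kbar p, h₁ (algebraMap (kbar p) L c) = algebraMap (kbar p) L c := fun c => by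
      rw [IsScalarTower.algebraMap_apply (kbar p) (kbar p)[X] L,
        IsScalarTower.algebraMap_apply (kbar p)[X] (Kbar p) L, AlgEquiv.commutes]
    have e := hB (h₁ * h) ((hH1 _).mp hm)
    have e2 : (h₁ * h) z = z + algebraMap (kbar p) L (algebraMap (ZMod p) (kbar p) (B h₁))
        + algebraMap (kbar p) L (algebraMap (ZMod p) (kbar p) (B h)) := by
      show h₁ (h z) = _
      rw [hB h ((hH1 h).mp hh), map_add, hB h₁ ((hH1 h₁).mp hh₁), hcomm]
    show algebraMap (kbar p) L (algebraMap (ZMod p) (kbar p) (B (h₁ * h)))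
      = algebraMap (kbar p) L (algebraMap (ZMod p) (kbar p) (B h₁ + B h))
    rw [e] at e2
    rw [map_add, map_add]
    linear_combination e2
  have hzero : ∑ h ∈ H, ZMod.stdAddChar (a₀ + B h) = 0 := by
    set S := ∑ h ∈ H, ZMod.stdAddChar (a₀ + B h) with hS
    have e : ZMod.stdAddChar (B h₁) * S = S := by
      rw [hS, mul_sum]
      refine sum_bij (fun h _ => h₁ * h) (fun h hh => (hhom h hh).1) (fun a _ b _ h => mul_left_cancel h)
        (fun h hh => ⟨h₁⁻¹ * h, ?_, mul_inv_cancel_left h₁ h⟩) fun h hh => ?_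
      · rw [hH1]
        show h₁.symm (h y₁) = y₁
        conv_lhs => rw [(hH1 h).mp hh, ← (hH1 h₁).mp hh₁, AlgEquiv.symm_apply_apply]
      · rw [(hhom h hh).2, ← AddChar.map_add_eq_mul, add_left_comm]
    have h1 : ZMod.stdAddChar (B h₁) ≠ 1 := by
      rw [← AddChar.map_zero_eq_one (ZMod.stdAddChar (N := p))]
      exact fun h => hB₁ (ZMod.injective_stdAddChar h)
    have h2 : (ZMod.stdAddChar (B h₁) - 1) * S = 0 := by linear_combination e
    exact (mul_eq_zero.mp h2).resolve_left (sub_ne_zero.mpr h1)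
  refine ⟨?_, ?_⟩
  · have h := hw (fun a => ZMod.stdAddChar a) fun a => by simp
    rw [hzero, mul_zero, sub_zero] at h
    exact h
  · have h := hw (fun _ => 1) fun a => by simp
    have hH0 : (H.card : ℂ) ≠ 0 := by exact_mod_cast (card_pos.mpr ⟨h₁, hh₁⟩).ne'
    simp only [sum_const, nsmul_eq_mul, mul_one, div_mul_cancel₀ _ hH0] at h
    rw [← Real.norm_eq_abs, ← Complex.norm_real]
    refine le_of_eq_of_le ?_ h
    push_cast
    rfl

end Setting

open Classical in
/-- Square root cancellation over the extensions of the prime field, on an absolutely irreducible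
plane curve. -/
theorem point_sums (p : ℕ) [Fact p.Prime] (P : (ZMod p)[X][X]) (hPm : P.Monic) (hd : P.natDegree < p)
    (hirr : Irreducible (P.map (toKbar p))) (f : (ZMod p)[X]) (hf1 : 1 ≤ f.natDegree) (hfp : f.natDegree < p) :
    ∃ C : ℝ, ∀ n : ℕ, n ≠ 0 →
      ‖∑ x ∈ Fq (kbar p) p n, ((evk P x).roots.toFinset.filter (fun r => r ^ p ^ n = r)).card •
          ZMod.stdAddChar (trk f n x)‖ ≤ C * Real.sqrt ((p : ℝ) ^ n) ∧
      |(∑ x ∈ Fq (kbar p) p n, (((evk P x).roots.toFinset.filter (fun r => r ^ p ^ n = r)).card : ℝ))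
          - (p : ℝ) ^ n| ≤ C * Real.sqrt ((p : ℝ) ^ n) := by
  set L := (coverPoly p P f).SplittingField
  haveI : IsScalarTower (kbar p) (kbar p)[X] L := IsScalarTower.of_algebraMap_eq fun c => by
    rw [IsScalarTower.algebraMap_apply (kbar p) (Kbar p) L,
      IsScalarTower.algebraMap_apply (kbar p)[X] (Kbar p) L,
      IsScalarTower.algebraMap_apply (kbar p) (kbar p)[X] (Kbar p)]
  haveI : CharP (Kbar p) p := charP_of_injective_algebraMap (IsFractionRing.injective (kbar p)[X] (Kbar p)) p
  haveI : Algebra.IsSeparable (Kbar p) L := by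
    have h := Polynomial.SplittingField.adjoin_rootSet (coverPoly p P f)
    refine (separableClosure.eq_top_iff _ _).mp (_root_.eq_top_iff.mpr ?_)
    intro x _
    have hx : x ∈ Algebra.adjoin (Kbar p) ((coverPoly p P f).rootSet L) := by rw [h]; trivial
    refine (Algebra.adjoin_le (S := (separableClosure (Kbar p) L).toSubalgebra) ?_) hx
    intro y hy
    show y ∈ separableClosure (Kbar p) L
    rw [mem_separableClosure_iff]
    have hy0 := (mem_rootSet.mp hy).2
    replace hy0 : aeval y (P.map (toKbar p) * (X ^ p - X - C (toKbar p f))) = 0 := hy0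
    rw [map_mul, mul_eq_zero] at hy0
    rcases hy0 with h1 | h1
    · refine Separable.of_dvd ?_ (minpoly.dvd _ y h1)
      exact separable_of_small_degree (p := p) hirr (by rw [hPm.natDegree_map]; exact hd)
    · refine Separable.of_dvd ?_ (minpoly.dvd _ y h1)
      rw [separable_def]
      have : derivative (X ^ p - X - C (toKbar p f) : (Kbar p)[X]) = -1 := by
        simp [derivative_X_pow, CharP.cast_eq_zero]
      rw [this]
      exact ⟨0, -1, by ring⟩
  haveI : Normal (Kbar p) L := Normal.of_isSplittingField (coverPoly p P f)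
  haveI : IsGalois (Kbar p) L := ⟨⟩
  exact point_sums_abstract p (L := L) P hPm hd hirr f hf1 hfp inferInstance

end Vale.Agent.P042.Curve
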