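import Vale.Agent.P042.CurveDim

/-! Equidistribution of Frobenius in a Galois extension of `k(x)`, by the Stepanov-Bombieri method. -/

namespace Vale.Agent.P042.Curve

open Polynomial Finset

set_option linter.unusedSectionVars false
set_option linter.style.haveILetI false

variable {k L : Type*} [Field k] [Field L] [Algebra k L] [Algebra k[X] L] [IsScalarTower k k[X] L]
  [FaithfulSMul k[X] L]

/-- The variable in the integral closure. -/
noncomputable def xb : (integralClosure k[X] L) := algebraMap k[X] (integralClosure k[X] L) X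

lemma coe_xb : ((xb (k := k) (L := L)) : L) = xx k L := rfl

lemma hom_algebraMap (φ : (integralClosure k[X] L) →ₐ[k] k) (P : k[X]) :
    φ (algebraMap k[X] (integralClosure k[X] L) P) = P.eval (φ xb) := by
  induction P using Polynomial.induction_on' with
  | add a b ha hb => rw [map_add, map_add, eval_add, ha, hb]
  | monomial n a =>
    rw [eval_monomial, ← C_mul_X_pow_eq_monomial, map_mul, map_pow, map_mul, map_pow, xb,
      ← Polynomial.algebraMap_eq, ← IsScalarTower.algebraMap_apply, AlgHom.commutes]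
    rfl

/-- A ring map with the shape of a Frobenius lift. -/
def Semi (τ : L →+* L) (q : ℕ) : Prop :=
  τ (xx k L) = xx k L ∧ ∀ c : k, τ (algebraMap k L c) = algebraMap k L (c ^ q)

section Semi

variable {p : ℕ} [ExpChar k p] {n : ℕ} {τ : L →+* L}

lemma semi_mem (hτ : Semi (k := k) τ (p ^ n)) {m : ℕ} {b : L} (hb : b ∈ lt k L m) :
    τ b ∈ lt k L m := by
  obtain ⟨⟨P, hP, hP0⟩, ⟨R, hR, hR0⟩⟩ := hb
  have h1 : τ.comp (algebraMap k[X] L) = (algebraMap k[X] L).comp (mapRingHom (iterateFrobenius k p n)) := by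
    apply Polynomial.ringHom_ext
    · intro c
      simp only [RingHom.comp_apply, coe_mapRingHom]
      rw [map_C, iterateFrobenius_def, ← Polynomial.algebraMap_eq,
        ← IsScalarTower.algebraMap_apply, ← IsScalarTower.algebraMap_apply]
      exact hτ.2 c
    · simp only [RingHom.comp_apply, coe_mapRingHom, map_X]
      exact hτ.1
  have h2 : τ.comp (inf k L) = (inf k L).comp (mapRingHom (iterateFrobenius k p n)) := by
    apply Polynomial.ringHom_ext
    · intro c
      simp only [RingHom.comp_apply, coe_mapRingHom, map_C, iterateFrobenius_def, inf,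
        coe_eval₂RingHom, eval₂_C]
      exact hτ.2 c
    · simp only [RingHom.comp_apply, coe_mapRingHom, map_X, inf_X, map_inv₀, hτ.1]
  refine ⟨⟨P.map (mapRingHom (iterateFrobenius k p n)), hP.map _, ?_⟩,
    ⟨R.map (mapRingHom (iterateFrobenius k p n)), hR.map _, ?_⟩⟩
  · rw [eval₂_map, ← h1, ← hom_eval₂, hP0, map_zero]
  · rw [eval₂_map, ← h2, show τ b * (xx k L)⁻¹ ^ m * xx k L = τ (b * (xx k L)⁻¹ ^ m * xx k L) by
      simp [hτ.1], ← hom_eval₂, hR0, map_zero]

lemma semi_integral (hτ : Semi (k := k) τ (p ^ n)) {b : L} (hb : IsIntegral k[X] b) :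
    IsIntegral k[X] (τ b) := by
  obtain ⟨m, hm⟩ := exists_mem hb
  exact (semi_mem hτ hm).1

end Semi

/-- The restriction of an endomorphism to the integral closure. -/
noncomputable def restrictB (τ : L →+* L) (h : ∀ b : L, IsIntegral k[X] b → IsIntegral k[X] (τ b))
    (b : (integralClosure k[X] L)) : (integralClosure k[X] L) := ⟨τ b, h b b.2⟩

section Galois

variable {K : Type*} [Field K] [Algebra k[X] K] [IsFractionRing k[X] K] [Algebra K L]
  [IsScalarTower k[X] K L] [FiniteDimensional K L]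

/-- The action of the Galois group on the integral closure. -/
noncomputable def actB (σ : L ≃ₐ[K] L) : (integralClosure k[X] L) →ₐ[k] (integralClosure k[X] L) where
  toFun b := ⟨σ b, b.2.map (σ.restrictScalars k[X])⟩
  map_one' := Subtype.ext (map_one σ)
  map_mul' a b := Subtype.ext (map_mul σ (a : L) (b : L))
  map_zero' := Subtype.ext (map_zero σ)
  map_add' a b := Subtype.ext (map_add σ (a : L) (b : L))
  commutes' c := Subtype.ext (by
    show σ ((algebraMap k (integralClosure k[X] L) c : (integralClosure k[X] L)) : L) = ((algebraMap k (integralClosure k[X] L) c : (integralClosure k[X] L)) : L)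
    rw [show ((algebraMap k (integralClosure k[X] L) c : (integralClosure k[X] L)) : L) = algebraMap k L c from rfl,
      IsScalarTower.algebraMap_apply k k[X] L, IsScalarTower.algebraMap_apply k[X] K L,
      AlgEquiv.commutes])

lemma coe_actB (σ : L ≃ₐ[K] L) (b : (integralClosure k[X] L)) : ((actB σ b : (integralClosure k[X] L)) : L) = σ b := rfl

lemma actB_xb (σ : L ≃ₐ[K] L) : actB σ (xb (k := k) (L := L)) = xb := by
  apply Subtype.ext
  rw [coe_actB, coe_xb, xx, IsScalarTower.algebraMap_apply k[X] K L, AlgEquiv.commutes]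

/-- Unramified points. -/
def Unram (φ : (integralClosure k[X] L) →ₐ[k] k) : Prop := xb - algebraMap k (integralClosure k[X] L) (φ xb) ∉ (RingHom.ker φ) ^ 2

lemma isMaximal_ker (φ : (integralClosure k[X] L) →ₐ[k] k) : (RingHom.ker φ).IsMaximal :=
  RingHom.ker_isMaximal_of_surjective φ fun c => ⟨algebraMap k (integralClosure k[X] L) c, φ.commutes c⟩

lemma t_eq (φ : (integralClosure k[X] L) →ₐ[k] k) :
    xb - algebraMap k (integralClosure k[X] L) (φ xb) = algebraMap k[X] (integralClosure k[X] L) (X - C (φ xb)) := by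
  rw [map_sub, xb, ← Polynomial.algebraMap_eq, ← IsScalarTower.algebraMap_apply]

lemma ker_ne_bot (φ : (integralClosure k[X] L) →ₐ[k] k) : RingHom.ker φ ≠ ⊥ := by
  intro h
  have : xb - algebraMap k (integralClosure k[X] L) (φ xb) ∈ RingHom.ker φ := by simp [RingHom.mem_ker]
  rw [h, Ideal.mem_bot, t_eq] at this
  have h2 := congrArg Subtype.val this
  exact X_sub_C_ne_zero (φ xb) (FaithfulSMul.algebraMap_injective k[X] L
    (by rw [map_zero]; exact h2))

variable [Algebra.IsSeparable K L]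

include K in
lemma dedekindB : IsDedekindDomain (integralClosure k[X] L) := IsIntegralClosure.isDedekindDomain k[X] K L (integralClosure k[X] L)

include K in
lemma mult_bound (φ : (integralClosure k[X] L) →ₐ[k] k) (hφ : Unram φ) {P : k[X]} (hP : P ≠ 0) {Q : ℕ}
    (h : algebraMap k[X] (integralClosure k[X] L) P ∈ (RingHom.ker φ) ^ Q) : Q ≤ rootMultiplicity (φ xb) P := by
  haveI := dedekindB (k := k) (L := L) (K := K)
  haveI := isMaximal_ker φ
  set I := RingHom.ker φ with hI
  have hIp : Prime I := Ideal.prime_of_isPrime (ker_ne_bot φ) inferInstance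
  obtain ⟨u, hu, hndvd⟩ := exists_eq_pow_rootMultiplicity_mul_and_not_dvd P hP (φ xb)
  set j := rootMultiplicity (φ xb) P
  have hu0 : algebraMap k[X] (integralClosure k[X] L) u ∉ I := by
    rw [hI, RingHom.mem_ker, hom_algebraMap, ← IsRoot.def, ← dvd_iff_isRoot]
    exact hndvd
  rw [hu, map_mul, map_pow, ← t_eq] at h
  set t := xb - algebraMap k (integralClosure k[X] L) (φ xb) with ht
  have ht1 : t ∈ I := by simp [ht, hI, RingHom.mem_ker]
  rcases Ideal.IsPrime.mem_pow_mul I h with h1 | h1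
  · obtain ⟨J, hJ⟩ := Ideal.dvd_iff_le.mpr ((Ideal.span_singleton_le_iff_mem I).mpr ht1)
    have hJI : ¬ I ∣ J := by
      intro hd
      apply hφ
      rw [← ht, sq, ← Ideal.span_singleton_le_iff_mem, hJ]
      exact Ideal.le_of_dvd (mul_dvd_mul_left I hd)
    have h2 : I ^ Q ∣ I ^ j * J ^ j := by
      rw [← mul_pow, ← hJ, Ideal.span_singleton_pow, Ideal.dvd_iff_le,
        Ideal.span_singleton_le_iff_mem]
      exact h1
    have h3 := hIp.pow_dvd_of_dvd_mul_right Q (fun hd => hJI (hIp.dvd_of_dvd_pow hd)) h2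
    exact (pow_dvd_pow_iff hIp.ne_zero hIp.not_isUnit).mp h3
  · exact absurd h1 hu0

include K in
lemma indep {p a : ℕ} [CharP k p] [Fact p.Prime] (φ : (integralClosure k[X] L) →ₐ[k] k) {ι : Type*} [Fintype ι]
    (u s : ι → (integralClosure k[X] L)) (hu : ∃ i, u i ≠ 0)
    (hs : ∀ c : ι → k, c ≠ 0 → ∑ i, algebraMap k (integralClosure k[X] L) (c i) * s i ∉ (RingHom.ker φ) ^ (p ^ a)) :
    ∑ i, u i ^ (p ^ a) * s i ≠ 0 := by
  classical
  haveI := dedekindB (k := k) (L := L) (K := K)
  haveI := isMaximal_ker φ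
  haveI : CharP (integralClosure k[X] L) p := charP_of_injective_algebraMap (algebraMap k (integralClosure k[X] L)).injective p
  set I := RingHom.ker φ with hI
  have hIp : Prime I := Ideal.prime_of_isPrime (ker_ne_bot φ) inferInstance
  have hJ : Ideal.span (Set.range u) ≠ 0 := by
    obtain ⟨i, hi⟩ := hu
    intro h
    apply hi
    have := Ideal.subset_span (α := (integralClosure k[X] L)) (Set.mem_range_self (f := u) i)
    rwa [h, Ideal.zero_eq_bot, SetLike.mem_coe, Ideal.mem_bot] at this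
  obtain ⟨m, J', hnd, hJ'⟩ := WfDvdMonoid.max_power_factor hJ hIp.irreducible
  have hmem : ∀ i, u i ∈ I ^ m := fun i =>
    (Ideal.dvd_iff_le.mp ⟨J', hJ'⟩) (Ideal.subset_span (Set.mem_range_self i))
  obtain ⟨i₀, hi₀⟩ : ∃ i, u i ∉ I ^ (m + 1) := by
    by_contra hcon
    push Not at hcon
    have h1 : I ^ (m + 1) ∣ Ideal.span (Set.range u) :=
      Ideal.dvd_iff_le.mpr (Ideal.span_le.mpr (Set.range_subset_iff.mpr hcon))
    rw [hJ', pow_succ] at h1
    exact hnd ((mul_dvd_mul_iff_left (pow_ne_zero m hIp.ne_zero)).mp h1)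
  obtain ⟨J2, hJ2⟩ := Ideal.dvd_iff_le.mpr ((Ideal.span_singleton_le_iff_mem (I ^ m)).mpr (hmem i₀))
  obtain ⟨t, ht, htI⟩ : ∃ t ∈ J2, t ∉ I := by
    by_contra hcon
    push Not at hcon
    apply hi₀
    rw [← Ideal.span_singleton_le_iff_mem, hJ2, pow_succ]
    exact Ideal.mul_mono_right hcon
  have hw : ∀ i, ∃ w, u i * t = u i₀ * w := by
    intro i
    have h := Ideal.mul_mem_mul (hmem i) ht
    rw [← hJ2, Ideal.mem_span_singleton] at h
    exact h
  choose w hw using hw
  have hu0 : u i₀ ≠ 0 := fun h => hi₀ (h ▸ Submodule.zero_mem _)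
  have hw0 : w i₀ = t := (mul_left_cancel₀ hu0 (hw i₀)).symm
  intro hzero
  have h0 : ∑ i, w i ^ (p ^ a) * s i = 0 := by
    have h2 : u i₀ ^ (p ^ a) * ∑ i, w i ^ (p ^ a) * s i = 0 := by
      rw [mul_sum, ← mul_zero (t ^ (p ^ a)), ← hzero, mul_sum]
      refine sum_congr rfl fun i _ => ?_
      rw [← mul_assoc, ← mul_pow, ← hw, mul_pow]; ring
    exact (mul_eq_zero.mp h2).resolve_left (pow_ne_zero _ hu0)
  refine hs (fun i => φ (w i) ^ (p ^ a)) ?_ ?_
  · intro h
    have h2 := congrFun h i₀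
    simp only [Pi.zero_apply] at h2
    exact htI (by rw [hI, RingHom.mem_ker, ← hw0]; exact eq_zero_of_pow_eq_zero h2)
  · have h3 : ∑ i, algebraMap k (integralClosure k[X] L) (φ (w i) ^ (p ^ a)) * s i
        = ∑ i, (algebraMap k (integralClosure k[X] L) (φ (w i)) - w i) ^ (p ^ a) * s i := by
      rw [← add_zero (∑ i, (algebraMap k (integralClosure k[X] L) (φ (w i)) - w i) ^ (p ^ a) * s i), ← h0, ← sum_add_distrib]
      refine sum_congr rfl fun i _ => ?_
      rw [sub_pow_char_pow, map_pow]; ring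
    rw [h3]
    refine sum_mem fun i _ => Ideal.mul_mem_right _ _ (Ideal.pow_mem_pow ?_ _)
    simp [hI, RingHom.mem_ker]

variable [IsGalois K L]

/-- The integral closure as a subset of the field. -/
noncomputable def normPoly (K : Type*) [Field K] [Algebra k[X] K] [IsFractionRing k[X] K] [Algebra K L]
    [IsScalarTower k[X] K L] [FiniteDimensional K L] [Algebra.IsSeparable K L] (b : (integralClosure k[X] L)) : k[X] :=
  (exists_norm K b.2).choose

lemma algebraMap_normPoly (b : (integralClosure k[X] L)) :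
    algebraMap k[X] (integralClosure k[X] L) (normPoly K b) = ∏ σ : L ≃ₐ[K] L, actB σ b := by
  apply Subtype.ext
  show _ = (integralClosure k[X] L).val (∏ σ : L ≃ₐ[K] L, actB σ b)
  rw [map_prod]
  show algebraMap k[X] L (normPoly K b) = ∏ σ : L ≃ₐ[K] L, σ (b : L)
  rw [← Algebra.norm_eq_prod_automorphisms, ← (exists_norm K b.2).choose_spec,
    ← IsScalarTower.algebraMap_apply, normPoly]

include K in
lemma normPoly_ne {b : (integralClosure k[X] L)} (hb : b ≠ 0) : normPoly K b ≠ 0 := by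
  intro h
  have h1 := (exists_norm K b.2).choose_spec
  rw [← normPoly, h, map_zero, eq_comm, Algebra.norm_eq_zero_iff] at h1
  exact hb (Subtype.ext h1)

include K in
theorem zeros_le {g : (integralClosure k[X] L)} (hg0 : g ≠ 0) {d : ℕ} (hg : (g : L) ∈ lt k L (d + 1))
    (S : Finset ((integralClosure k[X] L) →ₐ[k] k)) (hu : ∀ φ ∈ S, Unram φ) (hz : ∀ φ ∈ S, φ g = 0)
    (htr : ∀ φ ∈ S, ∀ φ' ∈ S, φ xb = φ' xb → ∃ σ : L ≃ₐ[K] L, φ' = φ.comp (actB σ)) :
    S.card ≤ Module.finrank K L * d := by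
  classical
  set P := normPoly K g with hP
  have hP0 : P ≠ 0 := normPoly_ne hg0
  have hdeg : P.natDegree ≤ Module.finrank K L * d := by
    obtain ⟨R, hR, hRd⟩ := norm_deg K hg
    rw [show P = R from IsFractionRing.injective k[X] K
      ((exists_norm K g.2).choose_spec.trans hR.symm)]
    exact hRd
  have hfib : ∀ x₀ ∈ S.image (fun φ => φ xb), (S.filter fun φ => φ xb = x₀).card ≤ P.roots.count x₀ := by
    intro x₀ hx₀
    obtain ⟨φ, hφ, rfl⟩ := mem_image.mp hx₀
    rw [count_roots]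
    refine mult_bound (K := K) φ (hu φ hφ) hP0 ?_
    have htr' : ∀ φ' ∈ S.filter (fun φ' => φ' xb = φ xb), ∃ σ : L ≃ₐ[K] L, φ' = φ.comp (actB σ) :=
      fun φ' h => htr φ hφ φ' (mem_filter.mp h).1 (mem_filter.mp h).2.symm
    choose! σ hσ using htr'
    rw [hP, algebraMap_normPoly, ← prod_sdiff (subset_univ ((S.filter fun φ' => φ' xb = φ xb).image σ))]
    refine Ideal.mul_mem_left _ _ ?_
    have hinj : Set.InjOn σ (S.filter fun φ' => φ' xb = φ xb) := fun a ha b hb h => by
      rw [hσ a ha, hσ b hb, h]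
    rw [prod_image hinj, ← prod_const]
    exact Ideal.prod_mem_prod fun φ' h => by
      rw [RingHom.mem_ker, ← AlgHom.comp_apply, ← hσ φ' h]; exact hz φ' (mem_filter.mp h).1
  calc S.card = ∑ x₀ ∈ S.image (fun φ => φ xb), (S.filter fun φ => φ xb = x₀).card :=
        card_eq_sum_card_image _ _
    _ ≤ ∑ x₀ ∈ S.image (fun φ => φ xb), P.roots.count x₀ := sum_le_sum hfib
    _ ≤ ∑ x₀ ∈ S.image (fun φ => φ xb) ∪ P.roots.toFinset, P.roots.count x₀ :=
        sum_le_sum_of_subset subset_union_left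
    _ = Multiset.card P.roots := by
        rw [← sum_subset subset_union_right (fun x _ hx => Multiset.count_eq_zero.mpr fun h =>
          hx (Multiset.mem_toFinset.mpr h)), Multiset.toFinset_sum_count_eq]
    _ ≤ _ := (card_roots' P).trans hdeg

lemma count_arith {c₀ p Q Q' m y : ℕ} (hy : Q = c₀ + 1 + y) (hQQ : Q' ≤ p * Q)
    (hbig : 2 * (c₀ + 1) ≤ Q)
    (h : (Q' + (2 * c₀ + 2 * p * (c₀ + 1) + 2) + m) * (y + 1)
      ≤ Q' + (3 * c₀ + 2 * p * (c₀ + 1) + 1) + 1 + m + Q' * (c₀ + y)) : False := by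
  have h7 : Q' * c₀ ≤ p * Q * c₀ := Nat.mul_le_mul_right _ hQQ
  subst hy
  have e1 : p * c₀ * (c₀ + 1 + y) ≤ p * c₀ * (2 * (y + 1)) := Nat.mul_le_mul_left _ (by omega)
  have e2 : 2 * p * (c₀ + 2) ≤ 2 * p * (y + 1) := Nat.mul_le_mul_left _ (by omega)
  have e3 : (2 * c₀ + 2) * (c₀ + 2) ≤ (2 * c₀ + 2) * (y + 1) := Nat.mul_le_mul_left _ (by omega)
  nlinarith

variable [IsAlgClosed k] {p : ℕ} [Fact p.Prime] [CharP k p]

/-- Vanishing of a semilinear combination. -/
lemma exists_kernel {n m : ℕ} {W : Type*} [AddCommGroup W] [Module k W] [Module.Finite k W]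
    (hnm : 0 < n) (w : Fin m → W) (hm : Module.finrank k W < m) :
    ∃ c : Fin m → k, c ≠ 0 ∧ ∑ v, c v ^ n • w v = 0 := by
  have hdep : ¬ LinearIndependent k w := fun h => by
    have := h.fintype_card_le_finrank
    simp at this; omega
  obtain ⟨d, hd, i, hi⟩ := Fintype.not_linearIndependent_iff.mp hdep
  choose c hc using fun v => IsAlgClosed.exists_pow_nat_eq (d v) hnm
  refine ⟨c, fun h => hi ?_, by simpa only [hc] using hd⟩
  rw [← hc i, h, Pi.zero_apply, zero_pow hnm.ne']

include K in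
lemma comb_ne_zero {a E : ℕ} (hE : Module.finrank K L * E < p ^ a) (φ₀ : (integralClosure k[X] L) →ₐ[k] k) (hu : Unram φ₀)
    {ι : Type*} [Fintype ι] (s u : ι → (integralClosure k[X] L)) (hs : ∀ i, (s i : L) ∈ lt k L (E + 1))
    (hli : LinearIndependent k fun i => (s i : L)) (hu0 : ∃ i, u i ≠ 0) :
    ∑ i, u i ^ (p ^ a) * s i ≠ 0 := by
  classical
  refine indep (K := K) φ₀ u s hu0 fun c' hc' hmem => ?_
  set w : (integralClosure k[X] L) := ∑ i, algebraMap k (integralClosure k[X] L) (c' i) * s i with hw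
  have hwc : (w : L) = ∑ i, c' i • (s i : L) := by
    rw [hw]
    show (integralClosure k[X] L).val (∑ i, algebraMap k (integralClosure k[X] L) (c' i) * s i) = _
    rw [map_sum]
    exact sum_congr rfl fun i _ => by rw [Algebra.smul_def]; rfl
  have hw0 : w ≠ 0 := fun h => hc' (funext fun i =>
    Fintype.linearIndependent_iff.mp hli c' (by rw [← hwc, h]; rfl) i)
  obtain ⟨R, hR, hRd⟩ := norm_deg K (show (w : L) ∈ lt k L (E + 1) by
    rw [hwc]; exact sum_mem fun i _ => Submodule.smul_mem _ _ (hs i))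
  have h1 := mult_bound (K := K) φ₀ hu (normPoly_ne (K := K) hw0) (Q := p ^ a) (by
    rw [algebraMap_normPoly]
    refine Ideal.mem_of_dvd _ (Finset.dvd_prod_of_mem _ (mem_univ (AlgEquiv.refl : L ≃ₐ[K] L))) ?_
    convert hmem
    exact Subtype.ext rfl)
  have h2 := h1.trans ((count_roots _).ge.trans ((Multiset.count_le_card _ _).trans (card_roots' _)))
  rw [show normPoly K w = R from IsFractionRing.injective k[X] K
    ((exists_norm K w.2).choose_spec.trans hR.symm)] at h2
  omega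

lemma comb_zero {a b : ℕ} (τ : L →+* L) (hτ : Semi (k := k) τ (p ^ (a + b))) (φ : (integralClosure k[X] L) →ₐ[k] k)
    (hfr : ∀ v : (integralClosure k[X] L), φ (restrictB τ (fun _ => semi_integral hτ) v) = φ v ^ p ^ (a + b))
    {ι : Type*} [Fintype ι] (s u : ι → (integralClosure k[X] L)) (h : ∑ i, τ (u i : L) * (s i : L) ^ p ^ b = 0) :
    φ (∑ i, u i ^ (p ^ a) * s i) = 0 := by
  refine eq_zero_of_pow_eq_zero (n := p ^ b) ?_
  rw [map_sum, sum_pow_char_pow]
  have key : ∑ i, restrictB τ (fun _ => semi_integral hτ) (u i) * s i ^ p ^ b = 0 := by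
    apply Subtype.ext
    show (integralClosure k[X] L).val (∑ i, restrictB τ (fun _ => semi_integral hτ) (u i) * s i ^ p ^ b) = 0
    rw [map_sum]
    exact h
  have h2 := congrArg φ key
  rw [map_sum, map_zero] at h2
  rw [← h2]
  refine sum_congr rfl fun i _ => ?_
  rw [map_mul, map_pow, map_mul, map_pow, mul_pow, ← pow_mul, ← pow_add, hfr]

include K in
theorem stepanov {c₀ : ℕ} (hc₀ : ∀ n, Module.finrank K L * n ≤ Module.finrank k (lt k L n) + c₀)
    {a b : ℕ} (hba : b ≤ a + 1) (hbig : 2 * (c₀ + 1) ≤ p ^ a)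
    (τ : L →+* L) (hτ : Semi (k := k) τ (p ^ (a + b)))
    (S : Finset ((integralClosure k[X] L) →ₐ[k] k)) (hu : ∀ φ ∈ S, Unram φ)
    (hfr : ∀ φ ∈ S, ∀ v : (integralClosure k[X] L), φ (restrictB τ (fun _ => semi_integral hτ) v) = φ v ^ p ^ (a + b))
    (htr : ∀ φ ∈ S, ∀ φ' ∈ S, φ xb = φ' xb → ∃ σ : L ≃ₐ[K] L, φ' = φ.comp (actB σ)) :
    S.card ≤ p ^ (a + b) + (3 * c₀ + 2 * p * (c₀ + 1) + 2 + Module.finrank K L) * p ^ a := by
  classical
  rcases S.eq_empty_or_nonempty with rfl | ⟨φ₀, hφ₀⟩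
  · simp
  haveI : ∀ m, Module.Finite k (lt k L m) := fun m => (lt_finite (F := k) (L := L) K m).1
  have hp := (Fact.out : p.Prime)
  set δ := Module.finrank K L with hδ
  have hδ0 : 0 < δ := Module.finrank_pos
  set m₀ := 3 * c₀ + 2 * p * (c₀ + 1) + 1 with hm₀
  set E := (p ^ a - 1) / δ with hE
  set D := (p ^ b + m₀) / δ with hD
  have hQ0 : 0 < p ^ a := pow_pos hp.pos a
  have hE1 : δ * E ≤ p ^ a - 1 := Nat.mul_div_le _ _
  have hE2 : p ^ a ≤ δ * (E + 1) := by
    have := Nat.lt_mul_div_succ (p ^ a - 1) hδ0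
    rw [← hE] at this; omega
  have hD1 : δ * D ≤ p ^ b + m₀ := Nat.mul_div_le _ _
  have hD2 : p ^ b + m₀ < δ * (D + 1) := Nat.lt_mul_div_succ _ hδ0
  have hQQ : p ^ b ≤ p * p ^ a := by
    rw [← pow_succ']; exact Nat.pow_le_pow_right hp.pos hba
  set X₁ := Module.finrank k (lt k L (D + 1)) with hX₁
  set Y₁ := Module.finrank k (lt k L (E + 1)) with hY₁
  let eU := Module.finBasis k (lt k L (D + 1))
  let eW := Module.finBasis k (lt k L (E + 1))
  let vec : Fin Y₁ × Fin X₁ → L := fun v => τ (eU v.2 : L) * (eW v.1 : L) ^ p ^ b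
  have hvec : ∀ v, vec v ∈ lt k L (D + p ^ b * E + 1) := fun v => by
    refine lt_mul (semi_mem hτ (eU v.2).2) ?_
    have h := prod_mem (range (p ^ b)) (fun _ => (eW v.1 : L)) fun _ _ => (eW v.1).2
    simpa using h
  have hcount : Module.finrank k (lt k L (D + p ^ b * E + 1)) < Y₁ * X₁ := by
    by_contra hcon
    have h2 := (not_lt.mp hcon).trans (finrank_lt_le (F := k) (L := L) K _)
    rw [← hδ] at h2
    have h3 : p ^ a ≤ Y₁ + c₀ := hE2.trans (hc₀ (E + 1))
    have h4 := hc₀ (D + 1)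
    rw [← hX₁] at h4
    set Z := δ * (D + 1) with hZ
    have h5 : δ * (D + p ^ b * E + 1) ≤ Z + p ^ b * (p ^ a - 1) := by
      rw [show δ * (D + p ^ b * E + 1) = Z + p ^ b * (δ * E) by rw [hZ]; ring]
      exact Nat.add_le_add_left (Nat.mul_le_mul_left _ hE1) _
    obtain ⟨m, hm⟩ : ∃ m, Z = p ^ b + m₀ + 1 + m := ⟨Z - (p ^ b + m₀ + 1), by omega⟩
    obtain ⟨y, hy⟩ : ∃ y, p ^ a = c₀ + 1 + y := ⟨p ^ a - (c₀ + 1), by omega⟩
    refine count_arith (Q' := p ^ b) (p := p) (m := m) hy hQQ hbig ?_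
    have h6 : (p ^ b + m₀ + 1 + m - c₀) * (p ^ a - c₀) ≤ Y₁ * X₁ := by
      rw [mul_comm Y₁]; exact Nat.mul_le_mul (by omega) (by omega)
    rw [show p ^ b + m₀ + 1 + m - c₀ = p ^ b + (2 * c₀ + 2 * p * (c₀ + 1) + 2) + m by omega,
      show p ^ a - c₀ = y + 1 by omega] at h6
    rw [hm, show p ^ a - 1 = c₀ + y by omega] at h5
    exact h6.trans (h2.trans h5)
  let em := Fintype.equivFin (Fin Y₁ × Fin X₁)
  obtain ⟨c, hc0, hc⟩ := exists_kernel (k := k) (W := lt k L (D + p ^ b * E + 1)) (pow_pos hp.pos (a + b))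
    (fun v => ⟨vec (em.symm v), hvec _⟩) (by simpa using hcount)
  let U : Fin Y₁ → lt k L (D + 1) := fun i => ∑ j, c (em (i, j)) • eU j
  let u : Fin Y₁ → (integralClosure k[X] L) := fun i => ⟨(U i : L), (U i).2.1⟩
  let s : Fin Y₁ → (integralClosure k[X] L) := fun i => ⟨(eW i : L), (eW i).2.1⟩
  have hu0 : ∃ i, u i ≠ 0 := by
    obtain ⟨v, hv⟩ := Function.ne_iff.mp hc0
    refine ⟨(em.symm v).1, fun h => hv ?_⟩
    have h1 : U (em.symm v).1 = 0 := Subtype.ext (by simpa [u] using congrArg Subtype.val h)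
    have h2 := Fintype.linearIndependent_iff.mp eU.linearIndependent
      (fun j => c (em ((em.symm v).1, j))) h1 (em.symm v).2
    simpa using h2
  have hcomb : ∑ i, τ (u i : L) * (s i : L) ^ p ^ b = 0 := by
    have h0 := congrArg Subtype.val hc
    simp only [Submodule.coe_sum, Submodule.coe_smul, ZeroMemClass.coe_zero] at h0
    rw [← Equiv.sum_comp em, Fintype.sum_prod_type] at h0
    rw [← h0]
    refine sum_congr rfl fun i _ => ?_
    simp only [u, U, s, vec, Submodule.coe_sum, Submodule.coe_smul, Algebra.smul_def, map_sum,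
      map_mul, hτ.2, sum_mul, Equiv.symm_apply_apply]
    exact sum_congr rfl fun j _ => by ring
  have hgd : ((∑ i, u i ^ (p ^ a) * s i : (integralClosure k[X] L)) : L) ∈ lt k L (p ^ a * D + E + 1) := by
    show (integralClosure k[X] L).val (∑ i, u i ^ (p ^ a) * s i) ∈ _
    rw [map_sum]
    refine sum_mem fun i _ => lt_mul ?_ (eW i).2
    have h := prod_mem (range (p ^ a)) (fun _ => (U i : L)) fun _ _ => (U i).2
    simpa [u] using h
  have hli : LinearIndependent k fun i => (s i : L) :=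
    eW.linearIndependent.map' (lt k L (E + 1)).subtype (Submodule.ker_subtype _)
  refine (zeros_le (K := K) (comb_ne_zero (K := K) (show δ * E < p ^ a by omega) φ₀ (hu φ₀ hφ₀) s u
    (fun i => (eW i).2) hli hu0) hgd S hu (fun φ hφ => comb_zero τ hτ φ (hfr φ hφ) s u hcomb) htr).trans ?_
  rw [← hδ, pow_add, Nat.mul_add, show δ * (p ^ a * D) = p ^ a * (δ * D) by ring]
  have h1 := Nat.mul_le_mul_left (p ^ a) hD1
  have h3 : δ * E ≤ p ^ a := by omega
  have h4 : 0 ≤ δ * p ^ a := Nat.zero_le _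
  rw [hm₀] at h1
  nlinarith

end Galois

end Vale.Agent.P042.Curve
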