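import Vale.Agent.P042.Kloo

/-! The interface between the curve bounds and the local densities. -/

namespace Vale.Agent.P042.Curve

open Polynomial Finset

/-- At a large prime and a simple root `z` of a degree `k` polynomial, a weight on the argument is
supported away from critical points, has mass `p + O(√p)`, and its image under the polynomial has real
Fourier coefficients of size `O(√p)`. -/
def WeightStmt (k : ℕ) : Prop :=
  ∃ C : ℝ, ∀ (p : ℕ) [Fact p.Prime], C ≤ p → ∀ m : (ZMod p)[X], m.natDegree = k →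
    ∀ z : ZMod p, m.eval z = 0 → (derivative m).eval z ≠ 0 →
    ∃ w : ZMod p → ℝ, (∀ x, 0 ≤ w x ∧ w x ≤ k) ∧ (∀ x, (derivative m).eval x = 0 → w x = 0) ∧
      (∀ s : ZMod p, s ≠ 0 →
        (∑ x, (w x : ℂ) * Kloo.ψ (s * m.eval x)).im = 0 ∧
        ‖∑ x, (w x : ℂ) * Kloo.ψ (s * m.eval x)‖ ≤ C * Real.sqrt p) ∧
      |(∑ x, w x) - p| ≤ C * Real.sqrt p

/-- Roots modulo every modulus at which the derivative is divisible only by a bounded power of each
prime. -/
def SimpleInt (h : ℤ[X]) : Prop :=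
  ∃ D : ℤ, D ≠ 0 ∧ ∀ q : ℕ, 1 ≤ q → ∃ z : ℤ, (q : ℤ) ∣ h.eval z ∧
    ∀ d : ℤ, d ∣ (q : ℤ) → d ∣ (derivative h).eval z → d ∣ D

end Vale.Agent.P042.Curve
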