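import Vale.Agent.P042.CurveWeil
import Vale.Agent.P042.CurveIface

/-! The component through `(z, z)` of the curve `m(x) + m(y) = 0`, and the weight it gives. -/

namespace Vale.Agent.P042.Curve

open Polynomial Finset

set_option linter.unusedSectionVars false
set_option linter.style.haveILetI false

section TotalDegree

variable {F : Type*} [Field F]

/-- Grading by the total degree. -/
noncomputable def grade : F[X][X] →+* F[X][X][X] :=
  eval₂RingHom (eval₂RingHom (((C : F[X][X] →+* F[X][X][X]).comp (C : F[X] →+* F[X][X])).comp (C : F →+* F[X])) ((C (C (X : F[X]) : F[X][X]) * X : F[X][X][X]))) ((C (X : F[X][X]) * X : F[X][X][X]))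

lemma grade_monomial (i a : ℕ) (c : F) :
    grade (monomial i (monomial a c)) = monomial (a + i) (monomial i (monomial a c)) := by
  simp only [← C_mul_X_pow_eq_monomial, map_mul, map_pow, grade, coe_eval₂RingHom, eval₂_mul,
    eval₂_C, eval₂_X_pow, eval₂_X, RingHom.comp_apply, mul_pow, pow_add]
  ring

lemma coeff_grade (P : F[X][X]) (n i a : ℕ) :
    (((grade P).coeff n).coeff i).coeff a = if a + i = n then (P.coeff i).coeff a else 0 := by
  induction P using Polynomial.induction_on' with
  | add P Q hP hQ => simp only [map_add, coeff_add, hP, hQ]; split_ifs <;> simp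
  | monomial j q =>
    induction q using Polynomial.induction_on' with
    | add u v hu hv => simp only [map_add, coeff_add, hu, hv]; split_ifs <;> simp
    | monomial b c =>
      rw [grade_monomial]
      simp only [coeff_monomial, apply_ite (fun q : F[X][X] => q.coeff i),
        apply_ite (fun q : F[X] => q.coeff a), coeff_zero]
      split_ifs <;> first | rfl | omega

lemma degree_bound_of_mul {P R M : F[X][X]} (hP : P.Monic) (hR : R.Monic) (h : P * R = M) {k : ℕ}
    (hk : M.natDegree = k) (hM : ∀ i, (M.coeff i).natDegree + i ≤ k ∨ M.coeff i = 0) (i : ℕ) :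
    (P.coeff i).natDegree + i ≤ P.natDegree ∨ P.coeff i = 0 := by
  by_cases hi : P.coeff i = 0
  · exact Or.inr hi
  refine Or.inl ?_
  have hdeg : P.natDegree + R.natDegree = k := by rw [← hk, ← h, hP.natDegree_mul hR]
  have h1 : (grade M).natDegree ≤ k := by
    refine natDegree_le_iff_coeff_eq_zero.mpr fun n hn => ?_
    ext i a
    rw [coeff_grade, coeff_zero, coeff_zero]
    split_ifs with he
    · rcases hM i with h2 | h2
      · exact coeff_eq_zero_of_natDegree_lt (by omega)
      · rw [h2, coeff_zero]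
    · rfl
  have h2 : R.natDegree ≤ (grade R).natDegree := by
    refine le_natDegree_of_ne_zero fun h0 => ?_
    have := coeff_grade R R.natDegree R.natDegree 0
    rw [h0, zero_add, if_pos rfl, hR.coeff_natDegree] at this
    simp at this
  have h3 : (P.coeff i).natDegree + i ≤ (grade P).natDegree := by
    refine le_natDegree_of_ne_zero fun h0 => ?_
    have := coeff_grade P ((P.coeff i).natDegree + i) i (P.coeff i).natDegree
    rw [h0, if_pos rfl, coeff_zero, coeff_zero, eq_comm] at this
    exact hi (leadingCoeff_eq_zero.mp this)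
  have hR0 : grade R ≠ 0 := fun h0 => by
    have := coeff_grade R R.natDegree R.natDegree 0
    rw [h0, zero_add, if_pos rfl, hR.coeff_natDegree] at this
    simp at this
  have hP0 : grade P ≠ 0 := fun h0 => by
    have := coeff_grade P ((P.coeff i).natDegree + i) i (P.coeff i).natDegree
    rw [h0, if_pos rfl, coeff_zero, coeff_zero, coeff_zero, eq_comm] at this
    exact hi (leadingCoeff_eq_zero.mp this)
  rw [← h, map_mul, natDegree_mul hP0 hR0] at h1
  omega

end TotalDegree

lemma exists_monic_factor {R S : Type*} [CommRing R] [IsDomain R] [UniqueFactorizationMonoid R]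
    [CommRing S] [IsDomain S] {M : R[X]} (hM : M.Monic) (e : R[X] →+* S) (h : e M = 0) :
    ∃ P, P.Monic ∧ Irreducible P ∧ P ∣ M ∧ e P = 0 := by
  classical
  obtain ⟨u, hu⟩ := UniqueFactorizationMonoid.factors_prod hM.ne_zero
  have h0 : e (UniqueFactorizationMonoid.factors M).prod = 0 := by
    have := congrArg e hu
    rw [map_mul, h, mul_eq_zero] at this
    exact this.resolve_right (u.isUnit.map e).ne_zero
  rw [map_multiset_prod, Multiset.prod_eq_zero_iff, Multiset.mem_map] at h0
  obtain ⟨q, hq, hq0⟩ := h0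
  have hirr := UniqueFactorizationMonoid.irreducible_of_factor q hq
  have hdvd : q ∣ M := UniqueFactorizationMonoid.dvd_of_mem_factors hq
  obtain ⟨r, hr⟩ := hdvd
  have hlu : IsUnit q.leadingCoeff := by
    refine IsUnit.of_mul_eq_one r.leadingCoeff ?_
    rw [← leadingCoeff_mul, ← hr, hM.leadingCoeff]
  have hCu : IsUnit (C (↑hlu.unit⁻¹ : R)) := isUnit_C.mpr (Units.isUnit _)
  refine ⟨C (↑hlu.unit⁻¹ : R) * q, ?_, (irreducible_isUnit_mul hCu).mpr hirr, ?_, by rw [map_mul, hq0, mul_zero]⟩
  · rw [Monic, leadingCoeff_mul, leadingCoeff_C, IsUnit.val_inv_mul]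
  · exact (hCu.mul_left_dvd).mpr ⟨r, hr⟩

variable {p : ℕ} [Fact p.Prime]

/-- The curve `m(x) + m(y) = 0`, normalised. -/
noncomputable def sumPoly (m : (ZMod p)[X]) : (ZMod p)[X][X] :=
  C (C m.leadingCoeff⁻¹) * (C m + m.map C)

lemma sumPoly_eval {k : Type*} [CommRing k] [Algebra (ZMod p) k] (m : (ZMod p)[X]) (x y : k) :
    ((sumPoly m).map (mapRingHom (algebraMap (ZMod p) k))).evalEval x y
      = algebraMap (ZMod p) k m.leadingCoeff⁻¹ * (aeval x m + aeval y m) := by
  simp [sumPoly, evalEval, eval_map, aeval_def, Polynomial.map_map, mapRingHom_comp_C]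
  congr 2
  rw [← coe_evalRingHom, hom_eval₂]
  congr 1
  · ext a; simp
  · simp

lemma sumPoly_props {m : (ZMod p)[X]} {k : ℕ} (hk : m.natDegree = k) (hk1 : 1 ≤ k) :
    (sumPoly m).Monic ∧ (sumPoly m).natDegree = k ∧
      ∀ i, ((sumPoly m).coeff i).natDegree + i ≤ k ∨ (sumPoly m).coeff i = 0 := by
  have hm0 : m ≠ 0 := fun h => by simp [h] at hk; omega
  have hl : m.leadingCoeff ≠ 0 := leadingCoeff_ne_zero.mpr hm0
  have hco : ∀ i, (sumPoly m).coeff i = C m.leadingCoeff⁻¹ * ((if i = 0 then m else 0) + C (m.coeff i)) := by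
    intro i
    rw [sumPoly, coeff_C_mul, coeff_add, coeff_C, coeff_map]
  have htop : (sumPoly m).coeff k = 1 := by
    rw [hco, if_neg (by omega), zero_add, ← map_mul, ← hk]
    rw [show m.coeff m.natDegree = m.leadingCoeff from rfl, inv_mul_cancel₀ hl, map_one]
  have hd : (sumPoly m).natDegree ≤ k := natDegree_le_iff_coeff_eq_zero.mpr fun n hn => by
    rw [hco, if_neg (by omega), coeff_eq_zero_of_natDegree_lt (by omega : m.natDegree < n)]
    simp
  refine ⟨monic_of_natDegree_le_of_coeff_eq_one k hd htop,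
    le_antisymm hd (le_natDegree_of_ne_zero (by rw [htop]; exact one_ne_zero)), fun i => ?_⟩
  by_cases hi : i ≤ k
  · refine Or.inl ?_
    rw [hco]
    refine le_trans (Nat.add_le_add_right ((natDegree_C_mul_le _ _).trans (natDegree_add_le _ _)) i) ?_
    rw [natDegree_C, Nat.max_zero]
    split_ifs with h
    · omega
    · simp; omega
  · exact Or.inr (coeff_eq_zero_of_natDegree_lt (by omega))

lemma mem_pts {P : (ZMod p)[X][X]} {Kf : Type*} [Field Kf] [Fintype Kf] [Algebra (ZMod p) Kf]
    {v : Kf × Kf} : v ∈ pts P Kf ↔ (evk P v.1).eval v.2 = 0 := by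
  simp [pts]

open Bivariate in
/-- The absolutely irreducible symmetric component through `(z, z)`. -/
theorem exists_component {m : (ZMod p)[X]} {k : ℕ} (hk : m.natDegree = k) (hk1 : 1 ≤ k)
    (z : ZMod p) (hz : m.eval z = 0) (hz' : (derivative m).eval z ≠ 0) :
    ∃ P : (ZMod p)[X][X], P.Monic ∧ P.natDegree ≤ k ∧
      (∀ i, (P.coeff i).natDegree + i ≤ P.natDegree ∨ P.coeff i = 0) ∧
      Irreducible (P.map (toKbar p)) ∧
      (∀ v ∈ pts P (ZMod p), m.eval v.1 + m.eval v.2 = 0) ∧
      ∀ v ∈ pts P (ZMod p), (v.2, v.1) ∈ pts P (ZMod p) := by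
  classical
  obtain ⟨hMm, hMd, hMc⟩ := sumPoly_props hk hk1
  have hl : m.leadingCoeff ≠ 0 := leadingCoeff_ne_zero.mpr fun h => by simp [h] at hk; omega
  set ι := algebraMap (ZMod p) (kbar p) with hι
  set Mb := (sumPoly m).map (mapRingHom ι) with hMb
  set z' := ι z with hz'def
  set e := evalEvalRingHom z' z' with he
  have hez : e Mb = 0 := by
    show Mb.evalEval z' z' = 0
    rw [hMb, sumPoly_eval, hz'def, aeval_algebraMap_apply_eq_algebraMap_eval, hz, map_zero, add_zero,
      mul_zero]
  obtain ⟨Pb, hPbm, hPbi, ⟨Rb, hR⟩, hPb0⟩ := exists_monic_factor (M := Mb) (hMm.map (mapRingHom ι)) e hez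
  have hder : e (derivative Mb) ≠ 0 := by
    have h1 : derivative (sumPoly m) = C (C m.leadingCoeff⁻¹) * (derivative m).map C := by
      rw [sumPoly, derivative_C_mul, derivative_add, derivative_C, zero_add, derivative_map]
    rw [hMb, derivative_map, h1]
    show (((C (C m.leadingCoeff⁻¹) * (derivative m).map C).map (mapRingHom ι))).evalEval z' z' ≠ 0
    simp only [Polynomial.map_mul, map_C, coe_mapRingHom, Polynomial.map_map, mapRingHom_comp_C,
      evalEval_mul, evalEval_CC]
    rw [show (derivative m).map (C.comp ι) = ((derivative m).map ι).map C by rw [Polynomial.map_map],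
      evalEval_map_C, hz'def, eval_map, eval₂_at_apply]
    exact mul_ne_zero ((map_ne_zero ι).mpr (inv_ne_zero hl)) ((map_ne_zero ι).mpr hz')
  have hR0 : e Rb ≠ 0 := by
    intro h0
    apply hder
    rw [hR, derivative_mul, map_add, map_mul, map_mul, hPb0, h0, mul_zero, zero_mul, add_zero]
  have huniq : ∀ Q : (kbar p)[X][X], Irreducible Q → Q ∣ Mb → e Q = 0 → Associated Q Pb := by
    intro Q hQ hQd hQ0
    rw [hR] at hQd
    rcases hQ.prime.dvd_or_dvd hQd with h | h
    · exact hQ.associated_of_dvd hPbi h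
    · obtain ⟨s, rfl⟩ := h
      exact absurd (by rw [map_mul, hQ0, zero_mul]) hR0
  -- Frobenius fixes the component
  let φ : kbar p ≃+* kbar p := frobeniusEquiv (kbar p) p
  let Φ : (kbar p)[X][X] ≃+* (kbar p)[X][X] := mapEquiv (mapEquiv φ)
  have hφι : ∀ c : ZMod p, φ (ι c) = ι c := fun c => by
    show (ι c) ^ p = ι c
    rw [← map_pow, ZMod.pow_card]
  have hΦ : ∀ Q, Φ Q = Q.map (mapRingHom φ.toRingHom) := fun Q => rfl
  have hΦM : Φ Mb = Mb := by
    rw [hΦ, hMb, Polynomial.map_map, mapRingHom_comp]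
    congr 2
    exact RingHom.ext hφι
  have hΦP : Φ Pb = Pb := by
    have hmon : (Φ Pb).Monic := by rw [hΦ]; exact hPbm.map _
    refine eq_of_monic_of_associated hmon hPbm (huniq _ ((MulEquiv.irreducible_iff Φ).mpr hPbi) ?_ ?_)
    · rw [← hΦM, hR, map_mul]; exact dvd_mul_right _ _
    · rw [hΦ]
      show (Pb.map (mapRingHom φ.toRingHom)).evalEval z' z' = 0
      rw [show z' = φ.toRingHom z' from (hφι z).symm, map_mapRingHom_evalEval]
      rw [show Pb.evalEval z' z' = 0 from hPb0, map_zero]
  obtain ⟨P, hPmap⟩ : ∃ P : (ZMod p)[X][X], P.map (mapRingHom ι) = Pb := by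
    rw [← mem_lifts, lifts_iff_coeff_lifts]
    intro i
    show Pb.coeff i ∈ Set.range (mapRingHom ι)
    have h2 : Pb.coeff i ∈ Polynomial.lifts ι := by
      rw [lifts_iff_coeff_lifts]
      intro a
      have h := congrArg (fun Q : (kbar p)[X][X] => (Q.coeff i).coeff a) hΦP
      simp only [hΦ, coeff_map, coe_mapRingHom] at h
      exact Weil.mem_base_of_pow h
    exact h2
  have hinj : Function.Injective (mapRingHom ι) := Polynomial.map_injective ι ι.injective
  have hPm : P.Monic := monic_of_injective hinj (hPmap ▸ hPbm)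
  have hPM : P ∣ sumPoly m := by
    refine (map_dvd_map (mapRingHom ι) hinj hPm).mp ?_
    rw [hPmap, ← hMb, hR]; exact dvd_mul_right _ _
  obtain ⟨R, hPR⟩ := hPM
  have hRm : R.Monic := hPm.of_mul_monic_left (hPR ▸ hMm)
  have hdeg := degree_bound_of_mul hPm hRm hPR.symm hMd hMc
  have hPk : P.natDegree ≤ k := by
    rw [← hMd, hPR, hPm.natDegree_mul hRm]; exact Nat.le_add_right _ _
  have hirr : Irreducible (P.map (toKbar p)) := by
    rw [toKbar, ← Polynomial.map_map, ← hι, hPmap]
    exact hPbm.irreducible_iff_irreducible_map_fraction_map.mp hPbi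
  have hpts : ∀ v : ZMod p × ZMod p, v ∈ pts P (ZMod p) ↔ Pb.evalEval (ι v.1) (ι v.2) = 0 := by
    intro v
    rw [← hPmap, map_mapRingHom_evalEval, map_eq_zero, mem_pts, ← map_evalRingHom_eval, evk]
    rfl
  refine ⟨P, hPm, hPk, hdeg, hirr, fun v hv => ?_, fun v hv => ?_⟩
  · have h : Mb.evalEval (ι v.1) (ι v.2) = 0 := by
      rw [hR, evalEval_mul, (hpts v).mp hv, zero_mul]
    rw [hMb, sumPoly_eval, aeval_algebraMap_apply_eq_algebraMap_eval,
      aeval_algebraMap_apply_eq_algebraMap_eval, ← map_add, ← map_mul, map_eq_zero, mul_eq_zero] at h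
    exact h.resolve_left (inv_ne_zero hl)
  · rw [hpts] at hv ⊢
    have hsw : ∀ (Q : (kbar p)[X][X]) (a b : kbar p),
        (Bivariate.swap (R := kbar p) Q).evalEval a b = Q.evalEval b a := fun Q a b => by
      rw [← coe_aevalAeval_eq_evalEval, ← coe_aevalAeval_eq_evalEval, Bivariate.aevalAeval_swap]
    have hMs : Bivariate.swap (R := kbar p) Mb = Mb := by
      have e : Mb = C (C (ι m.leadingCoeff⁻¹)) * (C (m.map ι) + (m.map ι).map C) := by
        rw [hMb, sumPoly]
        simp [Polynomial.map_map, mapRingHom_comp_C]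
      rw [e, map_mul, Bivariate.swap_C_C, map_add, Bivariate.swap_C, Bivariate.swap_map_C, add_comm]
    have hass : Associated (Bivariate.swap (R := kbar p) Pb) Pb := by
      refine huniq _ ((MulEquiv.irreducible_iff (Bivariate.swap (R := kbar p))).mpr hPbi) ?_ ?_
      · rw [← hMs, hR, map_mul]; exact dvd_mul_right _ _
      · show (Bivariate.swap (R := kbar p) Pb).evalEval z' z' = 0
        rw [hsw]; exact hPb0
    obtain ⟨s, hs⟩ := hass
    show Pb.evalEval (ι v.2) (ι v.1) = 0
    rw [← hs, evalEval_mul, hsw, hv, zero_mul]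

lemma curveCst_mono {δ δ' k : ℕ} (h : δ ≤ δ') : curveCst δ k ≤ curveCst δ' k := by
  unfold curveCst; gcongr

open Classical in
/-- The weight at a simple root of a polynomial over the prime field. -/
theorem weight_stmt (k : ℕ) (hk1 : 1 ≤ k) : WeightStmt k := by
  set C₁ := curveCst k k + 2 * (k * k) + k + 2 with hC₁
  refine ⟨(C₁ : ℝ), fun p _ hpC m hm z hz hz' => ?_⟩
  have hp := (Fact.out : p.Prime)
  have hkp : k < p := by
    have : C₁ ≤ p := by exact_mod_cast hpC
    omega
  obtain ⟨P, hPm, hPk, hdeg, hirr, hsum, hswap⟩ := exists_component hm hk1 z hz hz'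
  set m' := derivative m with hm'
  set Q := (pts P (ZMod p)).filter (fun v => m'.eval v.1 ≠ 0 ∧ m'.eval v.2 ≠ 0) with hQ
  have hm'0 : m' ≠ 0 := fun h => hz' (by rw [h, eval_zero])
  have hfib : ∀ x : ZMod p, ((pts P (ZMod p)).filter (fun v => v.1 = x)).card ≤ k := by
    intro x
    refine le_trans (card_le_card_of_injOn Prod.snd (t := (evk P x).roots.toFinset) (fun v hv => ?_)
      fun a ha b hb h => ?_) ((Multiset.toFinset_card_le _).trans ((card_roots' _).trans
        (natDegree_map_le.trans hPk)))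
    · obtain ⟨h1, h2⟩ := mem_filter.mp hv
      rw [mem_coe, Multiset.mem_toFinset, mem_roots (evk_monic hPm x).ne_zero, IsRoot.def]
      rw [← h2]; exact mem_pts.mp h1
    · exact Prod.ext ((mem_filter.mp (mem_coe.mp ha)).2.trans (mem_filter.mp (mem_coe.mp hb)).2.symm) h
  refine ⟨fun x => ((Q.filter (fun v => v.1 = x)).card : ℝ), fun x => ⟨by positivity, ?_⟩, fun x hx => ?_, ?_⟩
  · exact Nat.cast_le.mpr ((card_le_card (filter_subset_filter _ (filter_subset _ _))).trans (hfib x))
  · rw [Nat.cast_eq_zero, card_eq_zero, filter_eq_empty_iff]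
    intro v hv he
    exact (mem_filter.mp hv).2.1 (he ▸ hx)
  -- sums against the weight are sums over the points kept
  have hW : ∀ G : ZMod p → ℂ, ∑ x, (((Q.filter (fun v => v.1 = x)).card : ℝ) : ℂ) * G x = ∑ v ∈ Q, G v.1 := by
    intro G
    rw [← sum_fiberwise Q Prod.fst (fun v => G v.1)]
    refine sum_congr rfl fun x _ => ?_
    rw [sum_congr rfl fun v hv => show G v.1 = G x by rw [(mem_filter.mp hv).2], sum_const, nsmul_eq_mul]
    norm_num
  set X₁ := (pts P (ZMod p)).filter (fun v => ¬ (m'.eval v.1 ≠ 0 ∧ m'.eval v.2 ≠ 0)) with hX₁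
  have hX : X₁.card ≤ 2 * (k * k) := by
    set A := (pts P (ZMod p)).filter (fun v => m'.eval v.1 = 0) with hA
    have hAc : A.card ≤ k * k := by
      refine le_trans (card_le_mul_card_image_of_maps_to (f := Prod.fst) (t := m'.roots.toFinset) ?_ k
        fun x _ => ?_) (Nat.mul_le_mul_left _ ?_)
      · intro v hv
        rw [Multiset.mem_toFinset, mem_roots hm'0]
        exact (mem_filter.mp hv).2
      · exact (card_le_card (filter_subset_filter _ (filter_subset _ _))).trans (hfib x)
      · exact (Multiset.toFinset_card_le _).trans ((card_roots' _).trans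
          ((natDegree_derivative_le m).trans (by omega)))
    refine le_trans (card_le_card (t := A ∪ A.image Prod.swap) fun v hv => ?_) ((card_union_le _ _).trans ?_)
    · obtain ⟨h1, h2⟩ := mem_filter.mp hv
      rw [not_and_or, not_not, not_not] at h2
      rcases h2 with h | h
      · exact mem_union_left _ (mem_filter.mpr ⟨h1, h⟩)
      · exact mem_union_right _ (mem_image.mpr ⟨(v.2, v.1), mem_filter.mpr ⟨hswap v h1, h⟩, rfl⟩)
    · have := card_image_le (s := A) (f := Prod.swap)
      omega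
  have hsp : 1 ≤ Real.sqrt p := Real.one_le_sqrt.mpr (by exact_mod_cast hp.one_lt.le)
  have hcst : (curveCst P.natDegree k : ℝ) ≤ (curveCst k k : ℝ) := by exact_mod_cast curveCst_mono hPk
  have hC : (C₁ : ℝ) = (curveCst k k : ℝ) + 2 * (k * k) + k + 2 := by rw [hC₁]; push_cast; ring
  have hbig : (curveCst P.natDegree k : ℝ) * Real.sqrt p + (X₁.card : ℝ) ≤ (C₁ : ℝ) * Real.sqrt p := by
    have h1 : (X₁.card : ℝ) ≤ 2 * (k * k) := by exact_mod_cast hX
    have h2 := mul_le_mul_of_nonneg_right hcst (Real.sqrt_nonneg (p : ℝ))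
    have h3 : (2 * ((k : ℝ) * k)) ≤ 2 * ((k : ℝ) * k) * Real.sqrt p := le_mul_of_one_le_right (by positivity) hsp
    have h4 : 0 ≤ ((k : ℝ) + 2) * Real.sqrt p := by positivity
    rw [hC]; linarith
  have hdp : P.natDegree < p := lt_of_le_of_lt hPk hkp
  refine ⟨fun s hs => ?_, ?_⟩
  · rw [hW fun x => Kloo.ψ (s * m.eval x)]
    refine ⟨?_, ?_⟩
    · rw [← Complex.conj_eq_iff_im, map_sum]
      refine sum_bij' (fun v _ => (v.2, v.1)) (fun v _ => (v.2, v.1)) ?_ ?_ (fun _ _ => rfl) (fun _ _ => rfl) ?_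
      · intro v hv
        obtain ⟨h1, h2, h3⟩ := mem_filter.mp hv
        exact mem_filter.mpr ⟨hswap v h1, h3, h2⟩
      · intro v hv
        obtain ⟨h1, h2, h3⟩ := mem_filter.mp hv
        exact mem_filter.mpr ⟨hswap v h1, h3, h2⟩
      · intro v hv
        rw [← AddChar.map_neg_eq_conj]
        congr 1
        have := hsum v (mem_filter.mp hv).1
        linear_combination -s * this
    · obtain ⟨h1, -⟩ := curve_weil P hPm hdp hdeg hirr (C s * m) (by rw [natDegree_C_mul hs, hm]; exact hk1)
        (by rw [natDegree_C_mul hs, hm]; exact hkp)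
      simp only [eval_mul, eval_C, natDegree_C_mul hs, hm] at h1
      have hsplit : ∑ v ∈ Q, Kloo.ψ (s * m.eval v.1) + ∑ v ∈ X₁, Kloo.ψ (s * m.eval v.1)
          = ∑ v ∈ pts P (ZMod p), Kloo.ψ (s * m.eval v.1) := sum_filter_add_sum_filter_not _ _ _
      have hx : ‖∑ v ∈ X₁, Kloo.ψ (s * m.eval v.1)‖ ≤ X₁.card := by
        refine (norm_sum_le _ _).trans ((sum_le_card_nsmul _ _ 1 fun v _ => (Kloo.norm_ψ _).le).trans ?_)
        simp
      rw [← eq_sub_iff_add_eq] at hsplit
      rw [hsplit]
      exact (norm_sub_le _ _).trans ((add_le_add h1 hx).trans hbig)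
  · obtain ⟨-, h2⟩ := curve_weil P hPm hdp hdeg hirr m (by omega) (by omega)
    rw [hm] at h2
    have hsum' : ∑ x, ((Q.filter (fun v => v.1 = x)).card : ℝ) = ((pts P (ZMod p)).card : ℝ) - X₁.card := by
      rw [eq_sub_iff_add_eq, ← Nat.cast_sum, ← card_eq_sum_card_fiberwise (fun _ _ => mem_univ _),
        ← Nat.cast_add, hQ, hX₁, card_filter_add_card_filter_not]
    rw [hsum', sub_sub, add_comm (X₁.card : ℝ), ← sub_sub]
    refine le_trans (abs_sub _ _) ?_
    have h0 : |(X₁.card : ℝ)| = X₁.card := abs_of_nonneg (Nat.cast_nonneg _)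
    linarith

end Vale.Agent.P042.Curve
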