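import Vale.Agent.P042.CurveFil

/-! Norms and dimensions in the degree filtration. -/

namespace Vale.Agent.P042.Curve

open Polynomial Finset

set_option linter.unusedSectionVars false
set_option linter.style.haveILetI false

variable {F L : Type*} [Field F] [Field L] [Algebra F L] [Algebra F[X] L] [IsScalarTower F F[X] L]
  [FaithfulSMul F[X] L]

variable (K : Type*) [Field K] [Algebra F[X] K] [IsFractionRing F[X] K] [Algebra K L]
  [IsScalarTower F[X] K L] [FiniteDimensional K L]

lemma prod_mem {ι : Type*} (s : Finset ι) (g : ι → L) {n : ℕ} (h : ∀ i ∈ s, g i ∈ lt F L (n + 1)) :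
    ∏ i ∈ s, g i ∈ lt F L (s.card * n + 1) := by
  classical
  induction s using Finset.induction with
  | empty =>
    rw [prod_empty, card_empty, Nat.zero_mul, zero_add, ← map_one (algebraMap F[X] L)]
    exact algebraMap_mem (by simp)
  | insert a t ha ih =>
    rw [prod_insert ha, card_insert_of_notMem ha,
      show (t.card + 1) * n + 1 = n + t.card * n + 1 by ring]
    exact lt_mul (h a (mem_insert_self a t)) (ih fun i hi => h i (mem_insert_of_mem hi))

section Norm

variable [Algebra.IsSeparable K L]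

lemma exists_norm {b : L} (hb : IsIntegral F[X] b) :
    ∃ P : F[X], algebraMap F[X] K P = Algebra.norm K b :=
  IsIntegrallyClosed.isIntegral_iff.mp (Algebra.isIntegral_norm K hb)

lemma norm_deg {b : L} {n : ℕ} (hb : b ∈ lt F L (n + 1)) : ∃ P : F[X],
    algebraMap F[X] K P = Algebra.norm K b ∧ P.natDegree ≤ Module.finrank K L * n := by
  obtain ⟨P, hP⟩ := exists_norm K hb.1
  refine ⟨P, hP, ?_⟩
  haveI : FaithfulSMul F[X] (AlgebraicClosure L) := (faithfulSMul_iff_algebraMap_injective _ _).mpr (by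
    rw [IsScalarTower.algebraMap_eq F[X] L (AlgebraicClosure L)]
    exact (algebraMap L (AlgebraicClosure L)).injective.comp
      (FaithfulSMul.algebraMap_injective F[X] L))
  have h1 := prod_mem (univ : Finset (L →ₐ[K] AlgebraicClosure L)) (fun σ => σ b)
    fun σ _ => map_mem hb (σ.restrictScalars F[X])
  rw [← Algebra.norm_eq_prod_embeddings, ← hP, ← IsScalarTower.algebraMap_apply, card_univ,
    AlgHom.card] at h1
  have h2 := degree_lt_of_mem h1
  by_cases h0 : P = 0
  · simp [h0]
  · rw [degree_eq_natDegree h0, Nat.cast_lt] at h2; omega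

include K in
lemma lt_zero : lt F L 0 = ⊥ := by
  rw [Submodule.eq_bot_iff]
  intro b hb
  by_contra hb0
  obtain ⟨P, hP, hdeg⟩ := norm_deg K (xx_mul_mem hb)
  obtain ⟨Q, hQ⟩ := exists_norm K hb.1
  have hQ0 : Q ≠ 0 := by
    intro h
    rw [h, map_zero, eq_comm, Algebra.norm_eq_zero_iff] at hQ
    exact hb0 hQ
  have e : P = X ^ Module.finrank K L * Q := by
    apply IsFractionRing.injective F[X] K
    rw [hP, map_mul, show xx F L = algebraMap K L (algebraMap F[X] K X) from
      IsScalarTower.algebraMap_apply F[X] K L X, Algebra.norm_algebraMap, map_mul, map_pow, hQ]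
  rw [e, natDegree_mul (pow_ne_zero _ X_ne_zero) hQ0, natDegree_X_pow, Nat.mul_zero] at hdeg
  have : 0 < Module.finrank K L := Module.finrank_pos
  omega

lemma norm_shift {j k : ℕ} (hk : 1 ≤ k) {z u : L} {c : F}
    (hz : z - xx F L ^ (j + k) ∈ lt F L (j + k))
    (hu : u - algebraMap F L c * xx F L ^ j ∈ lt F L j) :
    ∃ P P' : F[X], algebraMap F[X] K P = Algebra.norm K z ∧
      algebraMap F[X] K P' = Algebra.norm K (z + u) ∧
      (P - X ^ (Module.finrank K L * (j + k))).degree < ((Module.finrank K L * (j + k) : ℕ) : WithBot ℕ) ∧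
      (P' - P - Polynomial.C ((Module.finrank K L : F) * c) * X ^ (Module.finrank K L * (j + k) - k)).degree
        < ((Module.finrank K L * (j + k) - k : ℕ) : WithBot ℕ) := by
  classical
  have hxi : ∀ n, IsIntegral F[X] (xx F L ^ n) := fun n => (isIntegral_algebraMap).pow n
  have hci : IsIntegral F[X] (algebraMap F L c) := by
    rw [IsScalarTower.algebraMap_apply F F[X] L]; exact isIntegral_algebraMap
  have hzi : IsIntegral F[X] z := by simpa using hz.1.add (hxi (j + k))
  have hui : IsIntegral F[X] u := by simpa using hu.1.add (hci.mul (hxi j))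
  obtain ⟨P, hP⟩ := exists_norm K hzi
  obtain ⟨P', hP'⟩ := exists_norm K (hzi.add hui)
  refine ⟨P, P', hP, hP', ?_⟩
  haveI : FaithfulSMul F[X] (AlgebraicClosure L) := (faithfulSMul_iff_algebraMap_injective _ _).mpr (by
    rw [IsScalarTower.algebraMap_eq F[X] L (AlgebraicClosure L)]
    exact (algebraMap L (AlgebraicClosure L)).injective.comp (FaithfulSMul.algebraMap_injective F[X] L))
  set x := xx F (AlgebraicClosure L) with hx
  have hx0 : x ≠ 0 := xx_ne
  have hk1 : x⁻¹ ^ (k - 1) * x ^ k = x := by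
    obtain ⟨i, rfl⟩ : ∃ i, k = i + 1 := ⟨k - 1, by omega⟩
    rw [Nat.add_sub_cancel, pow_succ, ← mul_assoc, ← mul_pow, inv_mul_cancel₀ hx0, one_pow, one_mul]
  set E := algebraMap F (AlgebraicClosure L) c * x⁻¹ ^ k with hE
  set a : (L →ₐ[K] (AlgebraicClosure L)) → (AlgebraicClosure L) := fun σ => σ z * x⁻¹ ^ (j + k) - 1 with ha
  set e : (L →ₐ[K] (AlgebraicClosure L)) → (AlgebraicClosure L) := fun σ => σ u * x⁻¹ ^ (j + k) with he
  have hcσ : ∀ σ : L →ₐ[K] (AlgebraicClosure L), σ (algebraMap F L c) = algebraMap F (AlgebraicClosure L) c := fun σ => by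
    rw [IsScalarTower.algebraMap_apply F F[X] L, IsScalarTower.algebraMap_apply F F[X] (AlgebraicClosure L),
      ← AlgHom.coe_restrictScalars' F[X] σ, AlgHom.commutes]
  have hxσ : ∀ σ : L →ₐ[K] (AlgebraicClosure L), σ (xx F L) = x := fun σ => by
    rw [← AlgHom.coe_restrictScalars' F[X] σ]; exact AlgHom.commutes _ _
  have hA : ∀ σ, IntInf F (AlgebraicClosure L) (a σ * x) := fun σ => by
    have h := (map_mem hz (σ.restrictScalars F[X])).2
    simp only [AlgHom.coe_restrictScalars', map_sub, map_pow, hxσ, ← hx, sub_mul, ← mul_pow,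
      mul_inv_cancel₀ hx0, one_pow, one_mul] at h
    simpa [ha, sub_mul] using h
  have hB : ∀ σ, IntInf F (AlgebraicClosure L) ((e σ - E) * x ^ (k + 1)) := fun σ => by
    have h := (map_mem hu (σ.restrictScalars F[X])).2
    simp only [AlgHom.coe_restrictScalars', map_sub, map_mul, map_pow, hxσ, hcσ, ← hx] at h
    convert h using 1
    simp only [he, hE, inv_pow]
    rw [pow_add]
    field_simp; ring
  have hEk : E * x ^ k = algebraMap F (AlgebraicClosure L) c := by
    rw [hE, mul_assoc, ← mul_pow, inv_mul_cancel₀ hx0, one_pow, mul_one]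
  have hC : ∀ σ, IntInf F (AlgebraicClosure L) (e σ * x ^ k) := fun σ => by
    have : e σ * x ^ k = (e σ - E) * x ^ (k + 1) * x⁻¹ + E * x ^ k := by
      rw [pow_succ]; field_simp; ring
    rw [this, hEk]
    exact ((hB σ).mul intInf_inv).add (intInf_C c)
  have hC' : ∀ σ, IntInf F (AlgebraicClosure L) (e σ * x) := fun σ => by
    have : e σ * x = e σ * x ^ k * x⁻¹ ^ (k - 1) := by
      conv_lhs => rw [← hk1]
      ring
    rw [this]; exact (hC σ).mul (intInf_inv.pow _)
  have hF : ∀ σ, IntInf F (AlgebraicClosure L) (1 + a σ + e σ) := fun σ => by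
    have : 1 + a σ + e σ = 1 + (a σ * x + e σ * x) * x⁻¹ := by field_simp; ring
    rw [this]; exact intInf_one.add (((hA σ).add (hC' σ)).mul intInf_inv)
  have main : ∀ s : Finset (L →ₐ[K] (AlgebraicClosure L)), IntInf F (AlgebraicClosure L) ((∏ σ ∈ s, (1 + a σ) - 1) * x) ∧
      IntInf F (AlgebraicClosure L) ((∏ σ ∈ s, (1 + a σ + e σ) - ∏ σ ∈ s, (1 + a σ) - (s.card : (AlgebraicClosure L)) * E) * x ^ (k + 1)) := by
    intro s
    induction s using Finset.induction with
    | empty => simp [intInf_zero]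
    | insert σ t hσ ih =>
      obtain ⟨h1, h2⟩ := ih
      rw [prod_insert hσ, prod_insert hσ, card_insert_of_notMem hσ]
      constructor
      · rw [show ((1 + a σ) * ∏ τ ∈ t, (1 + a τ) - 1) * x
          = (∏ τ ∈ t, (1 + a τ) - 1) * x + (∏ τ ∈ t, (1 + a τ) - 1) * x * (a σ * x * x⁻¹) + a σ * x by
          field_simp; ring]
        exact (h1.add (h1.mul ((hA σ).mul intInf_inv))).add (hA σ)
      · set Q := ∏ τ ∈ t, (1 + a τ + e τ)
        set R := ∏ τ ∈ t, (1 + a τ)
        rw [show ((1 + a σ + e σ) * Q - (1 + a σ) * R - ((t.card + 1 : ℕ) : (AlgebraicClosure L)) * E) * x ^ (k + 1)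
          = (Q - R - (t.card : (AlgebraicClosure L)) * E) * x ^ (k + 1) * (1 + a σ + e σ)
            + (t.card : (AlgebraicClosure L)) * (E * x ^ k) * (a σ * x + e σ * x)
            + (R - 1) * x * (e σ * x ^ k) + (e σ - E) * x ^ (k + 1) by
          push_cast; ring, hEk]
        exact (((h2.mul (hF σ)).add (((intInf_natCast _).mul (intInf_C c)).mul
          ((hA σ).add (hC' σ)))).add (h1.mul (hC σ))).add (hB σ)
  obtain ⟨m1, m2⟩ := main univ
  have hcard : (univ : Finset (L →ₐ[K] (AlgebraicClosure L))).card = Module.finrank K L := by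
    rw [card_univ, AlgHom.card]
  set d := Module.finrank K L with hd
  have hd0 : 0 < d := Module.finrank_pos
  have hN : ∀ (w : L) (R : F[X]), algebraMap F[X] K R = Algebra.norm K w →
      ∏ σ : L →ₐ[K] (AlgebraicClosure L), (σ w * x⁻¹ ^ (j + k)) = algebraMap F[X] (AlgebraicClosure L) R * x⁻¹ ^ (d * (j + k)) := by
    intro w R hR
    rw [prod_mul_distrib, prod_const, hcard, ← Algebra.norm_eq_prod_embeddings, ← hR,
      ← IsScalarTower.algebraMap_apply, ← pow_mul, mul_comm d]
  have e1 : ∏ σ : L →ₐ[K] (AlgebraicClosure L), (1 + a σ) = algebraMap F[X] (AlgebraicClosure L) P * x⁻¹ ^ (d * (j + k)) := by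
    rw [← hN z P hP]; exact prod_congr rfl fun σ _ => by simp [ha]
  have e2 : ∏ σ : L →ₐ[K] (AlgebraicClosure L), (1 + a σ + e σ) = algebraMap F[X] (AlgebraicClosure L) P' * x⁻¹ ^ (d * (j + k)) := by
    rw [← hN (z + u) P' hP']; exact prod_congr rfl fun σ _ => by simp [ha, he, add_mul]
  have hxX : algebraMap F[X] (AlgebraicClosure L) X = x := rfl
  have hCc : ∀ q : F, algebraMap F[X] (AlgebraicClosure L) (Polynomial.C q) = algebraMap F (AlgebraicClosure L) q := fun q =>
    (IsScalarTower.algebraMap_apply F F[X] (AlgebraicClosure L) q).symm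
  constructor
  · refine degree_lt_of_mem (F := F) (L := (AlgebraicClosure L)) ⟨isIntegral_algebraMap, ?_⟩
    rw [e1] at m1
    convert m1 using 1
    rw [map_sub, map_pow, hxX, sub_mul, ← mul_pow, mul_inv_cancel₀ hx0, one_pow]
  · refine degree_lt_of_mem (F := F) (L := (AlgebraicClosure L)) ⟨isIntegral_algebraMap, ?_⟩
    rw [e1, e2, hcard] at m2
    obtain ⟨r, hr⟩ : ∃ r, d * (j + k) = r + k :=
      ⟨d * (j + k) - k, (Nat.sub_add_cancel (le_trans (by omega) (Nat.le_mul_of_pos_left _ hd0))).symm⟩
    rw [hr] at m2 ⊢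
    rw [Nat.add_sub_cancel]
    convert m2 using 1
    rw [map_sub, map_sub, map_mul, map_pow, hxX, hCc, map_mul, map_natCast, hE, pow_add x⁻¹ r k,
      pow_succ x k, ← hx]
    simp only [inv_pow]
    field_simp

end Norm

lemma gap (n : ℕ) (w : Fin (Module.finrank K L + 1) → L) (hw : ∀ i, w i ∈ lt F L (n + 1)) :
    ∃ c : Fin (Module.finrank K L + 1) → F, c ≠ 0 ∧
      ∑ i, algebraMap F L (c i) * w i ∈ lt F L n := by
  classical
  have hdep : ¬ LinearIndependent F[X] w := by
    rw [LinearIndependent.iff_fractionRing F[X] K]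
    intro h
    have := h.fintype_card_le_finrank
    simp at this
  obtain ⟨a, ha, i₀, hi₀⟩ := Fintype.not_linearIndependent_iff.mp hdep
  set e := univ.sup fun i => (a i).natDegree with he
  refine ⟨fun i => (a i).coeff e, ?_, ?_⟩
  · obtain ⟨i₁, -, hi₁⟩ := exists_mem_eq_sup univ univ_nonempty fun i => (a i).natDegree
    intro h
    by_cases h1 : a i₁ = 0
    · have he0 : e = 0 := by rw [he, hi₁, h1, natDegree_zero]
      apply hi₀
      have h2 : (a i₀).natDegree ≤ 0 := he0 ▸ le_sup (f := fun i => (a i).natDegree) (mem_univ i₀)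
      have h3 := congrFun h i₀
      simp only [Pi.zero_apply, he0] at h3
      rw [eq_C_of_natDegree_le_zero h2, h3, map_zero]
    · have h3 := congrFun h i₁
      simp only [Pi.zero_apply, he, hi₁] at h3
      exact h1 (leadingCoeff_eq_zero.mp h3)
  · have hint : ∀ i, IsIntegral F[X] (algebraMap F L ((a i).coeff e) * w i) := fun i => by
      rw [IsScalarTower.algebraMap_apply F F[X] L]; exact isIntegral_algebraMap.mul (hw i).1
    refine ⟨IsIntegral.sum _ fun i _ => hint i, ?_⟩
    set r : Fin (Module.finrank K L + 1) → F[X] :=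
      fun i => a i - Polynomial.C ((a i).coeff e) * X ^ e with hr
    have hrd : ∀ i, (r i).degree < (e : WithBot ℕ) := fun i => by
      rw [degree_lt_iff_coeff_zero]
      intro m hm
      rw [hr, coeff_sub, coeff_C_mul_X_pow]
      split_ifs with h
      · rw [h, sub_self]
      · rw [sub_zero]
        exact coeff_eq_zero_of_natDegree_lt (lt_of_le_of_lt (le_sup (f := fun i => (a i).natDegree)
          (mem_univ i)) (lt_of_le_of_ne hm (Ne.symm h)))
    have hx0 : xx F L ≠ 0 := xx_ne
    have key : (∑ i, algebraMap F L ((a i).coeff e) * w i) * (xx F L)⁻¹ ^ n * xx F L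
        = - ∑ i, (algebraMap F[X] L (r i) * (xx F L)⁻¹ ^ e * xx F L) * (w i * (xx F L)⁻¹ ^ n) := by
      have h0 : ∑ i, (algebraMap F[X] L (r i) * w i + algebraMap F L ((a i).coeff e) * xx F L ^ e * w i) = 0 := by
        rw [← ha]; refine sum_congr rfl fun i _ => ?_
        rw [Algebra.smul_def, hr, map_sub, map_mul, map_pow, IsScalarTower.algebraMap_apply F F[X] L, xx,
          Polynomial.algebraMap_eq]
        ring
      rw [sum_add_distrib] at h0
      have e1 : ∑ i, (algebraMap F[X] L (r i) * (xx F L)⁻¹ ^ e * xx F L) * (w i * (xx F L)⁻¹ ^ n)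
          = (xx F L)⁻¹ ^ e * xx F L * (xx F L)⁻¹ ^ n * ∑ i, algebraMap F[X] L (r i) * w i := by
        rw [mul_sum]; exact sum_congr rfl fun i _ => by ring
      have e2 : ∑ i, algebraMap F L ((a i).coeff e) * xx F L ^ e * w i
          = xx F L ^ e * ∑ i, algebraMap F L ((a i).coeff e) * w i := by
        rw [mul_sum]; exact sum_congr rfl fun i _ => by ring
      rw [e2, ← eq_neg_iff_add_eq_zero] at h0
      rw [e1, h0, mul_neg, neg_neg, inv_pow, inv_pow]
      field_simp
    rw [key, ← neg_one_mul]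
    refine IntInf.mul ?_ (IntInf.sum _ _ fun i _ => ((algebraMap_mem (hrd i)).2).mul
      ((mem_lt_succ.mp (hw i)).2))
    simpa using intInf_zero.sub (intInf_one (F := F) (L := L))

include K in
lemma lt_finite [Algebra.IsSeparable K L] (n : ℕ) : Module.Finite F (lt F L n) ∧
    ∀ (W : Submodule F L), Module.finrank F ↥(W ⊓ lt F L (n + 1))
      ≤ Module.finrank F ↥(W ⊓ lt F L n) + Module.finrank K L := by
  classical
  have quot : ∀ (n : ℕ) (W : Submodule F L),
      Module.rank F (↥(W ⊓ lt F L (n + 1)) ⧸ (W ⊓ lt F L n).comap (W ⊓ lt F L (n + 1)).subtype)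
        ≤ (Module.finrank K L : Cardinal) := by
    intro n W
    refine rank_le fun s hs => ?_
    by_contra hcard
    obtain ⟨t, hts, htc⟩ := exists_subset_card_eq (show Module.finrank K L + 1 ≤ s.card by omega)
    let em := (t.equivFinOfCardEq htc).symm
    choose v hv using fun i => Submodule.Quotient.mk_surjective _ (em i).1
    obtain ⟨c, hc0, hc⟩ := gap K n (fun i => (v i : L)) fun i => (v i).2.2
    have hli : LinearIndependent F (fun i => (em i).1) :=
      hs.comp (fun i => (⟨(em i).1, hts (em i).2⟩ : s)) fun a b h =>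
        em.injective (Subtype.ext (by simpa using congrArg Subtype.val h))
    have h0 := Fintype.linearIndependent_iff.mp hli c (by
      simp only [← hv, ← Submodule.Quotient.mk_smul]
      rw [show ∑ i, Submodule.Quotient.mk (c i • v i)
          = Submodule.mkQ ((W ⊓ lt F L n).comap (W ⊓ lt F L (n + 1)).subtype) (∑ i, c i • v i) by
        rw [map_sum]; rfl]
      rw [Submodule.mkQ_apply, Submodule.Quotient.mk_eq_zero, Submodule.mem_comap,
        Submodule.subtype_apply, Submodule.coe_sum]
      simp only [Submodule.coe_smul]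
      refine ⟨sum_mem fun i _ => W.smul_mem _ (v i).2.1, ?_⟩
      simpa [Algebra.smul_def] using hc)
    exact hc0 (funext h0)
  have hfin : ∀ n, Module.Finite F (lt F L n) := by
    intro n
    induction n with
    | zero => rw [lt_zero (F := F) (L := L) K]; infer_instance
    | succ n ih =>
      have h := quot n ⊤
      rw [top_inf_eq, top_inf_eq] at h
      haveI : Module.Finite F (↥(lt F L (n + 1)) ⧸ (lt F L n).comap (lt F L (n + 1)).subtype) :=
        Module.rank_lt_aleph0_iff.mp (lt_of_le_of_lt h Cardinal.natCast_lt_aleph0)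
      haveI : Module.Finite F ((lt F L n).comap (lt F L (n + 1)).subtype) :=
        Module.Finite.equiv (Submodule.comapSubtypeEquivOfLe (lt_succ_le n)).symm
      exact Module.Finite.of_submodule_quotient ((lt F L n).comap (lt F L (n + 1)).subtype)
  refine ⟨hfin n, fun W => ?_⟩
  haveI := hfin (n + 1)
  haveI : Module.Finite F ↥(W ⊓ lt F L (n + 1)) := Submodule.finiteDimensional_of_le inf_le_right
  have h1 := Submodule.finrank_quotient_add_finrank
    ((W ⊓ lt F L n).comap (W ⊓ lt F L (n + 1)).subtype)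
  have hle : W ⊓ lt F L n ≤ W ⊓ lt F L (n + 1) := inf_le_inf_left W (lt_succ_le n)
  rw [(Submodule.comapSubtypeEquivOfLe hle).finrank_eq] at h1
  have h2 := Module.finrank_le_of_rank_le (quot n W)
  omega

include K in
lemma finrank_lt_le [Algebra.IsSeparable K L] (n : ℕ) :
    Module.finrank F (lt F L n) ≤ Module.finrank K L * n := by
  induction n with
  | zero => rw [lt_zero (F := F) (L := L) K]; simp
  | succ n ih =>
    have h := (lt_finite (F := F) (L := L) K n).2 ⊤
    rw [top_inf_eq, top_inf_eq] at h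
    rw [Nat.mul_succ]; omega

lemma finrank_lt_ge [Algebra.IsSeparable K L] {ι : Type*} [Fintype ι] (e : ι → L)
    (he : LinearIndependent K e) (c : ι → ℕ) (hc : ∀ i, e i ∈ lt F L (c i + 1)) (n : ℕ) :
    Fintype.card ι * n ≤ Module.finrank F (lt F L n) + ∑ i, c i := by
  classical
  let Φ : (Π i, degreeLT F (n - c i)) →ₗ[F] L :=
    { toFun := fun P => ∑ i, algebraMap F[X] L (P i : F[X]) * e i
      map_add' := fun P Q => by simp [add_mul, sum_add_distrib]
      map_smul' := fun a P => by
        simp only [Pi.smul_apply, Submodule.coe_smul, RingHom.id_apply, Algebra.smul_def, mul_sum]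
        refine sum_congr rfl fun i _ => ?_
        rw [map_mul, IsScalarTower.algebraMap_apply F F[X] L, Polynomial.algebraMap_eq]; ring }
  have hinj : Function.Injective Φ := by
    rw [← LinearMap.ker_eq_bot, Submodule.eq_bot_iff]
    intro P hP
    have hli := (LinearIndependent.iff_fractionRing F[X] K).mpr he
    have h0 := Fintype.linearIndependent_iff.mp hli (fun i => (P i : F[X])) (by
      simpa [Φ, Algebra.smul_def] using hP)
    exact funext fun i => Subtype.ext (h0 i)
  have hmem : ∀ P, Φ P ∈ lt F L n := fun P => by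
    refine sum_mem fun i _ => ?_
    by_cases h : (P i : F[X]) = 0
    · simp [h]
    have hd := mem_degreeLT.mp (P i).2
    rw [degree_eq_natDegree h, Nat.cast_lt] at hd
    exact lt_mono (show (P i : F[X]).natDegree + c i + 1 ≤ n by omega)
      (lt_mul (algebraMap_mem (by rw [degree_eq_natDegree h, Nat.cast_lt]; omega)) (hc i))
  haveI := (lt_finite (F := F) (L := L) K n).1
  have h1 := LinearMap.finrank_le_finrank_of_injective
    (f := Φ.codRestrict (lt F L n) hmem) fun a b h => hinj (congrArg Subtype.val h)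
  rw [Module.finrank_pi_fintype] at h1
  have h2 : ∀ i, Module.finrank F (degreeLT F (n - c i)) = n - c i := fun i => by
    rw [(degreeLTEquiv F (n - c i)).finrank_eq, Module.finrank_fin_fun]
  simp only [h2] at h1
  have h3 : Fintype.card ι * n ≤ ∑ i, (n - c i) + ∑ i, c i := by
    rw [← sum_add_distrib, ← card_univ, ← smul_eq_mul, ← sum_const]
    exact sum_le_sum fun i _ => by omega
  omega

include K in
lemma top_full [Algebra.IsSeparable K L] (W : Submodule F L) (hW : ∀ w ∈ W, xx F L * w ∈ W)
    (hWi : ∀ w ∈ W, IsIntegral F[X] w) {e d₀ n : ℕ} (hd₀ : W ⊓ lt F L d₀ = ⊥) (hn : d₀ ≤ n)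
    (hdim : Module.finrank K L * (n + 1) ≤ Module.finrank F ↥(W ⊓ lt F L (n + 1)) + e)
    (hbig : e < n + 1 + (Module.finrank K L - 1) * d₀) :
    lt F L (n + 1) ≤ (W ⊓ lt F L (n + 1)) ⊔ lt F L n := by
  classical
  haveI : ∀ m, Module.Finite F (lt F L m) := fun m => (lt_finite K m).1
  haveI : ∀ m, Module.Finite F ↥(W ⊓ lt F L m) := fun m =>
    Submodule.finiteDimensional_of_le inf_le_right
  set δ := Module.finrank K L with hδ
  set w : ℕ → ℕ := fun m => Module.finrank F ↥(W ⊓ lt F L m) with hw
  have hconv : ∀ m, 2 * w (m + 1) ≤ w (m + 2) + w m := by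
    intro m
    let μ : L →ₗ[F] L := LinearMap.mulLeft F (xx F L)
    have hμ : Function.Injective μ := mul_right_injective₀ (xx_ne (F := F) (L := L))
    have h1 := Submodule.finrank_sup_add_finrank_inf_eq (W ⊓ lt F L (m + 1))
      ((W ⊓ lt F L (m + 1)).map μ)
    have h2 : Module.finrank F ↥((W ⊓ lt F L (m + 1)).map μ) = w (m + 1) :=
      (Submodule.equivMapOfInjective μ hμ _).finrank_eq.symm
    have h3 : (W ⊓ lt F L (m + 1)) ⊔ (W ⊓ lt F L (m + 1)).map μ ≤ W ⊓ lt F L (m + 2) := by
      refine sup_le (inf_le_inf_left W (lt_succ_le _)) ?_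
      rintro _ ⟨y, hy, rfl⟩
      exact ⟨hW y hy.1, xx_mul_mem hy.2⟩
    have h4 : (W ⊓ lt F L (m + 1)) ⊓ (W ⊓ lt F L (m + 1)).map μ ≤ (W ⊓ lt F L m).map μ := by
      rintro _ ⟨h5, y, hy, rfl⟩
      exact ⟨y, ⟨hy.1, of_xx_mul_mem (hWi y hy.1) h5.2⟩, rfl⟩
    have h6 := Submodule.finrank_mono h3
    have h7 := (Submodule.finrank_mono h4).trans (Submodule.finrank_map_le μ _)
    rw [h2] at h1
    simp only [hw] at h1 ⊢
    omega
  have hfull : w n + δ ≤ w (n + 1) := by
    by_contra hlt
    have hinc : ∀ m ≤ n, w (m + 1) + 1 ≤ w m + δ := by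
      intro m hm
      induction hm using Nat.decreasingInduction with
      | self => omega
      | of_succ m _ ih => have h9 := hconv m; rw [show m + 1 + 1 = m + 2 from rfl] at ih; omega
    have hsum : ∀ m, d₀ ≤ m → m ≤ n + 1 → w m + (m - d₀) ≤ δ * (m - d₀) := by
      intro m hm
      induction m, hm using Nat.le_induction with
      | base => intro _; simp [hw, hd₀]
      | succ m hm ih =>
        intro hmn
        have h1 := ih (by omega)
        have h2 := hinc m (by omega)
        rw [Nat.succ_sub hm, Nat.mul_succ]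
        omega
    have h1 := hsum (n + 1) (by omega) le_rfl
    have h2 : 0 < δ := Module.finrank_pos
    obtain ⟨q, hq⟩ : ∃ q, n + 1 = d₀ + q := ⟨n + 1 - d₀, by omega⟩
    obtain ⟨r, hr⟩ : ∃ r, δ = r + 1 := ⟨δ - 1, by omega⟩
    rw [hq, Nat.add_sub_cancel_left, hr] at h1
    rw [hq, hr, Nat.add_sub_cancel] at hbig
    simp only [hw] at h1
    rw [hq, hr] at hdim
    nlinarith
  have h1 := Submodule.finrank_sup_add_finrank_inf_eq (W ⊓ lt F L (n + 1)) (lt F L n)
  have h2 : (W ⊓ lt F L (n + 1)) ⊓ lt F L n = W ⊓ lt F L n := by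
    rw [inf_assoc, inf_eq_right.mpr (lt_succ_le n)]
  rw [h2] at h1
  have h3 := (lt_finite (F := F) (L := L) K n).2 ⊤
  rw [top_inf_eq, top_inf_eq] at h3
  have h4 : (W ⊓ lt F L (n + 1)) ⊔ lt F L n ≤ lt F L (n + 1) := sup_le inf_le_right (lt_succ_le n)
  have h5 := Submodule.finrank_mono h4
  refine (Submodule.eq_of_le_of_finrank_le h4 ?_).ge
  simp only [hw] at hfull
  omega

end Vale.Agent.P042.Curve
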