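import Vale.Agent.P042.CurveGood

/-! The number of points with a given Frobenius. -/

namespace Vale.Agent.P042.Curve

open Polynomial Finset

set_option linter.unusedSectionVars false
set_option linter.style.haveILetI false

variable {k L : Type*} [Field k] [Field L] [Algebra k L] [Algebra k[X] L] [IsScalarTower k k[X] L]
  [FaithfulSMul k[X] L]

variable {K : Type*} [Field K] [Algebra k[X] K] [IsFractionRing k[X] K] [Algebra K L]
  [IsScalarTower k[X] K L] [FiniteDimensional K L]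

/-- The point `φ` has Frobenius `σ`, relative to the lift `τ`. -/
def Frob (τ : L →+* L) (h : ∀ b : L, IsIntegral k[X] b → IsIntegral k[X] (τ b)) (q : ℕ)
    (σ : L ≃ₐ[K] L) (φ : (integralClosure k[X] L) →ₐ[k] k) : Prop :=
  ∀ v : (integralClosure k[X] L), φ (restrictB τ h (actB σ v)) = φ v ^ q

lemma semi_comp {τ : L →+* L} {q : ℕ} (hτ : Semi (k := k) τ q) (σ : L ≃ₐ[K] L) :
    Semi (k := k) (τ.comp (σ : L →+* L)) q := by
  refine ⟨?_, fun c => ?_⟩
  · show τ (σ (xx k L)) = _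
    rw [xx, IsScalarTower.algebraMap_apply k[X] K L, AlgEquiv.commutes,
      ← IsScalarTower.algebraMap_apply, ← xx, hτ.1]
  · show τ (σ (algebraMap k L c)) = _
    rw [IsScalarTower.algebraMap_apply k k[X] L, IsScalarTower.algebraMap_apply k[X] K L,
      AlgEquiv.commutes, ← IsScalarTower.algebraMap_apply, ← IsScalarTower.algebraMap_apply]
    exact hτ.2 c

variable [Algebra.IsSeparable K L] [IsGalois K L] [IsAlgClosed k] {p : ℕ} [Fact p.Prime] [CharP k p]

/-- The fixed points of the `n`-th power of Frobenius. -/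
noncomputable def Fq (k : Type*) [Field k] (p n : ℕ) : Finset k :=
  open Classical in (X ^ (p ^ n) - X : k[X]).roots.toFinset

lemma mem_Fq {n : ℕ} (hn : n ≠ 0) {x : k} : x ∈ Fq k p n ↔ x ^ (p ^ n) = x := by
  classical
  rw [Fq, Multiset.mem_toFinset, mem_roots (FiniteField.X_pow_card_pow_sub_X_ne_zero k hn
    (Fact.out : p.Prime).one_lt)]
  simp [sub_eq_zero]

lemma card_Fq {n : ℕ} (hn : n ≠ 0) : (Fq k p n).card = p ^ n := by
  classical
  rw [Fq, Multiset.toFinset_card_of_nodup (nodup_roots (galois_poly_separable p (p ^ n)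
    (dvd_pow_self p hn))), IsAlgClosed.card_roots_eq_natDegree,
    FiniteField.X_pow_card_pow_sub_X_natDegree_eq k hn (Fact.out : p.Prime).one_lt]

include K in
theorem equid {c₀ : ℕ} (hc₀ : ∀ n, Module.finrank K L * n ≤ Module.finrank k (lt k L n) + c₀) :
    ∃ bad : Finset k, (∀ x₀ ∉ bad, (∃ φ : (integralClosure k[X] L) →ₐ[k] k, φ xb = x₀) ∧
      ∀ φ : (integralClosure k[X] L) →ₐ[k] k, φ xb = x₀ → Unram φ ∧
        ∀ φ' : (integralClosure k[X] L) →ₐ[k] k, φ' xb = x₀ → ∃! σ : L ≃ₐ[K] L, φ' = φ.comp (actB σ)) ∧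
      ∃ C : ℕ, ∀ n : ℕ, n ≠ 0 → ∀ (τ : L →+* L) (hτ : Semi (k := k) τ (p ^ n)),
        ∃ pts : Finset ((integralClosure k[X] L) →ₐ[k] k), (∀ φ, φ ∈ pts ↔ φ xb ∈ Fq k p n ∧ φ xb ∉ bad) ∧
          (∀ φ ∈ pts, ∃! σ : L ≃ₐ[K] L, Frob τ (fun _ => semi_integral hτ) (p ^ n) σ φ) ∧
          ∀ σ : L ≃ₐ[K] L, open Classical in
            |((pts.filter (Frob τ (fun _ => semi_integral hτ) (p ^ n) σ)).card : ℝ) - (p : ℝ) ^ n|
              ≤ C * Real.sqrt ((p : ℝ) ^ n) := by
  classical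
  obtain ⟨bad, hgood⟩ := exists_good (k := k) (L := L) (K := K)
  set δ := Module.finrank K L with hδ
  have hG : Fintype.card (L ≃ₐ[K] L) = δ := by
    rw [← Nat.card_eq_fintype_card, IsGalois.card_aut_eq_finrank]
  have hp := (Fact.out : p.Prime)
  set C₁ := 3 * c₀ + 2 * p * (c₀ + 1) + 2 + δ with hC₁
  set C₂ := C₁ + δ * p * (2 * (c₀ + 1)) with hC₂
  refine ⟨bad, hgood, δ * bad.card + δ * C₂, fun n hn τ hτ => ?_⟩
  have hfib : ∀ x₀ ∈ Fq k p n \ bad, ∃ T : Finset ((integralClosure k[X] L) →ₐ[k] k),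
      T.card = δ ∧ ∀ φ, φ ∈ T ↔ φ xb = x₀ := by
    intro x₀ hx₀
    obtain ⟨⟨φ₀, hφ₀⟩, hu⟩ := hgood x₀ (mem_sdiff.mp hx₀).2
    obtain ⟨-, htr⟩ := hu φ₀ hφ₀
    refine ⟨univ.image fun σ : L ≃ₐ[K] L => φ₀.comp (actB σ), ?_, fun φ => ⟨?_, fun h => ?_⟩⟩
    · rw [card_image_of_injective, card_univ, hG]
      intro σ σ' h
      have hx : φ₀.comp (actB σ) xb = x₀ := by rw [AlgHom.comp_apply, actB_xb, hφ₀]
      exact (htr _ hx).unique rfl h
    · intro h
      obtain ⟨σ, -, rfl⟩ := mem_image.mp h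
      rw [AlgHom.comp_apply, actB_xb, hφ₀]
    · obtain ⟨σ, hσ, -⟩ := htr φ h
      exact mem_image.mpr ⟨σ, mem_univ _, hσ.symm⟩
  choose! T hTc hT using hfib
  set pts := (Fq k p n \ bad).biUnion T with hpts
  have hmem : ∀ φ, φ ∈ pts ↔ φ xb ∈ Fq k p n ∧ φ xb ∉ bad := by
    intro φ
    rw [hpts, mem_biUnion]
    constructor
    · rintro ⟨x₀, hx₀, h⟩
      rw [(hT x₀ hx₀ φ).mp h]; exact mem_sdiff.mp hx₀
    · intro h
      exact ⟨φ xb, mem_sdiff.mpr h, (hT _ (mem_sdiff.mpr h) φ).mpr rfl⟩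
  have huniq : ∀ φ ∈ pts, ∃! σ : L ≃ₐ[K] L, Frob τ (fun _ => semi_integral hτ) (p ^ n) σ φ := by
    intro φ hφ
    obtain ⟨hx, hxb⟩ := (hmem φ).mp hφ
    haveI : ExpChar k p := inferInstance
    let e := iterateFrobeniusEquiv k p n
    have he : ∀ y : k, e y = y ^ p ^ n := fun y => iterateFrobeniusEquiv_def _ _ _ y
    have hτx : restrictB τ (fun _ => semi_integral hτ) (xb (k := k) (L := L)) = xb := Subtype.ext hτ.1
    let φ' : (integralClosure k[X] L) →ₐ[k] k :=
      { toFun := fun v => e.symm (φ (restrictB τ (fun _ => semi_integral hτ) v))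
        map_one' := by
          rw [show restrictB τ (fun _ => semi_integral hτ) (1 : (integralClosure k[X] L)) = 1 from Subtype.ext (map_one τ),
            map_one, map_one]
        map_mul' := fun a b => by
          rw [show restrictB τ (fun _ => semi_integral hτ) (a * b) = restrictB τ (fun _ => semi_integral hτ) a
            * restrictB τ (fun _ => semi_integral hτ) b from Subtype.ext (map_mul τ _ _), map_mul, map_mul]
        map_zero' := by
          rw [show restrictB τ (fun _ => semi_integral hτ) (0 : (integralClosure k[X] L)) = 0 from Subtype.ext (map_zero τ),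
            map_zero, map_zero]
        map_add' := fun a b => by
          rw [show restrictB τ (fun _ => semi_integral hτ) (a + b) = restrictB τ (fun _ => semi_integral hτ) a
            + restrictB τ (fun _ => semi_integral hτ) b from Subtype.ext (map_add τ _ _), map_add, map_add]
        commutes' := fun c => by
          rw [show restrictB τ (fun _ => semi_integral hτ) (algebraMap k (integralClosure k[X] L) c) = algebraMap k (integralClosure k[X] L) (c ^ p ^ n)
            from Subtype.ext (hτ.2 c), AlgHom.commutes]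
          show e.symm (c ^ p ^ n) = c
          rw [← he, RingEquiv.symm_apply_apply] }
    have hφ' : ∀ v, φ' v ^ p ^ n = φ (restrictB τ (fun _ => semi_integral hτ) v) := fun v => by
      rw [← he]; exact e.apply_symm_apply _
    have hx' : φ' xb = φ xb := by
      apply e.injective
      rw [he, he, hφ', hτx, (mem_Fq hn).mp hx]
    obtain ⟨hu, htr⟩ := (hgood _ hxb).2 φ rfl
    obtain ⟨σ₀, hσ₀, huni⟩ := htr φ' hx'
    refine ⟨σ₀⁻¹, fun v => ?_, fun σ hσ => ?_⟩
    · rw [← hφ', hσ₀, AlgHom.comp_apply, ← actB_mul, mul_inv_cancel, actB_one]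
    · have h1 : φ = φ.comp (actB (σ₀ * σ)) := AlgHom.ext fun v => by
        rw [AlgHom.comp_apply, actB_mul]
        apply e.injective
        rw [he, he, ← AlgHom.comp_apply φ (actB σ₀), ← hσ₀, hφ', ← hσ v]
      have h2 : σ₀ * σ = 1 := (htr φ rfl).unique h1 (AlgHom.ext fun v => by
        rw [AlgHom.comp_apply, actB_one])
      exact eq_inv_of_mul_eq_one_right h2
  refine ⟨pts, hmem, huniq, ?_⟩
  set N : (L ≃ₐ[K] L) → ℕ := fun σ =>
    (pts.filter (Frob τ (fun _ => semi_integral hτ) (p ^ n) σ)).card with hN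
  have hsum : ∑ σ, N σ = δ * (Fq k p n \ bad).card := by
    have hc : pts.card = δ * (Fq k p n \ bad).card := by
      rw [hpts, card_biUnion, sum_congr rfl hTc, sum_const, smul_eq_mul, mul_comm]
      intro a ha b hb hab
      exact disjoint_left.mpr fun φ h1 h2 => hab (((hT a ha φ).mp h1).symm.trans ((hT b hb φ).mp h2))
    rw [← hc, card_eq_sum_ones]
    simp only [hN, card_filter]
    rw [sum_comm]
    refine sum_congr rfl fun φ hφ => ?_
    obtain ⟨σ, hσ, hu⟩ := huniq φ hφ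
    rw [sum_eq_single σ (fun σ' _ h => if_neg fun h' => h (hu σ' h'))
      (fun h => absurd (mem_univ σ) h), if_pos hσ]
  set a := n / 2 with ha
  set b := n - a with hb
  have hab : a + b = n := by omega
  have hupper : ∀ σ, N σ ≤ p ^ n + C₂ * p ^ a := by
    intro σ
    by_cases hbig : 2 * (c₀ + 1) ≤ p ^ a
    · have hτ' : Semi (k := k) (τ.comp (σ : L →+* L)) (p ^ (a + b)) := by
        rw [hab]; exact semi_comp hτ σ
      have h := stepanov (K := K) hc₀ (show b ≤ a + 1 by omega) hbig (τ.comp (σ : L →+* L)) hτ'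
        (pts.filter (Frob τ (fun _ => semi_integral hτ) (p ^ n) σ))
        (fun φ hφ => ((hgood _ ((hmem φ).mp (mem_filter.mp hφ).1).2).2 φ rfl).1)
        (fun φ hφ v => by
          exact (congrArg φ (Subtype.ext rfl)).trans (((mem_filter.mp hφ).2 v).trans (by rw [hab])))
        (fun φ hφ φ' _ he => ((hgood _ ((hmem φ).mp (mem_filter.mp hφ).1).2).2 φ rfl).2 φ' he.symm
          |>.exists)
      rw [hab] at h
      refine h.trans (Nat.add_le_add_left (Nat.mul_le_mul_right _ ?_) _)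
      omega
    · have h1 : N σ ≤ ∑ σ, N σ := single_le_sum (fun _ _ => Nat.zero_le _) (mem_univ σ)
      rw [hsum] at h1
      have h2 : (Fq k p n \ bad).card ≤ p ^ n := (card_le_card sdiff_subset).trans (card_Fq hn).le
      have h3 : p ^ n ≤ p ^ a * (p * (2 * (c₀ + 1))) := by
        calc p ^ n ≤ p ^ (a + a + 1) := Nat.pow_le_pow_right hp.pos (by omega)
          _ = p ^ a * (p * p ^ a) := by ring
          _ ≤ _ := Nat.mul_le_mul_left _ (Nat.mul_le_mul_left _ (by omega))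
      have h4 : δ * (p ^ a * (p * (2 * (c₀ + 1)))) ≤ C₂ * p ^ a := by
        rw [hC₂, Nat.add_mul, show δ * (p ^ a * (p * (2 * (c₀ + 1)))) = δ * p * (2 * (c₀ + 1)) * p ^ a by ring]
        exact Nat.le_add_left _ _
      have := Nat.mul_le_mul_left δ (h2.trans h3)
      omega
  intro σ
  have hs : (p : ℝ) ^ a ≤ Real.sqrt ((p : ℝ) ^ n) := by
    rw [Real.le_sqrt (by positivity) (by positivity), ← pow_mul]
    exact pow_le_pow_right₀ (by exact_mod_cast hp.one_le) (by omega)
  have hs1 : 1 ≤ Real.sqrt ((p : ℝ) ^ n) :=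
    Real.one_le_sqrt.mpr (one_le_pow₀ (by exact_mod_cast hp.one_le))
  have hbase : (0 : ℝ) ≤ (C₂ : ℝ) := Nat.cast_nonneg _
  have hu := hupper σ
  have hl : δ * p ^ n ≤ N σ + (δ - 1) * (p ^ n + C₂ * p ^ a) + δ * bad.card := by
    have h1 : p ^ n ≤ (Fq k p n \ bad).card + bad.card := by
      rw [← card_Fq (k := k) hn]; exact card_le_card_sdiff_add_card
    have h2 : ∑ σ' ∈ univ.erase σ, N σ' ≤ (δ - 1) * (p ^ n + C₂ * p ^ a) := by
      refine (sum_le_card_nsmul _ _ _ fun σ' _ => hupper σ').trans ?_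
      rw [card_erase_of_mem (mem_univ σ), card_univ, hG, smul_eq_mul]
    have h3 := Nat.mul_le_mul_left δ h1
    rw [Nat.mul_add, ← hsum, ← add_sum_erase univ N (mem_univ σ)] at h3
    omega
  obtain ⟨r, hr⟩ : ∃ r, δ = r + 1 := ⟨δ - 1, by have : 0 < δ := Module.finrank_pos; omega⟩
  rw [hr, Nat.add_sub_cancel] at hl
  have huR : (N σ : ℝ) ≤ (p : ℝ) ^ n + C₂ * (p : ℝ) ^ a := by exact_mod_cast hu
  have hlR : ((r : ℝ) + 1) * (p : ℝ) ^ n
      ≤ N σ + r * ((p : ℝ) ^ n + C₂ * (p : ℝ) ^ a) + ((r : ℝ) + 1) * bad.card := by exact_mod_cast hl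
  show |(N σ : ℝ) - _| ≤ _
  rw [hr]
  push_cast
  have hr0 : (0 : ℝ) ≤ r := Nat.cast_nonneg _
  have hb0 : (0 : ℝ) ≤ (bad.card : ℝ) := Nat.cast_nonneg _
  have k1 := mul_le_mul_of_nonneg_left hs hbase
  have k2 := mul_le_mul_of_nonneg_left k1 hr0
  have k3 := mul_le_mul_of_nonneg_left hs1 (mul_nonneg (add_nonneg hr0 zero_le_one) hb0)
  have k4 : (0 : ℝ) ≤ (r : ℝ) * C₂ * Real.sqrt ((p : ℝ) ^ n) := by positivity
  have k5 : (0 : ℝ) ≤ ((r : ℝ) + 1) * bad.card * Real.sqrt ((p : ℝ) ^ n) := by positivity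
  have k6 : (0 : ℝ) ≤ (C₂ : ℝ) * Real.sqrt ((p : ℝ) ^ n) := by positivity
  rw [abs_le]
  constructor <;> nlinarith

end Vale.Agent.P042.Curve
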