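import Mathlib

/-! The degree filtration of a finite extension of `F(x)`: elements integral over `F[x]` with
bounded order of pole at all infinite places. -/

namespace Vale.Agent.P042.Curve

open Polynomial Finset

set_option linter.unusedSectionVars false
set_option linter.style.haveILetI false

variable (F L : Type*) [Field F] [Field L] [Algebra F L] [Algebra F[X] L] [IsScalarTower F F[X] L]

/-- The image of the variable. -/
noncomputable def xx : L := algebraMap F[X] L X

/-- Substituting the inverse of the variable. -/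
noncomputable def inf : F[X] →+* L := eval₂RingHom (algebraMap F L) (xx F L)⁻¹

/-- Integral at infinity. -/
def IntInf (b : L) : Prop := (inf F L).IsIntegralElem b

variable {F L}

lemma inf_X : inf F L X = (xx F L)⁻¹ := eval₂_X _ _

lemma intInf_inf (P : F[X]) : IntInf F L (inf F L P) := (inf F L).isIntegralElem_map

lemma intInf_inv : IntInf F L (xx F L)⁻¹ := by rw [← inf_X]; exact intInf_inf _

lemma intInf_C (c : F) : IntInf F L (algebraMap F L c) := by
  have := intInf_inf (F := F) (L := L) (C c)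
  rwa [inf, coe_eval₂RingHom, eval₂_C] at this

lemma IntInf.mul {a b : L} (ha : IntInf F L a) (hb : IntInf F L b) : IntInf F L (a * b) :=
  RingHom.IsIntegralElem.mul (inf F L) ha hb

lemma IntInf.add {a b : L} (ha : IntInf F L a) (hb : IntInf F L b) : IntInf F L (a + b) :=
  RingHom.IsIntegralElem.add (inf F L) ha hb

lemma IntInf.sub {a b : L} (ha : IntInf F L a) (hb : IntInf F L b) : IntInf F L (a - b) :=
  RingHom.IsIntegralElem.sub (inf F L) ha hb

lemma intInf_zero : IntInf F L 0 := by simpa using intInf_C (F := F) (L := L) 0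

lemma intInf_one : IntInf F L 1 := by simpa using intInf_C (F := F) (L := L) 1

lemma intInf_natCast (n : ℕ) : IntInf F L (n : L) := by
  simpa using intInf_C (F := F) (L := L) (n : F)

lemma IntInf.pow {a : L} (ha : IntInf F L a) : ∀ n : ℕ, IntInf F L (a ^ n)
  | 0 => by simpa using intInf_one
  | n + 1 => by rw [pow_succ]; exact (IntInf.pow ha n).mul ha

lemma IntInf.sum {ι : Type*} (s : Finset ι) (g : ι → L) (h : ∀ i ∈ s, IntInf F L (g i)) :
    IntInf F L (∑ i ∈ s, g i) :=
  sum_induction g _ (fun _ _ => IntInf.add) intInf_zero h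

lemma IntInf.prod {ι : Type*} (s : Finset ι) (g : ι → L) (h : ∀ i ∈ s, IntInf F L (g i)) :
    IntInf F L (∏ i ∈ s, g i) :=
  prod_induction g _ (fun _ _ => IntInf.mul) intInf_one h

section Faithful

variable [FaithfulSMul F[X] L]

lemma xx_ne : xx F L ≠ 0 := by
  rw [xx, Ne, ← map_zero (algebraMap F[X] L)]
  exact fun h => X_ne_zero (FaithfulSMul.algebraMap_injective F[X] L h)

omit [FaithfulSMul F[X] L] in
lemma algebraMap_eq_eval (P : F[X]) : algebraMap F[X] L P = eval₂ (algebraMap F L) (xx F L) P := by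
  induction P using Polynomial.induction_on' with
  | add p q hp hq => rw [map_add, eval₂_add, hp, hq]
  | monomial n a =>
    rw [eval₂_monomial, ← C_mul_X_pow_eq_monomial, map_mul, map_pow, xx]
    congr 1
    exact (IsScalarTower.algebraMap_apply F F[X] L a).symm

lemma inf_reflect {P : F[X]} {m : ℕ} (hm : P.natDegree ≤ m) :
    inf F L (reflect m P) = algebraMap F[X] L P * (xx F L)⁻¹ ^ m := by
  have hx := xx_ne (F := F) (L := L)
  letI := invertibleOfNonzero hx
  have h := eval₂_reflect_mul_pow (algebraMap F L) (xx F L) m P hm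
  rw [invOf_eq_inv] at h
  rw [inf, coe_eval₂RingHom, algebraMap_eq_eval, ← h, mul_assoc, ← mul_pow, mul_inv_cancel₀ hx,
    one_pow, mul_one]

end Faithful

variable (F L) in
/-- Elements integral over `F[x]` of degree less than `n`. -/
noncomputable def lt (n : ℕ) : Submodule F L where
  carrier := {b | IsIntegral F[X] b ∧ IntInf F L (b * (xx F L)⁻¹ ^ n * xx F L)}
  add_mem' := by
    rintro a b ⟨h1, h2⟩ ⟨h3, h4⟩
    exact ⟨h1.add h3, by simpa [add_mul] using h2.add h4⟩
  zero_mem' := ⟨isIntegral_zero, by simpa using intInf_zero⟩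
  smul_mem' := by
    rintro c b ⟨h1, h2⟩
    refine ⟨?_, ?_⟩
    · rw [Algebra.smul_def, IsScalarTower.algebraMap_apply F F[X] L]
      exact isIntegral_algebraMap.mul h1
    · rw [Algebra.smul_def, show algebraMap F L c * b * (xx F L)⁻¹ ^ n * xx F L
        = algebraMap F L c * (b * (xx F L)⁻¹ ^ n * xx F L) by ring]
      exact (intInf_C c).mul h2

lemma mem_lt {n : ℕ} {b : L} :
    b ∈ lt F L n ↔ IsIntegral F[X] b ∧ IntInf F L (b * (xx F L)⁻¹ ^ n * xx F L) := Iff.rfl

section Faithful

variable [FaithfulSMul F[X] L]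

lemma mem_lt_succ {n : ℕ} {b : L} :
    b ∈ lt F L (n + 1) ↔ IsIntegral F[X] b ∧ IntInf F L (b * (xx F L)⁻¹ ^ n) := by
  rw [mem_lt, pow_succ, show b * ((xx F L)⁻¹ ^ n * (xx F L)⁻¹) * xx F L
    = b * (xx F L)⁻¹ ^ n * ((xx F L)⁻¹ * xx F L) by ring, inv_mul_cancel₀ xx_ne, mul_one]

lemma lt_succ_le (n : ℕ) : lt F L n ≤ lt F L (n + 1) := by
  rintro b ⟨h1, h2⟩
  refine ⟨h1, ?_⟩
  rw [pow_succ, show b * ((xx F L)⁻¹ ^ n * (xx F L)⁻¹) * xx F L
    = b * (xx F L)⁻¹ ^ n * xx F L * (xx F L)⁻¹ by ring]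
  exact h2.mul intInf_inv

lemma lt_mono {m n : ℕ} (h : m ≤ n) : lt F L m ≤ lt F L n := by
  induction n, h using Nat.le_induction with
  | base => exact le_rfl
  | succ n _ ih => exact ih.trans (lt_succ_le n)

lemma lt_mul {i j : ℕ} {a b : L} (ha : a ∈ lt F L (i + 1)) (hb : b ∈ lt F L (j + 1)) :
    a * b ∈ lt F L (i + j + 1) := by
  rw [mem_lt_succ] at *
  refine ⟨ha.1.mul hb.1, ?_⟩
  rw [pow_add, show a * b * ((xx F L)⁻¹ ^ i * (xx F L)⁻¹ ^ j)
    = a * (xx F L)⁻¹ ^ i * (b * (xx F L)⁻¹ ^ j) by ring]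
  exact ha.2.mul hb.2

lemma xx_mul_mem {n : ℕ} {b : L} (hb : b ∈ lt F L n) : xx F L * b ∈ lt F L (n + 1) := by
  obtain ⟨h1, h2⟩ := hb
  rw [mem_lt_succ]
  exact ⟨(isIntegral_algebraMap).mul h1, by convert h2 using 1; ring⟩

lemma of_xx_mul_mem {n : ℕ} {b : L} (hb : IsIntegral F[X] b) (h : xx F L * b ∈ lt F L (n + 1)) :
    b ∈ lt F L n := by
  rw [mem_lt_succ] at h
  exact ⟨hb, by convert h.2 using 1; ring⟩

lemma algebraMap_mem {P : F[X]} {n : ℕ} (h : P.degree < (n : WithBot ℕ)) :
    algebraMap F[X] L P ∈ lt F L n := by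
  by_cases hP : P = 0
  · simp [hP]
  · rw [degree_eq_natDegree hP, Nat.cast_lt] at h
    obtain ⟨m, rfl⟩ : ∃ m, n = m + 1 := ⟨n - 1, by omega⟩
    rw [mem_lt_succ, ← inf_reflect (by omega : P.natDegree ≤ m)]
    exact ⟨isIntegral_algebraMap, intInf_inf _⟩

lemma degree_lt_of_mem {P : F[X]} {n : ℕ} (h : algebraMap F[X] L P ∈ lt F L n) :
    P.degree < (n : WithBot ℕ) := by
  by_cases hP : P = 0
  · rw [hP, degree_zero]; exact WithBot.bot_lt_coe n
  rw [degree_eq_natDegree hP, Nat.cast_lt]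
  by_contra hcon
  obtain ⟨m, hm, hroot⟩ := h.2
  set N := m.natDegree with hN
  set M := (range N).sup fun i => (m.coeff i).natDegree with hM
  have hMb : ∀ i < N, (m.coeff i).natDegree ≤ M := fun i hi =>
    le_sup (f := fun i => (m.coeff i).natDegree) (mem_range.mpr hi)
  set R : F[X] := ∑ i ∈ range N, reflect M (m.coeff i) * X ^ (n * (N - i)) * (P * X) ^ i with hR
  have hx := xx_ne (F := F) (L := L)
  have key : algebraMap F[X] L (X ^ M * (P * X) ^ N + R) = 0 := by
    rw [eval₂_eq_sum_range, ← hN, sum_range_succ, hm.coeff_natDegree, map_one, one_mul] at hroot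
    have h2 := congrArg (· * ((xx F L) ^ M * (xx F L) ^ (n * N))) hroot
    simp only [zero_mul] at h2
    rw [← h2, map_add, hR, map_sum, add_comm, add_mul, sum_mul, map_mul, map_pow, map_pow, map_mul,
      ← xx]
    congr 1
    · refine sum_congr rfl fun i hi => ?_
      have hi' := mem_range.mp hi
      have e1 : algebraMap F[X] L (reflect M (m.coeff i)) = inf F L (m.coeff i) * xx F L ^ M := by
        have := inf_reflect (F := F) (L := L) (P := reflect M (m.coeff i)) (m := M)
          (natDegree_reflect_le.trans (max_le le_rfl (hMb i hi')))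
        rw [reflect_reflect] at this
        rw [this, mul_assoc, ← mul_pow, inv_mul_cancel₀ hx, one_pow, mul_one]
      rw [map_mul, map_mul, e1, map_pow, map_pow, map_mul, ← xx, mul_pow _ (xx F L) i,
        mul_pow _ (xx F L) i, mul_pow, ← pow_mul]
      have e2 : (xx F L) ^ (n * N) = xx F L ^ (n * (N - i)) * xx F L ^ (n * i) := by
        rw [← pow_add, ← Nat.mul_add, Nat.sub_add_cancel hi'.le]
      rw [e2, inv_pow]
      field_simp
    · rw [mul_pow _ (xx F L) N, mul_pow _ (xx F L) N, mul_pow, ← pow_mul, inv_pow]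
      field_simp
  have h0 : X ^ M * (P * X) ^ N + R = 0 :=
    FaithfulSMul.algebraMap_injective F[X] L (by rw [key, map_zero])
  have hlead : (X ^ M * (P * X) ^ N).degree = ((M + N * (P.natDegree + 1) : ℕ) : WithBot ℕ) := by
    rw [degree_eq_natDegree (mul_ne_zero (pow_ne_zero _ X_ne_zero) (pow_ne_zero _
      (mul_ne_zero hP X_ne_zero))), natDegree_mul (pow_ne_zero _ X_ne_zero) (pow_ne_zero _
      (mul_ne_zero hP X_ne_zero)), natDegree_X_pow, natDegree_pow, natDegree_mul hP X_ne_zero,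
      natDegree_X]
  have hlow : R.degree < ((M + N * (P.natDegree + 1) : ℕ) : WithBot ℕ) := by
    refine lt_of_le_of_lt (degree_sum_le _ _) ((Finset.sup_lt_iff (WithBot.bot_lt_coe _)).mpr
      fun i hi => ?_)
    have hi' := mem_range.mp hi
    refine lt_of_le_of_lt (degree_le_natDegree) (WithBot.coe_lt_coe.mpr ?_)
    refine lt_of_le_of_lt natDegree_mul_le ?_
    refine lt_of_le_of_lt (Nat.add_le_add (natDegree_mul_le.trans (Nat.add_le_add
      (natDegree_reflect_le.trans (max_le le_rfl (hMb i hi'))) (natDegree_X_pow_le _)))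
      (natDegree_pow_le.trans (Nat.mul_le_mul_left _ (natDegree_mul_le.trans
        (Nat.add_le_add le_rfl natDegree_X_le))))) ?_
    obtain ⟨j, hj⟩ : ∃ j, N = i + (j + 1) := ⟨N - i - 1, by omega⟩
    rw [hj, Nat.add_sub_cancel_left]
    have : n * (j + 1) < (j + 1) * (P.natDegree + 1) := by nlinarith
    nlinarith
  have := congrArg degree h0
  rw [degree_add_eq_left_of_degree_lt (hlead ▸ hlow), hlead, degree_zero] at this
  exact WithBot.coe_ne_bot this

lemma integral_mem {e : L} {c : ℕ} {m : F[X][X]} (hm : m.Monic) (he : aeval e m = 0)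
    (hdeg : ∀ i < m.natDegree, (m.coeff i).natDegree ≤ c * (m.natDegree - i)) :
    e ∈ lt F L (c + 1) := by
  rw [mem_lt_succ]
  refine ⟨⟨m, hm, by rwa [← aeval_def]⟩, ?_⟩
  set N := m.natDegree with hN
  set b : F[X][X] := ∑ i ∈ range N, C (reflect (c * (N - i)) (m.coeff i)) * X ^ i with hb
  have hdb : b.degree < (N : WithBot ℕ) :=
    lt_of_le_of_lt (degree_sum_le _ _) ((Finset.sup_lt_iff (WithBot.bot_lt_coe N)).mpr fun i hi =>
      lt_of_le_of_lt (degree_C_mul_X_pow_le _ _) (WithBot.coe_lt_coe.mpr (mem_range.mp hi)))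
  refine ⟨X ^ N + b, monic_X_pow_add hdb, ?_⟩
  rw [aeval_def, eval₂_eq_sum_range, ← hN, sum_range_succ, hm.coeff_natDegree, map_one,
    one_mul] at he
  rw [eval₂_add, eval₂_X_pow, hb, eval₂_finsetSum]
  have h2 := congrArg (· * (xx F L)⁻¹ ^ (c * N)) he
  simp only [zero_mul, add_mul, sum_mul] at h2
  rw [← h2, add_comm, mul_pow, ← pow_mul, mul_comm (e ^ N)]
  congr 1
  · refine sum_congr rfl fun i hi => ?_
    rw [eval₂_mul, eval₂_C, eval₂_X_pow, inf_reflect (hdeg i (mem_range.mp hi)), mul_pow, ← pow_mul]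
    have e2 : (xx F L)⁻¹ ^ (c * N) = (xx F L)⁻¹ ^ (c * (N - i)) * (xx F L)⁻¹ ^ (c * i) := by
      rw [← pow_add, ← Nat.mul_add, Nat.sub_add_cancel (mem_range.mp hi).le]
    rw [e2]
    ring

lemma exists_mem {e : L} (he : IsIntegral F[X] e) : ∃ n, e ∈ lt F L n := by
  obtain ⟨m, hm, h0⟩ := he
  refine ⟨(range m.natDegree).sup (fun i => (m.coeff i).natDegree) + 1,
    integral_mem hm (by rwa [aeval_def]) fun i hi => ?_⟩
  exact (le_sup (f := fun i => (m.coeff i).natDegree) (mem_range.mpr hi)).trans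
    (Nat.le_mul_of_pos_right _ (by omega))

end Faithful

section Maps

variable {M : Type*} [Field M] [Algebra F M] [Algebra F[X] M] [IsScalarTower F F[X] M]

lemma map_mem {n : ℕ} {b : L} (hb : b ∈ lt F L n) (σ : L →ₐ[F[X]] M) : σ b ∈ lt F M n := by
  obtain ⟨h1, h2⟩ := hb
  have hx : σ (xx F L) = xx F M := σ.commutes _
  have hc : σ.toRingHom.comp (inf F L) = inf F M := by
    apply Polynomial.ringHom_ext
    · intro c
      simp only [RingHom.comp_apply, inf, coe_eval₂RingHom, eval₂_C]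
      rw [IsScalarTower.algebraMap_apply F F[X] L, IsScalarTower.algebraMap_apply F F[X] M]
      exact σ.commutes _
    · simp only [RingHom.comp_apply, inf_X, map_inv₀]
      exact congrArg _ hx
  refine ⟨h1.map σ, ?_⟩
  have := RingHom.IsIntegralElem.map h2 σ.toRingHom
  rw [hc] at this
  simpa [IntInf, map_mul, map_inv₀, hx] using this

end Maps

end Vale.Agent.P042.Curve
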