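import Vale.Agent.P042.CurveCheb

/-! Frobenius equidistribution in a Galois extension of `k(x)` with a two-sided square root error. -/

namespace Vale.Agent.P042.Curve

open Polynomial Finset

set_option linter.unusedSectionVars false
set_option linter.style.haveILetI false

variable {k L : Type*} [Field k] [Field L] [Algebra k L] [Algebra k[X] L] [IsScalarTower k k[X] L]
  [FaithfulSMul k[X] L]

variable {K : Type*} [Field K] [Algebra k[X] K] [IsFractionRing k[X] K] [Algebra K L]
  [IsScalarTower k[X] K L] [FiniteDimensional K L] [Algebra.IsSeparable K L] [IsGalois K L]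

lemma hom_aeval_congr {T : Type*} [CommRing T] [Algebra k T] (φ φ' : (integralClosure k[X] L) →ₐ[k] T)
    (hx : φ xb = φ' xb) (θ : (integralClosure k[X] L)) (hθ : φ θ = φ' θ) (P : k[X][X]) :
    φ (aeval θ P) = φ' (aeval θ P) := by
  have hC : ∀ a : k[X], φ (algebraMap k[X] (integralClosure k[X] L) a) = φ' (algebraMap k[X] (integralClosure k[X] L) a) := by
    intro a
    induction a using Polynomial.induction_on' with
    | add a b ha hb => simp only [map_add, ha, hb]
    | monomial n c =>
      rw [← C_mul_X_pow_eq_monomial, ← Polynomial.algebraMap_eq, map_mul, map_pow,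
        ← IsScalarTower.algebraMap_apply, map_mul, map_mul, map_pow, map_pow, AlgHom.commutes,
        AlgHom.commutes]
      exact congrArg (fun y => _ * y ^ n) hx
  induction P using Polynomial.induction_on' with
  | add a b ha hb => simp only [map_add, ha, hb]
  | monomial n c => rw [aeval_monomial, map_mul, map_mul, map_pow, map_pow, hθ, hC]

lemma actB_mul (σ τ : L ≃ₐ[K] L) (b : (integralClosure k[X] L)) : actB (σ * τ) b = actB σ (actB τ b) := Subtype.ext rfl

lemma actB_one (b : (integralClosure k[X] L)) : actB (1 : L ≃ₐ[K] L) b = b := Subtype.ext rfl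

include K in
lemma exists_param : ∃ (θ : (integralClosure k[X] L)) (d₀ : k[X]), d₀ ≠ 0 ∧
    (minpoly K (θ : L)).natDegree = Module.finrank K L ∧
    (∀ σ τ : L ≃ₐ[K] L, σ (θ : L) = τ (θ : L) → σ = τ) ∧
    ∀ v : (integralClosure k[X] L), ∃ P : k[X][X], algebraMap k[X] (integralClosure k[X] L) d₀ * v = aeval θ P := by
  classical
  obtain ⟨α, hα⟩ := Field.exists_primitive_element K L
  obtain ⟨⟨m, hm⟩, hint⟩ :=
    IsIntegral.exists_multiple_integral_of_isLocalization (nonZeroDivisors k[X]) (Rₘ := K) α
      (Algebra.IsIntegral.isIntegral α)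
  have hm0 : m ≠ 0 := nonZeroDivisors.ne_zero hm
  have hmK : algebraMap k[X] K m ≠ 0 := fun h =>
    hm0 (IsFractionRing.injective k[X] K (h.trans (map_zero _).symm))
  have hθe : (⟨m, hm⟩ : nonZeroDivisors k[X]) • α = algebraMap K L (algebraMap k[X] K m) * α := by
    rw [Submonoid.smul_def, Algebra.smul_def, IsScalarTower.algebraMap_apply k[X] K L]
  rw [hθe] at hint
  let θ : (integralClosure k[X] L) := ⟨algebraMap K L (algebraMap k[X] K m) * α, hint⟩
  have hgen : IntermediateField.adjoin K {(θ : L)} = ⊤ := by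
    rw [eq_top_iff, ← hα, IntermediateField.adjoin_simple_le_iff]
    have h := IntermediateField.mem_adjoin_simple_self K (θ : L)
    have e : α = algebraMap K L (algebraMap k[X] K m)⁻¹ * (θ : L) := by
      show _ = _ * (algebraMap K L (algebraMap k[X] K m) * α)
      rw [← mul_assoc, ← map_mul, inv_mul_cancel₀ hmK, map_one, one_mul]
    rw [e]
    exact mul_mem (IntermediateField.algebraMap_mem _ _) h
  have hdeg := (Field.primitive_element_iff_minpoly_natDegree_eq K (θ : L)).mp hgen
  have hli := linearIndependent_pow (K := K) (θ : L)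
  let bas := basisOfLinearIndependentOfCardEqFinrank' _ hli (by rw [Fintype.card_fin, hdeg])
  haveI : Module.Finite k[X] (integralClosure k[X] L) := IsIntegralClosure.finite k[X] K L (integralClosure k[X] L)
  obtain ⟨G, hG⟩ := Module.Finite.fg_top (R := k[X]) (M := (integralClosure k[X] L))
  obtain ⟨⟨d₀, hd₀⟩, hd⟩ := IsLocalization.exist_integer_multiples (nonZeroDivisors k[X])
    (G ×ˢ (univ : Finset (Fin (minpoly K (θ : L)).natDegree))) (fun v => bas.repr (v.1 : L) v.2)
  have hd0 : d₀ ≠ 0 := nonZeroDivisors.ne_zero hd₀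
  have hmem : ∀ v : (integralClosure k[X] L), ∃ P : k[X][X], algebraMap k[X] (integralClosure k[X] L) d₀ * v = aeval θ P := by
    intro v
    have hv : v ∈ Submodule.span k[X] (G : Set (integralClosure k[X] L)) := by rw [hG]; trivial
    induction hv using Submodule.span_induction with
    | mem g hg =>
      have hi : ∀ i, ∃ a : k[X], algebraMap k[X] K a = algebraMap k[X] K d₀ * bas.repr (g : L) i := by
        intro i
        obtain ⟨a, ha⟩ := hd (g, i) (mem_product.mpr ⟨hg, mem_univ _⟩)
        exact ⟨a, ha.trans (Algebra.smul_def _ _)⟩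
      choose a ha using hi
      refine ⟨∑ i, C (a i) * X ^ (i : ℕ), Subtype.ext ?_⟩
      show algebraMap k[X] L d₀ * (g : L) = (integralClosure k[X] L).val _
      rw [← aeval_algHom_apply, map_sum]
      conv_lhs => rw [← bas.sum_repr (g : L), mul_sum]
      refine sum_congr rfl fun i _ => ?_
      rw [map_mul, aeval_C, map_pow, aeval_X, IsScalarTower.algebraMap_apply k[X] K L (a i), ha,
        IsScalarTower.algebraMap_apply k[X] K L d₀, map_mul, Algebra.smul_def]
      simp only [bas, coe_basisOfLinearIndependentOfCardEqFinrank']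
      rw [mul_assoc]; rfl
    | zero => exact ⟨0, by simp⟩
    | add u v _ _ hu hv =>
      obtain ⟨P, hP⟩ := hu; obtain ⟨Q, hQ⟩ := hv
      exact ⟨P + Q, by rw [mul_add, hP, hQ, map_add]⟩
    | smul c u _ hu =>
      obtain ⟨P, hP⟩ := hu
      exact ⟨C c * P, by rw [map_mul, aeval_C, ← hP, Algebra.smul_def]; ring⟩
  refine ⟨θ, d₀, hd0, hdeg, fun σ τ h => ?_, hmem⟩
  have h2 : σ.toLinearMap = τ.toLinearMap := bas.ext fun i => by
    simp only [bas, coe_basisOfLinearIndependentOfCardEqFinrank', AlgEquiv.toLinearMap_apply, map_pow]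
    exact congrArg (· ^ (i : ℕ)) h
  exact AlgEquiv.ext fun l => LinearMap.congr_fun h2 l

variable [IsAlgClosed k]

lemma exists_hom (x₀ : k) : ∃ φ : (integralClosure k[X] L) →ₐ[k] k, φ xb = x₀ := by
  haveI : Algebra.IsIntegral k[X] (integralClosure k[X] L) := ⟨fun b => IsIntegralClosure.isIntegral k[X] L b⟩
  haveI : FaithfulSMul k[X] (integralClosure k[X] L) := (faithfulSMul_iff_algebraMap_injective _ _).mpr fun a b h =>
    FaithfulSMul.algebraMap_injective k[X] L (congrArg Subtype.val h)
  haveI hM : (Ideal.span {(X : k[X]) - C x₀}).IsMaximal :=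
    PrincipalIdealRing.isMaximal_of_irreducible (irreducible_X_sub_C x₀)
  obtain ⟨P, hP, hover⟩ := Ideal.exists_maximal_ideal_liesOver_of_isIntegral (S := (integralClosure k[X] L))
    (Ideal.span {(X : k[X]) - C x₀})
  haveI := hP
  letI := Ideal.Quotient.field P
  have hmemP : ∀ a : k[X], algebraMap k[X] (integralClosure k[X] L) a - algebraMap k (integralClosure k[X] L) (a.eval x₀) ∈ P := by
    intro a
    rw [IsScalarTower.algebraMap_apply k k[X] (integralClosure k[X] L), ← map_sub, ← Ideal.mem_comap, ← Ideal.under_def, ← hover.over,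
      Ideal.mem_span_singleton, Polynomial.algebraMap_eq, dvd_iff_isRoot]
    simp
  haveI : Algebra.IsIntegral k ((integralClosure k[X] L) ⧸ P) := by
    refine ⟨fun z => ?_⟩
    obtain ⟨b, rfl⟩ := Ideal.Quotient.mk_surjective z
    obtain ⟨m, hm, hm0⟩ := IsIntegralClosure.isIntegral k[X] L b
    refine ⟨m.map (evalRingHom x₀), hm.map _, ?_⟩
    rw [eval₂_map]
    have h := congrArg (Ideal.Quotient.mk P) hm0
    rw [hom_eval₂, map_zero] at h
    rw [← h]
    congr 1
    refine RingHom.ext fun a => ?_
    show algebraMap k ((integralClosure k[X] L) ⧸ P) (a.eval x₀) = Ideal.Quotient.mk P (algebraMap k[X] (integralClosure k[X] L) a)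
    rw [← Ideal.Quotient.mk_algebraMap, eq_comm, Ideal.Quotient.eq]
    exact hmemP a
  let e : k ≃ₐ[k] (integralClosure k[X] L) ⧸ P := AlgEquiv.ofBijective (Algebra.ofId k _)
    IsAlgClosed.algebraMap_bijective_of_isIntegral
  refine ⟨(e.symm : (integralClosure k[X] L) ⧸ P →ₐ[k] k).comp (Ideal.Quotient.mkₐ k P), e.injective ?_⟩
  show e (e.symm (Ideal.Quotient.mkₐ k P xb)) = e x₀
  rw [AlgEquiv.apply_symm_apply]
  show Ideal.Quotient.mk P (algebraMap k[X] (integralClosure k[X] L) X) = algebraMap k ((integralClosure k[X] L) ⧸ P) x₀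
  rw [← Ideal.Quotient.mk_algebraMap, Ideal.Quotient.eq]
  simpa using hmemP X

include K in
theorem exists_good : ∃ bad : Finset k, ∀ x₀ ∉ bad, (∃ φ : (integralClosure k[X] L) →ₐ[k] k, φ xb = x₀) ∧
    ∀ φ : (integralClosure k[X] L) →ₐ[k] k, φ xb = x₀ → Unram φ ∧
      ∀ φ' : (integralClosure k[X] L) →ₐ[k] k, φ' xb = x₀ → ∃! σ : L ≃ₐ[K] L, φ' = φ.comp (actB σ) := by
  classical
  haveI := dedekindB (k := k) (L := L) (K := K)
  obtain ⟨θ, d₀, hd₀, hdeg, hext, hrep⟩ := exists_param (k := k) (L := L) (K := K)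
  set dd : (integralClosure k[X] L) := ∏ v ∈ (univ : Finset ((L ≃ₐ[K] L) × (L ≃ₐ[K] L))).filter (fun v => v.1 ≠ v.2),
    (actB v.1 θ - actB v.2 θ) with hdd
  have hdd0 : dd ≠ 0 := by
    refine prod_ne_zero_iff.mpr fun v hv h => (mem_filter.mp hv).2 (hext _ _ ?_)
    exact congrArg Subtype.val (sub_eq_zero.mp h)
  refine ⟨d₀.roots.toFinset ∪ (normPoly K dd).roots.toFinset, fun x₀ hx₀ => ?_⟩
  rw [mem_union, not_or, Multiset.mem_toFinset, Multiset.mem_toFinset, mem_roots hd₀,
    mem_roots (normPoly_ne hdd0)] at hx₀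
  refine ⟨exists_hom x₀, fun φ hφ => ?_⟩
  have hinj : Function.Injective fun σ : L ≃ₐ[K] L => φ (actB σ θ) := by
    intro σ τ h
    by_contra hne
    apply hx₀.2
    rw [IsRoot.def, ← hφ, ← hom_algebraMap, algebraMap_normPoly, map_prod]
    refine prod_eq_zero (mem_univ 1) ?_
    rw [actB_one, hdd, map_prod]
    refine prod_eq_zero (mem_filter.mpr ⟨mem_univ (σ, τ), hne⟩) ?_
    rw [map_sub, sub_eq_zero]; exact h
  set m := minpoly k[X] (θ : L) with hm
  have hmm : m.Monic := minpoly.monic θ.2
  have hmK : m.map (algebraMap k[X] K) = minpoly K (θ : L) :=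
    (minpoly.isIntegrallyClosed_eq_field_fractions K L θ.2).symm
  have hfac : m.map (algebraMap k[X] (integralClosure k[X] L)) = ∏ σ : L ≃ₐ[K] L, (X - C (actB σ θ)) := by
    apply map_injective (integralClosure k[X] L).val.toRingHom Subtype.val_injective
    rw [Polynomial.map_map, Polynomial.map_prod]
    have e : (integralClosure k[X] L).val.toRingHom.comp (algebraMap k[X] (integralClosure k[X] L))
        = (algebraMap K L).comp (algebraMap k[X] K) := by
      rw [← IsScalarTower.algebraMap_eq k[X] K L]; rfl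
    rw [e, ← Polynomial.map_map, hmK]
    simp only [Polynomial.map_sub, map_X, map_C]
    refine eq_of_monic_of_dvd_of_natDegree_le (monic_prod_of_monic _ _ fun σ _ => monic_X_sub_C _)
      ((minpoly.monic (Algebra.IsIntegral.isIntegral (θ : L))).map _) ?_ ?_
    · refine Finset.prod_dvd_of_coprime ?_ fun σ _ => ?_
      · exact ((pairwise_coprime_X_sub_C fun σ τ h => hext σ τ h).set_pairwise _)
      · rw [dvd_iff_isRoot, IsRoot.def, eval_map_algebraMap]
        show aeval (σ (θ : L)) _ = 0
        exact (aeval_algHom_apply (σ : L →ₐ[K] L) (θ : L) _).trans (by rw [minpoly.aeval, map_zero])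
    · rw [natDegree_map, hdeg, natDegree_prod_of_monic _ _ fun σ _ => monic_X_sub_C _]
      simp only [natDegree_X_sub_C, sum_const, smul_eq_mul, mul_one, card_univ]
      rw [← Nat.card_eq_fintype_card, IsGalois.card_aut_eq_finrank]
  have hroots : m.map (evalRingHom x₀) = ∏ σ : L ≃ₐ[K] L, (X - C (φ (actB σ θ))) := by
    have h := congrArg (Polynomial.map φ.toRingHom) hfac
    rw [Polynomial.map_map, Polynomial.map_prod] at h
    simp only [Polynomial.map_sub, map_X, map_C] at h
    rw [← hφ]
    refine Eq.trans ?_ h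
    congr 1
    exact RingHom.ext fun a => (hom_algebraMap φ a).symm
  have hm0 : aeval θ m = 0 := Subtype.ext ((aeval_algHom_apply (integralClosure k[X] L).val θ m).symm.trans
    (minpoly.aeval _ _))
  have hd₀φ : φ (algebraMap k[X] (integralClosure k[X] L) d₀) ≠ 0 := by rw [hom_algebraMap, hφ]; exact hx₀.1
  constructor
  · intro ht
    haveI := isMaximal_ker φ
    set I := RingHom.ker φ with hI
    set π := Ideal.Quotient.mk (I ^ 2) with hπ
    have hC : ∀ a : k[X], π (algebraMap k[X] (integralClosure k[X] L) a) = π (algebraMap k (integralClosure k[X] L) (a.eval x₀)) := by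
      intro a
      rw [hπ, Ideal.Quotient.eq, IsScalarTower.algebraMap_apply k k[X] (integralClosure k[X] L), ← map_sub]
      obtain ⟨r, hr⟩ := (dvd_iff_isRoot (a := x₀)).mpr
        (show IsRoot (a - algebraMap k k[X] (a.eval x₀)) x₀ by simp)
      rw [hr, map_mul, ← hφ, ← t_eq]
      exact Ideal.mul_mem_right _ _ ht
    have hθP : θ - algebraMap k (integralClosure k[X] L) (φ θ) ∈ I ^ 2 := by
      have h1 : π (aeval θ m) = π (∏ σ : L ≃ₐ[K] L, (θ - algebraMap k (integralClosure k[X] L) (φ (actB σ θ)))) := by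
        have e1 : π (aeval θ m) = eval₂ ((π.comp (algebraMap k (integralClosure k[X] L))).comp (evalRingHom x₀)) (π θ) m := by
          rw [aeval_def, hom_eval₂]
          congr 1
          exact RingHom.ext hC
        rw [e1, ← eval₂_map, hroots, ← hom_eval₂, eval₂_finsetProd]
        simp
      rw [hm0, map_zero, eq_comm, hπ, Ideal.Quotient.eq_zero_iff_mem,
        ← mul_prod_erase univ _ (mem_univ (1 : L ≃ₐ[K] L))] at h1
      rcases Ideal.IsPrime.mem_pow_mul I h1 with h2 | h2
      · rwa [actB_one] at h2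
      · rw [hI, RingHom.mem_ker, map_prod, prod_eq_zero_iff] at h2
        obtain ⟨σ, hσ, h3⟩ := h2
        rw [map_sub, AlgHom.commutes, sub_eq_zero] at h3
        exact absurd (hinj (show φ (actB σ θ) = φ (actB 1 θ) by rw [actB_one]; exact h3.symm))
          (mem_erase.mp hσ).1
    have hle : I ≤ I ^ 2 := by
      intro b hb
      obtain ⟨P, hP⟩ := hrep b
      have hom2 : π.comp (aeval θ : k[X][X] →ₐ[k[X]] (integralClosure k[X] L)).toRingHom
          = ((π.comp (algebraMap k (integralClosure k[X] L))).comp φ.toRingHom).comp (aeval θ : k[X][X] →ₐ[k[X]] (integralClosure k[X] L)).toRingHom := by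
        apply Polynomial.ringHom_ext
        · intro a
          show π (aeval θ (C a)) = π (algebraMap k (integralClosure k[X] L) (φ (aeval θ (C a))))
          rw [aeval_C, hom_algebraMap, hφ, hC]
        · show π (aeval θ X) = π (algebraMap k (integralClosure k[X] L) (φ (aeval θ X)))
          rw [aeval_X, hπ, Ideal.Quotient.eq]; exact hθP
      have h1 : π (algebraMap k[X] (integralClosure k[X] L) d₀ * b) = π (algebraMap k (integralClosure k[X] L) (φ (algebraMap k[X] (integralClosure k[X] L) d₀ * b))) := by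
        rw [hP]; exact RingHom.congr_fun hom2 P
      have hb0 : φ b = 0 := hb
      rw [map_mul φ, hb0, mul_zero, map_zero, map_zero, hπ, Ideal.Quotient.eq_zero_iff_mem] at h1
      rcases Ideal.IsPrime.mul_mem_pow I h1 with h2 | h2
      · exact absurd h2 hd₀φ
      · exact h2
    have hlt := Ideal.pow_right_strictAnti I (ker_ne_bot φ) (Ideal.IsMaximal.ne_top inferInstance)
      (show 1 < 2 by norm_num)
    simp only [pow_one] at hlt
    exact absurd hle hlt.not_ge
  · intro φ' hφ'
    have hr : (m.map (evalRingHom x₀)).eval (φ' θ) = 0 := by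
      rw [eval_map]
      have h := congrArg φ' hm0
      rw [map_zero, aeval_def, ← AlgHom.coe_toRingHom, hom_eval₂] at h
      rw [← hφ']
      refine Eq.trans ?_ h
      congr 1
      exact RingHom.ext fun a => (hom_algebraMap φ' a).symm
    rw [hroots, eval_prod, prod_eq_zero_iff] at hr
    obtain ⟨σ, -, hσ⟩ := hr
    rw [eval_sub, eval_X, eval_C, sub_eq_zero] at hσ
    refine ⟨σ, ?_, fun τ hτ => hinj ?_⟩
    · refine AlgHom.ext fun v => ?_
      obtain ⟨P, hP⟩ := hrep v
      have h1 := hom_aeval_congr φ' (φ.comp (actB σ)) (by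
        rw [AlgHom.comp_apply, actB_xb, hφ, hφ']) θ hσ P
      rw [← hP, map_mul, map_mul] at h1
      have hd' : φ.comp (actB σ) (algebraMap k[X] (integralClosure k[X] L) d₀) = φ' (algebraMap k[X] (integralClosure k[X] L) d₀) := by
        rw [hom_algebraMap, hom_algebraMap, AlgHom.comp_apply, actB_xb, hφ, hφ']
      rw [hd'] at h1
      refine mul_left_cancel₀ ?_ h1
      rw [hom_algebraMap, hφ']; exact hx₀.1
    · show φ (actB τ θ) = φ (actB σ θ)
      rw [← hσ, hτ, AlgHom.comp_apply]

end Vale.Agent.P042.Curve
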