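import Mathlib

/-! The L-function of an additive character twist, as a polynomial, and the induced power sums. -/

namespace Vale.Agent.P042.Weil

open Polynomial Finset

section PowerSums

variable {F : Type*} [Field F]

/-- The coefficients of the reversed polynomial. -/
noncomputable def rc (g : F[X]) (i : ℕ) : F := g.reverse.coeff i

/-- The power sums of the roots, read off from the coefficients. -/
noncomputable def psum (g : F[X]) (m : ℕ) : F :=
  PowerSeries.coeff m (-(PowerSeries.X * PowerSeries.derivative F (g.reverse : PowerSeries F))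
    * (g.reverse : PowerSeries F)⁻¹)

lemma rc_zero {g : F[X]} (hg : g.Monic) : rc g 0 = 1 := by
  rw [rc, coeff_zero_reverse, hg.leadingCoeff]

lemma cc_ne {g : F[X]} (hg : g.Monic) :
    PowerSeries.constantCoeff (g.reverse : PowerSeries F) ≠ 0 := by
  rw [← PowerSeries.coeff_zero_eq_constantCoeff_apply, Polynomial.coeff_coe]
  exact (rc_zero hg).trans_ne one_ne_zero

lemma psum_zero (g : F[X]) : psum g 0 = 0 := by
  simp [psum]

lemma psum_rec {g : F[X]} (hg : g.Monic) (m : ℕ) :
    ∑ i ∈ range (m + 1), rc g i * psum g (m - i) = -((m : F) * rc g m) := by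
  have key : (g.reverse : PowerSeries F) * (-(PowerSeries.X * PowerSeries.derivative F
      (g.reverse : PowerSeries F)) * (g.reverse : PowerSeries F)⁻¹)
      = -(PowerSeries.X * PowerSeries.derivative F (g.reverse : PowerSeries F)) := by
    rw [mul_left_comm, PowerSeries.mul_inv_cancel _ (cc_ne hg), mul_one]
  have h := congrArg (PowerSeries.coeff m) key
  rw [PowerSeries.coeff_mul, Nat.sum_antidiagonal_eq_sum_range_succ_mk] at h
  simp only [Polynomial.coeff_coe] at h
  unfold rc psum
  rw [h]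
  rcases m with _ | m
  · simp
  · rw [map_neg, PowerSeries.coeff_succ_X_mul, PowerSeries.coeff_derivative, Polynomial.coeff_coe]
    push_cast
    ring

lemma psum_step {g : F[X]} (hg : g.Monic) (m : ℕ) :
    psum g m = -((m : F) * rc g m) - ∑ i ∈ Icc 1 m, rc g i * psum g (m - i) := by
  have h := psum_rec hg m
  rw [range_eq_Ico, sum_eq_sum_Ico_succ_bot (Nat.succ_pos m), rc_zero hg, one_mul, Nat.sub_zero,
    Nat.succ_eq_add_one, zero_add, Ico_add_one_right_eq_Icc] at h
  linear_combination h

lemma psum_mul {g h : F[X]} (hg : g.Monic) (hh : h.Monic) (m : ℕ) :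
    psum (g * h) m = psum g m + psum h m := by
  unfold psum
  rw [reverse_mul_of_domain, Polynomial.coe_mul, ← map_add]
  congr 1
  set G := (g.reverse : PowerSeries F)
  set H := (h.reverse : PowerSeries F)
  have hG : G * G⁻¹ = 1 := PowerSeries.mul_inv_cancel _ (cc_ne hg)
  have hH : H * H⁻¹ = 1 := PowerSeries.mul_inv_cancel _ (cc_ne hh)
  rw [Derivation.leibniz, PowerSeries.mul_inv_rev, smul_eq_mul, smul_eq_mul]
  linear_combination (-(PowerSeries.X * PowerSeries.derivative F H) * H⁻¹) * hG
    + (-(PowerSeries.X * PowerSeries.derivative F G) * G⁻¹) * hH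

lemma psum_one (m : ℕ) : psum (1 : F[X]) m = 0 := by
  have h := psum_mul (monic_one (R := F)) monic_one m
  rw [one_mul] at h
  simpa using h

lemma rc_X_sub_C (θ : F) (i : ℕ) :
    rc (X - C θ) i = if i = 0 then 1 else if i = 1 then -θ else 0 := by
  rw [rc, coeff_reverse, natDegree_X_sub_C]
  rcases i with _ | _ | i
  · simp [revAt_le, coeff_C]
  · simp [revAt_le]
  · rw [show revAt 1 (i + 1 + 1) = i + 1 + 1 from by
      show revAtFun 1 (i + 1 + 1) = _
      rw [revAtFun, if_neg (by omega)]]
    simp [coeff_X, coeff_C]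

lemma psum_X_sub_C (θ : F) {m : ℕ} (hm : 1 ≤ m) : psum (X - C θ) m = θ ^ m := by
  induction m using Nat.strong_induction_on with
  | _ m ih =>
    rw [psum_step (monic_X_sub_C θ) m, sum_eq_single_of_mem 1 (mem_Icc.mpr ⟨le_rfl, hm⟩)
      (fun i hi hne => by rw [rc_X_sub_C, if_neg (by have := (mem_Icc.mp hi).1; omega),
        if_neg hne, zero_mul])]
    rcases Nat.eq_or_lt_of_le hm with rfl | hm2
    · simp [rc_X_sub_C, psum_zero]
    · rw [ih (m - 1) (by omega) (by omega), rc_X_sub_C, rc_X_sub_C, if_neg (by omega),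
        if_neg (by omega), if_neg one_ne_zero, if_pos rfl]
      conv_rhs => rw [show m = m - 1 + 1 by omega, pow_succ']
      ring

lemma psum_prod (s : Multiset F) {m : ℕ} (hm : 1 ≤ m) :
    psum ((s.map fun θ => X - C θ).prod) m = (s.map fun θ => θ ^ m).sum := by
  induction s using Multiset.induction with
  | empty => simp [psum_one]
  | cons a t ih =>
    rw [Multiset.map_cons, Multiset.prod_cons, psum_mul (monic_X_sub_C a)
      (monic_multiset_prod_of_monic _ _ fun x _ => monic_X_sub_C x), ih, psum_X_sub_C a hm,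
      Multiset.map_cons, Multiset.sum_cons]

lemma psum_map {E : Type*} [Field E] (φ : F →+* E) {g : F[X]} (hg : g.Monic) (m : ℕ) :
    psum (g.map φ) m = φ (psum g m) := by
  have hrc : ∀ i, rc (g.map φ) i = φ (rc g i) := fun i => by
    rw [rc, rc, coeff_reverse, coeff_reverse, natDegree_map, coeff_map]
  induction m using Nat.strong_induction_on with
  | _ m ih =>
    rw [psum_step (hg.map φ), psum_step hg, map_sub, map_neg, map_mul, map_natCast, map_sum, hrc]
    congr 1
    refine sum_congr rfl fun i hi => ?_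
    rw [map_mul, hrc, ih _ (by have := mem_Icc.mp hi; omega)]

/-- The sum of `f` over the roots, read off from the coefficients. -/
noncomputable def tr (f g : F[X]) : F :=
  (g.natDegree : F) * f.coeff 0 + ∑ i ∈ Icc 1 f.natDegree, f.coeff i * psum g i

lemma tr_one (f : F[X]) : tr f 1 = 0 := by simp [tr, psum_one]

lemma tr_mul (f : F[X]) {g h : F[X]} (hg : g.Monic) (hh : h.Monic) :
    tr f (g * h) = tr f g + tr f h := by
  simp only [tr, hg.natDegree_mul hh, Nat.cast_add, psum_mul hg hh, mul_add, sum_add_distrib]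
  ring

lemma tr_pow (f : F[X]) {g : F[X]} (hg : g.Monic) (n : ℕ) : tr f (g ^ n) = (n : F) * tr f g := by
  induction n with
  | zero => simp [tr_one]
  | succ n ih => rw [pow_succ, tr_mul f (hg.pow n) hg, ih]; push_cast; ring

lemma tr_map {E : Type*} [Field E] (φ : F →+* E) (f : F[X]) {g : F[X]} (hg : g.Monic) :
    tr (f.map φ) (g.map φ) = φ (tr f g) := by
  simp [tr, natDegree_map, psum_map φ hg]

lemma eval_eq_zero_add (f : F[X]) (θ : F) :
    f.eval θ = f.coeff 0 + ∑ i ∈ Icc 1 f.natDegree, f.coeff i * θ ^ i := by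
  rw [eval_eq_sum_range, range_eq_Ico, sum_eq_sum_Ico_succ_bot (Nat.succ_pos _),
    Nat.succ_eq_add_one, zero_add, Ico_add_one_right_eq_Icc, pow_zero, mul_one]

lemma tr_linear (f : F[X]) (θ : F) : tr f (X - C θ) = f.eval θ := by
  rw [tr, natDegree_X_sub_C, Nat.cast_one, one_mul, eval_eq_zero_add]
  congr 1
  exact sum_congr rfl fun i hi => by rw [psum_X_sub_C θ (mem_Icc.mp hi).1]

lemma tr_prod (f : F[X]) {ι : Type*} (s : Finset ι) (r : ι → F) :
    tr f (∏ i ∈ s, (X - C (r i))) = ∑ i ∈ s, f.eval (r i) := by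
  classical
  induction s using Finset.induction with
  | empty => simp [tr_one]
  | insert a t ha ih =>
    rw [prod_insert ha, sum_insert ha, tr_mul f (monic_X_sub_C _)
      (monic_prod_of_monic _ _ fun i _ => monic_X_sub_C _), tr_linear, ih]

end PowerSums

section Monics

variable {p : ℕ} [Fact p.Prime]

/-- The monic polynomial with prescribed lower coefficients. -/
noncomputable def mkMon (n : ℕ) (v : Fin n → ZMod p) : (ZMod p)[X] :=
  X ^ n + ∑ i : Fin n, C (v i) * X ^ (i : ℕ)

/-- The monic polynomials of degree `n`. -/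
noncomputable def Mset (p n : ℕ) [Fact p.Prime] : Finset (ZMod p)[X] :=
  open Classical in (univ : Finset (Fin n → ZMod p)).image (mkMon n)

lemma mem_Mset {n : ℕ} {g : (ZMod p)[X]} : g ∈ Mset p n ↔ g.Monic ∧ g.natDegree = n := by
  classical
  constructor
  · intro h
    obtain ⟨v, -, rfl⟩ := mem_image.mp h
    have hd : (∑ i : Fin n, C (v i) * X ^ (i : ℕ)).degree < (n : WithBot ℕ) :=
      lt_of_le_of_lt (degree_sum_le _ _) ((Finset.sup_lt_iff (WithBot.bot_lt_coe n)).mpr fun i _ =>
        lt_of_le_of_lt (degree_C_mul_X_pow_le _ _) (WithBot.coe_lt_coe.mpr i.2))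
    refine ⟨monic_X_pow_add hd, natDegree_eq_of_degree_eq_some ?_⟩
    rw [mkMon, degree_add_eq_left_of_degree_lt] <;> rw [degree_X_pow]
    exact hd
  · rintro ⟨hg, rfl⟩
    refine mem_image.mpr ⟨fun i => g.coeff i, mem_univ _, ?_⟩
    conv_rhs => rw [hg.as_sum]
    rw [mkMon, Fin.sum_univ_eq_sum_range (fun i => C (g.coeff i) * X ^ i)]

/-- The monic irreducible polynomials of degree `n`. -/
noncomputable def Irr (p n : ℕ) [Fact p.Prime] : Finset (ZMod p)[X] :=
  open Classical in (Mset p n).filter Irreducible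

lemma mem_Irr {n : ℕ} {g : (ZMod p)[X]} :
    g ∈ Irr p n ↔ g.Monic ∧ g.natDegree = n ∧ Irreducible g := by
  classical
  simp [Irr, mem_Mset, and_assoc]

/-- The character of a monic polynomial attached to `f`. -/
noncomputable def lam (f g : (ZMod p)[X]) : ℂ := ZMod.stdAddChar (tr f g)

lemma lam_mul (f : (ZMod p)[X]) {g h : (ZMod p)[X]} (hg : g.Monic) (hh : h.Monic) :
    lam f (g * h) = lam f g * lam f h := by
  rw [lam, tr_mul f hg hh, AddChar.map_add_eq_mul]; rfl

lemma lam_pow (f : (ZMod p)[X]) {g : (ZMod p)[X]} (hg : g.Monic) (n : ℕ) :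
    lam f (g ^ n) = lam f g ^ n := by
  rw [lam, lam, tr_pow f hg, ← AddChar.map_nsmul_eq_pow, nsmul_eq_mul]

/-- The coefficients of the L-function. -/
noncomputable def cf (f : (ZMod p)[X]) (n : ℕ) : ℂ := ∑ g ∈ Mset p n, lam f g

lemma cf_zero (f : (ZMod p)[X]) : cf f 0 = 1 := by
  have : Mset p 0 = {1} := by
    ext g
    rw [mem_Mset, mem_singleton]
    exact ⟨fun h => h.1.natDegree_eq_zero.mp h.2, fun h => by subst h; simp⟩
  rw [cf, this, sum_singleton, lam, tr_one, AddChar.map_zero_eq_one]

lemma cf_eq_zero (f : (ZMod p)[X]) (hk1 : 1 ≤ f.natDegree) (hk : ¬ p ∣ f.natDegree) {n : ℕ}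
    (hn : f.natDegree ≤ n) : cf f n = 0 := by
  set k := f.natDegree with hkdef
  have hdeg : ∀ g ∈ Mset p n, (X ^ (n - k) : (ZMod p)[X]).degree < g.degree := by
    intro g hg
    obtain ⟨h1, h2⟩ := mem_Mset.mp hg
    rw [degree_eq_natDegree h1.ne_zero, h2, degree_X_pow]
    exact_mod_cast (show n - k < n by omega)
  have hmem : ∀ g ∈ Mset p n, ∀ c : ZMod p, g + C c * X ^ (n - k) ∈ Mset p n := by
    intro g hg c
    obtain ⟨h1, h2⟩ := mem_Mset.mp hg
    have h3 : (C c * X ^ (n - k) : (ZMod p)[X]).degree < g.degree :=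
      lt_of_le_of_lt (degree_C_mul_X_pow_le _ _) (by simpa using hdeg g hg)
    exact mem_Mset.mpr ⟨h1.add_of_left h3,
      (natDegree_eq_of_degree_eq (degree_add_eq_left_of_degree_lt h3)).trans h2⟩
  set ω := ZMod.stdAddChar (-((k : ZMod p) * f.leadingCoeff)) with hω
  have hlam : ∀ g ∈ Mset p n, lam f (g + X ^ (n - k)) = ω * lam f g := by
    intro g hg
    obtain ⟨h1, h2⟩ := mem_Mset.mp hg
    have hm := hmem g hg 1
    rw [map_one, one_mul] at hm
    obtain ⟨h3, h4⟩ := mem_Mset.mp hm
    have hrc : ∀ i ≤ k, rc (g + X ^ (n - k)) i = rc g i + (if i = k then 1 else 0) := by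
      intro i hi
      rw [rc, rc, coeff_reverse, coeff_reverse, h4, h2, revAt_le (by omega), coeff_add, coeff_X_pow]
      congr 1
      split_ifs <;> first | rfl | omega
    have hps : ∀ m ≤ k, psum (g + X ^ (n - k)) m = psum g m + (if m = k then -(k : ZMod p) else 0) := by
      intro m
      induction m using Nat.strong_induction_on with
      | _ m ih =>
        intro hm
        rw [psum_step h3, psum_step h1, hrc m hm]
        have hs : ∑ i ∈ Icc 1 m, rc (g + X ^ (n - k)) i * psum (g + X ^ (n - k)) (m - i)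
            = ∑ i ∈ Icc 1 m, rc g i * psum g (m - i) := by
          refine sum_congr rfl fun i hi => ?_
          obtain ⟨hi1, hi2⟩ := mem_Icc.mp hi
          rw [hrc i (by omega), ih (m - i) (by omega) (by omega), if_neg (show ¬ m - i = k by omega),
            add_zero]
          rcases eq_or_ne i k with rfl | hne
          · rw [show m - k = 0 by omega, psum_zero, mul_zero, mul_zero]
          · rw [if_neg hne, add_zero]
        rw [hs]
        split_ifs with h <;> [subst h; skip] <;> ring
    rw [lam, lam, hω, ← AddChar.map_add_eq_mul]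
    congr 1
    rw [tr, tr, h4, h2, ← hkdef]
    have e : ∑ i ∈ Icc 1 k, f.coeff i * psum (g + X ^ (n - k)) i
        = ∑ i ∈ Icc 1 k, f.coeff i * psum g i + f.coeff k * -(k : ZMod p) := by
      rw [sum_congr rfl fun i hi => by rw [hps i (mem_Icc.mp hi).2, mul_add], sum_add_distrib]
      congr 1
      rw [sum_eq_single_of_mem k (mem_Icc.mpr ⟨hk1, le_rfl⟩) (fun b _ hb => by
        rw [if_neg hb, mul_zero]), if_pos rfl]
    rw [e, leadingCoeff, ← hkdef]
    ring
  have hsum : cf f n = ω * cf f n := by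
    rw [cf, mul_sum]
    refine sum_bij' (fun g _ => g + C (-1) * X ^ (n - k)) (fun g _ => g + C 1 * X ^ (n - k))
      (fun g hg => hmem g hg _) (fun g hg => hmem g hg _) ?_ ?_ ?_
    · intro g _; simp
    · intro g _; simp
    · intro g hg
      rw [← hlam _ (hmem g hg _)]
      simp
  have hω1 : ω ≠ 1 := by
    intro h
    rw [hω, ← AddChar.map_zero_eq_one (ZMod.stdAddChar (N := p)),
      ZMod.injective_stdAddChar.eq_iff, neg_eq_zero, mul_eq_zero] at h
    rcases h with h | h
    · exact hk ((ZMod.natCast_eq_zero_iff _ p).mp h)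
    · rw [leadingCoeff_eq_zero] at h
      rw [h, natDegree_zero] at hkdef
      omega
  have h0 : (1 - ω) * cf f n = 0 := by linear_combination hsum
  exact (mul_eq_zero.mp h0).resolve_left (sub_ne_zero.mpr (Ne.symm hω1))

open Classical in
lemma deg_count {n : ℕ} {g : (ZMod p)[X]} (hg : g ∈ Mset p n) :
    ∑ d ∈ Icc 1 n, ∑ P ∈ Irr p d, d * ((Icc 1 n).filter fun e => P ^ e ∣ g).card = n := by
  classical
  obtain ⟨hm, hd⟩ := mem_Mset.mp hg
  set F := UniqueFactorizationMonoid.normalizedFactors g with hF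
  have hirr : ∀ P ∈ F, Irreducible P := fun P hP =>
    UniqueFactorizationMonoid.irreducible_of_normalized_factor P hP
  have hmon : ∀ P ∈ F, P.Monic := fun P hP => by
    rw [← UniqueFactorizationMonoid.normalize_normalized_factor P hP]
    exact monic_normalize (hirr P hP).ne_zero
  have hFm : F.prod.Monic := by simpa using monic_multiset_prod_of_monic F id hmon
  have hprod : F.prod = g :=
    eq_of_monic_of_associated hFm hm (UniqueFactorizationMonoid.prod_normalizedFactors hm.ne_zero)
  have hdeg : (F.map natDegree).sum = n := by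
    rw [← natDegree_multiset_prod_of_monic F hmon, hprod, hd]
  have hcnt : ∀ d ∈ Icc 1 n, ∀ P ∈ Irr p d,
      ((Icc 1 n).filter fun e => P ^ e ∣ g).card = F.count P := by
    intro d _ P hP
    obtain ⟨hPm, -, hPi⟩ := mem_Irr.mp hP
    have hle : F.count P ≤ n := by
      rcases Nat.eq_zero_or_pos (F.count P) with h | h
      · omega
      · have hPF := Multiset.count_pos.mp h
        have hsub : Multiset.replicate (F.count P) P ≤ F := Multiset.le_count_iff_replicate_le.mp le_rfl
        obtain ⟨R, hR⟩ := Multiset.le_iff_exists_add.mp hsub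
        have h1 := hdeg
        rw [hR, Multiset.map_add, Multiset.sum_add, Multiset.map_replicate, Multiset.sum_replicate,
          smul_eq_mul] at h1
        have h2 : F.count P * 1 ≤ F.count P * P.natDegree :=
          Nat.mul_le_mul_left _ hPi.natDegree_pos
        omega
    have hiff : ∀ e : ℕ, P ^ e ∣ g ↔ e ≤ F.count P := fun e => by
      rw [pow_dvd_iff_le_emultiplicity,
        UniqueFactorizationMonoid.le_emultiplicity_iff_replicate_le_normalizedFactors hPi hm.ne_zero,
        hPm.normalize_eq_self, Multiset.le_count_iff_replicate_le]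
    rw [filter_congr fun e _ => hiff e]
    have : (Icc 1 n).filter (fun e => e ≤ F.count P) = Icc 1 (F.count P) := by
      ext e; simp only [mem_filter, mem_Icc]; omega
    rw [this, Nat.card_Icc, Nat.add_sub_cancel]
  rw [sum_congr rfl fun d hd => sum_congr rfl fun P hP => show _ = P.natDegree * F.count P by
    rw [hcnt d hd P hP, (mem_Irr.mp hP).2.1], ← sum_biUnion]
  swap
  · intro d _ d' _ hne
    exact disjoint_left.mpr fun P hP hP' => hne ((mem_Irr.mp hP).2.1.symm.trans (mem_Irr.mp hP').2.1)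
  conv_rhs => rw [← hdeg, Finset.sum_multiset_map_count]
  have hsub : F.toFinset ⊆ (Icc 1 n).biUnion (fun d => Irr p d) := by
    intro P hP
    rw [Multiset.mem_toFinset] at hP
    refine mem_biUnion.mpr ⟨P.natDegree, mem_Icc.mpr ⟨(hirr P hP).natDegree_pos, ?_⟩,
      mem_Irr.mpr ⟨hmon P hP, rfl, hirr P hP⟩⟩
    rw [← hdeg]
    exact Multiset.le_sum_of_mem (Multiset.mem_map_of_mem _ hP)
  rw [← sum_subset hsub (fun P _ hP => by
    rw [Multiset.count_eq_zero.mpr (fun h => hP (Multiset.mem_toFinset.mpr h)), mul_zero])]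
  refine sum_congr rfl fun P _ => ?_
  rw [smul_eq_mul, mul_comm]

/-- The degree-`m` sums of the L-function. -/
noncomputable def Ssum (f : (ZMod p)[X]) (m : ℕ) : ℂ :=
  ∑ d ∈ (Icc 1 m).filter (· ∣ m), ∑ P ∈ Irr p d, (d : ℂ) * lam f P ^ (m / d)

lemma newton (f : (ZMod p)[X]) (n : ℕ) :
    (n : ℂ) * cf f n = ∑ m ∈ Icc 1 n, Ssum f m * cf f (n - m) := by
  classical
  have hinner : ∀ d ∈ Icc 1 n, ∀ P ∈ Irr p d, ∀ e ∈ Icc 1 n,
      ∑ g ∈ (Mset p n).filter (fun g => P ^ e ∣ g), lam f g
        = if d * e ≤ n then lam f P ^ e * cf f (n - d * e) else 0 := by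
    intro d _ P hP e _
    obtain ⟨hPm, hPd, -⟩ := mem_Irr.mp hP
    have hdeg : (P ^ e).natDegree = d * e := by rw [hPm.natDegree_pow, hPd, mul_comm]
    split_ifs with hle
    · rw [cf, mul_sum]
      refine sum_bij' (fun g _ => g /ₘ P ^ e) (fun h _ => P ^ e * h) ?_ ?_ ?_ ?_ ?_
      · intro g hg
        obtain ⟨h1, h2⟩ := mem_filter.mp hg
        obtain ⟨h1, h3⟩ := mem_Mset.mp h1
        obtain ⟨h, rfl⟩ := h2
        rw [mul_divByMonic_cancel_left h (hPm.pow e)]
        have hh : h.Monic := (hPm.pow e).of_mul_monic_left h1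
        rw [(hPm.pow e).natDegree_mul hh, hdeg] at h3
        exact mem_Mset.mpr ⟨hh, by omega⟩
      · intro h hh
        obtain ⟨h1, h2⟩ := mem_Mset.mp hh
        refine mem_filter.mpr ⟨mem_Mset.mpr ⟨(hPm.pow e).mul h1, ?_⟩, dvd_mul_right _ _⟩
        rw [(hPm.pow e).natDegree_mul h1, hdeg, h2]; omega
      · intro g hg
        obtain ⟨h, rfl⟩ := (mem_filter.mp hg).2
        simp only [mul_divByMonic_cancel_left h (hPm.pow e)]
      · intro h _
        simp only [mul_divByMonic_cancel_left h (hPm.pow e)]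
      · intro g hg
        obtain ⟨h1, h2⟩ := mem_filter.mp hg
        obtain ⟨h1, -⟩ := mem_Mset.mp h1
        obtain ⟨h, rfl⟩ := h2
        rw [mul_divByMonic_cancel_left h (hPm.pow e),
          lam_mul f (hPm.pow e) ((hPm.pow e).of_mul_monic_left h1), lam_pow f hPm]
    · refine sum_eq_zero fun g hg => absurd ?_ hle
      obtain ⟨h1, h2⟩ := mem_filter.mp hg
      obtain ⟨h1, h3⟩ := mem_Mset.mp h1
      rw [← hdeg, ← h3]
      exact natDegree_le_of_dvd h2 h1.ne_zero
  calc (n : ℂ) * cf f n
      = ∑ g ∈ Mset p n, ∑ d ∈ Icc 1 n, ∑ P ∈ Irr p d,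
          ∑ e ∈ Icc 1 n, if P ^ e ∣ g then (d : ℂ) * lam f g else 0 := by
        rw [cf, mul_sum]
        refine sum_congr rfl fun g hg => ?_
        have h := congrArg (Nat.cast (R := ℂ)) (deg_count hg)
        push_cast at h
        rw [← h, sum_mul]
        refine sum_congr rfl fun d _ => ?_
        rw [sum_mul]
        refine sum_congr rfl fun P _ => ?_
        rw [← sum_filter, sum_const, nsmul_eq_mul]
        ring
    _ = ∑ d ∈ Icc 1 n, ∑ P ∈ Irr p d, ∑ e ∈ Icc 1 n,
          if d * e ≤ n then (d : ℂ) * lam f P ^ e * cf f (n - d * e) else 0 := by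
        rw [sum_comm]
        refine sum_congr rfl fun d hd => ?_
        rw [sum_comm]
        refine sum_congr rfl fun P hP => ?_
        rw [sum_comm]
        refine sum_congr rfl fun e he => ?_
        rw [← sum_filter, ← mul_sum, hinner d hd P hP e he, mul_ite, mul_zero, ← mul_assoc]
    _ = ∑ d ∈ Icc 1 n, ∑ m ∈ (Icc 1 n).filter (d ∣ ·), ∑ P ∈ Irr p d,
          (d : ℂ) * lam f P ^ (m / d) * cf f (n - m) := by
        refine sum_congr rfl fun d hd => ?_
        have hd1 := (mem_Icc.mp hd).1
        rw [sum_comm (s := (Icc 1 n).filter (d ∣ ·))]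
        refine sum_congr rfl fun P _ => ?_
        rw [← sum_filter]
        refine sum_bij' (fun e _ => d * e) (fun m _ => m / d) ?_ ?_ ?_ ?_ ?_
        · intro e he
          obtain ⟨h1, h2⟩ := mem_filter.mp he
          have := (mem_Icc.mp h1).1
          exact mem_filter.mpr ⟨mem_Icc.mpr ⟨Nat.mul_pos hd1 this, h2⟩, dvd_mul_right _ _⟩
        · intro m hm
          obtain ⟨h1, e, rfl⟩ := mem_filter.mp hm
          obtain ⟨h1, h2⟩ := mem_Icc.mp h1
          rw [Nat.mul_div_cancel_left _ hd1]
          exact mem_filter.mpr ⟨mem_Icc.mpr ⟨Nat.pos_of_ne_zero fun h => by simp [h] at h1,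
            (Nat.le_mul_of_pos_left e hd1).trans h2⟩, h2⟩
        · intro e _; exact Nat.mul_div_cancel_left e hd1
        · intro m hm; exact Nat.mul_div_cancel' (mem_filter.mp hm).2
        · intro e _; simp only [Nat.mul_div_cancel_left e hd1]
    _ = _ := by
        rw [sum_comm' (t' := Icc 1 n) (s' := fun m => (Icc 1 m).filter (· ∣ m))]
        · refine sum_congr rfl fun m _ => ?_
          rw [Ssum, sum_mul]
          refine sum_congr rfl fun d _ => ?_
          rw [sum_mul]
        · intro d m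
          simp only [mem_filter, mem_Icc]
          constructor
          · rintro ⟨⟨h1, h2⟩, ⟨h3, h4⟩, h5⟩
            exact ⟨⟨⟨h1, Nat.le_of_dvd h3 h5⟩, h5⟩, h3, h4⟩
          · rintro ⟨⟨⟨h1, h2⟩, h5⟩, h3, h4⟩
            exact ⟨⟨h1, h2.trans h4⟩, ⟨h3, h4⟩, h5⟩

end Monics

end Vale.Agent.P042.Weil
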