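import Vale.Agent.P042.WeilCurve
import Vale.Agent.P042.WeilL

/-! Weil's bound `|∑ ψ (f x)| ≤ k √p` for polynomials modulo a prime, proved from scratch. -/

namespace Vale.Agent.P042.Weil

open Polynomial Finset

variable {p : ℕ} [Fact p.Prime] {K : Type*} [Field K] [Fintype K] [Algebra (ZMod p) K]

omit [Fintype K] in
lemma mem_base_of_pow {c : K} (hc : c ^ p = c) : c ∈ Set.range (algebraMap (ZMod p) K) := by
  classical
  have hp := (Fact.out : p.Prime)
  have hne : (X ^ p - X : K[X]) ≠ 0 := FiniteField.X_pow_card_sub_X_ne_zero K hp.one_lt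
  set T := univ.image (algebraMap (ZMod p) K) with hT
  have hsub : T ⊆ (X ^ p - X : K[X]).roots.toFinset := by
    intro y hy
    obtain ⟨a, -, rfl⟩ := mem_image.mp hy
    simp [mem_roots hne, ← map_pow, ZMod.pow_card]
  have hcard : (X ^ p - X : K[X]).roots.toFinset.card ≤ T.card := by
    rw [hT, card_image_of_injective _ (algebraMap (ZMod p) K).injective, card_univ, ZMod.card]
    refine (Multiset.toFinset_card_le _).trans ((card_roots' _).trans ?_)
    rw [FiniteField.X_pow_card_sub_X_natDegree_eq K hp.one_lt]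
  have := eq_of_subset_of_card_le hsub hcard
  have h2 : c ∈ T := by rw [this]; simp [mem_roots hne, hc]
  obtain ⟨a, -, ha⟩ := mem_image.mp h2
  exact ⟨a, ha⟩

lemma charP_K (p : ℕ) [Fact p.Prime] (K : Type*) [Field K] [Algebra (ZMod p) K] : CharP K p :=
  charP_of_injective_algebraMap (algebraMap (ZMod p) K).injective p

lemma card_K (p : ℕ) [Fact p.Prime] (K : Type*) [Field K] [Fintype K] [Algebra (ZMod p) K] :
    Fintype.card K = p ^ Module.finrank (ZMod p) K := by
  rw [Module.card_eq_pow_finrank (K := ZMod p) (V := K), ZMod.card]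

lemma exists_conj_poly (x : K) : ∃ e : ℕ,
    e * (minpoly (ZMod p) x).natDegree = Module.finrank (ZMod p) K ∧
    ((minpoly (ZMod p) x) ^ e).map (algebraMap (ZMod p) K)
      = ∏ i ∈ range (Module.finrank (ZMod p) K), (X - C (x ^ p ^ i)) := by
  classical
  have hp := (Fact.out : p.Prime)
  have : CharP K p := charP_K p K
  set m := Module.finrank (ZMod p) K with hm
  have hm1 : 0 < m := Module.finrank_pos
  set G := ∏ i ∈ range m, (X - C (x ^ p ^ i)) with hG
  have hxm : x ^ p ^ m = x := by rw [hm, ← card_K, FiniteField.pow_card]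
  have hfix : G.map (frobenius K p) = G := by
    rw [hG, Polynomial.map_prod]
    obtain ⟨m', hm'⟩ := Nat.exists_eq_add_of_le hm1
    simp only [Polynomial.map_sub, map_X, map_C, frobenius_def, ← pow_mul, ← pow_succ]
    rw [hm', Nat.add_comm, prod_range_succ, prod_range_succ' (fun i => X - C (x ^ p ^ i)),
      pow_zero, pow_one, show p ^ (m' + 1) = p ^ m by rw [hm', Nat.add_comm], hxm]
  have hlift : G ∈ lifts (algebraMap (ZMod p) K) := by
    refine (lifts_iff_coeff_lifts G).mpr fun n => mem_base_of_pow ?_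
    have := congrArg (fun q => coeff q n) hfix
    simpa [coeff_map, frobenius_def] using this
  have hGm : G.Monic := monic_prod_of_monic _ _ fun i _ => monic_X_sub_C _
  obtain ⟨g, hg1, hgd, hg2⟩ := lifts_and_degree_eq_and_monic hlift hGm
  have hgdeg : g.natDegree = m := by
    have h1 : G.natDegree = m := by
      rw [hG, natDegree_prod_of_monic _ _ fun i _ => monic_X_sub_C _]
      simp only [natDegree_X_sub_C, sum_const, card_range, smul_eq_mul, mul_one]
    rw [← h1, ← hg1, natDegree_map]
  set P := minpoly (ZMod p) x with hP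
  set F := UniqueFactorizationMonoid.normalizedFactors g with hF
  have hall : ∀ R ∈ F, R = P := by
    intro R hR
    have hRi := UniqueFactorizationMonoid.irreducible_of_normalized_factor R hR
    have hRm : R.Monic := by
      rw [← UniqueFactorizationMonoid.normalize_normalized_factor R hR]
      exact monic_normalize hRi.ne_zero
    have hdvd := (UniqueFactorizationMonoid.dvd_of_mem_normalizedFactors hR)
    have hsp : (R.map (algebraMap (ZMod p) K)).Splits := by
      refine Splits.of_dvd ?_ hGm.ne_zero (hg1 ▸ Polynomial.map_dvd _ hdvd)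
      exact Splits.prod fun i _ => Splits.X_sub_C _
    obtain ⟨y, hy⟩ := hsp.exists_eval_eq_zero (by
      rw [degree_map]; exact hRi.degree_pos.ne')
    have hyG : G.eval y = 0 := by
      obtain ⟨t, ht⟩ := hg1 ▸ Polynomial.map_dvd (algebraMap (ZMod p) K) hdvd
      rw [ht, eval_mul, hy, zero_mul]
    rw [hG, eval_prod, prod_eq_zero_iff] at hyG
    obtain ⟨i, -, hi⟩ := hyG
    rw [eval_sub, eval_X, eval_C, sub_eq_zero] at hi
    have hx0 : aeval x R = 0 := by
      refine (pow_eq_zero_iff (pow_pos hp.pos i).ne').mp ?_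
      rw [eval_map_algebraMap, hi] at hy
      have hcomm : (aeval x R) ^ p ^ i = aeval (x ^ p ^ i) R := by
        rw [← iterateFrobenius_def, aeval_def, hom_eval₂, aeval_def, iterateFrobenius_def]
        congr 1
        exact Subsingleton.elim _ _
      rw [hcomm, hy]
    exact minpoly.eq_of_irreducible_of_monic hRi hx0 hRm
  have hrep : F = Multiset.replicate F.card P := Multiset.eq_replicate.mpr ⟨rfl, hall⟩
  have hFm : F.prod.Monic := by
    rw [hrep, Multiset.prod_replicate]
    exact (minpoly.monic (Algebra.IsIntegral.isIntegral x)).pow _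
  have hgF : g = P ^ F.card := by
    conv_lhs => rw [← eq_of_monic_of_associated hFm hg2
      (UniqueFactorizationMonoid.prod_normalizedFactors hg2.ne_zero), hrep, Multiset.prod_replicate]
  refine ⟨F.card, ?_, by rw [← hgF, hg1]⟩
  rw [← hgdeg, hgF, natDegree_pow]

lemma lam_minpoly (f : (ZMod p)[X]) (x : K) :
    (minpoly (ZMod p) x).natDegree ∣ Module.finrank (ZMod p) K ∧
    lam f (minpoly (ZMod p) x) ^ (Module.finrank (ZMod p) K / (minpoly (ZMod p) x).natDegree)
      = ZMod.stdAddChar (Algebra.trace (ZMod p) K (aeval x f)) := by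
  obtain ⟨e, he, hmap⟩ := exists_conj_poly (p := p) x
  have hx := Algebra.IsIntegral.isIntegral (R := ZMod p) x
  have hd0 : 0 < (minpoly (ZMod p) x).natDegree := minpoly.natDegree_pos hx
  refine ⟨⟨e, by rw [← he, mul_comm]⟩, ?_⟩
  rw [← he, Nat.mul_div_cancel _ hd0, ← lam_pow f (minpoly.monic hx), lam]
  congr 1
  apply (algebraMap (ZMod p) K).injective
  rw [← tr_map _ f ((minpoly.monic hx).pow e), hmap, tr_prod,
    FiniteField.algebraMap_trace_eq_sum_pow, Nat.card_zmod]
  refine sum_congr rfl fun i _ => ?_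
  have : CharP K p := charP_K p K
  rw [eval_map_algebraMap, ← iterateFrobenius_def, ← iterateFrobenius_def p i (aeval x f),
    aeval_def, aeval_def, hom_eval₂]
  congr 1
  exact Subsingleton.elim _ _

lemma fiber_minpoly {d : ℕ} {P : (ZMod p)[X]} (hP : P ∈ Irr p d) [DecidableEq (ZMod p)[X]]
    (hd : d ∣ Module.finrank (ZMod p) K) :
    (univ.filter fun x : K => minpoly (ZMod p) x = P).card = d := by
  classical
  obtain ⟨hm, hdeg, hirr⟩ := mem_Irr.mp hP
  set m := Module.finrank (ZMod p) K with hmdef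
  have hdvd : P ∣ X ^ p ^ m - X := by
    have := (hirr.natDegree_dvd_iff_dvd_X_pow_card_pow_sub_X (n := m)).mp (hdeg ▸ hd)
    rwa [Nat.card_zmod] at this
  have hdvdK : P.map (algebraMap (ZMod p) K) ∣ X ^ Fintype.card K - X := by
    have := Polynomial.map_dvd (algebraMap (ZMod p) K) hdvd
    simpa [card_K p K, ← hmdef] using this
  have hne : (X ^ Fintype.card K - X : K[X]) ≠ 0 :=
    FiniteField.X_pow_card_sub_X_ne_zero K Fintype.one_lt_card
  have hsplit : (X ^ Fintype.card K - X : K[X]).Splits := by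
    rw [splits_iff_card_roots, FiniteField.roots_X_pow_card_sub_X,
      FiniteField.X_pow_card_sub_X_natDegree_eq K Fintype.one_lt_card]
    rfl
  set r := (P.map (algebraMap (ZMod p) K)).roots with hr
  have hcard : r.card = d := by
    rw [hr, splits_iff_card_roots.mp (hsplit.of_dvd hne hdvdK), natDegree_map, hdeg]
  have hnd : r.Nodup := by
    refine Multiset.nodup_of_le (roots.le_of_dvd hne hdvdK) ?_
    rw [FiniteField.roots_X_pow_card_sub_X]
    exact univ.nodup
  have heq : (univ.filter fun x : K => minpoly (ZMod p) x = P) = r.toFinset := by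
    ext x
    rw [mem_filter, Multiset.mem_toFinset, hr, mem_roots (hm.map _).ne_zero, IsRoot.def,
      eval_map_algebraMap]
    refine ⟨fun h => h.2 ▸ minpoly.aeval _ _, fun h => ⟨mem_univ _, ?_⟩⟩
    exact (minpoly.eq_of_irreducible_of_monic hirr h hm).symm
  rw [heq, Multiset.toFinset_card_of_nodup hnd, hcard]

lemma sum_trace_eq_Ssum (f : (ZMod p)[X]) :
    ∑ x : K, ZMod.stdAddChar (Algebra.trace (ZMod p) K (aeval x f))
      = Ssum f (Module.finrank (ZMod p) K) := by
  classical
  set m := Module.finrank (ZMod p) K with hm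
  have hm1 : 0 < m := Module.finrank_pos
  have hdisj : ((((Icc 1 m).filter (· ∣ m)) : Finset ℕ) : Set ℕ).PairwiseDisjoint
      (fun d => Irr p d) := fun d _ d' _ hne =>
    disjoint_left.mpr fun P hP hP' => hne ((mem_Irr.mp hP).2.1.symm.trans (mem_Irr.mp hP').2.1)
  rw [← sum_fiberwise_of_maps_to (t := ((Icc 1 m).filter (· ∣ m)).biUnion (fun d => Irr p d))
    (g := fun x : K => minpoly (ZMod p) x)]
  · rw [sum_biUnion hdisj, Ssum]
    refine sum_congr rfl fun d hd => sum_congr rfl fun P hP => ?_
    obtain ⟨-, hdeg, -⟩ := mem_Irr.mp hP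
    rw [sum_congr rfl fun x hx => show _ = lam f P ^ (m / d) by
      have h1 := (lam_minpoly f x).2
      rw [(mem_filter.mp hx).2, hdeg, ← hm] at h1
      exact h1.symm, sum_const, fiber_minpoly hP (hm ▸ (mem_filter.mp hd).2), nsmul_eq_mul]
  · intro x _
    have hx := Algebra.IsIntegral.isIntegral (R := ZMod p) x
    have h1 := (lam_minpoly f x).1
    exact mem_biUnion.mpr ⟨(minpoly (ZMod p) x).natDegree,
      mem_filter.mpr ⟨mem_Icc.mpr ⟨minpoly.natDegree_pos hx, Nat.le_of_dvd hm1 h1⟩, h1⟩,
      mem_Irr.mpr ⟨minpoly.monic hx, rfl, minpoly.irreducible hx⟩⟩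

lemma as_solvable {t : K} (ht : Algebra.trace (ZMod p) K t = 0) : ∃ y : K, y ^ p - y = t := by
  classical
  have hp := (Fact.out : p.Prime)
  have : CharP K p := charP_K p K
  set Tr := Algebra.trace (ZMod p) K with hTr
  set ker := univ.filter fun u : K => Tr u = 0 with hker
  set im := univ.image fun y : K => y ^ p - y with him
  have hTp : ∀ y : K, Tr (y ^ p) = Tr y := fun y => by
    apply (algebraMap (ZMod p) K).injective
    rw [hTr, FiniteField.algebraMap_trace_eq_sum_pow, FiniteField.algebraMap_trace_eq_sum_pow,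
      Nat.card_zmod]
    obtain ⟨m, hm⟩ := Nat.exists_eq_succ_of_ne_zero (Module.finrank_pos (R := ZMod p) (M := K)).ne'
    have hy : y ^ p ^ (m + 1) = y := by
      rw [show m + 1 = Module.finrank (ZMod p) K from hm.symm, ← card_K, FiniteField.pow_card]
    simp only [← pow_mul, ← pow_succ']
    rw [hm, sum_range_succ, sum_range_succ' (fun i => y ^ p ^ i), hy, pow_zero, pow_one]
  have hsub : im ⊆ ker := fun u hu => by
    obtain ⟨y, -, rfl⟩ := mem_image.mp hu
    exact mem_filter.mpr ⟨mem_univ _, by rw [map_sub, hTp, sub_self]⟩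
  have h1 : Fintype.card K ≤ p * im.card := by
    refine le_trans (le_of_eq card_univ.symm) (card_le_mul_card_image _ _ fun u _ => ?_)
    have hsub' : (univ.filter fun y : K => y ^ p - y = u)
        ⊆ (X ^ p - X - C u : K[X]).roots.toFinset := fun y hy => by
      have hne : (X ^ p - X - C u : K[X]) ≠ 0 := fun h => by
        have := congrArg (fun q => coeff q p) h
        simp [coeff_X, coeff_C, hp.ne_one.symm, hp.ne_zero] at this
      simp [mem_roots hne, (mem_filter.mp hy).2]
    refine (card_le_card hsub').trans ((Multiset.toFinset_card_le _).trans ((card_roots' _).trans ?_))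
    refine (natDegree_sub_le _ _).trans (max_le ((natDegree_sub_le _ _).trans (max_le ?_ ?_)) ?_)
    · simp
    · simp only [natDegree_X]; exact hp.one_le
    · simp
  have h2 : Fintype.card K = p * ker.card := by
    rw [← card_univ, card_eq_sum_card_fiberwise (f := fun u : K => Tr u) (t := univ)
      fun _ _ => mem_univ _]
    have : ∀ a : ZMod p, (univ.filter fun u : K => Tr u = a).card = ker.card := by
      intro a
      obtain ⟨b, hb⟩ := Algebra.trace_surjective (ZMod p) K a
      refine card_bij' (fun u _ => u - b) (fun u _ => u + b) ?_ ?_ ?_ ?_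
      · intro u hu
        exact mem_filter.mpr ⟨mem_univ _, by rw [map_sub, (mem_filter.mp hu).2, hTr, hb, sub_self]⟩
      · intro u hu
        refine mem_filter.mpr ⟨mem_univ _, ?_⟩
        rw [map_add, (mem_filter.mp hu).2, zero_add, hTr, hb]
      · intros; simp
      · intros; simp
    rw [sum_congr rfl fun a _ => this a, sum_const, card_univ, ZMod.card, smul_eq_mul]
  have h3 : ker.card ≤ im.card := Nat.le_of_mul_le_mul_left (h2 ▸ h1) hp.pos
  have h4 : t ∈ im := by
    rw [eq_of_subset_of_card_le hsub h3]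
    exact mem_filter.mpr ⟨mem_univ _, ht⟩
  obtain ⟨y, -, hy⟩ := mem_image.mp h4
  exact ⟨y, hy⟩

lemma level_upper (f : (ZMod p)[X]) (hk1 : 1 ≤ f.natDegree) (hk : ¬ p ∣ f.natDegree) {n : ℕ}
    (hn : Module.finrank (ZMod p) K = 2 * n) (hbig : (p * f.natDegree + 2) ^ 2 ≤ p ^ n) (a : ZMod p) :
    p * (univ.filter fun x : K => Algebra.trace (ZMod p) K (aeval x f) = a).card
      ≤ p ^ n * p ^ n + (2 * (p * f.natDegree) + 3) * p ^ n := by
  classical
  have : CharP K p := charP_K p K
  have hp := (Fact.out : p.Prime)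
  obtain ⟨b, hb⟩ := Algebra.trace_surjective (ZMod p) K a
  set g := f.map (algebraMap (ZMod p) K) - C b with hg
  have hgd : g.natDegree = f.natDegree := by
    rw [hg, natDegree_sub_C, natDegree_map]
  have h := as_count p g (Q := p ^ n) rfl (by rw [card_K p K, hn, two_mul, pow_add])
    (by rw [hgd]; exact hk1) (by rw [hgd]; exact hk) (by rw [hgd]; exact hbig)
  rw [hgd] at h
  refine le_trans ?_ h
  set L := univ.filter fun x : K => Algebra.trace (ZMod p) K (aeval x f) = a with hL
  have hsol : ∀ x ∈ L, ∃ y : K, y ^ p - y = g.eval x := fun x hx => as_solvable (by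
    rw [hg, eval_sub, eval_C, eval_map_algebraMap, map_sub, (mem_filter.mp hx).2, hb, sub_self])
  choose y hy using hsol
  calc p * L.card = (L.attach ×ˢ (univ : Finset (ZMod p))).card := by
        rw [card_product, card_attach, card_univ, ZMod.card, mul_comm]
    _ ≤ _ := by
      refine card_le_card_of_injOn
        (fun v => ((v.1 : K), y v.1 v.1.2 + algebraMap (ZMod p) K v.2)) ?_ ?_
      · intro v _
        refine mem_filter.mpr ⟨mem_univ _, ?_⟩
        rw [add_pow_char, ← map_pow, ZMod.pow_card]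
        linear_combination hy v.1 v.1.2
      · intro v _ w _ he
        simp only [Prod.mk.injEq] at he
        have h1 : v.1 = w.1 := Subtype.ext he.1
        refine Prod.ext h1 ?_
        have h2 := he.2
        rw [h1] at h2
        exact (algebraMap (ZMod p) K).injective (add_left_cancel h2)

lemma trace_sum_bound (f : (ZMod p)[X]) (hk1 : 1 ≤ f.natDegree) (hk : ¬ p ∣ f.natDegree) {n : ℕ}
    (hn : Module.finrank (ZMod p) K = 2 * n) (hbig : (p * f.natDegree + 2) ^ 2 ≤ p ^ n) :
    ‖∑ x : K, ZMod.stdAddChar (Algebra.trace (ZMod p) K (aeval x f))‖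
      ≤ (p : ℝ) * (2 * (p * f.natDegree) + 3 : ℕ) * (p : ℝ) ^ n := by
  classical
  have hp := (Fact.out : p.Prime)
  have hpR : (0 : ℝ) < p := by exact_mod_cast hp.pos
  set cnt : ZMod p → ℝ := fun a =>
    ((univ.filter fun x : K => Algebra.trace (ZMod p) K (aeval x f) = a).card : ℝ) with hcnt
  set A := (p : ℝ) ^ n * (p : ℝ) ^ n / p with hA
  set E := ((2 * (p * f.natDegree) + 3 : ℕ) : ℝ) * (p : ℝ) ^ n / p with hE
  have hE0 : 0 ≤ E := by positivity
  have hup : ∀ a, cnt a - A ≤ E := by
    intro a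
    have := (Nat.cast_le (α := ℝ)).mpr (level_upper f hk1 hk hn hbig a)
    rw [hA, hE, ← sub_nonneg]
    push_cast at this ⊢
    rw [sub_sub_eq_add_sub, ← add_div, ← sub_nonneg.symm, le_div_iff₀ hpR]
    simp only [hcnt]
    linarith
  have hzero : ∑ a, (cnt a - A) = 0 := by
    have h1 : ∑ a, cnt a = (Fintype.card K : ℝ) := by
      rw [← card_univ, card_eq_sum_card_fiberwise
        (f := fun x : K => Algebra.trace (ZMod p) K (aeval x f)) (t := univ) fun _ _ => mem_univ _]
      push_cast; rfl
    rw [sum_sub_distrib, h1, card_K p K, hn, sum_const, card_univ, ZMod.card, nsmul_eq_mul, hA,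
      mul_div_cancel₀ _ hpR.ne']
    push_cast; ring
  have hlow : ∀ a, |cnt a - A| ≤ p * E := by
    intro a
    rw [abs_le]
    refine ⟨?_, (hup a).trans (le_mul_of_one_le_left hE0 (by exact_mod_cast hp.one_le))⟩
    have h1 := add_sum_erase univ (fun a => cnt a - A) (mem_univ a)
    rw [hzero] at h1
    have h2 : ∑ b ∈ univ.erase a, (cnt b - A) ≤ p * E := by
      refine (sum_le_card_nsmul _ _ E fun b _ => hup b).trans ?_
      rw [nsmul_eq_mul]
      refine mul_le_mul_of_nonneg_right ?_ hE0
      have : (univ.erase a).card ≤ p := (card_le_univ _).trans (le_of_eq (ZMod.card p))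
      exact_mod_cast this
    linarith
  have hsum : ∑ x : K, ZMod.stdAddChar (Algebra.trace (ZMod p) K (aeval x f))
      = ∑ a : ZMod p, (((cnt a - A : ℝ)) : ℂ) * ZMod.stdAddChar a := by
    rw [← sum_fiberwise univ (fun x : K => Algebra.trace (ZMod p) K (aeval x f))]
    have hψ : ∑ a : ZMod p, ZMod.stdAddChar a = (0 : ℂ) := by
      have := AddChar.sum_mulShift (1 : ZMod p) (ZMod.isPrimitive_stdAddChar p)
      simpa using this
    simp only [Complex.ofReal_sub, sub_mul, sum_sub_distrib, ← mul_sum, hψ, mul_zero, sub_zero]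
    refine sum_congr rfl fun a _ => ?_
    rw [sum_congr rfl fun x hx => by rw [(mem_filter.mp hx).2], sum_const, nsmul_eq_mul]
    simp [hcnt]
  rw [hsum]
  refine (norm_sum_le _ _).trans ((sum_le_card_nsmul _ _ (p * E) fun a _ => ?_).trans ?_)
  · rw [norm_mul, AddChar.norm_apply, mul_one, Complex.norm_real, Real.norm_eq_abs]
    exact hlow a
  · rw [card_univ, ZMod.card, nsmul_eq_mul, hE]
    refine le_of_eq ?_
    field_simp

omit [Fintype K] [Algebra (ZMod p) K] in
lemma nodes_bounded (s : Multiset ℂ) (R Cc : ℝ) (hR : 0 < R) (M : ℕ)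
    (h : ∀ n, M ≤ n → ‖(s.map fun z => z ^ n).sum‖ ≤ Cc * R ^ n) : ∀ z ∈ s, ‖z‖ ≤ R := by
  classical
  intro z hz
  by_contra hlt
  push Not at hlt
  set T := s.toFinset.erase z with hT
  set P := ∏ w ∈ T, (X - C w) with hP
  have hPz : P.eval z ≠ 0 := by
    rw [hP, eval_prod, prod_ne_zero_iff]
    intro w hw
    rw [eval_sub, eval_X, eval_C, sub_ne_zero]
    exact (mem_erase.mp hw).1.symm
  have hsum : ∀ n, ∑ i ∈ range (P.natDegree + 1), P.coeff i * (s.map fun w => w ^ (n + i)).sum
      = (s.count z : ℂ) * P.eval z * z ^ n := by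
    intro n
    simp only [Finset.sum_multiset_map_count, mul_sum, nsmul_eq_mul]
    rw [sum_comm, sum_eq_single_of_mem z (Multiset.mem_toFinset.mpr hz)]
    · rw [eval_eq_sum_range, mul_sum, sum_mul]
      exact sum_congr rfl fun i _ => by rw [pow_add]; ring
    · intro w hw hwz
      have hw0 : P.eval w = 0 := by
        rw [hP, eval_prod]
        exact prod_eq_zero (mem_erase.mpr ⟨hwz, hw⟩) (by simp)
      rw [eval_eq_sum_range] at hw0
      calc _ = (s.count w : ℂ) * w ^ n * ∑ i ∈ range (P.natDegree + 1), P.coeff i * w ^ i := by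
            rw [mul_sum]; exact sum_congr rfl fun i _ => by rw [pow_add]; ring
        _ = 0 := by rw [hw0, mul_zero]
  set B := ∑ i ∈ range (P.natDegree + 1), ‖P.coeff i‖ * (Cc * R ^ i) with hB
  have hc : 0 < ‖(s.count z : ℂ) * P.eval z‖ :=
    norm_pos_iff.mpr (mul_ne_zero (Nat.cast_ne_zero.mpr (Multiset.count_pos.mpr hz).ne') hPz)
  have hbd : ∀ n, M ≤ n → (‖z‖ / R) ^ n ≤ B / ‖(s.count z : ℂ) * P.eval z‖ := by
    intro n hn
    rw [div_pow, div_le_div_iff₀ (by positivity) hc, mul_comm, ← norm_pow, ← norm_mul, ← hsum, hB,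
      sum_mul]
    refine (norm_sum_le _ _).trans (sum_le_sum fun i _ => ?_)
    rw [norm_mul, mul_assoc, mul_assoc, ← pow_add, Nat.add_comm i n]
    exact mul_le_mul_of_nonneg_left (h (n + i) (by omega)) (norm_nonneg _)
  obtain ⟨n, hn⟩ := (Filter.Eventually.and (Filter.eventually_ge_atTop M)
    ((tendsto_pow_atTop_atTop_of_one_lt ((one_lt_div hR).mpr hlt)).eventually
      (Filter.eventually_gt_atTop (B / ‖(s.count z : ℂ) * P.eval z‖)))).exists
  linarith [hbd n hn.1, hn.2]

omit [Fintype K] [Algebra (ZMod p) K] in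
/-- Weil's bound for a polynomial of degree prime to `p`. -/
theorem weil_coprime (f : (ZMod p)[X]) (hk1 : 1 ≤ f.natDegree) (hk : ¬ p ∣ f.natDegree) :
    ‖∑ x : ZMod p, ZMod.stdAddChar (f.eval x)‖ ≤ ((f.natDegree : ℝ) - 1) * Real.sqrt p := by
  classical
  have hp := (Fact.out : p.Prime)
  have hpR : (0 : ℝ) < p := by exact_mod_cast hp.pos
  obtain ⟨k', hk'⟩ := Nat.exists_eq_add_of_le hk1
  set R : ℂ[X] := X ^ k' + ∑ i : Fin k', C (cf f (k' - i)) * X ^ (i : ℕ) with hR
  have hdeg : (∑ i : Fin k', C (cf f (k' - i)) * X ^ (i : ℕ)).degree < (k' : WithBot ℕ) :=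
    lt_of_le_of_lt (degree_sum_le _ _) ((Finset.sup_lt_iff (WithBot.bot_lt_coe k')).mpr fun i _ =>
      lt_of_le_of_lt (degree_C_mul_X_pow_le _ _) (WithBot.coe_lt_coe.mpr i.2))
  have hRm : R.Monic := monic_X_pow_add hdeg
  have hRd : R.natDegree = k' := by
    refine natDegree_eq_of_degree_eq_some ?_
    rw [hR, degree_add_eq_left_of_degree_lt] <;> rw [degree_X_pow]
    exact hdeg
  have hcoef : ∀ i, i ≤ k' → R.coeff i = cf f (k' - i) := by
    intro i hi
    rw [hR, coeff_add, coeff_X_pow, finsetSum_coeff]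
    simp only [coeff_C_mul, coeff_X_pow, mul_ite, mul_one, mul_zero]
    rcases eq_or_lt_of_le hi with rfl | hlt
    · rw [if_pos rfl, Nat.sub_self, cf_zero, sum_eq_zero, add_zero]
      exact fun j _ => if_neg (by have := j.2; omega)
    · rw [if_neg (by omega), zero_add, sum_eq_single (⟨i, hlt⟩ : Fin k')]
      · rw [if_pos rfl]
      · intro j _ hj
        exact if_neg fun h => hj (Fin.ext h.symm)
      · simp
  have hrc : ∀ i, rc R i = cf f i := by
    intro i
    rw [rc, coeff_reverse, hRd]
    by_cases hi : i ≤ k'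
    · rw [revAt_le hi, hcoef _ (Nat.sub_le _ _), Nat.sub_sub_self hi]
    · rw [show revAt k' i = i from by show revAtFun k' i = i; rw [revAtFun, if_neg hi],
        coeff_eq_zero_of_natDegree_lt (by omega), cf_eq_zero f hk1 hk (by omega)]
  have hS : ∀ m, 1 ≤ m → Ssum f m = -psum R m := by
    intro m
    induction m using Nat.strong_induction_on with
    | _ m ih =>
      intro hm
      obtain ⟨m', rfl⟩ := Nat.exists_eq_add_of_le hm
      have e1 := psum_rec hRm (1 + m')
      rw [sum_range_succ, Nat.sub_self, psum_zero, mul_zero, add_zero] at e1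
      have e2 : (((1 + m' : ℕ)) : ℂ) * cf f (1 + m')
          = ∑ i ∈ range (1 + m'), cf f i * Ssum f (1 + m' - i) := by
        rw [newton]
        refine sum_bij' (fun j _ => 1 + m' - j) (fun i _ => 1 + m' - i) ?_ ?_ ?_ ?_ ?_
        · intro j hj; have := mem_Icc.mp hj; exact mem_range.mpr (by omega)
        · intro i hi; have := mem_range.mp hi; exact mem_Icc.mpr ⟨by omega, by omega⟩
        · intro j hj; have := mem_Icc.mp hj; omega
        · intro i hi; have := mem_range.mp hi; omega
        · intro j hj; have := mem_Icc.mp hj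
          rw [Nat.sub_sub_self this.2, mul_comm]
      have e3 : ∑ i ∈ range (1 + m'), cf f i * (Ssum f (1 + m' - i) + psum R (1 + m' - i)) = 0 := by
        simp only [hrc] at e1
        simp only [mul_add, sum_add_distrib, ← e2, e1]
        ring
      rw [sum_eq_single_of_mem 0 (mem_range.mpr (by omega)) (fun i hi hi0 => by
        rw [ih _ (by omega) (by have := mem_range.mp hi; omega)]; ring), cf_zero, one_mul,
        Nat.sub_zero] at e3
      linear_combination e3
  set s := R.roots with hs
  have hRs : R = (s.map fun z => X - C z).prod :=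
    (IsAlgClosed.splits R).eq_prod_roots_of_monic hRm
  have hps : ∀ m, 1 ≤ m → psum R m = (s.map fun z => z ^ m).sum := fun m hm => by
    conv_lhs => rw [hRs]
    exact psum_prod s hm
  set Cc := (p : ℝ) * (2 * (p * f.natDegree) + 3 : ℕ) with hCc
  have hz := nodes_bounded (s.map fun z => z ^ 2) p Cc hpR ((p * f.natDegree + 2) ^ 2) (fun n hn => by
    have hn1 : 1 ≤ n := le_trans (Nat.one_le_pow _ _ (by omega)) hn
    let _ : Fintype (GaloisField p (2 * n)) := Fintype.ofFinite _
    have hb := trace_sum_bound (K := GaloisField p (2 * n)) f hk1 hk (n := n)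
      (GaloisField.finrank p (by omega)) (hn.trans (Nat.lt_pow_self hp.one_lt).le)
    rw [sum_trace_eq_Ssum, GaloisField.finrank p (by omega), hS _ (by omega), norm_neg,
      hps _ (by omega)] at hb
    simpa [hCc, Multiset.map_map, Function.comp_def, ← pow_mul] using hb)
  have h1 : ∑ x : ZMod p, ZMod.stdAddChar (f.eval x) = -(s.sum) := by
    have h := sum_trace_eq_Ssum (K := ZMod p) f
    rw [Module.finrank_self, hS 1 le_rfl, hps 1 le_rfl] at h
    simpa [Algebra.trace_self_apply, coe_aeval_eq_eval] using h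
  rw [h1, norm_neg]
  refine (norm_multiset_sum_le _).trans ?_
  refine (Multiset.sum_le_card_nsmul _ (Real.sqrt p) fun x hx => ?_).trans ?_
  · obtain ⟨z, hzs, rfl⟩ := Multiset.mem_map.mp hx
    refine Real.le_sqrt_of_sq_le ?_
    have := hz (z ^ 2) (Multiset.mem_map_of_mem _ hzs)
    rwa [norm_pow] at this
  · rw [Multiset.card_map, nsmul_eq_mul, hs, splits_iff_card_roots.mp (IsAlgClosed.splits R), hRd,
      hk']
    push_cast
    rw [add_sub_cancel_left]

omit [Fintype K] [Algebra (ZMod p) K] in
/-- Weil's bound. -/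
theorem weil (f : (ZMod p)[X]) (hk1 : 1 ≤ f.natDegree) :
    ‖∑ x : ZMod p, ZMod.stdAddChar (f.eval x)‖ ≤ (f.natDegree : ℝ) * Real.sqrt p := by
  have hsq : 0 ≤ Real.sqrt (p : ℝ) := Real.sqrt_nonneg _
  by_cases hk : p ∣ f.natDegree
  · have hpk : (p : ℝ) ≤ f.natDegree := by exact_mod_cast Nat.le_of_dvd hk1 hk
    have hp1 : (1 : ℝ) ≤ p := by exact_mod_cast (Fact.out : p.Prime).one_le
    refine (norm_sum_le _ _).trans ?_
    rw [sum_congr rfl fun x _ => AddChar.norm_apply _ _, sum_const, card_univ, ZMod.card,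
      nsmul_eq_mul, mul_one]
    calc (p : ℝ) = Real.sqrt p * Real.sqrt p := (Real.mul_self_sqrt (by linarith)).symm
      _ ≤ _ := mul_le_mul_of_nonneg_right ((Real.sqrt_le_self_iff.mpr (Or.inr hp1)).trans hpk) hsq
  · exact (weil_coprime f hk1 hk).trans (mul_le_mul_of_nonneg_right (by linarith) hsq)

end Vale.Agent.P042.Weil
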