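import Vale.Agent.P042.CurveDim
import Vale.Agent.P042.WeilBound

/-! Degrees and characters of ideals. -/

namespace Vale.Agent.P042.Curve

open Polynomial Finset

set_option linter.unusedSectionVars false
set_option linter.style.haveILetI false

section Additive

variable {F U V W : Type*} [Field F] [AddCommGroup U] [Module F U] [AddCommGroup V] [Module F V]
  [AddCommGroup W] [Module F W]

lemma finrank_exact [Module.Finite F V] (i : U →ₗ[F] V) (q : V →ₗ[F] W) (hi : Function.Injective i)
    (hq : Function.Surjective q) (hiq : LinearMap.range i = LinearMap.ker q) :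
    Module.finrank F V = Module.finrank F U + Module.finrank F W := by
  rw [← q.finrank_range_add_finrank_ker, ← hiq, LinearMap.finrank_range_of_inj hi,
    LinearMap.range_eq_top.mpr hq, finrank_top, add_comm]

lemma trace_exact [Module.Finite F V] (i : U →ₗ[F] V) (q : V →ₗ[F] W) (hi : Function.Injective i)
    (hq : Function.Surjective q) (hiq : LinearMap.range i = LinearMap.ker q)
    (TU : U →ₗ[F] U) (TV : V →ₗ[F] V) (TW : W →ₗ[F] W)
    (h1 : TV ∘ₗ i = i ∘ₗ TU) (h2 : q ∘ₗ TV = TW ∘ₗ q) :
    LinearMap.trace F V TV = LinearMap.trace F U TU + LinearMap.trace F W TW := by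
  haveI : Module.Finite F U := Module.Finite.of_injective i hi
  haveI : Module.Finite F W := Module.Finite.of_surjective q hq
  obtain ⟨s, hs⟩ := q.exists_rightInverse_of_surjective (LinearMap.range_eq_top.mpr hq)
  have hs' : ∀ w, q (s w) = w := fun w => LinearMap.congr_fun hs w
  have hmem : ∀ v, v - s (q v) ∈ LinearMap.range i := fun v => by
    rw [hiq, LinearMap.mem_ker, map_sub, hs', sub_self]
  let r : V →ₗ[F] U := (LinearEquiv.ofInjective i hi).symm.toLinearMap ∘ₗ
    ((LinearMap.id - s ∘ₗ q).codRestrict (LinearMap.range i) hmem)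
  have hir : ∀ v, i (r v) = v - s (q v) := fun v => by
    show i ((LinearEquiv.ofInjective i hi).symm _) = _
    rw [LinearEquiv.ofInjective_symm_apply]
    rfl
  have hri : ∀ u, r (i u) = u := fun u => by
    apply hi
    have : q (i u) = 0 := by
      rw [← LinearMap.mem_ker, ← hiq]; exact LinearMap.mem_range_self i u
    rw [hir, this, map_zero, sub_zero]
  have e : TV = (TV ∘ₗ i) ∘ₗ r + (TV ∘ₗ s) ∘ₗ q := LinearMap.ext fun v => by
    simp only [LinearMap.add_apply, LinearMap.comp_apply, hir, map_sub, sub_add_cancel]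
  conv_lhs => rw [e]
  rw [map_add, LinearMap.trace_comp_comm' r (TV ∘ₗ i), LinearMap.trace_comp_comm' q (TV ∘ₗ s)]
  congr 1
  · congr 1
    rw [h1]
    exact LinearMap.ext fun u => hri (TU u)
  · congr 1
    rw [← LinearMap.comp_assoc, h2]
    exact LinearMap.ext fun w => by simp [LinearMap.comp_apply, hs']

lemma trace_pi {ι : Type*} [Fintype ι] {M : ι → Type*} [∀ i, AddCommGroup (M i)] [∀ i, Module F (M i)]
    [∀ i, Module.Finite F (M i)] (T : ∀ i, M i →ₗ[F] M i) :
    LinearMap.trace F (∀ i, M i) (LinearMap.pi fun i => T i ∘ₗ LinearMap.proj i)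
      = ∑ i, LinearMap.trace F (M i) (T i) := by
  classical
  have e : (LinearMap.pi fun i => T i ∘ₗ LinearMap.proj i : (∀ i, M i) →ₗ[F] ∀ i, M i)
      = ∑ i, (LinearMap.single F M i ∘ₗ T i) ∘ₗ LinearMap.proj i := by
    refine LinearMap.ext fun v => funext fun j => ?_
    simp only [LinearMap.pi_apply, LinearMap.comp_apply, LinearMap.proj_apply, LinearMap.sum_apply,
      LinearMap.single_apply]
    exact (congrFun (Finset.univ_sum_single fun i => T i (v i)) j).symm
  rw [e, map_sum]
  refine sum_congr rfl fun i _ => ?_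
  rw [LinearMap.trace_comp_comm' (LinearMap.proj i) (LinearMap.single F M i ∘ₗ T i)]
  congr 1
  exact LinearMap.ext fun v => by simp

end Additive

section Ideals

variable {F R : Type*} [Field F] [CommRing R] [Algebra F R] [Algebra F[X] R] [IsScalarTower F F[X] R]

/-- The degree of an ideal. -/
noncomputable def dg (F : Type*) {R : Type*} [Field F] [CommRing R] [Algebra F R] (I : Ideal R) : ℕ :=
  Module.finrank F (R ⧸ I)

/-- The trace of the multiplication by `f` on the quotient by an ideal. -/
noncomputable def th (f : F[X]) (I : Ideal R) : F :=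
  LinearMap.trace F (R ⧸ I) (Algebra.lmul F (R ⧸ I) (Ideal.Quotient.mk I (algebraMap F[X] R f)))

lemma dg_top : dg F (⊤ : Ideal R) = 0 := by
  haveI : Subsingleton (R ⧸ (⊤ : Ideal R)) := Ideal.Quotient.subsingleton_iff.mpr rfl
  exact Module.finrank_zero_of_subsingleton

lemma th_top (f : F[X]) : th f (⊤ : Ideal R) = 0 := by
  haveI : Subsingleton (R ⧸ (⊤ : Ideal R)) := Ideal.Quotient.subsingleton_iff.mpr rfl
  rw [th, show Algebra.lmul F (R ⧸ (⊤ : Ideal R)) _ = 0 from LinearMap.ext fun v => Subsingleton.elim _ _,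
    map_zero]

/-- Multiplication by an element, between two quotients. -/
noncomputable def mulQ (F : Type*) {R : Type*} [Field F] [CommRing R] [Algebra F R] (a : R)
    (J K : Ideal R) (h : ∀ b ∈ J, a * b ∈ K) : (R ⧸ J) →ₗ[F] R ⧸ K :=
  LinearMap.restrictScalars F (Submodule.mapQ J K (LinearMap.mulLeft R a) h)

lemma seq_additive (f : F[X]) (I J K : Ideal R) (a : R) [Module.Finite F (R ⧸ K)]
    (hJK : ∀ b, a * b ∈ K ↔ b ∈ J) (hIK : K ⊔ Ideal.span {a} = I) :
    dg F K = dg F J + dg F I ∧ th f K = th f J + th f I := by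
  have hle : K ≤ I := hIK ▸ le_sup_left
  set i := mulQ F a J K (fun b hb => (hJK b).mpr hb) with hi
  set q := (Ideal.Quotient.factorₐ F hle).toLinearMap with hq
  have hiv : ∀ b, i (Ideal.Quotient.mk J b) = Ideal.Quotient.mk K (a * b) := fun b => rfl
  have hqv : ∀ b, q (Ideal.Quotient.mk K b) = Ideal.Quotient.mk I b := fun b => rfl
  have h1 : Function.Injective i := by
    rw [← LinearMap.ker_eq_bot, Submodule.eq_bot_iff]
    intro v hv
    obtain ⟨b, rfl⟩ := Ideal.Quotient.mk_surjective v
    rw [LinearMap.mem_ker, hiv, Ideal.Quotient.eq_zero_iff_mem, hJK] at hv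
    exact Ideal.Quotient.eq_zero_iff_mem.mpr hv
  have h2 : Function.Surjective q := fun v => by
    obtain ⟨b, rfl⟩ := Ideal.Quotient.mk_surjective v
    exact ⟨_, hqv b⟩
  have h3 : LinearMap.range i = LinearMap.ker q := by
    ext v
    obtain ⟨b, rfl⟩ := Ideal.Quotient.mk_surjective v
    rw [LinearMap.mem_ker, hqv, Ideal.Quotient.eq_zero_iff_mem, LinearMap.mem_range]
    constructor
    · rintro ⟨w, hw⟩
      obtain ⟨c, rfl⟩ := Ideal.Quotient.mk_surjective w
      rw [hiv, Ideal.Quotient.eq] at hw
      have := I.sub_mem (hIK ▸ le_sup_right (a := K) (Ideal.mem_span_singleton'.mpr ⟨c, mul_comm c a⟩) :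
        a * c ∈ I) (hle hw)
      simpa using this
    · intro hb
      rw [← hIK, Submodule.mem_sup] at hb
      obtain ⟨y, hy, z, hz, rfl⟩ := hb
      obtain ⟨c, rfl⟩ := Ideal.mem_span_singleton'.mp hz
      refine ⟨Ideal.Quotient.mk J c, ?_⟩
      rw [hiv, Ideal.Quotient.eq, show a * c - (y + c * a) = -y by ring]
      exact K.neg_mem hy
  refine ⟨finrank_exact i q h1 h2 h3, trace_exact i q h1 h2 h3 _ _ _ ?_ ?_⟩
  · refine LinearMap.ext fun v => ?_
    obtain ⟨b, rfl⟩ := Ideal.Quotient.mk_surjective v
    show Ideal.Quotient.mk K _ * i (Ideal.Quotient.mk J b) = i (Ideal.Quotient.mk J _ * Ideal.Quotient.mk J b)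
    rw [← map_mul, hiv, hiv, ← map_mul, mul_left_comm]
  · refine LinearMap.ext fun v => ?_
    obtain ⟨b, rfl⟩ := Ideal.Quotient.mk_surjective v
    show q (Ideal.Quotient.mk K _ * Ideal.Quotient.mk K b) = Ideal.Quotient.mk I _ * q (Ideal.Quotient.mk K b)
    rw [← map_mul, hqv, hqv, map_mul]

variable [IsDedekindDomain R]

lemma ideal_mul_additive (f : F[X]) {I J : Ideal R} (hI : I ≠ ⊥) (hJ : J ≠ ⊥)
    [Module.Finite F (R ⧸ (I * J))] :
    dg F (I * J) = dg F I + dg F J ∧ th f (I * J) = th f I + th f J := by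
  obtain ⟨a, ha⟩ := IsDedekindDomain.exists_sup_span_eq (Ideal.mul_le_left : I * J ≤ I)
    (mul_ne_zero hI hJ)
  have hiff : ∀ b, a * b ∈ I * J ↔ b ∈ J := by
    intro b
    constructor
    · intro h
      have h1 : (I * J ⊔ Ideal.span {a}) * Ideal.span {b} ≤ I * J := by
        rw [Ideal.sup_mul]
        refine sup_le Ideal.mul_le_left ?_
        rw [Ideal.span_singleton_mul_span_singleton, Ideal.span_singleton_le_iff_mem]
        exact h
      rw [ha] at h1
      rw [← Ideal.dvd_iff_le, mul_dvd_mul_iff_left hI, Ideal.dvd_span_singleton] at h1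
      exact h1
    · intro hb
      have : a ∈ I := ha ▸ le_sup_right (a := I * J) (Ideal.mem_span_singleton_self a)
      exact Ideal.mul_mem_mul this hb
  obtain ⟨h1, h2⟩ := seq_additive f I J (I * J) a hiff ha
  exact ⟨h1.trans (add_comm _ _), h2.trans (add_comm _ _)⟩

end Ideals

section Base

variable {p : ℕ} [Fact p.Prime]

/-- The additive character of an ideal. -/
noncomputable def lamI {R : Type*} [CommRing R] [Algebra (ZMod p) R] [Algebra (ZMod p)[X] R]
    (f : (ZMod p)[X]) (I : Ideal R) : ℂ :=
  ZMod.stdAddChar (th f I)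

lemma norm_lamI {R : Type*} [CommRing R] [Algebra (ZMod p) R] [Algebra (ZMod p)[X] R]
    (f : (ZMod p)[X]) (I : Ideal R) : ‖lamI f I‖ = 1 := by
  simp [lamI]

lemma lamI_span (f : (ZMod p)[X]) : ∀ P : (ZMod p)[X], P.Monic →
    lamI f (Ideal.span {P}) = Weil.lam f P := by
  intro P
  induction hn : P.natDegree using Nat.strong_induction_on generalizing P with
  | _ n ih =>
    intro hP
    by_cases h1 : P = 1
    · rw [h1, Ideal.span_singleton_one, lamI, th_top, Weil.lam, Weil.tr_one]
    by_cases hirr : Irreducible P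
    · haveI := Fact.mk hirr
      haveI : Module.Finite (ZMod p) (AdjoinRoot P) := (AdjoinRoot.powerBasis hP.ne_zero).finite
      letI : Fintype (AdjoinRoot P) := @Fintype.ofFinite _ (Module.finite_of_finite (ZMod p))
      have h := (Weil.lam_minpoly (p := p) f (AdjoinRoot.root P)).2
      rw [AdjoinRoot.minpoly_root hP.ne_zero, hP.leadingCoeff, inv_one, map_one, mul_one,
        (AdjoinRoot.powerBasis hP.ne_zero).finrank, AdjoinRoot.powerBasis_dim,
        Nat.div_self hirr.natDegree_pos, pow_one] at h
      rw [h, lamI, th, Algebra.trace_apply]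
      congr 1
      rw [AdjoinRoot.aeval_eq]
      rfl
    · obtain ⟨a, b, ha, hb, hab, ha0, hb0⟩ : ∃ a b : (ZMod p)[X], a.Monic ∧ b.Monic ∧ a * b = P ∧
          a.natDegree < P.natDegree ∧ b.natDegree < P.natDegree := by
        have hd : P.natDegree ≠ 0 := fun h => h1 (hP.natDegree_eq_zero.mp h)
        have hnu : ¬ IsUnit P := fun h => hd (natDegree_eq_zero_of_isUnit h)
        rw [hP.irreducible_iff_natDegree] at hirr
        push Not at hirr
        obtain ⟨a, b, ha, hb, hab, ha1, hb1⟩ := hirr (fun h => h1 h)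
        refine ⟨a, b, ha, hb, hab, ?_, ?_⟩ <;>
          · rw [← hab, ha.natDegree_mul hb]; omega
      haveI : Module.Finite (ZMod p) ((ZMod p)[X] ⧸ Ideal.span {P}) :=
        (AdjoinRoot.powerBasis hP.ne_zero).finite
      have h := (seq_additive f (Ideal.span {a}) (Ideal.span {b}) (Ideal.span {P}) a (fun c => by
        rw [Ideal.mem_span_singleton, Ideal.mem_span_singleton, ← hab, mul_dvd_mul_iff_left ha.ne_zero])
        (by
          rw [sup_eq_right, Ideal.span_singleton_le_span_singleton, ← hab]
          exact dvd_mul_right a b)).2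
      rw [lamI, h, AddChar.map_add_eq_mul, ← lamI, ← lamI, ih _ (hn ▸ hb0) b rfl hb,
        ih _ (hn ▸ ha0) a rfl ha, ← hab, Weil.lam_mul f ha hb, mul_comm]

end Base

section Extension

variable {F L : Type*} [Field F] [Field L] [Algebra F L] [Algebra F[X] L] [IsScalarTower F F[X] L]
  [FaithfulSMul F[X] L]

variable (K : Type*) [Field K] [Algebra F[X] K] [IsFractionRing F[X] K] [Algebra K L]
  [IsScalarTower F[X] K L] [FiniteDimensional K L] [Algebra.IsSeparable K L]

include K in
lemma dedekind' : IsDedekindDomain (integralClosure F[X] L) := IsIntegralClosure.isDedekindDomain F[X] K L (integralClosure F[X] L)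

include K in
lemma exists_basis : ∃ n, Nonempty (Module.Basis (Fin n) F[X] (integralClosure F[X] L)) := by
  haveI := IsIntegralClosure.finite F[X] K L (integralClosure F[X] L)
  haveI : Module.IsTorsionFree F[X] L := Module.isTorsionFree_iff_faithfulSMul.mpr inferInstance
  haveI := IsIntegralClosure.module_free F[X] K L (integralClosure F[X] L)
  exact ⟨_, ⟨Module.finBasis F[X] (integralClosure F[X] L)⟩⟩

include K in
lemma finite_quot {I : Ideal (integralClosure F[X] L)} (hI : I ≠ ⊥) : Module.Finite F ((integralClosure F[X] L) ⧸ I) := by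
  obtain ⟨n, ⟨b⟩⟩ := exists_basis (F := F) (L := L) K
  haveI : ∀ i, Module.Finite F (F[X] ⧸ Ideal.span ({I.smithCoeffs b hI i} : Set F[X])) := fun i =>
    (AdjoinRoot.powerBasis (Ideal.smithCoeffs_ne_zero b I hI i)).finite
  exact Module.Finite.equiv ((I.quotientEquivPiSpan b hI).restrictScalars F).symm

include K in
lemma dg_principal {z : (integralClosure F[X] L)} (hz : z ≠ 0) {P : F[X]} (hP : algebraMap F[X] K P = Algebra.norm K (z : L)) :
    dg F (Ideal.span {z}) = P.natDegree ∧ Associated (Algebra.norm F[X] z) P := by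
  obtain ⟨n, ⟨b⟩⟩ := exists_basis (F := F) (L := L) K
  haveI := dedekind' (F := F) (L := L) K
  haveI := IsIntegralClosure.finite F[X] K L (integralClosure F[X] L)
  haveI : Module.Free F[X] (integralClosure F[X] L) := Module.Free.of_basis b
  haveI : IsFractionRing (integralClosure F[X] L) L := integralClosure.isFractionRing_of_finite_extension K L
  have he : Algebra.norm F[X] z = P := by
    apply IsFractionRing.injective F[X] K
    rw [hP, ← Algebra.intNorm_eq_norm, Algebra.algebraMap_intNorm (L := L)]
    rfl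
  rw [dg, finrank_quotient_span_eq_natDegree_norm b hz, he]
  exact ⟨rfl, Associated.refl _⟩

end Extension

section Principal

variable {p : ℕ} [Fact p.Prime] {L : Type*} [Field L] [Algebra (ZMod p) L] [Algebra (ZMod p)[X] L]
  [IsScalarTower (ZMod p) (ZMod p)[X] L] [FaithfulSMul (ZMod p)[X] L]

variable (K : Type*) [Field K] [Algebra (ZMod p)[X] K] [IsFractionRing (ZMod p)[X] K] [Algebra K L]
  [IsScalarTower (ZMod p)[X] K L] [FiniteDimensional K L] [Algebra.IsSeparable K L]

include K in
lemma lamI_principal (f : (ZMod p)[X]) {z : integralClosure (ZMod p)[X] L} (hz : z ≠ 0)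
    {P : (ZMod p)[X]} (hm : P.Monic) (hP : algebraMap (ZMod p)[X] K P = Algebra.norm K (z : L)) :
    lamI f (Ideal.span {z}) = Weil.lam f P := by
  classical
  obtain ⟨n, ⟨b⟩⟩ := exists_basis (F := ZMod p) (L := L) K
  set I := Ideal.span {z} with hI'
  have hI : I ≠ ⊥ := by rw [hI']; simpa using hz
  set a := I.smithCoeffs b hI with ha
  set A : Fin n → Ideal (ZMod p)[X] := fun i => Ideal.span {a i} with hA
  haveI : ∀ i, Module.Finite (ZMod p) ((ZMod p)[X] ⧸ A i) := fun i =>
    (AdjoinRoot.powerBasis (Ideal.smithCoeffs_ne_zero b I hI i)).finite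
  haveI := finite_quot (F := ZMod p) (L := L) K hI
  set e := I.quotientEquivPiSpan b hI with he
  have h1 : th f I = ∑ i, th f (A i) := by
    simp only [th]
    rw [← trace_pi, ← LinearMap.trace_conj' _ (e.restrictScalars (ZMod p))]
    congr 1
    refine LinearMap.ext fun v => funext fun i => ?_
    obtain ⟨w, rfl⟩ := e.surjective v
    rw [LinearEquiv.conj_apply_apply,
      show (e.restrictScalars (ZMod p)).symm (e w) = w from e.symm_apply_apply w]
    show e (Ideal.Quotient.mk I (algebraMap _ _ f) * w) i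
      = Ideal.Quotient.mk (A i) (algebraMap _ _ f) * e w i
    have hsm : Ideal.Quotient.mk I (algebraMap (ZMod p)[X] _ f) * w = f • w := by
      obtain ⟨c, rfl⟩ := Ideal.Quotient.mk_surjective w
      rw [← map_mul, ← Algebra.smul_def]; rfl
    rw [hsm, map_smul, Pi.smul_apply, Algebra.smul_def]
    rfl
  have hassoc : Associated P (∏ i, a i) := by
    refine ((dg_principal K hz hP).2.symm).trans ?_
    exact associated_norm_prod_smith b hz
  set N : Fin n → (ZMod p)[X] := fun i => normalize (a i) with hN
  have hNm : ∀ i, (N i).Monic := fun i =>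
    Polynomial.monic_normalize (Ideal.smithCoeffs_ne_zero b I hI i)
  have hNA : ∀ i, A i = Ideal.span {N i} := fun i =>
    (Ideal.span_singleton_eq_span_singleton.mpr (normalize_associated (a i))).symm
  have hPN : P = ∏ i, N i := by
    refine eq_of_monic_of_associated hm (monic_prod_of_monic _ _ fun i _ => hNm i) ?_
    exact hassoc.trans (Associated.prod univ _ _ fun i _ => (normalize_associated (a i)).symm)
  have hprod : ∀ s : Finset (Fin n), Weil.lam f (∏ i ∈ s, N i) = ∏ i ∈ s, Weil.lam f (N i) := by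
    intro s
    induction s using Finset.induction with
    | empty => simp [Weil.lam, Weil.tr_one]
    | insert i s hi ih =>
      rw [prod_insert hi, prod_insert hi, Weil.lam_mul f (hNm i) (monic_prod_of_monic _ _ fun i _ => hNm i),
        ih]
  have hψ : ∀ s : Finset (Fin n), ZMod.stdAddChar (∑ i ∈ s, th f (A i)) = ∏ i ∈ s, lamI f (A i) := by
    intro s
    induction s using Finset.induction with
    | empty => simp
    | insert i s hi ih => rw [sum_insert hi, prod_insert hi, AddChar.map_add_eq_mul, ih]; rfl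
  rw [lamI, h1, hψ, hPN, hprod]
  exact prod_congr rfl fun i _ => by rw [hNA i, lamI_span f _ (hNm i)]

end Principal

end Vale.Agent.P042.Curve
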