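import Vale.Agent.P042.CurveIdeal

/-! Polynomiality of the L-function of an exponential sum on a curve, by counting lattice points. -/

namespace Vale.Agent.P042.Curve

open Polynomial Finset

set_option linter.unusedSectionVars false
set_option linter.style.haveILetI false

section Shift

variable {p : ℕ} [Fact p.Prime]

lemma tr_shift (f : (ZMod p)[X]) {k : ℕ} (hk : f.natDegree = k) (hk1 : 1 ≤ k) {g g' : (ZMod p)[X]}
    {m : ℕ} (hkm : k ≤ m) (hg : (g - X ^ m).degree < (m : WithBot ℕ)) {c : ZMod p}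
    (hgg : (g' - g - C c * X ^ (m - k)).degree < ((m - k : ℕ) : WithBot ℕ)) :
    g.Monic ∧ g.natDegree = m ∧ g'.Monic ∧ g'.natDegree = m ∧
      Weil.tr f g' = Weil.tr f g - (k : ZMod p) * c * f.leadingCoeff := by
  have hgm : g.Monic := by
    have := monic_X_pow_add hg
    rwa [add_sub_cancel] at this
  have hg2 : g.natDegree = m := by
    rw [show g = X ^ m + (g - X ^ m) by ring]
    refine natDegree_eq_of_degree_eq_some ?_
    rw [degree_add_eq_left_of_degree_lt] <;> rw [degree_X_pow]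
    exact hg
  have hlow : (g' - g).degree < g.degree := by
    rw [degree_eq_natDegree hgm.ne_zero, hg2,
      show g' - g = (g' - g - C c * X ^ (m - k)) + C c * X ^ (m - k) by ring]
    refine lt_of_le_of_lt (degree_add_le _ _) (max_lt (lt_of_lt_of_le hgg ?_)
      (lt_of_le_of_lt (degree_C_mul_X_pow_le _ _) ?_))
    · exact WithBot.coe_le_coe.mpr (Nat.sub_le m k)
    · exact WithBot.coe_lt_coe.mpr (show m - k < m by omega)
  have hm' : g'.Monic := by
    have := hgm.add_of_left hlow; rwa [add_sub_cancel] at this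
  have hd' : g'.natDegree = m := by
    rw [← hg2]
    have := natDegree_eq_of_degree_eq (degree_add_eq_left_of_degree_lt hlow)
    rwa [add_sub_cancel] at this
  refine ⟨hgm, hg2, hm', hd', ?_⟩
  have hrc : ∀ i ≤ k, Weil.rc g' i = Weil.rc g i + (if i = k then c else 0) := by
    intro i hi
    rw [Weil.rc, Weil.rc, coeff_reverse, coeff_reverse, hd', hg2, revAt_le (by omega)]
    have h0 : (g' - g - C c * X ^ (m - k)).coeff (m - i) = 0 :=
      (degree_lt_iff_coeff_zero _ _).mp hgg (m - i) (by omega)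
    rw [coeff_sub, coeff_sub, coeff_C_mul_X_pow] at h0
    split_ifs at h0 ⊢ with h1 h2 h3 <;> first
      | omega
      | linear_combination h0
  have hps : ∀ i ≤ k, Weil.psum g' i = Weil.psum g i + (if i = k then -((k : ZMod p) * c) else 0) := by
    intro j
    induction j using Nat.strong_induction_on with
    | _ j ih =>
      intro hj
      rw [Weil.psum_step hm', Weil.psum_step hgm, hrc j hj]
      have hs : ∑ i ∈ Icc 1 j, Weil.rc g' i * Weil.psum g' (j - i)
          = ∑ i ∈ Icc 1 j, Weil.rc g i * Weil.psum g (j - i) := by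
        refine sum_congr rfl fun i hi => ?_
        obtain ⟨hi1, hi2⟩ := mem_Icc.mp hi
        rw [hrc i (by omega), ih (j - i) (by omega) (by omega), if_neg (show ¬ j - i = k by omega),
          add_zero]
        rcases eq_or_ne i k with rfl | hne
        · rw [show j - i = 0 by omega, Weil.psum_zero, mul_zero, mul_zero]
        · rw [if_neg hne, add_zero]
      rw [hs]
      split_ifs with h <;> [subst h; skip] <;> ring
  rw [Weil.tr, Weil.tr, hd', hg2, hk]
  have e : ∑ i ∈ Icc 1 k, f.coeff i * Weil.psum g' i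
      = ∑ i ∈ Icc 1 k, f.coeff i * Weil.psum g i + f.coeff k * -((k : ZMod p) * c) := by
    rw [sum_congr rfl fun i hi => by rw [hps i (mem_Icc.mp hi).2, mul_add], sum_add_distrib]
    congr 1
    rw [sum_eq_single_of_mem k (mem_Icc.mpr ⟨hk1, le_rfl⟩) (fun b _ hb => by
      rw [if_neg hb, mul_zero]), if_pos rfl]
  rw [e, leadingCoeff, hk]
  ring

end Shift

variable {p : ℕ} [Fact p.Prime] {L : Type*} [Field L] [Algebra (ZMod p) L] [Algebra (ZMod p)[X] L]
  [IsScalarTower (ZMod p) (ZMod p)[X] L] [FaithfulSMul (ZMod p)[X] L]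

/-- The elements of an ideal, inside the field. -/
noncomputable def Wof (I : Ideal (integralClosure (ZMod p)[X] L)) : Submodule (ZMod p) L :=
  (I.restrictScalars (ZMod p)).map ((integralClosure (ZMod p)[X] L).val.restrictScalars (ZMod p)).toLinearMap

lemma mem_Wof {I : Ideal (integralClosure (ZMod p)[X] L)} {w : L} : w ∈ Wof I ↔ ∃ b ∈ I, (b : L) = w := Iff.rfl

/-- Reduction of bounded elements modulo an ideal. -/
noncomputable def redI (I : Ideal (integralClosure (ZMod p)[X] L)) (n : ℕ) : lt (ZMod p) L n →ₗ[ZMod p] (integralClosure (ZMod p)[X] L) ⧸ I where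
  toFun v := Ideal.Quotient.mk I ⟨v, v.2.1⟩
  map_add' a b := by rw [← map_add]; rfl
  map_smul' c a := by
    show Ideal.Quotient.mk I ⟨(c • a : lt (ZMod p) L n), _⟩ = c • Ideal.Quotient.mk I _
    rw [← Ideal.Quotient.mkₐ_eq_mk (ZMod p), ← map_smul]
    rfl

variable (K : Type*) [Field K] [Algebra (ZMod p)[X] K] [IsFractionRing (ZMod p)[X] K] [Algebra K L]
  [IsScalarTower (ZMod p)[X] K L] [FiniteDimensional K L] [Algebra.IsSeparable K L]

include K in
lemma finrank_ker_redI (I : Ideal (integralClosure (ZMod p)[X] L)) (n : ℕ) :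
    Module.finrank (ZMod p) (LinearMap.ker (redI I n))
      = Module.finrank (ZMod p) ↥(Wof I ⊓ lt (ZMod p) L n) := by
  have e : (LinearMap.ker (redI I n)).map (lt (ZMod p) L n).subtype = Wof I ⊓ lt (ZMod p) L n := by
    ext w
    constructor
    · rintro ⟨v, hv, rfl⟩
      exact ⟨mem_Wof.mpr ⟨⟨v, v.2.1⟩, Ideal.Quotient.eq_zero_iff_mem.mp hv, rfl⟩, v.2⟩
    · rintro ⟨hw, hn⟩
      obtain ⟨b, hb, rfl⟩ := mem_Wof.mp hw
      exact ⟨⟨b, hn⟩, Ideal.Quotient.eq_zero_iff_mem.mpr hb, rfl⟩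
  rw [← e]
  exact (Submodule.equivMapOfInjective _ (lt (ZMod p) L n).injective_subtype _).finrank_eq

variable {c₀ : ℕ} (hc₀ : ∀ n, Module.finrank K L * n ≤ Module.finrank (ZMod p) (lt (ZMod p) L n) + c₀)

include K in
lemma dg_le_of_mem {I : Ideal (integralClosure (ZMod p)[X] L)} {z : (integralClosure (ZMod p)[X] L)} (hz : z ≠ 0) (hzI : z ∈ I) {d : ℕ}
    (hd : (z : L) ∈ lt (ZMod p) L (d + 1)) : dg (ZMod p) I ≤ Module.finrank K L * d := by
  haveI := dedekind' (F := ZMod p) (L := L) K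
  obtain ⟨P, hP, hPd⟩ := norm_deg K hd
  obtain ⟨J, hJ⟩ := Ideal.dvd_iff_le.mpr ((Ideal.span_singleton_le_iff_mem I).mpr hzI)
  have hne : I * J ≠ ⊥ := by rw [← hJ]; simpa using hz
  haveI := finite_quot (F := ZMod p) (L := L) K hne
  have h := (ideal_mul_additive (0 : (ZMod p)[X]) (mul_ne_zero_iff.mp hne).1 (mul_ne_zero_iff.mp hne).2).1
  rw [← hJ, (dg_principal K hz hP).1] at h
  omega

include hc₀ in
lemma ideal_top {I : Ideal (integralClosure (ZMod p)[X] L)} (hI : I ≠ ⊥) {j : ℕ}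
    (hj : c₀ + dg (ZMod p) I / Module.finrank K L + Module.finrank K L ≤ j) :
    lt (ZMod p) L (j + 1) ≤ (Wof I ⊓ lt (ZMod p) L (j + 1)) ⊔ lt (ZMod p) L j := by
  haveI := finite_quot (F := ZMod p) (L := L) K hI
  haveI := fun m => (lt_finite (F := ZMod p) (L := L) K m).1
  set δ := Module.finrank K L with hδ
  set N := dg (ZMod p) I with hN
  have hδ0 : 0 < δ := Module.finrank_pos
  refine top_full (F := ZMod p) (L := L) K (Wof I) ?_ ?_ (e := c₀ + N) (d₀ := N / δ) ?_
    (by omega) ?_ ?_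
  · intro w hw
    obtain ⟨b, hb, rfl⟩ := mem_Wof.mp hw
    exact mem_Wof.mpr ⟨algebraMap (ZMod p)[X] (integralClosure (ZMod p)[X] L) X * b, I.mul_mem_left _ hb, rfl⟩
  · intro w hw
    obtain ⟨b, -, rfl⟩ := mem_Wof.mp hw
    exact b.2
  · rw [Submodule.eq_bot_iff]
    rintro w ⟨hw, hd⟩
    obtain ⟨b, hb, rfl⟩ := mem_Wof.mp hw
    by_contra hb0
    rcases Nat.eq_zero_or_pos (N / δ) with h0 | h0
    · rw [h0, lt_zero (F := ZMod p) (L := L) K] at hd
      exact hb0 hd
    · have h := dg_le_of_mem K (I := I) (fun h => hb0 (by rw [h]; rfl)) hb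
        (d := N / δ - 1) (by rwa [Nat.sub_add_cancel h0])
      rw [← hδ, ← hN, Nat.mul_sub, Nat.mul_one] at h
      have := Nat.mul_div_le N δ
      have : δ ≤ δ * (N / δ) := Nat.le_mul_of_pos_right _ h0
      omega
  · have h1 := (redI I (j + 1)).finrank_range_add_finrank_ker
    rw [finrank_ker_redI K] at h1
    have h2 := (LinearMap.range (redI I (j + 1))).finrank_le
    have h3 := hc₀ (j + 1)
    rw [hN, dg] at *
    rw [← hδ] at *
    omega
  · have h1 := Nat.div_add_mod N δ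
    have h2 := Nat.mod_lt N hδ0
    obtain ⟨r, hr⟩ : ∃ r, δ = r + 1 := ⟨δ - 1, by omega⟩
    have h3 : δ * (N / δ) = r * (N / δ) + N / δ := by
      generalize N / δ = q; rw [hr]; ring
    rw [← hδ, show δ - 1 = r by omega]
    omega

include hc₀ in
lemma redI_surj {I : Ideal (integralClosure (ZMod p)[X] L)} (hI : I ≠ ⊥) {m : ℕ}
    (hm : c₀ + dg (ZMod p) I / Module.finrank K L + Module.finrank K L ≤ m) :
    Function.Surjective (redI I m) ∧
      Module.finrank (ZMod p) ↥(Wof I ⊓ lt (ZMod p) L m) + dg (ZMod p) I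
        = Module.finrank (ZMod p) (lt (ZMod p) L m) := by
  haveI := fun j => (lt_finite (F := ZMod p) (L := L) K j).1
  have hdown : ∀ j, ∀ b : (integralClosure (ZMod p)[X] L), (b : L) ∈ lt (ZMod p) L j → ∃ v, redI I m v = Ideal.Quotient.mk I b := by
    intro j
    induction j using Nat.strong_induction_on with
    | _ j ih =>
      intro b hb
      by_cases hjm : j ≤ m
      · exact ⟨⟨b, lt_mono hjm hb⟩, rfl⟩
      obtain ⟨i, rfl⟩ : ∃ i, j = i + 1 := ⟨j - 1, by omega⟩
      obtain ⟨w, hw, l, hl, hwl⟩ := Submodule.mem_sup.mp (ideal_top K hc₀ hI (j := i) (by omega) hb)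
      obtain ⟨b', hb', rfl⟩ := mem_Wof.mp hw.1
      obtain ⟨v, hv⟩ := ih i (Nat.lt_succ_self i) ⟨l, hl.1⟩ hl
      refine ⟨v, hv.trans ?_⟩
      rw [Ideal.Quotient.eq]
      have : (⟨l, hl.1⟩ : (integralClosure (ZMod p)[X] L)) - b = -b' := Subtype.ext (by
        show l - (b : L) = -(b' : L)
        rw [← hwl]; ring)
      rw [this]; exact I.neg_mem hb'
  have hsurj : Function.Surjective (redI I m) := fun v => by
    obtain ⟨b, rfl⟩ := Ideal.Quotient.mk_surjective v
    obtain ⟨j, hj⟩ := exists_mem b.2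
    exact hdown j b hj
  refine ⟨hsurj, ?_⟩
  have h1 := (redI I m).finrank_range_add_finrank_ker
  rw [finrank_ker_redI K, LinearMap.range_eq_top.mpr hsurj, finrank_top] at h1
  rw [dg]; omega

include K in
lemma finite_ideals (n : ℕ) : {I : Ideal (integralClosure (ZMod p)[X] L) | I ≠ ⊥ ∧ dg (ZMod p) I ≤ n}.Finite := by
  classical
  have hpoly : {P : (ZMod p)[X] | P ≠ 0 ∧ P.natDegree ≤ n}.Finite := by
    haveI : Fintype (degreeLT (ZMod p) (n + 1)) := Fintype.ofEquiv _ (degreeLTEquiv (ZMod p) (n + 1)).toEquiv.symm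
    refine (Set.finite_range (fun P : degreeLT (ZMod p) (n + 1) => (P : (ZMod p)[X]))).subset ?_
    rintro P ⟨h0, hP⟩
    exact ⟨⟨P, mem_degreeLT.mpr (lt_of_le_of_lt degree_le_natDegree
      (WithBot.coe_lt_coe.mpr (show P.natDegree < n + 1 by omega)))⟩, rfl⟩
  refine (hpoly.biUnion (t := fun P => {I : Ideal (integralClosure (ZMod p)[X] L) | Ideal.span {algebraMap (ZMod p)[X] (integralClosure (ZMod p)[X] L) P} ≤ I})
    ?_).subset ?_
  · rintro P ⟨hP, -⟩
    set J := Ideal.span {algebraMap (ZMod p)[X] (integralClosure (ZMod p)[X] L) P} with hJ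
    have hJ0 : J ≠ ⊥ := by
      rw [hJ, Ne, Ideal.span_singleton_eq_bot]
      exact fun h => hP (FaithfulSMul.algebraMap_injective (ZMod p)[X] L
        ((congrArg Subtype.val h).trans (map_zero _).symm))
    haveI := finite_quot (F := ZMod p) (L := L) K hJ0
    haveI : Finite ((integralClosure (ZMod p)[X] L) ⧸ J) := Module.finite_of_finite (ZMod p)
    haveI : Finite (Ideal ((integralClosure (ZMod p)[X] L) ⧸ J)) := Finite.of_injective (fun A => (A : Set ((integralClosure (ZMod p)[X] L) ⧸ J))) SetLike.coe_injective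
    refine Set.Finite.subset (Set.finite_range (Ideal.comap (Ideal.Quotient.mk J))) ?_
    intro I hI
    refine ⟨I.map (Ideal.Quotient.mk J), ?_⟩
    rw [Ideal.comap_map_of_surjective _ Ideal.Quotient.mk_surjective, ← RingHom.ker_eq_comap_bot,
      Ideal.mk_ker, sup_eq_left]
    exact hI
  · rintro I ⟨hI, hdg⟩
    haveI := finite_quot (F := ZMod p) (L := L) K hI
    have hdep : ¬ LinearIndependent (ZMod p)
        fun i : Fin (n + 1) => Ideal.Quotient.mk I (algebraMap (ZMod p)[X] (integralClosure (ZMod p)[X] L) (X ^ (i : ℕ))) := by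
      intro h
      have := h.fintype_card_le_finrank
      rw [Fintype.card_fin] at this
      rw [dg] at hdg; omega
    obtain ⟨c, hc, i, hi⟩ := Fintype.not_linearIndependent_iff.mp hdep
    set P : (ZMod p)[X] := ∑ j : Fin (n + 1), C (c j) * X ^ (j : ℕ) with hP
    have hPc : ∀ j : Fin (n + 1), P.coeff j = c j := fun j => by
      rw [hP, finsetSum_coeff, sum_eq_single j (fun b _ hb => by
        rw [coeff_C_mul_X_pow, if_neg (fun h => hb (Fin.ext h.symm))])
        (fun h => absurd (mem_univ j) h), coeff_C_mul_X_pow, if_pos rfl]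
    refine Set.mem_biUnion (x := P) ⟨fun h => hi ?_, ?_⟩ ?_
    · rw [← hPc, h, coeff_zero]
    · exact natDegree_sum_le_of_forall_le _ _ fun j _ =>
        (natDegree_C_mul_X_pow_le _ _).trans (by omega)
    · show Ideal.span {algebraMap (ZMod p)[X] (integralClosure (ZMod p)[X] L) P} ≤ I
      rw [Ideal.span_singleton_le_iff_mem, ← Ideal.Quotient.eq_zero_iff_mem, ← hc, hP, map_sum, map_sum]
      refine sum_congr rfl fun j _ => ?_
      rw [map_mul, ← Polynomial.algebraMap_eq, ← IsScalarTower.algebraMap_apply, ← Algebra.smul_def,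
        ← Ideal.Quotient.mkₐ_eq_mk (ZMod p), map_smul]

/-- The ideals of a given degree. -/
noncomputable def Idl (L : Type*) [Field L] [Algebra (ZMod p) L] [Algebra (ZMod p)[X] L]
    [IsScalarTower (ZMod p) (ZMod p)[X] L] (n : ℕ) : Finset (Ideal (integralClosure (ZMod p)[X] L)) :=
  open Classical in
  if h : {I : Ideal (integralClosure (ZMod p)[X] L) | I ≠ ⊥ ∧ dg (ZMod p) I ≤ n}.Finite
  then h.toFinset.filter (fun I => dg (ZMod p) I = n) else ∅

include K in
lemma mem_Idl {n : ℕ} {I : Ideal (integralClosure (ZMod p)[X] L)} : I ∈ Idl (p := p) L n ↔ I ≠ ⊥ ∧ dg (ZMod p) I = n := by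
  classical
  rw [Idl, dif_pos (finite_ideals K n), mem_filter, Set.Finite.mem_toFinset]
  exact ⟨fun h => ⟨h.1.1, h.2⟩, fun h => ⟨⟨h.1, h.2.le⟩, h.2⟩⟩

/-- The coefficients of the L-function. -/
noncomputable def cfI (L : Type*) [Field L] [Algebra (ZMod p) L] [Algebra (ZMod p)[X] L]
    [IsScalarTower (ZMod p) (ZMod p)[X] L] (f : (ZMod p)[X]) (n : ℕ) : ℂ :=
  ∑ I ∈ Idl (p := p) L n, lamI f I

/-- Elements with leading term `x ^ D`. -/
noncomputable def Zset (L : Type*) [Field L] [Algebra (ZMod p) L] [Algebra (ZMod p)[X] L]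
    [IsScalarTower (ZMod p) (ZMod p)[X] L] (D : ℕ) : Finset (integralClosure (ZMod p)[X] L) :=
  open Classical in
  if h : {z : integralClosure (ZMod p)[X] L | (z : L) - xx (ZMod p) L ^ D ∈ lt (ZMod p) L D}.Finite
  then h.toFinset else ∅

include K in
lemma mem_Zset {D : ℕ} {z : (integralClosure (ZMod p)[X] L)} :
    z ∈ Zset (p := p) L D ↔ (z : L) - xx (ZMod p) L ^ D ∈ lt (ZMod p) L D := by
  classical
  haveI := (lt_finite (F := ZMod p) (L := L) K D).1
  haveI : Finite (lt (ZMod p) L D) := Module.finite_of_finite (ZMod p)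
  have hfin : {z : (integralClosure (ZMod p)[X] L) | (z : L) - xx (ZMod p) L ^ D ∈ lt (ZMod p) L D}.Finite := by
    refine Set.Finite.of_injOn (t := (lt (ZMod p) L D : Set L)) (f := fun z : (integralClosure (ZMod p)[X] L) => (z : L) - xx (ZMod p) L ^ D)
      (fun z hz => hz) (fun a _ b _ h => Subtype.ext (sub_left_inj.mp h)) (Set.toFinite _)
  rw [Zset, dif_pos hfin, Set.Finite.mem_toFinset]
  rfl

include K in
lemma zset_norm {D : ℕ} {z : (integralClosure (ZMod p)[X] L)} (hz : z ∈ Zset (p := p) L D) :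
    z ≠ 0 ∧ ∃ P : (ZMod p)[X], algebraMap (ZMod p)[X] K P = Algebra.norm K (z : L) ∧ P.Monic ∧
      P.natDegree = Module.finrank K L * D := by
  rw [mem_Zset K] at hz
  have hz' : (z : L) - xx (ZMod p) L ^ (D + 1 - 1) ∈ lt (ZMod p) L (D + 1 - 1) := hz
  have hne : z ≠ 0 := by
    intro h
    rw [h, ZeroMemClass.coe_zero, zero_sub, Submodule.neg_mem_iff, xx, ← map_pow] at hz
    have := degree_lt_of_mem hz
    rw [degree_X_pow] at this
    exact lt_irrefl _ this
  refine ⟨hne, ?_⟩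
  rcases Nat.eq_zero_or_pos D with rfl | hD
  · rw [lt_zero (F := ZMod p) (L := L) K, Submodule.mem_bot, pow_zero, sub_eq_zero] at hz
    exact ⟨1, by rw [hz, map_one, map_one], monic_one, by simp⟩
  · obtain ⟨j, rfl⟩ : ∃ j, D = j + 1 := ⟨D - 1, by omega⟩
    obtain ⟨P, -, hP, -, hd, -⟩ := norm_shift K (k := 1) le_rfl (c := 0) (u := 0) hz
      (by simp)
    refine ⟨P, hP, ?_, ?_⟩
    · have := monic_X_pow_add hd
      rwa [add_sub_cancel] at this
    · rw [show P = X ^ (Module.finrank K L * (j + 1)) + (P - X ^ (Module.finrank K L * (j + 1))) by ring]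
      refine natDegree_eq_of_degree_eq_some ?_
      rw [degree_add_eq_left_of_degree_lt] <;> rw [degree_X_pow]
      exact hd

include hc₀ in
open Classical in
lemma card_zset_ideal {I : Ideal (integralClosure (ZMod p)[X] L)} (hI : I ≠ ⊥) {D : ℕ}
    (hD : c₀ + dg (ZMod p) I / Module.finrank K L + Module.finrank K L ≤ D) :
    ((Zset (p := p) L D).filter (· ∈ I)).card * p ^ dg (ZMod p) I
      = p ^ Module.finrank (ZMod p) (lt (ZMod p) L D) := by
  haveI := (lt_finite (F := ZMod p) (L := L) K D).1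
  haveI : Module.Finite (ZMod p) ↥(Wof I ⊓ lt (ZMod p) L D) := Submodule.finiteDimensional_of_le inf_le_right
  haveI : Finite ↥(Wof I ⊓ lt (ZMod p) L D) := Module.finite_of_finite (ZMod p)
  have hxD : xx (ZMod p) L ^ D ∈ lt (ZMod p) L (D + 1) := by
    rw [xx, ← map_pow]; exact algebraMap_mem (by rw [degree_X_pow]; exact_mod_cast Nat.lt_succ_self D)
  obtain ⟨w, hw, l, hl, hwl⟩ := Submodule.mem_sup.mp (ideal_top K hc₀ hI hD hxD)
  obtain ⟨b₀, hb₀, rfl⟩ := mem_Wof.mp hw.1
  have hb0l : (b₀ : L) - xx (ZMod p) L ^ D ∈ lt (ZMod p) L D := by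
    rw [← hwl, sub_add_cancel_left]; exact Submodule.neg_mem _ hl
  let e : ↥(Wof I ⊓ lt (ZMod p) L D) ≃ ↥((Zset (p := p) L D).filter (· ∈ I)) :=
    { toFun := fun w => ⟨b₀ + ⟨w, w.2.2.1⟩, mem_filter.mpr ⟨(mem_Zset K).mpr (by
        rw [AddMemClass.coe_add, add_sub_right_comm]; exact Submodule.add_mem _ hb0l w.2.2), by
        obtain ⟨b, hb, hbw⟩ := mem_Wof.mp w.2.1
        rw [show (⟨(w : L), w.2.2.1⟩ : (integralClosure (ZMod p)[X] L)) = b from Subtype.ext hbw.symm]
        exact I.add_mem hb₀ hb⟩⟩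
      invFun := fun z => ⟨((z : (integralClosure (ZMod p)[X] L)) : L) - b₀, mem_Wof.mpr ⟨(z : (integralClosure (ZMod p)[X] L)) - b₀,
        I.sub_mem (mem_filter.mp z.2).2 hb₀, rfl⟩, by
        rw [← sub_sub_sub_cancel_right _ _ (xx (ZMod p) L ^ D)]
        exact Submodule.sub_mem _ ((mem_Zset K).mp (mem_filter.mp z.2).1) hb0l⟩
      left_inv := fun w => Subtype.ext (by simp)
      right_inv := fun z => Subtype.ext (Subtype.ext (by simp)) }
  rw [← Nat.card_eq_finsetCard, ← Nat.card_congr e, Module.natCard_eq_pow_finrank (K := ZMod p),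
    Nat.card_zmod, ← pow_add, (redI_surj K hc₀ hI hD).2]

include hc₀ in
open Classical in
/-- The basic reciprocity between ideals of complementary degree. -/
lemma reciprocity (f : (ZMod p)[X]) {n m D : ℕ} (hnm : n + m = Module.finrank K L * D) :
    ∑ I ∈ Idl (p := p) L n, lamI f I * (((Zset (p := p) L D).filter (· ∈ I)).card : ℂ)
      = ∑ J ∈ Idl (p := p) L m, (lamI f J)⁻¹ * ∑ z ∈ (Zset (p := p) L D).filter (· ∈ J), lamI f (Ideal.span {z}) := by
  haveI := dedekind' (F := ZMod p) (L := L) K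
  simp only [← nsmul_eq_mul', ← sum_const, mul_sum]
  rw [sum_sigma', sum_sigma']
  have key : ∀ (a b : ℕ), a + b = Module.finrank K L * D → ∀ I ∈ Idl (p := p) L a, ∀ z ∈ (Zset (p := p) L D).filter (· ∈ I),
      ∃ J, Ideal.span {z} = I * J ∧ J ∈ Idl (p := p) L b ∧ z ∈ J ∧
        lamI f (Ideal.span {z}) = lamI f I * lamI f J := by
    intro a b hab I hI z hz
    obtain ⟨hz, hzI⟩ := mem_filter.mp hz
    obtain ⟨hz0, P, hP, -, hPd⟩ := zset_norm K hz
    obtain ⟨J, hJ⟩ := Ideal.dvd_iff_le.mpr ((Ideal.span_singleton_le_iff_mem I).mpr hzI)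
    have hne : I * J ≠ ⊥ := by rw [← hJ]; simpa using hz0
    haveI := finite_quot (F := ZMod p) (L := L) K hne
    obtain ⟨h1, h2⟩ := ideal_mul_additive f (mul_ne_zero_iff.mp hne).1 (mul_ne_zero_iff.mp hne).2
    rw [← hJ, (dg_principal K hz0 hP).1, hPd] at h1
    refine ⟨J, hJ, (mem_Idl K).mpr ⟨(mul_ne_zero_iff.mp hne).2, ?_⟩, ?_, ?_⟩
    · rw [((mem_Idl K).mp hI).2] at h1; omega
    · exact Ideal.mul_le_right (J := J) (I := I) (hJ ▸ Ideal.mem_span_singleton_self z)
    · rw [hJ, lamI, h2, AddChar.map_add_eq_mul]; rfl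
  choose! Jof h1 h2 h3 h4 using key
  refine sum_bij' (fun v _ => ⟨Jof n m v.1 v.2, v.2⟩) (fun v _ => ⟨Jof m n v.1 v.2, v.2⟩) ?_ ?_ ?_ ?_ ?_
  · intro v hv
    obtain ⟨hI, hz⟩ := mem_sigma.mp hv
    exact mem_sigma.mpr ⟨h2 n m hnm _ hI _ hz, mem_filter.mpr ⟨(mem_filter.mp hz).1, h3 n m hnm _ hI _ hz⟩⟩
  · intro v hv
    obtain ⟨hI, hz⟩ := mem_sigma.mp hv
    exact mem_sigma.mpr ⟨h2 m n (by omega) _ hI _ hz,
      mem_filter.mpr ⟨(mem_filter.mp hz).1, h3 m n (by omega) _ hI _ hz⟩⟩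
  · intro v hv
    obtain ⟨hI, hz⟩ := mem_sigma.mp hv
    have hz' : v.2 ∈ (Zset (p := p) L D).filter (· ∈ Jof n m v.1 v.2) :=
      mem_filter.mpr ⟨(mem_filter.mp hz).1, h3 n m hnm _ hI _ hz⟩
    have hJ := h2 n m hnm _ hI _ hz
    refine Sigma.ext ?_ (by rfl)
    refine mul_left_cancel₀ ((mem_Idl K).mp hJ).1 ?_
    rw [← h1 m n (by omega) _ hJ _ hz', h1 n m hnm _ hI _ hz, mul_comm]
  · intro v hv
    obtain ⟨hI, hz⟩ := mem_sigma.mp hv
    have hz' : v.2 ∈ (Zset (p := p) L D).filter (· ∈ Jof m n v.1 v.2) :=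
      mem_filter.mpr ⟨(mem_filter.mp hz).1, h3 m n (by omega) _ hI _ hz⟩
    have hJ := h2 m n (by omega) _ hI _ hz
    refine Sigma.ext ?_ (by rfl)
    refine mul_left_cancel₀ ((mem_Idl K).mp hJ).1 ?_
    rw [← h1 n m hnm _ hJ _ hz', h1 m n (by omega) _ hI _ hz, mul_comm]
  · intro v hv
    obtain ⟨hI, hz⟩ := mem_sigma.mp hv
    rw [h4 n m hnm _ hI _ hz]
    have hne : lamI f (Jof n m v.1 v.2) ≠ 0 := fun h => by simpa [h] using norm_lamI f (Jof n m v.1 v.2)
    field_simp

include hc₀ in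
theorem cfI_vanish (f : (ZMod p)[X]) {k : ℕ} (hk : f.natDegree = k) (hk1 : 1 ≤ k) (hpk : ¬ p ∣ k)
    (hpδ : ¬ p ∣ Module.finrank K L) {n : ℕ}
    (hn : Module.finrank K L * (k + c₀ + Module.finrank K L) ≤ n) : cfI (p := p) L f n = 0 := by
  classical
  haveI := dedekind' (F := ZMod p) (L := L) K
  set δ := Module.finrank K L with hδ
  have hδ0 : 0 < δ := Module.finrank_pos
  set D := n + c₀ + δ + k with hD
  have hnD : n ≤ δ * D := le_trans (by omega) (Nat.le_mul_of_pos_left D hδ0)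
  set m := δ * D - n with hm
  have hdiv : n / δ ≤ n := Nat.div_le_self n δ
  have h1 : ∀ I ∈ Idl (p := p) L n, ((Zset (p := p) L D).filter (· ∈ I)).card * p ^ n
      = p ^ Module.finrank (ZMod p) (lt (ZMod p) L D) := by
    intro I hI
    obtain ⟨hI0, hIn⟩ := (mem_Idl K).mp hI
    have := card_zset_ideal K hc₀ hI0 (D := D) (by rw [hIn, ← hδ]; omega)
    rwa [hIn] at this
  have h2 : ∀ J ∈ Idl (p := p) L m, ∑ z ∈ (Zset (p := p) L D).filter (· ∈ J), lamI f (Ideal.span {z}) = 0 := by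
    intro J hJ
    obtain ⟨hJ0, hJm⟩ := (mem_Idl K).mp hJ
    have hcond : c₀ + dg (ZMod p) J / δ + δ ≤ D - k := by
      have : m / δ + (k + c₀ + δ) ≤ D := by
        have h3 : m + δ * (k + c₀ + δ) ≤ δ * D := by omega
        have h4 := Nat.div_le_div_right (c := δ) h3
        rwa [Nat.add_mul_div_left _ _ hδ0, Nat.mul_div_cancel_left _ hδ0] at h4
      rw [hJm]; omega
    have hxj : xx (ZMod p) L ^ (D - k) ∈ lt (ZMod p) L (D - k + 1) := by
      rw [xx, ← map_pow]
      exact algebraMap_mem (by rw [degree_X_pow]; exact_mod_cast Nat.lt_succ_self _)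
    obtain ⟨w, hw, l, hl, hwl⟩ := Submodule.mem_sup.mp (ideal_top K hc₀ hJ0 hcond hxj)
    obtain ⟨u, hu, rfl⟩ := mem_Wof.mp hw.1
    have hul : (u : L) - algebraMap (ZMod p) L 1 * xx (ZMod p) L ^ (D - k) ∈ lt (ZMod p) L (D - k) := by
      rw [map_one, one_mul, ← hwl, sub_add_cancel_left]; exact Submodule.neg_mem _ hl
    set S := (Zset (p := p) L D).filter (· ∈ J) with hS
    have huD : (u : L) ∈ lt (ZMod p) L D := lt_mono (by omega) hw.2
    have hmem : ∀ z ∈ S, z + u ∈ S ∧ z - u ∈ S := by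
      intro z hz
      obtain ⟨hz1, hz2⟩ := mem_filter.mp hz
      rw [mem_Zset K] at hz1
      refine ⟨mem_filter.mpr ⟨(mem_Zset K).mpr ?_, J.add_mem hz2 hu⟩,
        mem_filter.mpr ⟨(mem_Zset K).mpr ?_, J.sub_mem hz2 hu⟩⟩
      · rw [AddMemClass.coe_add, add_sub_right_comm]; exact Submodule.add_mem _ hz1 huD
      · rw [AddSubgroupClass.coe_sub, sub_right_comm]; exact Submodule.sub_mem _ hz1 huD
    set ω := ZMod.stdAddChar (-((k : ZMod p) * (δ : ZMod p) * f.leadingCoeff)) with hω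
    have hshift : ∀ z ∈ S, lamI f (Ideal.span {z + u}) = ω * lamI f (Ideal.span {z}) := by
      intro z hz
      have hz1 := (mem_Zset K).mp (mem_filter.mp hz).1
      rw [show D = (D - k) + k by omega] at hz1
      obtain ⟨P, P', hP, hP', hd, hd'⟩ := norm_shift K hk1 hz1 hul
      obtain ⟨hm1, -, hm2, -, htr⟩ := tr_shift f hk hk1 (m := δ * (D - k + k))
        (le_trans (by omega) (Nat.le_mul_of_pos_left _ hδ0)) hd hd'
      have hzne := (zset_norm K (mem_filter.mp hz).1).1
      have hzune := (zset_norm K (mem_filter.mp (hmem z hz).1).1).1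
      rw [lamI_principal K f hzune hm2 hP', lamI_principal K f hzne hm1 hP, Weil.lam, Weil.lam, htr, hω,
        ← AddChar.map_add_eq_mul]
      congr 1
      ring
    have hsum : ∑ z ∈ S, lamI f (Ideal.span {z}) = ω * ∑ z ∈ S, lamI f (Ideal.span {z}) := by
      rw [mul_sum]
      refine sum_bij' (fun z _ => z - u) (fun z _ => z + u) (fun z hz => (hmem z hz).2)
        (fun z hz => (hmem z hz).1) (fun z _ => sub_add_cancel z u) (fun z _ => add_sub_cancel_right z u) ?_
      intro z hz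
      rw [← hshift _ (hmem z hz).2, sub_add_cancel]
    have hω1 : ω ≠ 1 := by
      intro h
      rw [hω, ← AddChar.map_zero_eq_one (ZMod.stdAddChar (N := p)),
        ZMod.injective_stdAddChar.eq_iff, neg_eq_zero, mul_eq_zero, mul_eq_zero] at h
      rcases h with (h | h) | h
      · exact hpk ((ZMod.natCast_eq_zero_iff _ p).mp h)
      · exact hpδ ((ZMod.natCast_eq_zero_iff _ p).mp h)
      · rw [leadingCoeff_eq_zero] at h
        rw [h, natDegree_zero] at hk
        omega
    have h0 : (1 - ω) * ∑ z ∈ S, lamI f (Ideal.span {z}) = 0 := by linear_combination hsum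
    exact (mul_eq_zero.mp h0).resolve_left (sub_ne_zero.mpr (Ne.symm hω1))
  have h3 := reciprocity K hc₀ f (n := n) (m := m) (D := D) (by rw [← hδ]; omega)
  rw [sum_eq_zero (s := Idl (p := p) L m) (fun J hJ => by rw [h2 J hJ, mul_zero])] at h3
  have h4 : cfI (p := p) L f n * (p : ℂ) ^ Module.finrank (ZMod p) (lt (ZMod p) L D) = 0 := by
    rw [cfI, sum_mul, ← zero_mul ((p : ℂ) ^ n), ← h3, sum_mul]
    refine sum_congr rfl fun I hI => ?_
    rw [mul_assoc, ← Nat.cast_pow, ← Nat.cast_pow, ← Nat.cast_mul, h1 I hI]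
  exact (mul_eq_zero.mp h4).resolve_right (pow_ne_zero _ (by exact_mod_cast (Fact.out : p.Prime).ne_zero))

include hc₀ in
theorem count_periodic {n : ℕ} (hn : Module.finrank K L * (c₀ + Module.finrank K L + 1) ≤ n) :
    (Idl (p := p) L (n + Module.finrank K L)).card = (Idl (p := p) L n).card * p ^ Module.finrank K L := by
  classical
  set δ := Module.finrank K L with hδ
  have hδ0 : 0 < δ := Module.finrank_pos
  have rel : ∀ a b D : ℕ, a + b = δ * D → δ * (c₀ + δ) ≤ a → δ * (c₀ + δ) ≤ b →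
      (Idl (p := p) L a).card * p ^ b = (Idl (p := p) L b).card * p ^ a := by
    intro a b D hab ha hb
    have hc : ∀ {a b : ℕ}, a + b = δ * D → δ * (c₀ + δ) ≤ b → ∀ I ∈ Idl (p := p) L a,
        ((Zset (p := p) L D).filter (· ∈ I)).card * p ^ a = p ^ Module.finrank (ZMod p) (lt (ZMod p) L D) := by
      intro a b hab hb I hI
      obtain ⟨hI0, hIa⟩ := (mem_Idl K).mp hI
      have := card_zset_ideal K hc₀ hI0 (D := D) (by
        rw [hIa, ← hδ]
        have h3 : a + δ * (c₀ + δ) ≤ δ * D := by omega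
        have h4 := Nat.div_le_div_right (c := δ) h3
        rw [Nat.add_mul_div_left _ _ hδ0, Nat.mul_div_cancel_left _ hδ0] at h4
        omega)
      rwa [hIa] at this
    have hlam : ∀ I : Ideal (integralClosure (ZMod p)[X] L), lamI (0 : (ZMod p)[X]) I = 1 := fun I => by simp [lamI, th]
    have h := reciprocity K hc₀ (0 : (ZMod p)[X]) (n := a) (m := b) (D := D) (hδ ▸ hab)
    simp only [hlam, one_mul, inv_one, sum_const, nsmul_eq_mul, mul_one] at h
    have h' : ∑ I ∈ Idl (p := p) L a, ((Zset (p := p) L D).filter (· ∈ I)).card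
        = ∑ J ∈ Idl (p := p) L b, ((Zset (p := p) L D).filter (· ∈ J)).card := by exact_mod_cast h
    set T := p ^ Module.finrank (ZMod p) (lt (ZMod p) L D) with hT
    have ea : (∑ I ∈ Idl (p := p) L a, ((Zset (p := p) L D).filter (· ∈ I)).card) * p ^ a
        = (Idl (p := p) L a).card * T := by
      rw [sum_mul, sum_congr rfl (hc hab hb), sum_const, smul_eq_mul]
    have eb : (∑ I ∈ Idl (p := p) L b, ((Zset (p := p) L D).filter (· ∈ I)).card) * p ^ b
        = (Idl (p := p) L b).card * T := by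
      rw [sum_mul, sum_congr rfl (hc (by omega : b + a = δ * D) ha), sum_const, smul_eq_mul]
    have hT0 : 0 < T := pow_pos (Fact.out : p.Prime).pos _
    refine Nat.eq_of_mul_eq_mul_right hT0 ?_
    rw [mul_right_comm _ (p ^ b) T, mul_right_comm _ (p ^ a) T, ← ea, ← eb, h']
    ring
  set D := 2 * n + δ with hD
  have hnD : n + δ ≤ δ * D := le_trans (by omega) (Nat.le_mul_of_pos_left D hδ0)
  have hn' : δ * (c₀ + δ) ≤ n := le_trans (Nat.mul_le_mul_left δ (by omega)) hn
  set m := δ * D - n - δ with hm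
  have hm' : δ * (c₀ + δ) ≤ m := by
    have : δ * D = δ * (2 * n) + δ * δ := by rw [hD]; ring
    have h3 : 2 * n ≤ δ * (2 * n) := Nat.le_mul_of_pos_left _ hδ0
    have h4 : δ ≤ δ * δ := Nat.le_mul_of_pos_left _ hδ0
    omega
  have e1 := rel (n + δ) m D (by omega) (by omega) hm'
  have e2 := rel n m (D - 1) (by rw [Nat.mul_sub, Nat.mul_one]; omega) hn' hm'
  refine Nat.eq_of_mul_eq_mul_right (pow_pos (Fact.out : p.Prime).pos m) ?_
  rw [e1, pow_add, mul_right_comm _ (p ^ δ) (p ^ m), e2, mul_assoc]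

end Vale.Agent.P042.Curve
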