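import Vale.Agent.P042.CurveEquid

/-! From Frobenius equidistribution to sums over the points of a plane curve over finite fields. -/

namespace Vale.Agent.P042.Curve

open Polynomial Finset

set_option linter.unusedSectionVars false
set_option linter.style.haveILetI false

/-- The polynomial `P` with the first variable evaluated. -/
noncomputable def evk {R k : Type*} [CommRing R] [CommRing k] [Algebra R k] (P : R[X][X]) (x : k) : k[X] :=
  P.map (aeval x).toRingHom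

/-- The trace form attached to `f`. -/
noncomputable def trk {p : ℕ} {k : Type*} [Field k] [Algebra (ZMod p) k] (f : (ZMod p)[X]) (n : ℕ)
    (x : k) : ZMod p :=
  Function.invFun (algebraMap (ZMod p) k) (∑ i ∈ range n, (aeval x f) ^ p ^ i)

variable {p : ℕ} [Fact p.Prime] {k : Type*} [Field k] [IsAlgClosed k] [CharP k p] [Algebra (ZMod p) k]
  {L : Type*} [Field L] [Algebra k L] [Algebra k[X] L] [IsScalarTower k k[X] L] [FaithfulSMul k[X] L]

variable {K : Type*} [Field K] [Algebra k[X] K] [IsFractionRing k[X] K] [Algebra K L]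
  [IsScalarTower k[X] K L] [FiniteDimensional K L] [Algebra.IsSeparable K L] [IsGalois K L]

/-- The embedding of coefficient polynomials. -/
noncomputable def Ψ (p : ℕ) (k : Type*) [Field k] [Algebra (ZMod p) k] (L : Type*) [Field L] [Algebra k[X] L] :
    (ZMod p)[X] →+* L :=
  (algebraMap k[X] L).comp (mapRingHom (algebraMap (ZMod p) k))

omit [IsAlgClosed k] in
lemma fixed_prime {F : Type*} [Field F] [Algebra (ZMod p) F] {c : F} (hc : c ^ p = c) :
    ∃ a : ZMod p, algebraMap (ZMod p) F a = c := by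
  classical
  have hp := (Fact.out : p.Prime)
  have hne : (X ^ p - X : F[X]) ≠ 0 := FiniteField.X_pow_card_sub_X_ne_zero F hp.one_lt
  set T := univ.image (algebraMap (ZMod p) F) with hT
  have hsub : T ⊆ (X ^ p - X : F[X]).roots.toFinset := by
    intro y hy
    obtain ⟨a, -, rfl⟩ := mem_image.mp hy
    simp [mem_roots hne, ← map_pow, ZMod.pow_card]
  have hcard : (X ^ p - X : F[X]).roots.toFinset.card ≤ T.card := by
    rw [hT, card_image_of_injective _ (algebraMap (ZMod p) F).injective, card_univ, ZMod.card]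
    refine (Multiset.toFinset_card_le _).trans ((card_roots' _).trans ?_)
    rw [FiniteField.X_pow_card_sub_X_natDegree_eq F hp.one_lt]
  have h2 : c ∈ T := by
    rw [eq_of_subset_of_card_le hsub hcard]; simp [mem_roots hne, hc]
  obtain ⟨a, -, ha⟩ := mem_image.mp h2
  exact ⟨a, ha⟩

lemma telescope {R : Type*} [CommRing R] [CharP R p] {z w : R} (h : z ^ p = z + w) (n : ℕ) :
    z ^ p ^ n = z + ∑ i ∈ range n, w ^ p ^ i := by
  induction n with
  | zero => simp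
  | succ n ih =>
    rw [pow_succ', pow_mul, h, add_pow_char_pow, ih, sum_range_succ]
    ring

lemma semi_psi {n : ℕ} {τ : L →+* L} (hτ : Semi (k := k) τ (p ^ n)) (g : (ZMod p)[X]) :
    τ (Ψ p k L g) = Ψ p k L g := by
  induction g using Polynomial.induction_on' with
  | add a b ha hb => rw [map_add, map_add, ha, hb]
  | monomial m c =>
    rw [← C_mul_X_pow_eq_monomial, map_mul, map_mul, map_pow, map_pow]
    congr 1
    · show τ (algebraMap k[X] L ((mapRingHom (algebraMap (ZMod p) k)) (C c))) = algebraMap k[X] L _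
      rw [coe_mapRingHom, map_C, ← Polynomial.algebraMap_eq, ← IsScalarTower.algebraMap_apply, hτ.2,
        ← map_pow (algebraMap (ZMod p) k), ZMod.pow_card_pow]
    · congr 1
      show τ (algebraMap k[X] L ((mapRingHom (algebraMap (ZMod p) k)) X)) = algebraMap k[X] L _
      rw [coe_mapRingHom, map_X]; exact hτ.1

lemma hom_psi (φ : (integralClosure k[X] L) →ₐ[k] k) (g : (ZMod p)[X]) (h : IsIntegral k[X] (Ψ p k L g)) :
    φ ⟨Ψ p k L g, h⟩ = aeval (φ xb) g := by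
  rw [show (⟨Ψ p k L g, h⟩ : (integralClosure k[X] L)) = algebraMap k[X] (integralClosure k[X] L) (g.map (algebraMap (ZMod p) k)) from rfl,
    hom_algebraMap, eval_map_algebraMap]

lemma isIntegral_psi (g : (ZMod p)[X]) : IsIntegral k[X] (Ψ p k L g) := isIntegral_algebraMap

include K in
open Classical in
lemma root_mem {P : (ZMod p)[X][X]} {Y : Finset L} (hY : P.map (Ψ p k L) = ∏ y ∈ Y, (X - C y))
    (θ : L →+* L) (hθ : ∀ g, θ (Ψ p k L g) = Ψ p k L g) {y : L} (hy : y ∈ Y) : θ y ∈ Y := by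
  have h1 : (P.map (Ψ p k L)).eval (θ y) = 0 := by
    have e : θ.comp (Ψ p k L) = Ψ p k L := RingHom.ext hθ
    rw [← e, eval_map, ← hom_eval₂, ← eval_map, hY, eval_prod, prod_eq_zero hy (by simp), map_zero]
  rw [hY, eval_prod, prod_eq_zero_iff] at h1
  obtain ⟨y', hy', h2⟩ := h1
  rw [eval_sub, eval_X, eval_C, sub_eq_zero] at h2
  rwa [h2]

open Classical in
lemma root_eval {P : (ZMod p)[X][X]} {Y : Finset L} (hY : P.map (Ψ p k L) = ∏ y ∈ Y, (X - C y))
    (hint : ∀ y ∈ Y, IsIntegral k[X] y) (φ : (integralClosure k[X] L) →ₐ[k] k) (r : k) :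
    (evk P (φ xb)).eval r = 0 ↔ ∃ y : Y, φ ⟨y, hint y y.2⟩ = r := by
  let yB : Y → (integralClosure k[X] L) := fun y => ⟨y, hint y y.2⟩
  show _ ↔ ∃ y : Y, φ (yB y) = r
  have e : evk P (φ xb) = ∏ y : Y, (X - C (φ (yB y))) := by
    have h1 : P.map ((algebraMap k[X] (integralClosure k[X] L)).comp (mapRingHom (algebraMap (ZMod p) k)))
        = ∏ y : Y, (X - C (yB y)) := by
      apply map_injective (integralClosure k[X] L).val.toRingHom Subtype.val_injective
      rw [Polynomial.map_map, Polynomial.map_prod]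
      simp only [Polynomial.map_sub, map_X, map_C]
      refine Eq.trans ?_ (hY.trans (prod_coe_sort Y (fun y => X - C y)).symm)
      rfl
    have h2 := congrArg (Polynomial.map φ.toRingHom) h1
    rw [Polynomial.map_map, Polynomial.map_prod] at h2
    simp only [Polynomial.map_sub, map_X, map_C] at h2
    refine Eq.trans ?_ h2
    rw [evk]
    congr 1
    refine RingHom.ext fun g => ?_
    show aeval (φ xb) g = φ (algebraMap k[X] (integralClosure k[X] L) (g.map (algebraMap (ZMod p) k)))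
    rw [hom_algebraMap, eval_map_algebraMap]
  rw [e, eval_prod, prod_eq_zero_iff]
  constructor
  · rintro ⟨y, -, h⟩
    rw [eval_sub, eval_X, eval_C, sub_eq_zero] at h
    exact ⟨y, h.symm⟩
  · rintro ⟨y, rfl⟩
    exact ⟨y, mem_univ _, by simp⟩

include K in
open Classical in
lemma frob_value {n : ℕ} {f : (ZMod p)[X]} {Y : Finset L}
    (hint : ∀ y ∈ Y, IsIntegral k[X] y) {y₁ z : L} (hy₁ : y₁ ∈ Y) (hzint : IsIntegral k[X] z)
    (hz : z ^ p = z + Ψ p k L f) {τ : L →+* L} (hτn : Semi (k := k) τ (p ^ n)) {φ : (integralClosure k[X] L) →ₐ[k] k}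
    (hinj : Function.Injective fun y : Y => φ ⟨y, hint y y.2⟩) {σ : L ≃ₐ[K] L} {a : ZMod p}
    (ha : τ (σ z) = z + algebraMap k L (algebraMap (ZMod p) k a))
    (hσ : Frob τ (fun _ => semi_integral hτn) (p ^ n) σ φ) (hmem : τ (σ y₁) ∈ Y) :
    (φ ⟨y₁, hint y₁ hy₁⟩ ^ p ^ n = φ ⟨y₁, hint y₁ hy₁⟩ ↔ τ (σ y₁) = y₁) ∧ trk f n (φ xb) = a := by
  haveI : CharP (integralClosure k[X] L) p := charP_of_injective_algebraMap (algebraMap k (integralClosure k[X] L)).injective p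
  let yB : Y → (integralClosure k[X] L) := fun y => ⟨y, hint y y.2⟩
  have e1 : φ (yB ⟨τ (σ y₁), hmem⟩) = φ (yB ⟨y₁, hy₁⟩) ^ p ^ n := by
    rw [← hσ (yB ⟨y₁, hy₁⟩)]; exact congrArg φ (Subtype.ext rfl)
  refine ⟨?_, ?_⟩
  · show φ (yB ⟨y₁, hy₁⟩) ^ p ^ n = φ (yB ⟨y₁, hy₁⟩) ↔ _
    rw [← e1, hinj.eq_iff, Subtype.ext_iff]
  · set zB : (integralClosure k[X] L) := ⟨z, hzint⟩ with hzB
    have h1 : φ (zB + algebraMap k (integralClosure k[X] L) (algebraMap (ZMod p) k a)) = φ zB ^ p ^ n := by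
      rw [← hσ zB]; exact congrArg φ (Subtype.ext ha.symm)
    have h2 : φ zB ^ p = φ zB + aeval (φ xb) f := by
      rw [← map_pow, show zB ^ p = zB + ⟨Ψ p k L f, isIntegral_psi f⟩ from Subtype.ext hz, map_add,
        hom_psi]
    rw [map_add, AlgHom.commutes, Algebra.algebraMap_self_apply, telescope h2 n] at h1
    rw [trk, ← add_left_cancel h1]
    exact Function.leftInverse_invFun (algebraMap (ZMod p) k).injective a

include K in
open Classical in
lemma fiber_count {n : ℕ} {P : (ZMod p)[X][X]} (hPm : P.Monic) {Y : Finset L}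
    (hY : P.map (Ψ p k L) = ∏ y ∈ Y, (X - C y)) (hint : ∀ y ∈ Y, IsIntegral k[X] y)
    (htr : ∀ y ∈ Y, ∀ y' ∈ Y, ∃ σ : L ≃ₐ[K] L, σ y = y') {y₁ : L} (hy₁ : y₁ ∈ Y)
    (hperm : ∀ σ : L ≃ₐ[K] L, σ y₁ ∈ Y) {φ₀ : (integralClosure k[X] L) →ₐ[k] k} {x : k} (hφ₀ : φ₀ xb = x)
    (hinj : Function.Injective fun y : Y => φ₀ ⟨y, hint y y.2⟩) :
    (univ.filter fun σ : L ≃ₐ[K] L =>
        φ₀ ⟨σ y₁, hint _ (hperm σ)⟩ ^ p ^ n = φ₀ ⟨σ y₁, hint _ (hperm σ)⟩).card
      = (univ.filter fun h : L ≃ₐ[K] L => h y₁ = y₁).card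
          * ((evk P x).roots.toFinset.filter (fun r => r ^ p ^ n = r)).card := by
  set H := univ.filter fun h : L ≃ₐ[K] L => h y₁ = y₁ with hH
  let yB : Y → (integralClosure k[X] L) := fun y => ⟨y, hint y y.2⟩
  have hroot : ∀ r, (evk P (φ₀ xb)).eval r = 0 ↔ ∃ y : Y, φ₀ (yB y) = r := root_eval hY hint φ₀
  set R := (evk P x).roots.toFinset.filter (fun r => r ^ p ^ n = r) with hR
  set q₁ : (L ≃ₐ[K] L) → k := fun σ => φ₀ (yB ⟨σ y₁, hperm σ⟩) with hq₁
  have hne : evk P x ≠ 0 := (hPm.map _).ne_zero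
  show (univ.filter fun σ => q₁ σ ^ p ^ n = q₁ σ).card = _
  rw [show (univ.filter fun σ => q₁ σ ^ p ^ n = q₁ σ) = univ.filter (fun σ => q₁ σ ∈ R) by
    refine filter_congr fun σ _ => ?_
    rw [hR, mem_filter, Multiset.mem_toFinset, mem_roots hne, IsRoot.def, ← hφ₀, hroot]
    exact ⟨fun h => ⟨⟨_, rfl⟩, h⟩, fun h => h.2⟩]
  rw [card_eq_sum_card_fiberwise (s := univ.filter (fun σ => q₁ σ ∈ R)) (t := R) (f := q₁)
    fun σ hσ => (mem_filter.mp hσ).2]
  have hfib2 : ∀ r ∈ R, ((univ.filter fun σ => q₁ σ ∈ R).filter fun σ => q₁ σ = r).card = H.card := by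
    intro r hr
    have hr' := (mem_filter.mp hr).1
    rw [Multiset.mem_toFinset, mem_roots hne, IsRoot.def, ← hφ₀, hroot] at hr'
    obtain ⟨y, hy⟩ := hr'
    obtain ⟨σr, hσr⟩ := htr y₁ hy₁ y y.2
    have hiff : ∀ σ, q₁ σ = r ↔ σ y₁ = σr y₁ := fun σ => by
      rw [hq₁, ← hy, hinj.eq_iff, Subtype.ext_iff, hσr]
    refine card_bij' (fun σ _ => σr⁻¹ * σ) (fun h _ => σr * h) ?_ ?_ ?_ ?_
    · intro σ hσ
      refine mem_filter.mpr ⟨mem_univ _, ?_⟩
      show σr.symm (σ y₁) = y₁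
      rw [(hiff σ).mp (mem_filter.mp hσ).2, AlgEquiv.symm_apply_apply]
    · intro h hh
      have : q₁ (σr * h) = r := (hiff _).mpr (congrArg σr (mem_filter.mp hh).2)
      exact mem_filter.mpr ⟨mem_filter.mpr ⟨mem_univ _, this ▸ hr⟩, this⟩
    · intro σ _; exact mul_inv_cancel_left σr σ
    · intro h _; exact inv_mul_cancel_left σr h
  rw [sum_congr rfl hfib2, sum_const, smul_eq_mul, mul_comm]

include K in
open Classical in
lemma count_good {bad bad2 : Finset k} (pts : Finset ((integralClosure k[X] L) →ₐ[k] k)) {q R : ℝ}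
    (hgood : ∀ x₀ ∉ bad, (∃ φ : (integralClosure k[X] L) →ₐ[k] k, φ xb = x₀) ∧ ∀ φ : (integralClosure k[X] L) →ₐ[k] k, φ xb = x₀ → Unram φ ∧
      ∀ φ' : (integralClosure k[X] L) →ₐ[k] k, φ' xb = x₀ → ∃! σ : L ≃ₐ[K] L, φ' = φ.comp (actB σ))
    (hmem : ∀ φ ∈ pts, φ xb ∉ bad) (Q : ((integralClosure k[X] L) →ₐ[k] k) → Prop)
    (h : |((pts.filter Q).card : ℝ) - q| ≤ R) :
    |(((pts.filter fun φ => φ xb ∉ bad2).filter Q).card : ℝ) - q|
      ≤ R + (Module.finrank K L * bad2.card : ℕ) := by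
  set δL := Module.finrank K L with hδL
  have hG : Fintype.card (L ≃ₐ[K] L) = δL := by
    rw [← Nat.card_eq_fintype_card, IsGalois.card_aut_eq_finrank]
  set pts' := pts.filter (fun φ => φ xb ∉ bad2) with hpts'
  set M := (pts.filter Q).card
  have h1 : (pts'.filter Q).card ≤ M := card_le_card (filter_subset_filter _ (filter_subset _ _))
  have h2 : M ≤ (pts'.filter Q).card + δL * bad2.card := by
    have hbadpts : (pts.filter fun φ => φ xb ∈ bad2).card ≤ δL * bad2.card := by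
      refine card_le_mul_card_image_of_maps_to (f := fun φ : (integralClosure k[X] L) →ₐ[k] k => φ xb) (t := bad2)
        (fun φ hφ => (mem_filter.mp hφ).2) δL fun x hx => ?_
      rcases (pts.filter fun φ => φ xb ∈ bad2).filter (fun φ => φ xb = x) |>.eq_empty_or_nonempty with h0 | ⟨φ₀, hφ₀⟩
      · rw [h0]; simp
      obtain ⟨hφ₁, hφx⟩ := mem_filter.mp hφ₀
      obtain ⟨-, hu⟩ := ((hgood _ (hmem φ₀ (mem_filter.mp hφ₁).1)).2 φ₀ rfl)
      refine (card_le_card (t := univ.image fun σ : L ≃ₐ[K] L => φ₀.comp (actB σ)) fun φ hφ => ?_).trans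
        (card_image_le.trans (by rw [card_univ, hG]))
      obtain ⟨σ', hσ', -⟩ := hu φ ((mem_filter.mp hφ).2.trans hφx.symm)
      exact mem_image.mpr ⟨σ', mem_univ _, hσ'.symm⟩
    refine le_trans (card_le_card (t := pts'.filter Q
      ∪ pts.filter (fun φ => φ xb ∈ bad2)) fun φ hφ => ?_) ((card_union_le _ _).trans
        (Nat.add_le_add_left hbadpts _))
    obtain ⟨ha, hb⟩ := mem_filter.mp hφ
    by_cases hx : φ xb ∈ bad2
    · exact mem_union_right _ (mem_filter.mpr ⟨ha, hx⟩)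
    · exact mem_union_left _ (mem_filter.mpr ⟨mem_filter.mpr ⟨ha, hx⟩, hb⟩)
  have h1' : ((pts'.filter Q).card : ℝ) ≤ M := by exact_mod_cast h1
  have h2' : (M : ℝ) ≤ (pts'.filter Q).card + (δL * bad2.card : ℕ) := by exact_mod_cast h2
  obtain ⟨ha, hb⟩ := abs_le.mp h
  rw [abs_le]
  constructor <;> linarith [(Nat.cast_nonneg (δL * bad2.card) : (0 : ℝ) ≤ _)]

open Classical in
lemma combine {G : Type*} (coset H : Finset G) (N : G → ℕ) (u v : G → ℂ) (T T' : ℂ) (q R : ℝ)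
    (δ C₀ b d : ℕ) (hH : 0 < H.card) (hc : coset.card = H.card) (hcos : ∑ σ ∈ coset, u σ = ∑ h ∈ H, v h)
    (h1 : ∑ σ ∈ coset, (N σ : ℂ) * u σ = (H.card : ℂ) * T') (hu : ∀ σ, ‖u σ‖ ≤ 1)
    (hN : ∀ σ, |(N σ : ℝ) - q| ≤ R + (δ * b : ℕ)) (hTT : ‖T - T'‖ ≤ (b * d : ℕ))
    (hR : R = C₀ * Real.sqrt q) (hq : 1 ≤ q) (hδ : 0 < δ) {qc : ℂ} (hqc : qc = (q : ℂ)) :
    ‖T - (qc / (H.card : ℂ)) * ∑ h ∈ H, v h‖
      ≤ ((δ * C₀ + b * d + δ * b : ℕ) : ℝ) * Real.sqrt q := by
  have hH0 : (H.card : ℂ) ≠ 0 := by exact_mod_cast hH.ne'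
  have hkey : T' - (qc / (H.card : ℂ)) * ∑ h ∈ H, v h
      = (∑ σ ∈ coset, ((N σ : ℂ) - qc) * u σ) / (H.card : ℂ) := by
    simp only [sub_mul, sum_sub_distrib, ← mul_sum, h1, hcos]
    field_simp
  have hsq : 1 ≤ Real.sqrt q := Real.one_le_sqrt.mpr hq
  have hfin : ‖T' - (qc / (H.card : ℂ)) * ∑ h ∈ H, v h‖ ≤ R + (δ * b : ℕ) := by
    rw [hkey, norm_div, Complex.norm_natCast, div_le_iff₀ (by exact_mod_cast hH)]
    refine (norm_sum_le _ _).trans ((sum_le_card_nsmul _ _ (R + (δ * b : ℕ)) fun σ _ => ?_).trans ?_)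
    · rw [norm_mul]
      refine (mul_le_of_le_one_right (norm_nonneg _) (hu _)).trans ?_
      have : ((N σ : ℂ) - qc) = (((N σ : ℝ) - q : ℝ) : ℂ) := by rw [hqc]; push_cast; ring
      rw [this, Complex.norm_real, Real.norm_eq_abs]
      exact hN σ
    · rw [hc, nsmul_eq_mul, mul_comm]
  have htot : ‖T - (qc / (H.card : ℂ)) * ∑ h ∈ H, v h‖ ≤ (b * d : ℕ) + (R + (δ * b : ℕ)) := by
    rw [show T - (qc / (H.card : ℂ)) * ∑ h ∈ H, v h
      = (T - T') + (T' - (qc / (H.card : ℂ)) * ∑ h ∈ H, v h) by ring]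
    exact (norm_add_le _ _).trans (add_le_add hTT hfin)
  refine htot.trans ?_
  have hδ1 : (C₀ : ℝ) ≤ (δ : ℝ) * C₀ := by
    exact_mod_cast Nat.le_mul_of_pos_left C₀ hδ
  push_cast
  rw [hR]
  have h0 : (0 : ℝ) ≤ (b : ℝ) * d + (δ : ℝ) * b := by positivity
  nlinarith [mul_le_mul_of_nonneg_right hδ1 (le_trans zero_le_one hsq),
    mul_le_mul_of_nonneg_left hsq h0]

include K in
open Classical in
/-- Frobenius equidistribution on the points of `P(x,y) = 0`, twisted by the Artin-Schreier extension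
of `f`. -/
theorem link_main {c₀ : ℕ} (hc₀ : ∀ n, Module.finrank K L * n ≤ Module.finrank k (lt k L n) + c₀)
    (P : (ZMod p)[X][X]) (hPm : P.Monic) (f : (ZMod p)[X]) (Y : Finset L)
    (hY : P.map (Ψ p k L) = ∏ y ∈ Y, (X - C y)) (htr : ∀ y ∈ Y, ∀ y' ∈ Y, ∃ σ : L ≃ₐ[K] L, σ y = y')
    (y₁ z : L) (hy₁ : y₁ ∈ Y) (hz : z ^ p = z + Ψ p k L f)
    (hτ : ∀ n : ℕ, n ≠ 0 → ∃ τ : L →+* L, Semi (k := k) τ (p ^ n)) :
    ∃ C : ℝ, ∀ n : ℕ, n ≠ 0 → ∃ (a₀ : ZMod p) (b : (L ≃ₐ[K] L) → ZMod p),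
      (∀ h : L ≃ₐ[K] L, h y₁ = y₁ → h z = z + algebraMap k L (algebraMap (ZMod p) k (b h))) ∧
      ∀ w : ZMod p → ℂ, (∀ a, ‖w a‖ ≤ 1) →
        ‖(∑ x ∈ Fq k p n, ((evk P x).roots.toFinset.filter (fun r => r ^ p ^ n = r)).card • w (trk f n x))
          - ((p : ℂ) ^ n / ((univ.filter fun h : L ≃ₐ[K] L => h y₁ = y₁).card : ℂ))
              * ∑ h ∈ univ.filter (fun h : L ≃ₐ[K] L => h y₁ = y₁), w (a₀ + b h)‖
          ≤ C * Real.sqrt ((p : ℝ) ^ n) := by
  have hp := (Fact.out : p.Prime)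
  haveI : CharP L p := charP_of_injective_algebraMap (algebraMap k L).injective p
  letI : Algebra (ZMod p) L := ((algebraMap k L).comp (algebraMap (ZMod p) k)).toAlgebra
  haveI : CharP (integralClosure k[X] L) p := charP_of_injective_algebraMap (algebraMap k (integralClosure k[X] L)).injective p
  obtain ⟨bad, hgood, C₀, hC₀⟩ := equid (k := k) (L := L) (K := K) (p := p) hc₀
  have hint : ∀ y ∈ Y, IsIntegral k[X] y := fun y hy => by
    refine ⟨P.map (mapRingHom (algebraMap (ZMod p) k)), hPm.map _, ?_⟩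
    rw [eval₂_map, ← Ψ, ← eval_map, hY, eval_prod]
    exact prod_eq_zero hy (by simp)
  have hzint : IsIntegral k[X] z := by
    refine ⟨X ^ p - X - C (f.map (algebraMap (ZMod p) k)), ?_, ?_⟩
    · rw [sub_sub]
      refine monic_X_pow_sub (lt_of_le_of_lt (degree_add_le _ _) (max_lt ?_ ?_))
      · rw [degree_X]; exact_mod_cast hp.one_lt
      · exact lt_of_le_of_lt degree_C_le (by exact_mod_cast hp.pos)
    · simp only [eval₂_sub, eval₂_X_pow, eval₂_X, eval₂_C]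
      rw [hz]
      show z + Ψ p k L f - z - Ψ p k L f = 0
      ring
  set δ := Y.card with hδ
  set δL := Module.finrank K L with hδL
  have hG : Fintype.card (L ≃ₐ[K] L) = δL := by
    rw [← Nat.card_eq_fintype_card, IsGalois.card_aut_eq_finrank]
  set H := univ.filter (fun h : L ≃ₐ[K] L => h y₁ = y₁) with hH
  have hHpos : 0 < H.card := card_pos.mpr ⟨1, mem_filter.mpr ⟨mem_univ _, rfl⟩⟩
  have hperm : ∀ (σ : L ≃ₐ[K] L), ∀ y ∈ Y, σ y ∈ Y := fun σ y hy =>
    root_mem (K := K) hY (σ : L →+* L) (fun g => by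
      show σ (algebraMap k[X] L _) = algebraMap k[X] L _
      rw [IsScalarTower.algebraMap_apply k[X] K L, AlgEquiv.commutes]) hy
  let yB : Y → (integralClosure k[X] L) := fun y => ⟨y, hint y y.2⟩
  set dd : (integralClosure k[X] L) := ∏ v ∈ (univ : Finset (Y × Y)).filter (fun v => v.1 ≠ v.2), (yB v.1 - yB v.2) with hdd
  have hdd0 : dd ≠ 0 := prod_ne_zero_iff.mpr fun v hv h => by
    have h2 : yB v.1 = yB v.2 := sub_eq_zero.mp h
    exact (mem_filter.mp hv).2 (Subtype.ext (congrArg (fun b : (integralClosure k[X] L) => (b : L)) h2))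
  set bad2 := bad ∪ (normPoly K dd).roots.toFinset with hbad2
  have hdist : ∀ φ : (integralClosure k[X] L) →ₐ[k] k, φ xb ∉ bad2 → Function.Injective fun y : Y => φ (yB y) := by
    intro φ hφ y y' h
    by_contra hne
    rw [hbad2, mem_union, not_or, Multiset.mem_toFinset, mem_roots (normPoly_ne hdd0)] at hφ
    apply hφ.2
    rw [IsRoot.def, ← hom_algebraMap, algebraMap_normPoly, map_prod]
    refine prod_eq_zero (mem_univ 1) ?_
    rw [actB_one, hdd, map_prod]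
    refine prod_eq_zero (mem_filter.mpr ⟨mem_univ (y, y'), hne⟩) ?_
    rw [map_sub, sub_eq_zero]; exact h
  have hroots_le : ∀ x : k, (evk P x).roots.toFinset.card ≤ P.natDegree := fun x =>
    (Multiset.toFinset_card_le _).trans ((card_roots' _).trans natDegree_map_le)
  refine ⟨(δL * C₀ + bad2.card * P.natDegree + δL * bad2.card : ℕ), fun n hn => ?_⟩
  obtain ⟨τ, hτn⟩ := hτ n hn
  obtain ⟨pts, hmem, huniq, hN⟩ := hC₀ n hn τ hτn
  -- the shifts
  have hshift : ∀ t : L, t ^ p = t + Ψ p k L f →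
      ∃ a : ZMod p, t = z + algebraMap k L (algebraMap (ZMod p) k a) := by
    intro t ht
    obtain ⟨a, ha⟩ := fixed_prime (p := p) (show (t - z) ^ p = t - z by rw [sub_pow_char, ht, hz]; ring)
    exact ⟨a, by
      rw [show algebraMap k L (algebraMap (ZMod p) k a) = algebraMap (ZMod p) L a from rfl, ha]; ring⟩
  have hfix : ∀ σ : L ≃ₐ[K] L, σ (Ψ p k L f) = Ψ p k L f := fun σ => by
    show σ (algebraMap k[X] L _) = algebraMap k[X] L _
    rw [IsScalarTower.algebraMap_apply k[X] K L, AlgEquiv.commutes]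
  have hA : ∀ σ : L ≃ₐ[K] L, ∃ a : ZMod p, τ (σ z) = z + algebraMap k L (algebraMap (ZMod p) k a) :=
    fun σ => hshift _ (by rw [← map_pow, ← map_pow, hz, map_add, map_add, hfix, semi_psi hτn])
  choose A hA using hA
  have hB : ∀ h : L ≃ₐ[K] L, ∃ a : ZMod p, h z = z + algebraMap k L (algebraMap (ZMod p) k a) :=
    fun h => hshift _ (by rw [← map_pow, hz, map_add, hfix])
  choose B hB using hB
  obtain ⟨σ₀, hσ₀⟩ : ∃ σ₀ : L ≃ₐ[K] L, τ (σ₀ y₁) = y₁ := by
    have hτY : ∀ y ∈ Y, τ y ∈ Y := fun y hy => root_mem (K := K) hY τ (semi_psi hτn) hy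
    have hsurj : Y.image τ = Y := eq_of_subset_of_card_le (fun v hv => by
      obtain ⟨y, hy, rfl⟩ := mem_image.mp hv; exact hτY y hy)
      (card_image_of_injective Y τ.injective).ge
    obtain ⟨y', hy', hτy⟩ := mem_image.mp (show y₁ ∈ Y.image τ by rw [hsurj]; exact hy₁)
    obtain ⟨σ, hσ⟩ := htr y₁ hy₁ y' hy'
    exact ⟨σ, by rw [hσ, hτy]⟩
  refine ⟨A σ₀, B, fun h _ => hB h, fun w hw => ?_⟩
  set coset := univ.filter (fun σ : L ≃ₐ[K] L => τ (σ y₁) = y₁) with hcoset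
  have hcos : ∑ σ ∈ coset, w (A σ) = ∑ h ∈ H, w (A σ₀ + B h) := by
    refine sum_bij' (fun σ _ => σ₀⁻¹ * σ) (fun h _ => σ₀ * h) ?_ ?_ ?_ ?_ ?_
    · intro σ hσ
      refine mem_filter.mpr ⟨mem_univ _, ?_⟩
      show σ₀.symm (σ y₁) = y₁
      rw [show σ y₁ = σ₀ y₁ from τ.injective ((mem_filter.mp hσ).2.trans hσ₀.symm), AlgEquiv.symm_apply_apply]
    · intro h hh
      refine mem_filter.mpr ⟨mem_univ _, ?_⟩
      show τ (σ₀ (h y₁)) = y₁
      rw [(mem_filter.mp hh).2, hσ₀]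
    · intro σ _; exact mul_inv_cancel_left σ₀ σ
    · intro h _; exact inv_mul_cancel_left σ₀ h
    · intro σ hσ
      congr 1
      apply (algebraMap (ZMod p) k).injective
      apply (algebraMap k L).injective
      have e1 : τ (σ z) = τ (σ₀ ((σ₀⁻¹ * σ) z)) := by
        rw [show σ₀ ((σ₀⁻¹ * σ) z) = (σ₀ * (σ₀⁻¹ * σ)) z from rfl, mul_inv_cancel_left]
      have e2 : τ (σ₀ (algebraMap k L (algebraMap (ZMod p) k (B (σ₀⁻¹ * σ)))))
          = algebraMap k L (algebraMap (ZMod p) k (B (σ₀⁻¹ * σ))) := by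
        refine ((semi_comp hτn σ₀).2 (algebraMap (ZMod p) k (B (σ₀⁻¹ * σ)))).trans ?_
        rw [← map_pow (algebraMap (ZMod p) k), ZMod.pow_card_pow]
      rw [hA, hB, map_add σ₀, map_add τ, hA, e2, add_assoc] at e1
      rw [add_left_cancel e1, map_add, map_add]
  set pts' := pts.filter (fun φ => φ xb ∉ bad2) with hpts'
  set N : (L ≃ₐ[K] L) → ℕ := fun σ =>
    (pts'.filter (Frob τ (fun _ => semi_integral hτn) (p ^ n) σ)).card with hNdef
  set g : ((integralClosure k[X] L) →ₐ[k] k) → ℂ := fun φ =>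
    if φ (yB ⟨y₁, hy₁⟩) ^ p ^ n = φ (yB ⟨y₁, hy₁⟩) then w (trk f n (φ xb)) else 0 with hg
  -- grouping by Frobenius
  have hgroup : ∑ φ ∈ pts', g φ = ∑ σ ∈ coset, (N σ : ℂ) * w (A σ) := by
    have hval : ∀ φ ∈ pts', ∀ σ : L ≃ₐ[K] L, Frob τ (fun _ => semi_integral hτn) (p ^ n) σ φ →
        g φ = if σ ∈ coset then w (A σ) else 0 := by
      intro φ hφ σ hσ
      obtain ⟨hφp, hφb⟩ := mem_filter.mp hφ
      obtain ⟨hiff, htrk⟩ := frob_value (K := K) hint hy₁ hzint hz hτn (hdist φ hφb) (hA σ) hσ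
        (root_mem (K := K) hY τ (semi_psi hτn) (hperm σ y₁ hy₁))
      simp only [hg, htrk, hcoset, mem_filter, mem_univ, true_and, yB, hiff]
    calc ∑ φ ∈ pts', g φ
        = ∑ φ ∈ pts', ∑ σ : L ≃ₐ[K] L,
            if Frob τ (fun _ => semi_integral hτn) (p ^ n) σ φ then (if σ ∈ coset then w (A σ) else 0) else 0 := by
          refine sum_congr rfl fun φ hφ => ?_
          obtain ⟨σ, hσ, hu⟩ := huniq φ (mem_filter.mp hφ).1
          rw [sum_eq_single σ (fun σ' _ h => if_neg fun h' => h (hu σ' h'))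
            (fun h => absurd (mem_univ σ) h), if_pos hσ, hval φ hφ σ hσ]
      _ = ∑ σ : L ≃ₐ[K] L, (N σ : ℂ) * (if σ ∈ coset then w (A σ) else 0) := by
          rw [sum_comm]
          refine sum_congr rfl fun σ _ => ?_
          rw [← sum_filter, sum_const, nsmul_eq_mul]
      _ = _ := by
          simp only [mul_ite, mul_zero]
          rw [← sum_filter, filter_mem_eq_inter, univ_inter]
  -- grouping by the base point
  have hbase : ∑ φ ∈ pts', g φ = (H.card : ℂ) * ∑ x ∈ Fq k p n \ bad2,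
      ((evk P x).roots.toFinset.filter (fun r => r ^ p ^ n = r)).card • w (trk f n x) := by
    rw [mul_sum, ← sum_fiberwise_of_maps_to (t := Fq k p n \ bad2) (g := fun φ => φ xb) fun φ hφ =>
      mem_sdiff.mpr ⟨((hmem φ).mp (mem_filter.mp hφ).1).1, (mem_filter.mp hφ).2⟩]
    refine sum_congr rfl fun x hx => ?_
    obtain ⟨hxF, hxb⟩ := mem_sdiff.mp hx
    have hxbad : x ∉ bad := fun h => hxb (mem_union_left _ h)
    obtain ⟨⟨φ₀, hφ₀⟩, hu⟩ := hgood x hxbad
    obtain ⟨-, huniq'⟩ := hu φ₀ hφ₀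
    have hfib : pts'.filter (fun φ => φ xb = x) = univ.image (fun σ : L ≃ₐ[K] L => φ₀.comp (actB σ)) := by
      ext φ
      rw [mem_filter, mem_image]
      constructor
      · rintro ⟨-, h⟩
        obtain ⟨σ, hσ, -⟩ := huniq' φ h
        exact ⟨σ, mem_univ _, hσ.symm⟩
      · rintro ⟨σ, -, rfl⟩
        have hx' : φ₀.comp (actB σ) xb = x := by rw [AlgHom.comp_apply, actB_xb, hφ₀]
        exact ⟨mem_filter.mpr ⟨(hmem _).mpr ⟨hx' ▸ hxF, hx' ▸ hxbad⟩, hx' ▸ hxb⟩, hx'⟩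
    have hinj : Function.Injective (fun σ : L ≃ₐ[K] L => φ₀.comp (actB σ)) := fun σ σ' h => by
      have hx' : φ₀.comp (actB σ) xb = x := by rw [AlgHom.comp_apply, actB_xb, hφ₀]
      exact (huniq' _ hx').unique rfl h
    rw [hfib, sum_image fun a _ b _ h => hinj h]
    set q₁ : (L ≃ₐ[K] L) → k := fun σ => φ₀ (yB ⟨σ y₁, hperm σ y₁ hy₁⟩) with hq₁
    have hg' : ∀ σ : L ≃ₐ[K] L, g (φ₀.comp (actB σ))
        = if q₁ σ ^ p ^ n = q₁ σ then w (trk f n x) else 0 := by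
      intro σ
      have e : (φ₀.comp (actB σ)) (yB ⟨y₁, hy₁⟩) = q₁ σ := congrArg φ₀ (Subtype.ext rfl)
      have e2 : (φ₀.comp (actB σ)) xb = x := by rw [AlgHom.comp_apply, actB_xb, hφ₀]
      simp only [hg, e, e2]
    simp only [hg', sum_ite, sum_const_zero, add_zero, sum_const, nsmul_eq_mul]
    rw [show (univ.filter fun σ => q₁ σ ^ p ^ n = q₁ σ).card = _ from
      fiber_count (K := K) (n := n) hPm hY hint htr hy₁ (fun σ => hperm σ y₁ hy₁) hφ₀ (hdist φ₀ (hφ₀ ▸ hxb)),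
      Nat.cast_mul, mul_assoc]
  set T := ∑ x ∈ Fq k p n, ((evk P x).roots.toFinset.filter (fun r => r ^ p ^ n = r)).card • w (trk f n x)
    with hT
  set T' := ∑ x ∈ Fq k p n \ bad2,
    ((evk P x).roots.toFinset.filter (fun r => r ^ p ^ n = r)).card • w (trk f n x) with hT'
  have hTT : ‖T - T'‖ ≤ (bad2.card * P.natDegree : ℕ) := by
    rw [hT, hT', ← sum_sdiff_eq_sub sdiff_subset]
    refine (norm_sum_le _ _).trans ((sum_le_card_nsmul _ _ (P.natDegree : ℝ) fun x _ => ?_).trans ?_)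
    · rw [nsmul_eq_mul, norm_mul, Complex.norm_natCast]
      refine (mul_le_of_le_one_right (Nat.cast_nonneg _) (hw _)).trans ?_
      exact_mod_cast (card_le_card (filter_subset _ _)).trans (hroots_le x)
    · rw [nsmul_eq_mul, Nat.cast_mul]
      refine mul_le_mul_of_nonneg_right ?_ (Nat.cast_nonneg _)
      exact_mod_cast card_le_card (show Fq k p n \ (Fq k p n \ bad2) ⊆ bad2 from fun x hx => by
        by_contra h; exact (mem_sdiff.mp hx).2 (mem_sdiff.mpr ⟨(mem_sdiff.mp hx).1, h⟩))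
  have hNσ : ∀ σ : L ≃ₐ[K] L, |(N σ : ℝ) - (p : ℝ) ^ n| ≤ C₀ * Real.sqrt ((p : ℝ) ^ n) + (δL * bad2.card : ℕ) :=
    fun σ => count_good (K := K) pts hgood (fun φ hφ => ((hmem φ).mp hφ).2) _ (hN σ)
  have hcard_coset : coset.card = H.card := by
    refine card_bij' (fun σ _ => σ₀⁻¹ * σ) (fun h _ => σ₀ * h) ?_ ?_ ?_ ?_
    · intro σ hσ
      refine mem_filter.mpr ⟨mem_univ _, ?_⟩
      show σ₀.symm (σ y₁) = y₁
      rw [show σ y₁ = σ₀ y₁ from τ.injective ((mem_filter.mp hσ).2.trans hσ₀.symm), AlgEquiv.symm_apply_apply]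
    · intro h hh
      refine mem_filter.mpr ⟨mem_univ _, ?_⟩
      show τ (σ₀ (h y₁)) = y₁
      rw [(mem_filter.mp hh).2, hσ₀]
    · intro σ _; exact mul_inv_cancel_left σ₀ σ
    · intro h _; exact inv_mul_cancel_left σ₀ h
  exact combine coset H N (fun σ => w (A σ)) (fun h => w (A σ₀ + B h)) T T' ((p : ℝ) ^ n)
    (C₀ * Real.sqrt ((p : ℝ) ^ n)) δL C₀ bad2.card P.natDegree hHpos hcard_coset hcos
    (hgroup.symm.trans hbase) (fun σ => hw _) hNσ hTT rfl (one_le_pow₀ (by exact_mod_cast hp.one_le))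
    (Module.finrank_pos (R := K) (M := L)) (by push_cast; rfl)

end Vale.Agent.P042.Curve
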