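import Mathlib

namespace Vale.Agent.P042.Kloo

open Finset

variable {p : ℕ} [Fact p.Prime]

/-- The standard additive character of `ZMod p`. -/
noncomputable abbrev ψ : AddChar (ZMod p) ℂ := ZMod.stdAddChar (N := p)

lemma norm_ψ (x : ZMod p) : ‖ψ x‖ = 1 := AddChar.norm_apply _ x

lemma sum_ψ (u : ZMod p) : ∑ x : ZMod p, ψ (x * u) = if u = 0 then (p : ℂ) else 0 := by
  rw [AddChar.sum_mulShift u (ZMod.isPrimitive_stdAddChar p), ZMod.card]
  split_ifs <;> simp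

/-- The Kloosterman sum. -/
noncomputable def kloo (a b : ZMod p) : ℂ :=
  ∑ x : (ZMod p)ˣ, ψ (a * (x : ZMod p) + b * ((x⁻¹ : (ZMod p)ˣ) : ZMod p))

lemma kloo_scale (a b : ZMod p) (t : (ZMod p)ˣ) :
    kloo (a * (t : ZMod p)) (b * ((t⁻¹ : (ZMod p)ˣ) : ZMod p)) = kloo a b := by
  refine Fintype.sum_equiv (Equiv.mulLeft t) _ _ fun x => ?_
  simp only [Equiv.coe_mulLeft, mul_inv_rev, Units.val_mul]
  congr 1; ring

lemma quad_count :
    (univ.filter fun v : ((ZMod p)ˣ × (ZMod p)ˣ) × ((ZMod p)ˣ × (ZMod p)ˣ) =>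
      (v.1.1 : ZMod p) + (v.1.2 : ZMod p) = (v.2.1 : ZMod p) + (v.2.2 : ZMod p) ∧
      ((v.1.1⁻¹ : (ZMod p)ˣ) : ZMod p) + ((v.1.2⁻¹ : (ZMod p)ˣ) : ZMod p)
        = ((v.2.1⁻¹ : (ZMod p)ˣ) : ZMod p) + ((v.2.2⁻¹ : (ZMod p)ˣ) : ZMod p)).card
    ≤ 3 * (p - 1) ^ 2 := by
  classical
  let T := (ZMod p)ˣ × (ZMod p)ˣ
  let A : Finset (T × T) := univ.image fun u : T => ((u.1, -u.1), (u.2, -u.2))
  let B : Finset (T × T) := univ.image fun u : T => ((u.1, u.2), (u.1, u.2))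
  let C : Finset (T × T) := univ.image fun u : T => ((u.1, u.2), (u.2, u.1))
  have hc : ∀ f : T → T × T, (univ.image f).card ≤ (p - 1) ^ 2 := fun f => by
    refine card_image_le.trans (le_of_eq ?_)
    rw [card_univ, Fintype.card_prod, ZMod.card_units p, sq]
  refine le_trans (card_le_card (t := A ∪ B ∪ C) ?_) ?_
  · rintro ⟨⟨x, y⟩, ⟨z, w⟩⟩ hv
    obtain ⟨h1, h2⟩ := (mem_filter.mp hv).2
    simp only at h1 h2
    simp only [mem_union]
    by_cases hs : (x : ZMod p) + y = 0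
    · left; left
      refine mem_image.mpr ⟨(x, z), mem_univ _, Prod.ext (Prod.ext rfl ?_) (Prod.ext rfl ?_)⟩
      · ext; rw [Units.val_neg]; linear_combination -hs
      · ext; rw [Units.val_neg]; linear_combination h1 - hs
    · have hx := x.ne_zero
      have hy := y.ne_zero
      have hz := z.ne_zero
      have hw := w.ne_zero
      simp only [Units.val_inv_eq_inv_val] at h2
      field_simp at h2
      have hprod : (x : ZMod p) * y = (z : ZMod p) * w := by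
        refine mul_left_cancel₀ hs ?_
        linear_combination (-1 : ZMod p) * h2 + (x : ZMod p) * y * h1
      have h3 : ((z : ZMod p) - x) * ((z : ZMod p) - y) = 0 := by
        linear_combination (-(z : ZMod p)) * h1 + hprod
      rcases mul_eq_zero.mp h3 with h4 | h4
      · left; right
        exact mem_image.mpr ⟨(x, y), mem_univ _, Prod.ext rfl (Prod.ext
          (Units.ext (by linear_combination -h4)) (Units.ext (by linear_combination h1 + h4)))⟩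
      · right
        exact mem_image.mpr ⟨(x, y), mem_univ _, Prod.ext rfl (Prod.ext
          (Units.ext (by linear_combination -h4)) (Units.ext (by linear_combination h1 + h4)))⟩
  · refine (card_union_le _ _).trans ?_
    have := card_union_le A B
    have h1 : A.card ≤ (p - 1) ^ 2 := hc _
    have h2 : B.card ≤ (p - 1) ^ 2 := hc _
    have h3 : C.card ≤ (p - 1) ^ 2 := hc _
    omega

lemma fourth_moment :
    ∑ a : ZMod p, ∑ b : ZMod p, ‖kloo a b‖ ^ 4 ≤ (p : ℝ) ^ 2 * (3 * ((p : ℝ) - 1) ^ 2) := by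
  classical
  have key : ((∑ a : ZMod p, ∑ b : ZMod p, ‖kloo a b‖ ^ 4 : ℝ) : ℂ)
      = (p : ℂ) ^ 2 * ((univ.filter fun v : ((ZMod p)ˣ × (ZMod p)ˣ) × ((ZMod p)ˣ × (ZMod p)ˣ) =>
      (v.1.1 : ZMod p) + (v.1.2 : ZMod p) = (v.2.1 : ZMod p) + (v.2.2 : ZMod p) ∧
      ((v.1.1⁻¹ : (ZMod p)ˣ) : ZMod p) + ((v.1.2⁻¹ : (ZMod p)ˣ) : ZMod p)
        = ((v.2.1⁻¹ : (ZMod p)ˣ) : ZMod p) + ((v.2.2⁻¹ : (ZMod p)ˣ) : ZMod p)).card : ℕ) := by
    have h4 : ∀ a b : ZMod p, ((‖kloo a b‖ ^ 4 : ℝ) : ℂ) =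
        ∑ v : ((ZMod p)ˣ × (ZMod p)ˣ) × ((ZMod p)ˣ × (ZMod p)ˣ),
          ψ (a * ((v.1.1 : ZMod p) + (v.1.2 : ZMod p) - ((v.2.1 : ZMod p) + (v.2.2 : ZMod p)))) *
          ψ (b * (((v.1.1⁻¹ : (ZMod p)ˣ) : ZMod p) + ((v.1.2⁻¹ : (ZMod p)ˣ) : ZMod p)
            - (((v.2.1⁻¹ : (ZMod p)ˣ) : ZMod p) + ((v.2.2⁻¹ : (ZMod p)ˣ) : ZMod p)))) := by
      intro a b
      have h5 : ((‖kloo a b‖ ^ 4 : ℝ) : ℂ)
          = (kloo a b * kloo a b) * ((starRingEnd ℂ) (kloo a b) * (starRingEnd ℂ) (kloo a b)) := by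
        rw [show (‖kloo a b‖ ^ 4 : ℝ) = (‖kloo a b‖ ^ 2) * (‖kloo a b‖ ^ 2) by ring,
          Complex.ofReal_mul, Complex.sq_norm, ← Complex.mul_conj]
        ring
      rw [h5, kloo, map_sum]
      simp only [sum_mul_sum, ← Fintype.sum_prod_type']
      refine sum_congr rfl fun v _ => ?_
      simp only [← AddChar.map_neg_eq_conj, ← AddChar.map_add_eq_mul]
      congr 1; ring
    push_cast at h4 ⊢
    simp only [h4]
    rw [sum_congr rfl fun a _ => sum_comm, sum_comm]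
    simp only [← mul_sum, ← sum_mul, sum_ψ, sub_eq_zero]
    rw [card_eq_sum_ones, Nat.cast_sum, mul_sum, sum_filter]
    refine sum_congr rfl fun v _ => ?_
    simp only [ite_mul, zero_mul, mul_ite, mul_zero, ← ite_and, Nat.cast_one, mul_one, sq, and_comm]
  have hre := congrArg Complex.re key
  rw [Complex.ofReal_re] at hre
  rw [hre]
  rw [← Nat.cast_pow, ← Nat.cast_mul, Complex.natCast_re, Nat.cast_mul, Nat.cast_pow]
  refine mul_le_mul_of_nonneg_left ?_ (by positivity)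
  refine (Nat.cast_le.mpr quad_count).trans (le_of_eq ?_)
  rw [Nat.cast_mul, Nat.cast_pow, Nat.cast_sub (Fact.out : p.Prime).one_le]
  norm_num

lemma kloo_bound (c d : ZMod p) (hc : c ≠ 0) : ‖kloo c d‖ ^ 4 ≤ 3 * (p : ℝ) ^ 3 := by
  classical
  have hp1 : (1 : ℝ) < p := by exact_mod_cast (Fact.out : p.Prime).one_lt
  have h1 : ((p : ℝ) - 1) * ‖kloo c d‖ ^ 4 ≤ ∑ a : ZMod p, ∑ b : ZMod p, ‖kloo a b‖ ^ 4 := by
    rw [← Fintype.sum_prod_type']
    let f : (ZMod p)ˣ → ZMod p × ZMod p := fun t => (c * (t : ZMod p), d * ((t⁻¹ : (ZMod p)ˣ) : ZMod p))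
    have hinj : Function.Injective f := fun t u he => by
      simp only [f, Prod.mk.injEq] at he
      exact Units.ext (mul_left_cancel₀ hc he.1)
    refine le_trans (le_of_eq ?_) (sum_le_sum_of_subset_of_nonneg (subset_univ (univ.image f))
      (fun _ _ _ => by positivity))
    rw [sum_image (fun a _ b _ => (hinj ·))]
    simp only [f, kloo_scale, sum_const, card_univ, ZMod.card_units p, nsmul_eq_mul]
    rw [Nat.cast_sub (Fact.out : p.Prime).one_le, Nat.cast_one]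
  have h2 : (p : ℝ) ^ 2 * (3 * ((p : ℝ) - 1) ^ 2) ≤ ((p : ℝ) - 1) * (3 * (p : ℝ) ^ 3) := by
    have : (p : ℝ) ^ 2 * ((p : ℝ) - 1) * ((p : ℝ) - 1) ≤ (p : ℝ) ^ 2 * ((p : ℝ) - 1) * p :=
      mul_le_mul_of_nonneg_left (by linarith) (mul_nonneg (by positivity) (by linarith))
    linarith
  exact le_of_mul_le_mul_left (h1.trans (fourth_moment.trans h2)) (by linarith)

/-- The quadratic character with complex values. -/
noncomputable def χ (x : ZMod p) : ℂ := ((quadraticChar (ZMod p) x : ℤ) : ℂ)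

lemma two_ne (hp2 : p ≠ 2) : (2 : ZMod p) ≠ 0 := by
  intro h
  have h' : ((2 : ℕ) : ZMod p) = 0 := by exact_mod_cast h
  rw [ZMod.natCast_eq_zero_iff] at h'
  exact hp2 ((Nat.prime_dvd_prime_iff_eq Fact.out Nat.prime_two).mp h')

lemma card_sq (hp2 : p ≠ 2) (a : ZMod p) :
    ((univ.filter fun x : ZMod p => x ^ 2 = a).card : ℂ) = χ a + 1 := by
  have hring : ringChar (ZMod p) ≠ 2 := by rwa [ZMod.ringChar_zmod_n]
  have h := quadraticChar_card_sqrts hring a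
  have h' := congrArg (Int.cast (R := ℂ)) h
  push_cast at h'
  rw [χ, ← h', Set.toFinset_setOf]

lemma jac_eq (hp2 : p ≠ 2) (b : ZMod p) :
    ∑ w : ZMod p, χ (w ^ 2 - 4) * ψ (b * w) + ∑ w : ZMod p, ψ (b * w) = kloo b b := by
  classical
  have hcard : ∀ w : ZMod p,
      ((univ.filter fun t : (ZMod p)ˣ => (t : ZMod p) + (t⁻¹ : (ZMod p)ˣ) = w).card : ℂ)
        = χ (w ^ 2 - 4) + 1 := by
    intro w
    rw [← card_sq hp2]
    congr 1
    have h2 := two_ne hp2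
    refine card_bij (fun t _ => 2 * (t : ZMod p) - w) ?_ ?_ ?_
    · intro t ht
      have ht' := (mem_filter.mp ht).2
      rw [Units.val_inv_eq_inv_val] at ht'
      field_simp [t.ne_zero] at ht'
      simp only [mem_filter, mem_univ, true_and]
      linear_combination (4 : ZMod p) * ht'
    · intro t _ u _ he
      exact Units.ext (mul_left_cancel₀ h2 (sub_left_inj.mp he))
    · intro x hx
      have hx' := (mem_filter.mp hx).2
      set t : ZMod p := (x + w) / 2 with ht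
      have h2t : 2 * t = x + w := by rw [ht, mul_div_cancel₀ _ h2]
      have hq : t * t - w * t + 1 = 0 := by
        have : (2 : ZMod p) * 2 * (t * t - w * t + 1) = 0 := by
          linear_combination (2 * t - w + x) * h2t + hx'
        exact (mul_eq_zero.mp this).resolve_left (mul_ne_zero h2 h2)
      have ht0 : t ≠ 0 := fun h0 => by simp [h0] at hq
      refine ⟨Units.mk0 t ht0, mem_filter.mpr ⟨mem_univ _, ?_⟩, ?_⟩
      · rw [Units.val_inv_eq_inv_val, Units.val_mk0]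
        field_simp
        linear_combination hq
      · rw [Units.val_mk0]; linear_combination h2t
  rw [kloo, ← sum_add_distrib,
    ← sum_fiberwise univ (fun t : (ZMod p)ˣ => (t : ZMod p) + (t⁻¹ : (ZMod p)ˣ))]
  refine sum_congr rfl fun w _ => ?_
  have : ∀ t ∈ univ.filter (fun t : (ZMod p)ˣ => (t : ZMod p) + (t⁻¹ : (ZMod p)ˣ) = w),
      ψ (b * (t : ZMod p) + b * ((t⁻¹ : (ZMod p)ˣ) : ZMod p)) = ψ (b * w) := fun t ht => by
    rw [← mul_add, (mem_filter.mp ht).2]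
  rw [sum_congr rfl this, sum_const, nsmul_eq_mul, hcard]
  ring

lemma χ_mul (x y : ZMod p) : χ (x * y) = χ x * χ y := by
  simp [χ, map_mul]

lemma norm_χ_le (x : ZMod p) : ‖χ x‖ ≤ 1 := by
  by_cases hx : x = 0
  · simp [χ, hx]
  · rcases quadraticChar_dichotomy hx with h | h <;> simp [χ, h]

lemma sum_χ (hp2 : p ≠ 2) : ∑ x : ZMod p, χ x = 0 := by
  have hring : ringChar (ZMod p) ≠ 2 := by rwa [ZMod.ringChar_zmod_n]
  simp only [χ, ← Int.cast_sum, quadraticChar_sum_zero hring, Int.cast_zero]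

lemma gauss_bound (hp2 : p ≠ 2) (Δ c s : ZMod p) (hc : c ≠ 0) (hs : s ≠ 0) :
    ‖∑ v : ZMod p, χ (Δ + c * v) * ψ (s * v)‖ = Real.sqrt p := by
  have hring : ringChar (ZMod p) ≠ 2 := by rwa [ZMod.ringChar_zmod_n]
  set χ' : MulChar (ZMod p) ℂ := (quadraticChar (ZMod p)).ringHomComp (Int.castRingHom ℂ) with hχ'
  have hne : χ' ≠ 1 := by
    rw [hχ', MulChar.ringHomComp_ne_one_iff Int.cast_injective]
    exact quadraticChar_ne_one hring
  have hq : χ'.IsQuadratic := (quadraticChar_isQuadratic (ZMod p)).comp _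
  set ψ' : AddChar (ZMod p) ℂ := AddChar.mulShift ψ (s / c) with hψ'
  have hprim : ψ'.IsPrimitive := by
    intro a ha
    rw [hψ', AddChar.mulShift_mulShift]
    exact ZMod.isPrimitive_stdAddChar p (mul_ne_zero (div_ne_zero hs hc) ha)
  have heq : ∑ v : ZMod p, χ (Δ + c * v) * ψ (s * v)
      = ψ (-(s / c * Δ)) * gaussSum χ' ψ' := by
    rw [gaussSum, mul_sum]
    refine Fintype.sum_equiv ((Equiv.mulLeft₀ c hc).trans (Equiv.addLeft Δ)) _ _ fun v => ?_
    simp only [Equiv.trans_apply, Equiv.coe_addLeft, hψ', AddChar.mulShift_apply]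
    rw [show (Equiv.mulLeft₀ c hc) v = c * v from rfl]
    rw [mul_left_comm, ← AddChar.map_add_eq_mul]
    congr 1
    congr 1
    field_simp
    ring
  have hsq := gaussSum_sq hne hq hprim
  have hn := congrArg (fun z : ℂ => ‖z‖) hsq
  simp only [norm_pow, norm_mul, ZMod.card, Complex.norm_natCast] at hn
  have h1 : ‖χ' (-1)‖ = 1 := by
    rcases quadraticChar_dichotomy (neg_ne_zero.mpr (one_ne_zero (α := ZMod p))) with h | h <;>
      simp [hχ', MulChar.ringHomComp_apply, h]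
  rw [h1, one_mul] at hn
  rw [heq, norm_mul, norm_ψ, one_mul, ← hn, Real.sqrt_sq (norm_nonneg _)]

/-- The symmetric weight on values. -/
noncomputable def symw (Δ c v : ZMod p) : ℂ := (1 + χ (Δ + c * v)) * (1 + χ (Δ - c * v))

lemma symw_neg (Δ c v : ZMod p) : symw Δ c (-v) = symw Δ c v := by
  simp [symw, sub_eq_add_neg, mul_comm]

lemma jac_sum (hp2 : p ≠ 2) (Δ c s : ZMod p) (hΔ : Δ ≠ 0) (hc : c ≠ 0) :
    ∑ v : ZMod p, χ (Δ + c * v) * χ (Δ - c * v) * ψ (s * v)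
      = χ (-1 : ZMod p) * ∑ w : ZMod p, χ (w ^ 2 - 4) * ψ (s * Δ / (2 * c) * w) := by
  have h2 := two_ne hp2
  rw [mul_sum]
  have hm : Δ / (2 * c) ≠ 0 := div_ne_zero hΔ (mul_ne_zero h2 hc)
  refine (Fintype.sum_equiv (Equiv.mulLeft₀ (Δ / (2 * c)) hm) _ _ fun w => ?_).symm
  rw [show (Equiv.mulLeft₀ (Δ / (2 * c)) hm) w = Δ / (2 * c) * w from rfl, ← mul_assoc (χ (-1 : ZMod p))]
  congr 1
  · rw [← χ_mul (Δ + c * _), ← χ_mul (-1 : ZMod p), show (Δ + c * (Δ / (2 * c) * w)) * (Δ - c * (Δ / (2 * c) * w))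
      = (-1 * (w ^ 2 - 4)) * ((Δ / 2) * (Δ / 2)) by field_simp; ring]
    rw [χ_mul (-1 * (w ^ 2 - 4)), show χ (Δ / 2 * (Δ / 2)) = 1 from ?_, mul_one]
    rw [χ, ← sq, quadraticChar_sq_one' (div_ne_zero hΔ h2)]; simp
  · congr 1; field_simp

lemma symw_hat (hp2 : p ≠ 2) (Δ c s : ZMod p) (hΔ : Δ ≠ 0) (hc : c ≠ 0) (hs : s ≠ 0) :
    ‖∑ v : ZMod p, symw Δ c v * ψ (s * v)‖ ≤ 4 * (p : ℝ) ^ (3 / 4 : ℝ) := by
  have hp0 : (1 : ℝ) ≤ p := by exact_mod_cast (Fact.out : p.Prime).one_le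
  have e : ∑ v : ZMod p, symw Δ c v * ψ (s * v) = (∑ v : ZMod p, ψ (v * s))
      + (∑ v : ZMod p, χ (Δ + c * v) * ψ (s * v)) + (∑ v : ZMod p, χ (Δ + (-c) * v) * ψ (s * v))
      + ∑ v : ZMod p, χ (Δ + c * v) * χ (Δ - c * v) * ψ (s * v) := by
    simp only [← sum_add_distrib, symw, neg_mul, ← sub_eq_add_neg, mul_comm _ s]
    refine sum_congr rfl fun v _ => ?_; ring
  rw [e, sum_ψ, if_neg hs, zero_add]
  refine (norm_add_le _ _).trans ?_
  have hsqrt : Real.sqrt p ≤ (p : ℝ) ^ (3 / 4 : ℝ) := by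
    rw [Real.sqrt_eq_rpow]; exact Real.rpow_le_rpow_of_exponent_le hp0 (by norm_num)
  have h1 := norm_add_le (∑ v : ZMod p, χ (Δ + c * v) * ψ (s * v))
    (∑ v : ZMod p, χ (Δ + (-c) * v) * ψ (s * v))
  rw [gauss_bound hp2 Δ c s hc hs, gauss_bound hp2 Δ (-c) s (neg_ne_zero.mpr hc) hs] at h1
  have hd : s * Δ / (2 * c) ≠ 0 := div_ne_zero (mul_ne_zero hs hΔ) (mul_ne_zero (two_ne hp2) hc)
  have h2 : ‖∑ v : ZMod p, χ (Δ + c * v) * χ (Δ - c * v) * ψ (s * v)‖
      ≤ 2 * (p : ℝ) ^ (3 / 4 : ℝ) := by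
    rw [jac_sum hp2 Δ c s hΔ hc, norm_mul]
    refine (mul_le_of_le_one_left (norm_nonneg _) (norm_χ_le _)).trans ?_
    have hj := jac_eq hp2 (s * Δ / (2 * c))
    have hz : ∑ w : ZMod p, ψ (s * Δ / (2 * c) * w) = 0 := by
      have := sum_ψ (s * Δ / (2 * c)); rw [if_neg hd] at this
      simpa [mul_comm] using this
    rw [hz, add_zero] at hj
    rw [hj]
    have hb := kloo_bound (s * Δ / (2 * c)) (s * Δ / (2 * c)) hd
    refine le_of_pow_le_pow_left₀ (n := 4) (by norm_num) (by positivity) (hb.trans ?_)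
    rw [mul_pow, ← Real.rpow_natCast ((p : ℝ) ^ (3 / 4 : ℝ)) 4, ← Real.rpow_mul (by linarith),
      ← Real.rpow_natCast (p : ℝ) 3]
    norm_num
    exact mul_le_mul_of_nonneg_right (by norm_num) (by positivity)
  linarith

lemma symw_total (hp2 : p ≠ 2) (Δ c : ZMod p) (hΔ : Δ ≠ 0) (hc : c ≠ 0) :
    (p : ℝ) - 1 ≤ (∑ v : ZMod p, symw Δ c v).re := by
  have e : ∑ v : ZMod p, symw Δ c v = (p : ℂ) + (∑ v : ZMod p, χ (Δ + c * v))
      + (∑ v : ZMod p, χ (Δ + (-c) * v)) + ∑ v : ZMod p, χ (Δ + c * v) * χ (Δ - c * v) * ψ (0 * v) := by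
    rw [show (p : ℂ) = ∑ _v : ZMod p, (1 : ℂ) by simp]
    simp only [← sum_add_distrib, symw, neg_mul, ← sub_eq_add_neg, zero_mul,
      AddChar.map_zero_eq_one, mul_one]
    refine sum_congr rfl fun v _ => ?_; ring
  have hz : ∀ d : ZMod p, d ≠ 0 → ∑ v : ZMod p, χ (Δ + d * v) = 0 := by
    intro d hd
    rw [← sum_χ hp2]
    exact Fintype.sum_equiv ((Equiv.mulLeft₀ d hd).trans (Equiv.addLeft Δ)) _ _ fun v => rfl
  rw [e, hz c hc, hz (-c) (neg_ne_zero.mpr hc), jac_sum hp2 Δ c 0 hΔ hc, add_zero, add_zero]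
  have hj := jac_eq hp2 (0 : ZMod p)
  simp only [zero_mul, zero_div, AddChar.map_zero_eq_one, mul_one, kloo, add_zero, sum_const,
    card_univ, ZMod.card, ZMod.card_units, nsmul_eq_mul] at hj ⊢
  have hw : ∑ w : ZMod p, χ (w ^ 2 - 4) = -1 := by
    rw [Nat.cast_sub (Fact.out : p.Prime).one_le] at hj
    push_cast at hj
    linear_combination hj
  rw [hw, Complex.add_re, Complex.natCast_re]
  have := (abs_le.mp ((Complex.abs_re_le_norm (χ (-1 : ZMod p) * -1)).trans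
    (show ‖χ (-1 : ZMod p) * -1‖ ≤ 1 by rw [norm_mul, norm_neg, norm_one, mul_one]; exact norm_χ_le _))).1
  linarith

end Vale.Agent.P042.Kloo
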