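import Vale.Agent.P042.Odd
import Vale.Agent.P042.Kloo

namespace Vale.Agent.P042

open Finset Polynomial

lemma avg_eq_zero_of_shift (R s : ℕ) (F : ℕ → ℂ) (ω : ℂ) (hω : ω ≠ 1)
    (hper : Function.Periodic F R) (h : ∀ m, F (m + s) = ω * F m) : avg R F = 0 := by
  have h1 := sum_shift F R s hper
  simp only [h, ← mul_sum] at h1
  have h2 : (ω - 1) * ∑ n ∈ range R, F n = 0 := by linear_combination h1
  rw [avg, (mul_eq_zero.mp h2).resolve_left (sub_ne_zero.mpr hω), zero_div]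

lemma ch_eq_ψ (p : ℕ) [Fact p.Prime] (x : ℤ) : ch p x = Kloo.ψ (x : ZMod p) := by
  unfold ch ee Kloo.ψ
  rw [ZMod.stdAddChar_coe]
  congr 1; push_cast; ring

lemma ch_ne_one {p : ℕ} (hp : p.Prime) {x : ℤ} (hx : ¬ (p : ℤ) ∣ x) : ch p x ≠ 1 := by
  haveI := Fact.mk hp
  rw [ch_eq_ψ, ← AddChar.map_zero_eq_one (ZMod.stdAddChar (N := p))]
  intro h
  exact hx ((ZMod.intCast_zmod_eq_zero_iff_dvd x p).mp (ZMod.injective_stdAddChar h))

lemma sum_range_zmod {M : Type*} [AddCommMonoid M] (p : ℕ) [NeZero p] (F : ZMod p → M) :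
    ∑ n ∈ range p, F (n : ZMod p) = ∑ x : ZMod p, F x := by
  refine sum_bij' (fun n _ => (n : ZMod p)) (fun x _ => x.val) (fun _ _ => mem_univ _)
    (fun x _ => mem_range.mpr (ZMod.val_lt x)) (fun n hn => ?_) (fun x _ => ?_) (fun _ _ => rfl)
  · exact ZMod.val_natCast_of_lt (mem_range.mp hn)
  · exact ZMod.natCast_zmod_val x

variable {g : ℤ[X]} {a b c : ℤ}

lemma ball_zero (hev : ∀ x : ℤ, g.eval x = a * x ^ 2 + b * x + c) {p : ℕ} (hp : p.Prime)
    (J v i : ℕ) (x₀ U : ℤ) (hU : 2 * a * x₀ + b = (p : ℤ) ^ v * U) (hUp : ¬ (p : ℤ) ∣ U)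
    (hJ : v + 1 ≤ J) (hi : J + v < i) (t : ℤ) (ht : ¬ (p : ℤ) ∣ t) :
    avg (p ^ (i - J)) (fun m => ch (p ^ i) (t * g.eval (x₀ + (p : ℤ) ^ J * (m : ℤ)))) = 0 := by
  obtain ⟨r, rfl⟩ : ∃ r, i = J + v + r + 1 := ⟨i - J - v - 1, by omega⟩
  have hpi : 1 ≤ p ^ (J + v + r + 1) := Nat.one_le_pow _ _ hp.pos
  refine avg_eq_zero_of_shift _ (p ^ r) _ (ch p (t * U))
    (ch_ne_one hp (fun h => ((Nat.prime_iff_prime_int.mp hp).dvd_or_dvd h).elim ht hUp)) ?_ ?_
  · intro m
    refine ch_congr hpi ?_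
    rw [← mul_sub]
    refine Dvd.dvd.mul_left (dvd_trans ?_ (sub_dvd_eval_sub _ _ g)) _
    refine ⟨1, ?_⟩
    push_cast
    rw [show (p : ℤ) ^ (J + v + r + 1) = (p : ℤ) ^ J * (p : ℤ) ^ (v + r + 1) by
      rw [← pow_add]; congr 1; omega,
      show J + v + r + 1 - J = v + r + 1 by omega]
    ring
  · intro m
    have hk : J = v + 1 + (J - v - 1) := by omega
    have hd : ((p ^ (J + v + r + 1) : ℕ) : ℤ) ∣
        t * g.eval (x₀ + (p : ℤ) ^ J * ((m + p ^ r : ℕ) : ℤ))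
          - (t * g.eval (x₀ + (p : ℤ) ^ J * (m : ℤ)) + (p : ℤ) ^ (J + v + r) * (t * U)) := by
      refine ⟨t * ((p : ℤ) ^ (J - v - 1) * (2 * a * m + a * (p : ℤ) ^ r)), ?_⟩
      rw [hev, hev]
      push_cast
      have e : (p : ℤ) ^ (J + v + r + 1) * (p : ℤ) ^ (J - v - 1) = (p : ℤ) ^ J * (p : ℤ) ^ J * (p : ℤ) ^ r := by
        rw [← pow_add, ← pow_add, ← pow_add]; congr 1; omega
      have e2 : (p : ℤ) ^ (J + v + r) = (p : ℤ) ^ J * (p : ℤ) ^ v * (p : ℤ) ^ r := by
        rw [← pow_add, ← pow_add]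
      rw [e2]
      linear_combination (t * (p:ℤ) ^ J * (p:ℤ) ^ r) * hU - (t * (2 * a * m + a * (p : ℤ) ^ r)) * e
    rw [ch_congr hpi hd, ch, ch, ch, ← ee_add]
    congr 1
    have hp0 : (p : ℝ) ≠ 0 := by exact_mod_cast hp.ne_zero
    push_cast
    rw [pow_succ]
    field_simp
    ring

lemma good_avg_zero (hev : ∀ x : ℤ, g.eval x = a * x ^ 2 + b * x + c) {p : ℕ} (hp : p.Prime)
    (i : ℕ) (hi : 2 ≤ i) (t : ℤ) (ht : ¬ (p : ℤ) ∣ t) (F : ℕ → ℂ) (hF : Function.Periodic F p)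
    (hcrit : ∀ r : ℕ, (p : ℤ) ∣ 2 * a * r + b → F r = 0) :
    avg (p ^ i) (fun n => F n * ch (p ^ i) (t * g.eval (n : ℤ))) = 0 := by
  obtain ⟨k, rfl⟩ : ∃ k, i = k + 1 := ⟨i - 1, by omega⟩
  have hpk : p ^ (k + 1) = p * p ^ k := by rw [pow_succ, mul_comm]
  rw [avg, show ∑ n ∈ range (p ^ (k + 1)), F n * ch (p ^ (k + 1)) (t * g.eval (n : ℤ)) = 0 from ?_,
    zero_div]
  rw [show range (p ^ (k + 1)) = range (p * p ^ k) by rw [hpk], sum_range_mul', sum_comm]
  refine sum_eq_zero fun r _ => ?_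
  by_cases hr : (p : ℤ) ∣ 2 * a * r + b
  · refine sum_eq_zero fun s _ => ?_
    rw [show F (r + p * s) = F r by rw [mul_comm]; exact hF.nat_mul s r, hcrit r hr, zero_mul]
  · have h := ball_zero hev hp 1 0 (k + 1) (r : ℤ) (2 * a * r + b) (by simp) hr le_rfl (by omega) t ht
    have hpk0 : ((p ^ (k + 1 - 1) : ℕ) : ℂ) ≠ 0 := by exact_mod_cast (pow_pos hp.pos _).ne'
    rw [avg, div_eq_zero_iff, or_iff_left hpk0, Nat.add_sub_cancel] at h
    calc ∑ s ∈ range (p ^ k), F (r + p * s) * ch (p ^ (k + 1)) (t * g.eval ((r + p * s : ℕ) : ℤ))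
        = F r * ∑ s ∈ range (p ^ k), ch (p ^ (k + 1)) (t * g.eval ((r : ℤ) + (p : ℤ) ^ 1 * (s : ℤ))) := by
          rw [mul_sum]
          refine sum_congr rfl fun s _ => ?_
          rw [show F (r + p * s) = F r by rw [mul_comm]; exact hF.nat_mul s r]
          congr 3; push_cast; ring
      _ = 0 := by rw [h, mul_zero]

section Good

variable (p : ℕ) [Fact p.Prime] (a b c Δ : ℤ)

/-- The value map modulo `p`. -/
noncomputable def qval (x : ZMod p) : ZMod p := (a : ZMod p) * x ^ 2 + (b : ZMod p) * x + (c : ZMod p)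

/-- The values kept. -/
def keep (v : ZMod p) : Prop :=
  (Δ : ZMod p) + 4 * (a : ZMod p) * v ≠ 0 ∧ (Δ : ZMod p) - 4 * (a : ZMod p) * v ≠ 0

/-- The weight on the argument. -/
noncomputable def wq (x : ZMod p) : ℝ :=
  open Classical in
  if keep p a Δ (qval p a b c x) then
    1 + ((quadraticChar (ZMod p) ((Δ : ZMod p) - 4 * (a : ZMod p) * qval p a b c x) : ℤ) : ℝ) else 0

lemma wq_bounds (x : ZMod p) : 0 ≤ wq p a b c Δ x ∧ wq p a b c Δ x ≤ 2 := by
  unfold wq
  split_ifs with h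
  · rcases quadraticChar_dichotomy h.2 with h1 | h1 <;> rw [h1] <;> norm_num
  · norm_num

lemma wq_crit (hΔ : Δ = b ^ 2 - 4 * a * c) (r : ℕ) (hr : (p : ℤ) ∣ 2 * a * r + b) :
    wq p a b c Δ (r : ZMod p) = 0 := by
  rw [wq, if_neg]
  intro h
  apply h.1
  have h0 : (((2 * a * r + b : ℤ)) : ZMod p) = 0 := (ZMod.intCast_zmod_eq_zero_iff_dvd _ p).mpr hr
  push_cast at h0
  rw [qval, hΔ]
  push_cast
  linear_combination (2 * (a : ZMod p) * r + b) * h0

lemma fiber_card (hp2 : p ≠ 2) (ha : (a : ZMod p) ≠ 0) (hΔ : Δ = b ^ 2 - 4 * a * c) (v : ZMod p) :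
    ((univ.filter fun x => qval p a b c x = v).card : ℂ)
      = Kloo.χ ((Δ : ZMod p) + 4 * (a : ZMod p) * v) + 1 := by
  rw [← Kloo.card_sq hp2]
  congr 1
  have h2 := Kloo.two_ne (p := p) hp2
  have h2a : 2 * (a : ZMod p) ≠ 0 := mul_ne_zero h2 ha
  refine card_bij (fun x _ => 2 * (a : ZMod p) * x + b) ?_ ?_ ?_
  · intro x hx
    have hx' := (mem_filter.mp hx).2
    simp only [mem_filter, mem_univ, true_and, qval, hΔ] at hx' ⊢
    push_cast
    linear_combination 4 * (a : ZMod p) * hx'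
  · intro x _ y _ he
    exact mul_left_cancel₀ h2a (add_right_cancel he)
  · intro y hy
    have hy' := (mem_filter.mp hy).2
    refine ⟨(y - b) / (2 * (a : ZMod p)), mem_filter.mpr ⟨mem_univ _, ?_⟩, ?_⟩
    · set x := (y - (b : ZMod p)) / (2 * (a : ZMod p)) with hxdef
      have hx : 2 * (a : ZMod p) * x = y - b := by rw [hxdef, mul_div_cancel₀ _ h2a]
      refine mul_left_cancel₀ (mul_ne_zero (mul_ne_zero h2 h2) ha) ?_
      rw [qval, show (c : ZMod p) = c from rfl]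
      rw [hΔ] at hy'
      push_cast at hy'
      linear_combination (2 * (a : ZMod p) * x + y + b) * hx + hy'
    · rw [mul_div_cancel₀ _ h2a, sub_add_cancel]

lemma push_forward (hp2 : p ≠ 2) (ha : (a : ZMod p) ≠ 0) (hΔ : Δ = b ^ 2 - 4 * a * c)
    (F : ZMod p → ℂ) :
    open Classical in
    ∑ x : ZMod p, (wq p a b c Δ x : ℂ) * F (qval p a b c x)
      = ∑ v ∈ univ.filter (keep p a Δ),
          Kloo.symw (Δ : ZMod p) (4 * (a : ZMod p)) v * F v := by
  classical
  rw [← sum_fiberwise univ (qval p a b c), sum_filter]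
  refine sum_congr rfl fun v _ => ?_
  have e : ∀ x ∈ univ.filter (fun x => qval p a b c x = v),
      (wq p a b c Δ x : ℂ) * F (qval p a b c x)
        = (if keep p a Δ v then (1 + Kloo.χ ((Δ : ZMod p) - 4 * (a : ZMod p) * v)) * F v else 0) := by
    intro x hx
    rw [wq, (mem_filter.mp hx).2]
    split_ifs
    · simp [Kloo.χ]
    · simp
  rw [sum_congr rfl e, sum_const, nsmul_eq_mul, fiber_card p a b c Δ hp2 ha hΔ]
  split_ifs
  · rw [Kloo.symw]; ring
  · ring

lemma qhat (hp2 : p ≠ 2) (ha : (a : ZMod p) ≠ 0) (hΔ : Δ = b ^ 2 - 4 * a * c)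
    (hD : (Δ : ZMod p) ≠ 0) :
    (∀ s : ZMod p, s ≠ 0 →
      (∑ x : ZMod p, (wq p a b c Δ x : ℂ) * Kloo.ψ (s * qval p a b c x)).im = 0 ∧
      ‖∑ x : ZMod p, (wq p a b c Δ x : ℂ) * Kloo.ψ (s * qval p a b c x)‖
        ≤ 4 * (p : ℝ) ^ (3 / 4 : ℝ) + 4) ∧
    (p : ℝ) - 5 ≤ ∑ x : ZMod p, wq p a b c Δ x := by
  classical
  set cc := 4 * (a : ZMod p) with hcc
  have hc0 : cc ≠ 0 := by
    rw [hcc, show (4 : ZMod p) = 2 * 2 by norm_num]
    exact mul_ne_zero (mul_ne_zero (Kloo.two_ne hp2) (Kloo.two_ne hp2)) ha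
  have hkn : ∀ v, keep p a Δ (-v) ↔ keep p a Δ v := fun v => by
    simp only [keep, mul_neg, ← sub_eq_add_neg, sub_neg_eq_add, and_comm]
  set bad := univ.filter (fun v => ¬ keep p a Δ v) with hbad
  have hbadcard : bad.card ≤ 2 := by
    refine (card_le_card (t := {-(Δ : ZMod p) / cc, (Δ : ZMod p) / cc}) fun v hv => ?_).trans
      card_le_two
    have hv' := (mem_filter.mp hv).2
    simp only [keep, ne_eq, not_and_or, not_not, ← hcc] at hv'
    simp only [mem_insert, mem_singleton]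
    rcases hv' with h | h
    · left; rw [eq_div_iff hc0]; linear_combination h
    · right; rw [eq_div_iff hc0]; linear_combination -h
  have hcorr : ∀ G : ZMod p → ℂ, (∀ v, ‖G v‖ ≤ 1) →
      ‖∑ v ∈ bad, Kloo.symw (Δ : ZMod p) cc v * G v‖ ≤ 4 := by
    intro G hG
    refine (norm_sum_le _ _).trans ((sum_le_card_nsmul _ _ 2 fun v hv => ?_).trans ?_)
    · rw [norm_mul, Kloo.symw, norm_mul]
      refine (mul_le_mul_of_nonneg_left (hG v) (by positivity)).trans ?_
      rw [mul_one]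
      have hle : ∀ y : ZMod p, ‖1 + Kloo.χ y‖ ≤ 2 := fun y => by
        refine (norm_add_le _ _).trans ?_
        rw [norm_one]; linarith [Kloo.norm_χ_le y]
      have hv' := (mem_filter.mp hv).2
      simp only [keep, ne_eq, not_and_or, not_not, ← hcc] at hv'
      rcases hv' with h | h
      · rw [h]; simpa [Kloo.χ] using hle ((Δ : ZMod p) - cc * v)
      · rw [h]; simpa [Kloo.χ] using hle ((Δ : ZMod p) + cc * v)
    · rw [nsmul_eq_mul]
      have : (bad.card : ℝ) ≤ 2 := by exact_mod_cast hbadcard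
      linarith
  have hsplit : ∀ F : ZMod p → ℂ, ∑ x : ZMod p, (wq p a b c Δ x : ℂ) * F (qval p a b c x)
      = (∑ v, Kloo.symw (Δ : ZMod p) cc v * F v) - ∑ v ∈ bad, Kloo.symw (Δ : ZMod p) cc v * F v := by
    intro F
    rw [push_forward p a b c Δ hp2 ha hΔ F, eq_sub_iff_add_eq, hbad]
    exact sum_filter_add_sum_filter_not _ _ _
  refine ⟨fun s hs => ⟨?_, ?_⟩, ?_⟩
  · rw [← Complex.conj_eq_iff_im, push_forward p a b c Δ hp2 ha hΔ (fun v => Kloo.ψ (s * v)), map_sum]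
    refine sum_equiv (Equiv.neg _) (fun v => by simp [hkn]) fun v _ => ?_
    simp only [Equiv.neg_apply, Kloo.symw_neg, mul_neg, map_mul]
    rw [← AddChar.map_neg_eq_conj]
    congr 1
    have hre : ∀ y : ZMod p, (starRingEnd ℂ) (Kloo.χ y) = Kloo.χ y := fun y => by
      simp [Kloo.χ]
    simp only [Kloo.symw, map_mul, map_add, map_one, hre, hcc]
  · rw [hsplit (fun v => Kloo.ψ (s * v))]
    refine (norm_sub_le _ _).trans (add_le_add ?_ (hcorr _ fun v => (Kloo.norm_ψ _).le))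
    exact Kloo.symw_hat hp2 _ _ s hD hc0 hs
  · have h1 := hsplit (fun _ => 1)
    simp only [mul_one] at h1
    have h2 := congrArg Complex.re h1
    simp only [Complex.re_sum, Complex.ofReal_re, Complex.sub_re] at h2
    rw [h2, ← Complex.re_sum, ← Complex.re_sum]
    have h3 := Kloo.symw_total hp2 (Δ : ZMod p) cc hD hc0
    have h4 := (abs_le.mp ((Complex.abs_re_le_norm _).trans (hcorr (fun _ => 1) fun _ => by simp))).2
    simp only [mul_one] at h4
    linarith

lemma plain_hat (hp2 : p ≠ 2) (ha : (a : ZMod p) ≠ 0) (hΔ : Δ = b ^ 2 - 4 * a * c)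
    (s : ZMod p) (hs : s ≠ 0) :
    ‖∑ x : ZMod p, Kloo.ψ (s * qval p a b c x)‖ ≤ Real.sqrt p := by
  classical
  have hc0 : 4 * (a : ZMod p) ≠ 0 := by
    rw [show (4 : ZMod p) = 2 * 2 by norm_num]
    exact mul_ne_zero (mul_ne_zero (Kloo.two_ne hp2) (Kloo.two_ne hp2)) ha
  have e : ∑ x : ZMod p, Kloo.ψ (s * qval p a b c x)
      = (∑ v : ZMod p, Kloo.χ ((Δ : ZMod p) + 4 * (a : ZMod p) * v) * Kloo.ψ (s * v))
        + ∑ v : ZMod p, Kloo.ψ (v * s) := by
    rw [← sum_fiberwise univ (qval p a b c), ← sum_add_distrib]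
    refine sum_congr rfl fun v _ => ?_
    rw [sum_congr rfl (g := fun _ => Kloo.ψ (s * v)) fun x hx => by rw [(mem_filter.mp hx).2],
      sum_const, nsmul_eq_mul, fiber_card p a b c Δ hp2 ha hΔ, mul_comm v s]
    ring
  rw [e, Kloo.sum_ψ, if_neg hs, add_zero, Kloo.gauss_bound hp2 _ _ s hc0 hs]

end Good

/-- The mixture weight at a large prime. -/
noncomputable def piq (p : ℕ) : ℝ := 16 * (p : ℝ) ^ (-(1 / 4) : ℝ)

open Classical in
/-- The level-one density at a large prime. -/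
noncomputable def denQ (a b c Δ : ℤ) (z : ℕ) (p n : ℕ) : ℝ :=
  if hp : p.Prime then
    haveI := Fact.mk hp
    (1 - piq p) * ((p : ℝ) * wq p a b c Δ (n : ZMod p) / ∑ x : ZMod p, wq p a b c Δ x)
      + piq p * (if (n : ZMod p) = (z : ZMod p) then (p : ℝ) else 0)
  else 1

lemma denQ_periodic (a b c Δ : ℤ) (z p : ℕ) : Function.Periodic (denQ a b c Δ z p) p := by
  intro n
  unfold denQ
  by_cases hp : p.Prime
  · simp only [dif_pos hp, Nat.cast_add, ZMod.natCast_self, add_zero]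
  · simp only [dif_neg hp]

lemma large_pi {p : ℕ} (hP : 16 ^ 4 < p) : 0 ≤ piq p ∧ piq p ≤ 1 := by
  refine ⟨by unfold piq; positivity, ?_⟩
  have h1 : ((16 : ℝ) ^ 4) ≤ p := by exact_mod_cast hP.le
  have h2 := Real.rpow_le_rpow_of_nonpos (by norm_num) h1 (show (-(1 / 4) : ℝ) ≤ 0 by norm_num)
  have h3 : ((16 : ℝ) ^ 4) ^ (-(1 / 4) : ℝ) = 1 / 16 := by
    rw [← Real.rpow_natCast, ← Real.rpow_mul (by norm_num)]
    norm_num [Real.rpow_neg_one]
  rw [h3] at h2
  unfold piq; linarith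

lemma good_local (hev : ∀ x : ℤ, g.eval x = a * x ^ 2 + b * x + c) (Δ : ℤ)
    (hΔ : Δ = b ^ 2 - 4 * a * c) (p : ℕ) (hp : p.Prime) (hP : 16 ^ 4 < p)
    (hpa : ¬ (p : ℤ) ∣ a) (hpΔ : ¬ (p : ℤ) ∣ Δ) (z : ℕ) (hz : (p : ℤ) ∣ g.eval (z : ℤ)) :
    (∀ n, ∑ s ∈ range p, (denQ a b c Δ z p (n + p ^ 0 * s) - 1) = 0) ∧
    (∀ n, |denQ a b c Δ z p n - 1| ≤ ((p : ℝ)) ^ 2) ∧
    (∀ i, 1 ≤ i → ∀ t : ℤ, ¬ (p : ℤ) ∣ t →
      ‖avg (p ^ i) (fun n => ((denQ a b c Δ z p n - 1 : ℝ) : ℂ) * ch (p ^ i) (t * g.eval (n : ℤ)))‖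
        ≤ 40 * (p : ℝ) ^ (-(1 / 4) : ℝ)) ∧
    (∀ i, 1 ≤ i → ∀ t : ℤ, ¬ (p : ℤ) ∣ t →
      (avg (p ^ i) (fun n => (denQ a b c Δ z p n : ℂ) * ch (p ^ i) (t * g.eval (n : ℤ)))).im = 0 ∧
      0 ≤ (avg (p ^ i) (fun n => (denQ a b c Δ z p n : ℂ) * ch (p ^ i) (t * g.eval (n : ℤ)))).re) := by
  classical
  haveI := Fact.mk hp
  have hp2 : p ≠ 2 := by omega
  have ha : (a : ZMod p) ≠ 0 := fun h => hpa ((ZMod.intCast_zmod_eq_zero_iff_dvd a p).mp h)
  have hD : (Δ : ZMod p) ≠ 0 := fun h => hpΔ ((ZMod.intCast_zmod_eq_zero_iff_dvd Δ p).mp h)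
  obtain ⟨hhat, htot⟩ := qhat p a b c Δ hp2 ha hΔ hD
  set Z := ∑ x : ZMod p, wq p a b c Δ x with hZ
  have hpR : ((16 : ℝ) ^ 4) < p := by exact_mod_cast hP
  have hp0 : (0 : ℝ) < p := lt_trans (by norm_num) hpR
  have hp1 : (1 : ℝ) ≤ p := le_trans (by norm_num) hpR.le
  have hp16 : (65536 : ℝ) < p := lt_of_eq_of_lt (by norm_num) hpR
  have hZ2 : (p : ℝ) / 2 ≤ Z := by linarith
  have hZ0 : 0 < Z := lt_of_lt_of_le (by positivity) hZ2
  obtain ⟨hπ0, hπ1⟩ := large_pi hP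
  set q := (p : ℝ) ^ (-(1 / 4) : ℝ) with hq
  have hq0 : 0 ≤ q := by positivity
  have hπ : piq p = 16 * q := rfl
  have hdef : ∀ n : ℕ, denQ a b c Δ z p n
      = (1 - piq p) * ((p : ℝ) * wq p a b c Δ (n : ZMod p) / Z)
        + piq p * (if (n : ZMod p) = (z : ZMod p) then (p : ℝ) else 0) := fun n => by
    rw [denQ, dif_pos hp]
  have hzv : qval p a b c (z : ZMod p) = 0 := by
    have h := (ZMod.intCast_zmod_eq_zero_iff_dvd _ p).mpr hz
    rw [hev] at h
    push_cast at h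
    simpa [qval] using h
  have hcrit : ∀ r : ℕ, (p : ℤ) ∣ 2 * a * r + b → denQ a b c Δ z p r = 0 := by
    intro r hr
    rw [hdef, wq_crit p a b c Δ hΔ r hr, if_neg]
    · simp
    · intro he
      have h0 : (((2 * a * r + b : ℤ)) : ZMod p) = 0 := (ZMod.intCast_zmod_eq_zero_iff_dvd _ p).mpr hr
      push_cast at h0
      rw [he] at h0
      apply hD
      rw [hΔ]
      unfold qval at hzv
      push_cast
      linear_combination (2 * (a : ZMod p) * z + b) * h0 - 4 * (a : ZMod p) * hzv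
  have hone : ∀ t : ℤ, ¬ (p : ℤ) ∣ t →
      avg p (fun n => (denQ a b c Δ z p n : ℂ) * ch p (t * g.eval (n : ℤ)))
        = ((1 - piq p : ℝ) : ℂ) * ((∑ x : ZMod p, (wq p a b c Δ x : ℂ) * Kloo.ψ ((t : ZMod p) * qval p a b c x)) / (Z : ℂ))
          + (piq p : ℂ) := by
    intro t _
    have e : ∀ n : ℕ, (denQ a b c Δ z p n : ℂ) * ch p (t * g.eval (n : ℤ)) =
        ((1 - piq p : ℝ) : ℂ) * ((p : ℂ) * ((wq p a b c Δ (n : ZMod p) : ℂ) * Kloo.ψ ((t : ZMod p) * qval p a b c (n : ZMod p))) / (Z : ℂ))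
        + (if (n : ZMod p) = (z : ZMod p) then (piq p : ℂ) * (p : ℂ) else 0) := by
      intro n
      have hch : ch p (t * g.eval (n : ℤ)) = Kloo.ψ ((t : ZMod p) * qval p a b c (n : ZMod p)) := by
        rw [ch_eq_ψ, hev]; congr 1; push_cast [qval]; ring
      rw [hch, hdef]
      split_ifs with hnz
      · rw [hnz, hzv, mul_zero, AddChar.map_zero_eq_one]; push_cast; ring
      · push_cast; ring
    have hpC : (p : ℂ) ≠ 0 := by exact_mod_cast hp.ne_zero
    rw [avg, sum_congr rfl fun n _ => e n,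
      sum_range_zmod p (fun x => ((1 - piq p : ℝ) : ℂ) * ((p : ℂ) * ((wq p a b c Δ x : ℂ) * Kloo.ψ ((t : ZMod p) * qval p a b c x)) / (Z : ℂ))
        + (if x = (z : ZMod p) then (piq p : ℂ) * (p : ℂ) else 0)),
      sum_add_distrib, sum_ite_eq' univ (z : ZMod p), if_pos (mem_univ _), ← mul_sum, ← sum_div,
      ← mul_sum]
    field_simp
  have hmu : ∀ t : ℤ, ¬ (p : ℤ) ∣ t →
      ((∑ x : ZMod p, (wq p a b c Δ x : ℂ) * Kloo.ψ ((t : ZMod p) * qval p a b c x)) / (Z : ℂ)).im = 0 ∧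
      ‖(∑ x : ZMod p, (wq p a b c Δ x : ℂ) * Kloo.ψ ((t : ZMod p) * qval p a b c x)) / (Z : ℂ)‖ ≤ 16 * q := by
    intro t ht
    have hs : (t : ZMod p) ≠ 0 := fun h => ht ((ZMod.intCast_zmod_eq_zero_iff_dvd t p).mp h)
    obtain ⟨h1, h2⟩ := hhat _ hs
    refine ⟨?_, ?_⟩
    · rw [Complex.div_ofReal_im, h1, zero_div]
    · rw [norm_div, Complex.norm_real, Real.norm_eq_abs, abs_of_pos hZ0, div_le_iff₀ hZ0]
      have h34 : (p : ℝ) ^ (3 / 4 : ℝ) = q * p := by
        rw [hq, ← Real.rpow_add_one hp0.ne']; norm_num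
      have h1' : (1 : ℝ) ≤ (p : ℝ) ^ (3 / 4 : ℝ) := Real.one_le_rpow hp1 (by norm_num)
      refine h2.trans ?_
      have := mul_le_mul_of_nonneg_left hZ2 hq0
      rw [h34] at h1' ⊢
      nlinarith
  refine ⟨fun n => ?_, fun n => ?_, fun i hi t ht => ?_, fun i hi t ht => ?_⟩
  · simp only [pow_zero, one_mul]
    rw [sum_sub_distrib]
    simp only [hdef, Nat.cast_add, sum_add_distrib, sum_const, card_range, nsmul_eq_mul, mul_one]
    have hshift : ∀ F : ZMod p → ℝ, ∑ x ∈ range p, F ((n : ZMod p) + (x : ZMod p)) = ∑ x, F x := fun F => by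
      rw [sum_range_zmod p (fun y => F ((n : ZMod p) + y))]
      exact Fintype.sum_equiv (Equiv.addLeft (n : ZMod p)) _ _ fun y => rfl
    rw [hshift (fun y => (1 - piq p) * ((p : ℝ) * wq p a b c Δ y / Z)),
      hshift (fun y => piq p * (if y = (z : ZMod p) then (p : ℝ) else 0)),
      ← mul_sum, ← mul_sum, ← sum_div, ← mul_sum, sum_ite_eq', if_pos (mem_univ _), ← hZ]
    field_simp; ring
  · rw [hdef]
    obtain ⟨hw0, hw2⟩ := wq_bounds p a b c Δ (n : ZMod p)
    have h1 : (p : ℝ) * wq p a b c Δ (n : ZMod p) / Z ≤ 4 := by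
      rw [div_le_iff₀ hZ0]; nlinarith
    have h2 : 0 ≤ (p : ℝ) * wq p a b c Δ (n : ZMod p) / Z := by positivity
    have h3 : (if (n : ZMod p) = (z : ZMod p) then (p : ℝ) else 0) ∈ Set.Icc (0 : ℝ) p := by
      split_ifs <;> exact ⟨by linarith, by linarith⟩
    obtain ⟨h3a, h3b⟩ := h3
    rw [abs_le]; constructor <;> nlinarith
  · have hsub : avg (p ^ i) (fun n => ((denQ a b c Δ z p n - 1 : ℝ) : ℂ) * ch (p ^ i) (t * g.eval (n : ℤ)))
        = avg (p ^ i) (fun n => (denQ a b c Δ z p n : ℂ) * ch (p ^ i) (t * g.eval (n : ℤ)))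
          - avg (p ^ i) (fun n => ch (p ^ i) (t * g.eval (n : ℤ))) := by
      simp only [avg, ← sub_div, ← sum_sub_distrib]
      congr 1; refine sum_congr rfl fun n _ => ?_; push_cast; ring
    rw [hsub]
    refine (norm_sub_le _ _).trans ?_
    rcases Nat.eq_or_lt_of_le hi with hi1 | hi2
    · subst hi1
      rw [pow_one, hone t ht]
      have hs : (t : ZMod p) ≠ 0 := fun h => ht ((ZMod.intCast_zmod_eq_zero_iff_dvd t p).mp h)
      have h2 : ‖avg p (fun n => ch p (t * g.eval (n : ℤ)))‖ ≤ q := by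
        have hch : ∀ n : ℕ, ch p (t * g.eval (n : ℤ)) = Kloo.ψ ((t : ZMod p) * qval p a b c (n : ZMod p)) := by
          intro n; rw [ch_eq_ψ, hev]; congr 1; push_cast [qval]; ring
        rw [avg, sum_congr rfl fun n _ => hch n,
          sum_range_zmod p (fun x => Kloo.ψ ((t : ZMod p) * qval p a b c x)), norm_div,
          Complex.norm_natCast, div_le_iff₀ hp0]
        refine (plain_hat p a b c Δ hp2 ha hΔ _ hs).trans ?_
        rw [Real.sqrt_eq_rpow, hq, ← Real.rpow_add_one hp0.ne']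
        exact Real.rpow_le_rpow_of_exponent_le hp1 (by norm_num)
      refine (add_le_add (norm_add_le _ _) h2).trans ?_
      rw [norm_mul, Complex.norm_real, Complex.norm_real, Real.norm_eq_abs, Real.norm_eq_abs,
        abs_of_nonneg hπ0, abs_of_nonneg (by linarith : 0 ≤ 1 - piq p)]
      have h3 := mul_le_mul (show 1 - piq p ≤ 1 by linarith) (hmu t ht).2 (norm_nonneg _) zero_le_one
      linarith
    · rw [good_avg_zero hev hp i (by omega) t ht (fun n => (denQ a b c Δ z p n : ℂ))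
        (fun n => by simp only []; rw [denQ_periodic a b c Δ z p n]) (fun r hr => by simp [hcrit r hr]),
        norm_zero, zero_add]
      -- only the critical residue contributes
      have hzero := good_avg_zero hev hp i (by omega) t ht
        (fun n => if (p : ℤ) ∣ 2 * a * (n : ℤ) + b then 0 else 1)
        (fun n => by
          simp only []
          refine if_congr ?_ rfl rfl
          rw [show 2 * a * ((n + p : ℕ) : ℤ) + b = 2 * a * (n : ℤ) + b + (p : ℤ) * (2 * a) by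
            push_cast; ring]
          exact dvd_add_left (dvd_mul_right _ _))
        (fun r hr => if_pos hr)
      have e : avg (p ^ i) (fun n => ch (p ^ i) (t * g.eval (n : ℤ)))
          = avg (p ^ i) (fun n => (if (p : ℤ) ∣ 2 * a * (n : ℤ) + b then 1 else 0 : ℂ) *
              ch (p ^ i) (t * g.eval (n : ℤ))) := by
        refine Eq.trans ?_ (add_eq_left.mpr hzero)
        simp only [avg, ← add_div, ← sum_add_distrib]
        congr 1; refine sum_congr rfl fun n _ => ?_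
        split_ifs <;> simp
      rw [e]
      have hpi : p ^ i = p * p ^ (i - 1) := by rw [← pow_succ']; congr 1; omega
      have hr : ∀ s : ℕ, ((range p).filter (fun r : ℕ => (p : ℤ) ∣ 2 * a * ((r + p * s : ℕ) : ℤ) + b)).card ≤ 1 := by
        intro s
        refine card_le_one.mpr fun x hx y hy => ?_
        obtain ⟨hx1, hx2⟩ := mem_filter.mp hx
        obtain ⟨hy1, hy2⟩ := mem_filter.mp hy
        have h := (ZMod.intCast_zmod_eq_zero_iff_dvd _ p).mpr (dvd_sub hx2 hy2)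
        push_cast at h
        have h2a : 2 * (a : ZMod p) ≠ 0 := mul_ne_zero (Kloo.two_ne hp2) ha
        have : (x : ZMod p) = (y : ZMod p) := mul_left_cancel₀ h2a (by linear_combination h)
        rw [ZMod.natCast_eq_natCast_iff] at this
        exact this.eq_of_lt_of_lt (mem_range.mp hx1) (mem_range.mp hy1)
      have hqp : (p : ℝ)⁻¹ ≤ q := by
        rw [← Real.rpow_neg_one, hq]; exact Real.rpow_le_rpow_of_exponent_le hp1 (by norm_num)
      refine le_trans ?_ (le_trans hqp (by linarith))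
      rw [avg, norm_div, Complex.norm_natCast, hpi, sum_range_mul', div_le_iff₀ (by positivity)]
      refine (norm_sum_le _ _).trans ((sum_le_card_nsmul _ _ 1 fun s _ => ?_).trans ?_)
      · refine (norm_sum_le _ _).trans ?_
        have : ∀ r : ℕ, ‖(if (p : ℤ) ∣ 2 * a * ((r + p * s : ℕ) : ℤ) + b then 1 else 0 : ℂ) *
            ch (p * p ^ (i - 1)) (t * g.eval ((r + p * s : ℕ) : ℤ))‖
            = if (p : ℤ) ∣ 2 * a * ((r + p * s : ℕ) : ℤ) + b then (1 : ℝ) else 0 := fun r => by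
          split_ifs <;> simp [norm_ch]
        rw [sum_congr rfl fun r _ => this r, sum_boole]
        exact_mod_cast hr s
      · simp only [card_range, nsmul_eq_mul, mul_one]
        push_cast
        rw [inv_mul_cancel_left₀ hp0.ne']
  · rcases Nat.eq_or_lt_of_le hi with hi1 | hi2
    · subst hi1
      rw [pow_one, hone t ht]
      obtain ⟨him, hn⟩ := hmu t ht
      constructor
      · rw [Complex.add_im, Complex.im_ofReal_mul, him, mul_zero, Complex.ofReal_im, add_zero]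
      · rw [Complex.add_re, Complex.re_ofReal_mul, Complex.ofReal_re]
        have h := (abs_le.mp ((Complex.abs_re_le_norm _).trans hn)).1
        have := mul_le_mul_of_nonneg_left h (show 0 ≤ 1 - piq p by linarith)
        nlinarith
    · rw [good_avg_zero hev hp i (by omega) t ht (fun n => (denQ a b c Δ z p n : ℂ))
        (fun n => by simp only []; rw [denQ_periodic a b c Δ z p n]) (fun r hr => by simp [hcrit r hr])]
      simp

lemma ball_local (hev : ∀ x : ℤ, g.eval x = a * x ^ 2 + b * x + c) (Δ : ℤ) (hΔ : Δ = b ^ 2 - 4 * a * c)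
    (p : ℕ) (hp : p.Prime) (u : ℕ) (hu : ¬ ((p : ℤ) ^ (u + 1)) ∣ Δ) (K : ℕ)
    (hK : ((p : ℤ) ^ (2 * u + 2)) ∣ g.eval (-(K : ℤ))) :
    (∀ i j : ℕ, j ≤ i → j ≤ u + 1 → ∀ t : ℤ,
      ‖avg (p ^ i) (fun n => ((dodd 0 p j (n + K) : ℝ) : ℂ) * ch (p ^ i) (t * g.eval (n : ℤ)))‖ ≤ 2) ∧
    (∀ i, 1 ≤ i → ∀ t : ℤ, ¬ (p : ℤ) ∣ t →
      (avg (p ^ i) (fun n => ch (p ^ i) (t * g.eval (n : ℤ))) + ∑ j ∈ Icc 1 (min i (u + 1)),
        avg (p ^ i) (fun n => ((dodd 0 p j (n + K) : ℝ) : ℂ) * ch (p ^ i) (t * g.eval (n : ℤ)))).im = 0 ∧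
      0 ≤ (avg (p ^ i) (fun n => ch (p ^ i) (t * g.eval (n : ℤ))) + ∑ j ∈ Icc 1 (min i (u + 1)),
        avg (p ^ i) (fun n => ((dodd 0 p j (n + K) : ℝ) : ℂ) * ch (p ^ i) (t * g.eval (n : ℤ)))).re) := by
  set g' := taylor (-(K : ℤ)) g with hg'
  have hshift : ∀ i j : ℕ, j ≤ i → ∀ t : ℤ,
      avg (p ^ i) (fun n => ((dodd 0 p j (n + K) : ℝ) : ℂ) * ch (p ^ i) (t * g.eval (n : ℤ)))
        = avg (p ^ i) (fun n => ((dodd 0 p j n : ℝ) : ℂ) * ch (p ^ i) (t * g'.eval (n : ℤ))) := by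
    intro i j hji t
    simp only [avg]
    congr 1
    have hper : Function.Periodic
        (fun n : ℕ => ((dodd 0 p j n : ℝ) : ℂ) * ch (p ^ i) (t * g'.eval (n : ℤ))) (p ^ i) := by
      intro n
      simp only []
      rw [periodic_of_dvd (dodd_periodic 0 p j) (pow_dvd_pow p hji) n]
      congr 1
      simpa [eval_mul, eval_C] using ch_eval_periodic (Nat.one_le_pow i _ hp.pos) (Polynomial.C t * g') n
    rw [← sum_shift _ (p ^ i) K hper]
    refine sum_congr rfl fun n _ => ?_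
    congr 3
    rw [hg', taylor_eval]; congr 1; push_cast; ring
  have hzero : ∀ i, ∀ t : ℤ, avg (p ^ i) (fun n => ch (p ^ i) (t * g.eval (n : ℤ)))
      = gG g' p i t 0 := by
    intro i t
    simp only [gG, dlt, pow_zero, one_dvd, if_true, Complex.ofReal_one, one_mul, avg]
    congr 1
    have hper : Function.Periodic (fun n : ℕ => ch (p ^ i) (t * g'.eval (n : ℤ))) (p ^ i) := by
      simpa [eval_mul, eval_C] using ch_eval_periodic (Nat.one_le_pow i _ hp.pos) (Polynomial.C t * g')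
    rw [← sum_shift _ (p ^ i) K hper]
    refine sum_congr rfl fun n _ => ?_
    congr 2
    rw [hg', taylor_eval]; congr 1; push_cast; ring
  refine ⟨fun i j hji _ t => ?_, fun i hi t ht => ?_⟩
  · rw [hshift i j hji t]
    refine (dodd_decay g' 0 p i j hp hji t).trans ?_
    simp
  · set m := min i (u + 1) with hm
    have hmi : m ≤ i := min_le_left _ _
    have hrho : ρp 0 p = 1 := by simp [ρp]
    rw [hzero i t, sum_congr rfl (fun j hj => by
        rw [hshift i j (le_trans (mem_Icc.mp hj).2 hmi) t, avg_term_eq]),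
      abel_identity (gG g' p i t) (ρp 0 p) m, hrho]
    simp only [one_pow, sub_self, Complex.ofReal_zero, zero_mul, sum_const_zero, zero_add,
      Complex.ofReal_one, one_mul]
    set y : ℤ := 2 * a * (-(K : ℤ)) + b with hy
    have hy2 : y ^ 2 = Δ + 4 * a * g.eval (-(K : ℤ)) := by rw [hy, hΔ, hev]; ring
    have hy0 : ¬ (p : ℤ) ^ (u + 1) ∣ y := by
      intro h
      apply hu
      have h1 : (p : ℤ) ^ (u + 1) ∣ y ^ 2 := dvd_pow h two_ne_zero
      have h2 : (p : ℤ) ^ (u + 1) ∣ 4 * a * g.eval (-(K : ℤ)) :=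
        (dvd_trans (pow_dvd_pow _ (by omega)) hK).mul_left _
      rw [hy2] at h1
      exact (dvd_add_left h2).mp h1
    have hex : ∃ v, ¬ (p : ℤ) ^ (v + 1) ∣ y := ⟨u, hy0⟩
    set v := Nat.find hex with hv
    have hvu : v ≤ u := Nat.find_min' hex hy0
    have hvd : (p : ℤ) ^ v ∣ y := by
      rcases Nat.eq_zero_or_pos v with h0 | h0
      · rw [h0]; simp
      · have := Nat.find_min hex (show v - 1 < v by omega)
        rw [not_not, show v - 1 + 1 = v by omega] at this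
        exact this
    obtain ⟨U, hU⟩ := hvd
    have hUp : ¬ (p : ℤ) ∣ U := fun h => Nat.find_spec hex (by
      rw [← hv, pow_succ, hU]; exact mul_dvd_mul_left _ h)
    by_cases hsmall : i ≤ (u + 1) + v
    · have hone : gG g' p i t m = 1 := by
        rw [gG, avg_dlt p i m hp hmi, avg]
        have : ∀ n : ℕ, ch (p ^ i) (t * g'.eval ((p ^ m * n : ℕ) : ℤ)) = 1 := by
          intro n
          rw [ch_congr (Nat.one_le_pow i _ hp.pos) (y := 0), ch]
          · simp [ee_zero]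
          · rw [sub_zero]
            refine Dvd.dvd.mul_left ?_ _
            rw [hg', taylor_eval, hev]
            push_cast
            rw [show a * ((p : ℤ) ^ m * n + -(K : ℤ)) ^ 2 + b * ((p : ℤ) ^ m * n + -(K : ℤ)) + c
              = g.eval (-(K : ℤ)) + (p : ℤ) ^ m * n * y + a * n ^ 2 * ((p : ℤ) ^ m * (p : ℤ) ^ m) by
              rw [hev, hy]; ring]
            refine dvd_add (dvd_add (dvd_trans (pow_dvd_pow _ (by omega)) hK) ?_) ?_
            · rw [hU, show (p : ℤ) ^ m * n * ((p : ℤ) ^ v * U) = (p : ℤ) ^ (m + v) * ((n : ℤ) * U) by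
                rw [pow_add]; ring]
              exact Dvd.dvd.mul_right (pow_dvd_pow _ (by omega)) _
            · rw [← pow_add]
              exact Dvd.dvd.mul_left (pow_dvd_pow _ (by omega)) _
        simp only [this, sum_const, card_range, nsmul_eq_mul, mul_one]
        exact div_self (by exact_mod_cast (pow_pos hp.pos _).ne')
      rw [hone]; simp
    · have hm' : m = u + 1 := by omega
      have hz : gG g' p i t m = 0 := by
        rw [gG, avg_dlt p i m hp hmi, hm']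
        have h := ball_zero hev hp (u + 1) v i (-(K : ℤ)) U hU hUp (by omega) (by omega) t ht
        refine Eq.trans ?_ h
        congr 1; funext n
        congr 2
        rw [hg', taylor_eval]; congr 1; push_cast; ring
      rw [hz]; simp

open Classical in
theorem quad_local (hev : ∀ x : ℤ, g.eval x = a * x ^ 2 + b * x + c) (ha : a ≠ 0)
    (hD : b ^ 2 - 4 * a * c ≠ 0) (hint : ∀ q : ℕ, 1 ≤ q → ∃ t : ℤ, (q : ℤ) ∣ g.eval t) :
    Nonempty (LocalData g) := by
  set Δ := b ^ 2 - 4 * a * c with hΔ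
  set P₀ := (a * Δ).natAbs + 16 ^ 4 with hP₀
  have hroot : ∀ q : ℕ, ∃ K : ℕ, 1 ≤ q → (q : ℤ) ∣ g.eval (-(K : ℤ)) := by
    intro q
    by_cases hq : 1 ≤ q
    · obtain ⟨t, ht⟩ := hint q hq
      refine ⟨((-t) % (q : ℤ)).toNat, fun _ => ?_⟩
      have h0 : 0 ≤ (-t) % (q : ℤ) := Int.emod_nonneg _ (by omega)
      rw [Int.toNat_of_nonneg h0]
      have hd : (q : ℤ) ∣ -((-t) % (q : ℤ)) - t := by
        rw [Int.emod_def]; exact ⟨-t / (q : ℤ), by ring⟩
      have := dvd_trans hd (sub_dvd_eval_sub (-((-t) % (q : ℤ))) t g)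
      simpa using dvd_add this ht
    · exact ⟨0, fun h => absurd h hq⟩
  choose root hroot using hroot
  have hrootN : ∀ q : ℕ, ∃ z : ℕ, 1 ≤ q → (q : ℤ) ∣ g.eval (z : ℤ) := by
    intro q
    by_cases hq : 1 ≤ q
    · obtain ⟨t, ht⟩ := hint q hq
      refine ⟨(t % (q : ℤ)).toNat, fun _ => ?_⟩
      rw [Int.toNat_of_nonneg (Int.emod_nonneg _ (by omega))]
      have hd : (q : ℤ) ∣ t % (q : ℤ) - t := by rw [Int.emod_def]; exact ⟨-(t / (q : ℤ)), by ring⟩
      have := dvd_trans hd (sub_dvd_eval_sub (t % (q : ℤ)) t g)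
      simpa using dvd_add this ht
    · exact ⟨0, fun h => absurd h hq⟩
  choose rootN hrootN using hrootN
  set u : ℕ → ℕ := fun p => padicValInt p Δ with hu
  set d : ℕ → ℕ → ℕ → ℝ := fun p j n =>
    if p ≤ P₀ then (if j ≤ u p + 1 then dodd 0 p j (n + root (p ^ (2 * u p + 2))) else 0)
    else (if j = 1 then denQ a b c Δ (rootN p) p n - 1 else 0) with hd
  have hbig : ∀ p : ℕ, p.Prime → ¬ p ≤ P₀ →
      16 ^ 4 < p ∧ ¬ (p : ℤ) ∣ a ∧ ¬ (p : ℤ) ∣ Δ := by
    intro p hp hpP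
    have h : ¬ (p : ℤ) ∣ a * Δ := by
      intro hdv
      have h2 := Int.natAbs_dvd_natAbs.mpr hdv
      simp only [Int.natAbs_natCast] at h2
      have := Nat.le_of_dvd (Int.natAbs_pos.mpr (mul_ne_zero ha hD)) h2
      omega
    exact ⟨by omega, fun h' => h (h'.mul_right _), fun h' => h (h'.mul_left _)⟩
  have hgood := fun (p : ℕ) (hp : p.Prime) (hpP : ¬ p ≤ P₀) =>
    good_local hev Δ hΔ p hp (hbig p hp hpP).1 (hbig p hp hpP).2.1 (hbig p hp hpP).2.2 (rootN p)
      (hrootN p hp.one_le)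
  have hball := fun (p : ℕ) (hp : p.Prime) =>
    ball_local hev Δ hΔ p hp (u p)
      (by
        haveI := Fact.mk hp
        intro hdv
        have := (padicValInt_dvd_iff (u p + 1) Δ).mp (by exact_mod_cast hdv)
        rcases this with h0 | h0
        · exact hD h0
        · simp only [hu] at h0; omega)
      (root (p ^ (2 * u p + 2))) (by exact_mod_cast hroot (p ^ (2 * u p + 2)) (Nat.one_le_pow _ _ hp.pos))
  set C₀ : ℝ := max 40 (2 * ((P₀ : ℝ) * (P₀ : ℝ)) ^ (1 / 4 : ℝ)) with hC₀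
  have hC40 : 40 ≤ C₀ := le_max_left _ _
  refine ⟨{ δ := d, A := 2, C := C₀, σ := 1 / 4, one_le_C := by linarith, σ_pos := by norm_num,
            per := ?_, mean := ?_, sup := ?_, decay := ?_, pos := ?_ }⟩
  · intro p j hp n
    simp only [hd]
    split_ifs with h1 h2 h3
    · rw [add_right_comm]; exact dodd_periodic 0 p j _
    · rfl
    · subst h3; rw [pow_one, denQ_periodic a b c Δ (rootN p) p n]
    · rfl
  · intro p j hp hj n
    simp only [hd]
    split_ifs with h1 h2 h3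
    · rw [sum_congr rfl (fun s _ => by rw [add_right_comm])]
      exact dodd_mean 0 p j hp hj _
    · simp
    · subst h3; exact (hgood p hp h1).1 n
    · simp
  · intro p j hp hj n
    simp only [hd]
    split_ifs with h1 h2 h3
    · refine (dodd_sup 0 le_rfl p j hp _).trans ?_
      exact pow_le_pow_right₀ (by exact_mod_cast Nat.one_le_pow _ _ hp.pos) (by norm_num)
    · simp
    · subst h3; rw [pow_one]; exact (hgood p hp h1).2.1 n
    · simp
  · intro p i j hp hj hji t ht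
    simp only [hd]
    split_ifs with h1 h2 h3
    · refine ((hball p hp).1 i j hji h2 t).trans ?_
      have hb : ((p ^ j : ℕ) : ℝ) ≤ (P₀ : ℝ) * (P₀ : ℝ) := by
        have h3 : p ^ u p ≤ P₀ := by
          haveI := Fact.mk hp
          have hdd : ((p : ℤ) ^ u p) ∣ Δ := padicValInt_dvd Δ
          have h4 := Int.natAbs_dvd_natAbs.mpr hdd
          rw [Int.natAbs_pow, Int.natAbs_natCast] at h4
          have h5 := Nat.le_of_dvd (Int.natAbs_pos.mpr hD) h4
          have h6 : Δ.natAbs ≤ (a * Δ).natAbs := by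
            rw [Int.natAbs_mul]; exact Nat.le_mul_of_pos_left _ (Int.natAbs_pos.mpr ha)
          omega
        have : p ^ j ≤ P₀ * P₀ :=
          calc p ^ j ≤ p ^ (u p + 1) := Nat.pow_le_pow_right hp.pos h2
            _ = p ^ u p * p := pow_succ _ _
            _ ≤ P₀ * P₀ := Nat.mul_le_mul h3 h1
        exact_mod_cast this
      have hpj : (0 : ℝ) < ((p ^ j : ℕ) : ℝ) := by exact_mod_cast pow_pos hp.pos j
      rw [Real.rpow_neg hpj.le, ← div_eq_mul_inv, le_div_iff₀ (by positivity)]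
      exact le_trans (mul_le_mul_of_nonneg_left (Real.rpow_le_rpow hpj.le hb (by norm_num)) (by norm_num))
        (le_max_right _ _)
    · simp [avg]; positivity
    · subst h3; rw [pow_one]
      exact ((hgood p hp h1).2.2.1 i hji t ht).trans (mul_le_mul_of_nonneg_right hC40 (by positivity))
    · simp [avg]; positivity
  · intro p i hp hi t ht
    simp only [hd]
    by_cases h1 : p ≤ P₀
    · simp only [if_pos h1]
      have e : ∑ j ∈ Icc 1 i, avg (p ^ i) (fun n => ((if j ≤ u p + 1 then dodd 0 p j (n + root (p ^ (2 * u p + 2))) else 0 : ℝ) : ℂ) * ch (p ^ i) (t * g.eval (n : ℤ)))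
          = ∑ j ∈ Icc 1 (min i (u p + 1)), avg (p ^ i) (fun n => ((dodd 0 p j (n + root (p ^ (2 * u p + 2))) : ℝ) : ℂ) * ch (p ^ i) (t * g.eval (n : ℤ))) := by
        rw [← sum_subset (show Icc 1 (min i (u p + 1)) ⊆ Icc 1 i from Icc_subset_Icc le_rfl (min_le_left _ _))]
        · exact sum_congr rfl fun j hj => by
            simp only [if_pos (le_trans (mem_Icc.mp hj).2 (min_le_right _ _))]
        · intro j hj hj'
          simp only [mem_Icc] at hj hj'
          have : ¬ j ≤ u p + 1 := by omega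
          simp [avg, if_neg this]
      rw [e]; exact (hball p hp).2 i hi t ht
    · simp only [if_neg h1]
      have e : avg (p ^ i) (fun n => ch (p ^ i) (t * g.eval (n : ℤ))) + ∑ j ∈ Icc 1 i,
          avg (p ^ i) (fun n => ((if j = 1 then denQ a b c Δ (rootN p) p n - 1 else 0 : ℝ) : ℂ) * ch (p ^ i) (t * g.eval (n : ℤ)))
          = avg (p ^ i) (fun n => (denQ a b c Δ (rootN p) p n : ℂ) * ch (p ^ i) (t * g.eval (n : ℤ))) := by
        rw [sum_eq_single_of_mem 1 (mem_Icc.mpr ⟨le_rfl, hi⟩)]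
        · simp only [if_true, avg, ← add_div, ← sum_add_distrib]
          congr 1; refine sum_congr rfl fun n _ => ?_; push_cast; ring
        · intro j _ hj; simp [avg, if_neg hj]
      rw [e]; exact (hgood p hp h1).2.2.2 i hi t ht

/-- Power saving for intersective quadratics with nonzero discriminant. -/
theorem power_saving_quad (h : ℤ[X]) (hdeg : h.natDegree = 2) (hl : 0 < h.leadingCoeff)
    (hint : ∀ q : ℕ, 1 ≤ q → ∃ t : ℤ, (q : ℤ) ∣ h.eval t)
    (hD : h.coeff 1 ^ 2 - 4 * h.coeff 2 * h.coeff 0 ≠ 0) :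
    ∃ c : ℝ, 0 < c ∧ ∃ C : ℝ, ∀ N : ℕ, ∀ A : Finset ℕ, A ⊆ Icc 1 N →
      (∀ x ∈ A, ∀ y ∈ A, ∀ n : ℕ, 1 ≤ n → (x : ℤ) - y = h.eval (n : ℤ) → x = y) →
      (A.card : ℝ) ≤ C * (N : ℝ) ^ (1 - c) := by
  have hev : ∀ x : ℤ, h.eval x = h.coeff 2 * x ^ 2 + h.coeff 1 * x + h.coeff 0 := fun x => by
    rw [eval_eq_sum_range, hdeg, sum_range_succ, sum_range_succ, sum_range_one]; ring
  have ha : h.coeff 2 ≠ 0 := by
    rw [← hdeg]; exact (ne_of_gt hl)
  obtain ⟨L⟩ := quad_local hev ha hD hint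
  exact core L (by omega) hl 1

end Vale.Agent.P042
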