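import Vale.Agent.P042.GenDens

namespace Vale.Agent.P042.Gen.Sq

open Finset Polynomial

/-- The polynomial `x ^ 2`. -/
noncomputable def sqp : ℤ[X] := X ^ 2

lemma sqp_eval (x : ℤ) : sqp.eval x = x ^ 2 := by simp [sqp]

lemma sqp_coeff_low {t : ℕ} (ht : t < 2) : sqp.coeff t = 0 := by
  rw [sqp, coeff_X_pow, if_neg (by omega)]

lemma gauss_sq (Q : ℕ) (hQ : 1 ≤ Q) (a : ℤ) (ha : IsCoprime a (Q : ℤ)) :
    ‖avg Q (fun n => ch Q (a * (n : ℤ) ^ 2))‖ ≤ Real.sqrt (2 / Q) := by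
  have hQR : (0 : ℝ) < Q := by exact_mod_cast hQ
  set F : ℕ → ℂ := fun n => ch Q (a * (n : ℤ) ^ 2) with hF
  have hper : Function.Periodic F Q := by
    have h := ch_eval_periodic hQ (Polynomial.C a * Polynomial.X ^ 2)
    simp only [eval_mul, eval_C, eval_pow, eval_X] at h
    exact h
  have hconj : ∀ n h : ℕ, F (n + h) * (starRingEnd ℂ) (F n)
      = ch Q (a * (h : ℤ) ^ 2) * ee ((n : ℝ) / Q * (((2 * a * (h : ℤ)) % (Q : ℤ) : ℤ) : ℝ)) := by
    intro n h
    have e1 : ee ((n : ℝ) / Q * (((2 * a * (h : ℤ)) % (Q : ℤ) : ℤ) : ℝ))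
        = ch Q ((n : ℤ) * ((2 * a * (h : ℤ)) % (Q : ℤ))) := by
      rw [ch]; congr 1; push_cast; ring
    rw [e1, ch_congr hQ (x := (n : ℤ) * ((2 * a * (h : ℤ)) % (Q : ℤ)))
      (y := (n : ℤ) * (2 * a * h))]
    · simp only [hF, ch]
      rw [ee_conj, ← ee_add, ← ee_add]
      congr 1; push_cast; ring
    · rw [← mul_sub]
      exact Dvd.dvd.mul_left ⟨-((2 * a * (h : ℤ)) / (Q : ℤ)), by
        rw [Int.emod_def]; ring⟩ _
  have hsum : (∑ n ∈ range Q, F n) * (starRingEnd ℂ) (∑ n ∈ range Q, F n)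
      = ∑ h ∈ range Q, ch Q (a * (h : ℤ) ^ 2) *
          ∑ n ∈ range Q, ee ((n : ℝ) / Q * (((2 * a * (h : ℤ)) % (Q : ℤ) : ℤ) : ℝ)) := by
    rw [map_sum, sum_mul_sum, sum_comm]
    have e : ∀ n ∈ range Q, ∑ m ∈ range Q, F m * (starRingEnd ℂ) (F n)
        = ∑ h ∈ range Q, F (n + h) * (starRingEnd ℂ) (F n) := by
      intro n _
      rw [← sum_mul, ← sum_mul]
      congr 1
      rw [← sum_shift F Q n hper]
      simp only [add_comm n]
    rw [sum_congr rfl e, sum_comm]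
    refine sum_congr rfl fun h _ => ?_
    rw [mul_sum]
    exact sum_congr rfl fun n _ => hconj n h
  have hfew : ((range Q).filter (fun h : ℕ => (2 * a * (h : ℤ)) % (Q : ℤ) = 0)).card ≤ 2 := by
    refine le_trans (card_le_card (t := {0, Q / 2}) fun h hh => ?_) (card_le_two)
    obtain ⟨h1, h2⟩ := mem_filter.mp hh
    have h1 := mem_range.mp h1
    have h3 : (Q : ℤ) ∣ ((2 * h : ℕ) : ℤ) := by
      refine ha.symm.dvd_of_dvd_mul_left ?_
      have := Int.dvd_of_emod_eq_zero h2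
      rwa [show a * ((2 * h : ℕ) : ℤ) = 2 * a * h by push_cast; ring]
    have h4 : Q ∣ 2 * h := by exact_mod_cast h3
    obtain ⟨k, hk⟩ := h4
    have hk2 : k < 2 := by
      by_contra hc
      have : Q * 2 ≤ Q * k := Nat.mul_le_mul_left Q (by omega)
      omega
    interval_cases k
    · simp only [mul_zero] at hk; simp; omega
    · simp; omega
  have hnorm : ‖∑ n ∈ range Q, F n‖ ^ 2 ≤ 2 * (Q : ℝ) := by
    have h1 : ‖(∑ n ∈ range Q, F n) * (starRingEnd ℂ) (∑ n ∈ range Q, F n)‖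
        = ‖∑ n ∈ range Q, F n‖ ^ 2 := by rw [norm_mul, Complex.norm_conj, pow_two]
    rw [← h1, hsum]
    refine (norm_sum_le _ _).trans ?_
    refine le_trans (sum_le_sum (g := fun h : ℕ =>
      if (2 * a * (h : ℤ)) % (Q : ℤ) = 0 then (Q : ℝ) else 0) fun h _ => ?_) ?_
    · have hQ0 : (0 : ℤ) < Q := by exact_mod_cast hQ
      rw [norm_mul, norm_ch, one_mul, sum_ee_div Q _ hQ (by
        rw [abs_of_nonneg (Int.emod_nonneg _ hQ0.ne')]; exact Int.emod_lt_of_pos _ hQ0)]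
      split_ifs <;> simp
    · rw [← sum_filter, sum_const, nsmul_eq_mul]
      exact mul_le_mul_of_nonneg_right (by exact_mod_cast hfew) hQR.le
  refine Real.le_sqrt_of_sq_le ?_
  show ‖avg Q F‖ ^ 2 ≤ 2 / Q
  rw [avg, norm_div, div_pow, Complex.norm_natCast, div_le_div_iff₀ (by positivity) hQR]
  calc ‖∑ n ∈ range Q, F n‖ ^ 2 * Q ≤ 2 * Q * Q := mul_le_mul_of_nonneg_right hnorm hQR.le
    _ = 2 * (Q : ℝ) ^ 2 := by ring

/-- `p ^ (-1/2)`. -/
noncomputable def rp (p : ℕ) : ℝ := (Real.sqrt p)⁻¹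

lemma rp_nonneg (p : ℕ) : 0 ≤ rp p := by unfold rp; positivity

lemma rp_le {p : ℕ} (hp : 2 ≤ p) : rp p ≤ 3 / 4 := by
  have h : (4 / 3 : ℝ) ≤ Real.sqrt p :=
    Real.le_sqrt_of_sq_le (le_trans (by norm_num) (show (2 : ℝ) ≤ p by exact_mod_cast hp))
  rw [rp, inv_eq_one_div, div_le_iff₀ (by linarith)]
  linarith

lemma gG_sq_bound (p i j : ℕ) (t : ℤ) (hp : p.Prime) (ht : ¬ (p : ℤ) ∣ t) (hj : 2 * j < i) :
    ‖gG sqp p i t j‖ ≤ 2 * rp p ^ (i - 2 * j) := by
  set r := i - 2 * j with hr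
  have hfun : ∀ m : ℕ, ch (p ^ i) (t * sqp.eval ((p ^ j * m : ℕ) : ℤ))
      = ch (p ^ r) (t * (m : ℤ) ^ 2) := by
    intro m
    rw [sqp_eval, ch, ch]
    congr 1
    have hpi : (p : ℝ) ^ i = (p : ℝ) ^ (2 * j) * (p : ℝ) ^ r := by
      rw [← pow_add]; congr 1; omega
    have hpR : (p : ℝ) ≠ 0 := by exact_mod_cast hp.ne_zero
    push_cast
    rw [hpi]
    field_simp
    ring
  rw [gG, avg_dlt p i j hp (by omega)]
  simp only [hfun]
  have hsp : p ^ (i - j) = p ^ r * p ^ j := by rw [← pow_add]; congr 1; omega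
  have hper : Function.Periodic (fun m : ℕ => ch (p ^ r) (t * (m : ℤ) ^ 2)) (p ^ r) := by
    have h := ch_eval_periodic (Nat.one_le_pow r _ hp.pos) (Polynomial.C t * Polynomial.X ^ 2)
    simp only [eval_mul, eval_C, eval_pow, eval_X] at h
    exact h
  rw [hsp, avg_periodic_mul _ (p ^ r) _ (Nat.one_le_pow _ _ hp.pos) hper]
  have hco : IsCoprime t ((p ^ r : ℕ) : ℤ) := by
    push_cast
    exact (((Nat.prime_iff_prime_int.mp hp).coprime_iff_not_dvd.mpr ht).symm).pow_right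
  refine (gauss_sq _ (Nat.one_le_pow _ _ hp.pos) t hco).trans ?_
  push_cast
  rw [Real.sqrt_div (by norm_num), div_eq_mul_inv]
  refine mul_le_mul ?_ (le_of_eq ?_) (by positivity) (by norm_num)
  · rw [Real.sqrt_le_iff]; norm_num
  · rw [rp, inv_pow]
    congr 1
    rw [Real.sqrt_eq_rpow, Real.sqrt_eq_rpow, ← Real.rpow_natCast _ r, ← Real.rpow_natCast _ r,
      ← Real.rpow_mul (Nat.cast_nonneg p), ← Real.rpow_mul (Nat.cast_nonneg p), mul_comm]

/-- The local densities for squares, with exponents `σ`. -/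
noncomputable def sqL (σ : ℕ → ℝ) (hσ : ∀ p, 0 ≤ σ p) : Dens sqp :=
  dens sqp σ hσ (fun _ _ => 0)

/-- The unweighted local densities for squares. -/
noncomputable def sqL₀ : Dens sqp := sqL (fun _ => 0) (fun _ => le_rfl)

/-- Number of levels before the local sum becomes trivial. -/
def lev (i : ℕ) : ℕ := (i + 1) / 2

lemma gG_sq_le (p i j : ℕ) (t : ℤ) (hp : p.Prime) (ht : ¬ (p : ℤ) ∣ t) (hj : j < lev i) :
    ‖gG sqp p i t j‖ ≤ 2 * rp p ^ (lev i - j) := by
  unfold lev at hj ⊢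
  refine (gG_sq_bound p i j t hp ht (by omega)).trans (mul_le_mul_of_nonneg_left
    (pow_le_pow_of_le_one (rp_nonneg p) ((rp_le hp.two_le).trans (by norm_num)) (by omega))
    zero_le_two)

lemma gG_sq_one (p i j : ℕ) (t : ℤ) (hp : p.Prime) (hji : j ≤ i) (hj : lev i ≤ j) :
    gG sqp p i t j = 1 := by
  refine gG_eq_one sqp 2 (fun t ht => sqp_coeff_low ht) p i j t hp hji ?_
  unfold lev at hj; omega

lemma geom_le {x w : ℝ} (hx : 0 ≤ x) (hxw : x ≤ w) (hw : w < 1) (m : ℕ) :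
    ∑ j ∈ range m, x ^ (m - j) ≤ x / (1 - w) := by
  have e2 : ∑ j ∈ range m, x ^ (m - j) = x * ∑ j ∈ range m, x ^ j := by
    rw [mul_sum, ← sum_range_reflect]
    refine sum_congr rfl fun j hj => ?_
    rw [← pow_succ']; congr 1
    have := mem_range.mp hj; omega
  rw [e2, div_eq_mul_inv]
  refine mul_le_mul_of_nonneg_left ?_ hx
  have h1 := geom_sum_mul_neg x m
  have hpos : 0 < 1 - w := by linarith
  rw [inv_eq_one_div, le_div_iff₀ hpos]
  have : 0 ≤ ∑ j ∈ range m, x ^ j := sum_nonneg fun j _ => pow_nonneg hx j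
  nlinarith [pow_nonneg hx m]

lemma locS_sq (σ : ℕ → ℝ) (hσ : ∀ p, 0 ≤ σ p) {p i : ℕ} (hp : p.Prime) (hσ4 : σ p ≤ 1 / 4)
    (hi : 1 ≤ i) (t : ℤ) (ht : ¬ (p : ℤ) ∣ t) :
    ‖locS (sqL σ hσ) p i t - ((ρp (σ p) p ^ lev i : ℝ) : ℂ)‖ ≤
      ρp (σ p) p ^ lev i * (14 * σ p * Real.log p * (p : ℝ) ^ σ p * rp p) := by
  have hm1 : 1 ≤ lev i := by unfold lev; omega
  have hmi : lev i ≤ i := by unfold lev; omega
  rw [show sqL σ hσ = dens sqp σ hσ (fun _ _ => 0) from rfl,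
    locS_eq sqp σ hσ _ hp (fun j _ => Nat.ModEq.refl _) t, Nat.cast_zero, taylor_zero]
  set ρ := ρp (σ p) p with hρ
  set G := gG sqp p i t with hG
  set m := lev i with hm
  have hp2 : (2 : ℝ) ≤ p := by exact_mod_cast hp.two_le
  have hρ0 : 0 < ρ := by rw [hρ, ρp]; positivity
  have hρ1 : ρ ≤ 1 := Real.rpow_le_one_of_one_le_of_nonpos (by linarith) (by linarith [hσ p])
  rw [show G i = 1 from gG_sq_one p i i t hp le_rfl hmi, mul_one]
  have htel : ∑ j ∈ Ico m i, ((ρ ^ j - ρ ^ (j + 1) : ℝ) : ℂ) * G j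
      = ((ρ ^ m : ℝ) : ℂ) - ((ρ ^ i : ℝ) : ℂ) := by
    rw [sum_congr rfl (fun j hj => by
      rw [hG, gG_sq_one p i j t hp (mem_Ico.mp hj).2.le (mem_Ico.mp hj).1, mul_one]),
      sum_Ico_eq_sum_range]
    have h1 := sum_range_sub' (fun j => ((ρ ^ (m + j) : ℝ) : ℂ)) (i - m)
    rw [Nat.add_sub_cancel' hmi, add_zero] at h1
    rw [← h1]
    refine sum_congr rfl fun j _ => ?_
    rw [add_assoc]; push_cast; ring
  rw [← sum_range_add_sum_Ico _ hmi, htel]
  set S := ∑ j ∈ range m, ((ρ ^ j - ρ ^ (j + 1) : ℝ) : ℂ) * G j with hS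
  rw [show S + (((ρ ^ m : ℝ) : ℂ) - ((ρ ^ i : ℝ) : ℂ)) + ((ρ ^ i : ℝ) : ℂ) - ((ρ ^ m : ℝ) : ℂ) = S
    by ring]
  have hps : 0 < (p : ℝ) ^ σ p := by positivity
  have hinv : ρ * (p : ℝ) ^ σ p = 1 := by
    rw [hρ, ρp, ← Real.rpow_add (by linarith), neg_add_cancel, Real.rpow_zero]
  set x := (p : ℝ) ^ σ p * rp p with hx
  have hr0 := rp_nonneg p
  have hx0 : 0 ≤ x := by positivity
  have hx17 : x ≤ 17 / 20 := by
    have h1 : (p : ℝ) ^ σ p ≤ (p : ℝ) ^ (1 / 4 : ℝ) :=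
      Real.rpow_le_rpow_of_exponent_le (by linarith) hσ4
    have h2 : (p : ℝ) ^ (1 / 4 : ℝ) * rp p = (p : ℝ) ^ (-(1 / 4) : ℝ) := by
      rw [rp, Real.sqrt_eq_rpow, ← Real.rpow_neg (by linarith), ← Real.rpow_add (by linarith)]
      norm_num
    calc x ≤ (p : ℝ) ^ (1 / 4 : ℝ) * rp p := mul_le_mul_of_nonneg_right h1 hr0
      _ ≤ (2 : ℝ) ^ (-(1 / 4) : ℝ) := h2 ▸ Real.rpow_le_rpow_of_nonpos (by norm_num) hp2 (by norm_num)
      _ ≤ 17 / 20 := by
        refine (pow_le_pow_iff_left₀ (by positivity) (by norm_num) (by norm_num : (4:ℕ) ≠ 0)).mp ?_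
        rw [← Real.rpow_natCast _ 4, ← Real.rpow_mul (by norm_num),
          show (-(1 / 4) : ℝ) * ((4 : ℕ) : ℝ) = -1 by norm_num, Real.rpow_neg_one]
        norm_num
  have hterm : ∀ j ∈ range m, ‖((ρ ^ j - ρ ^ (j + 1) : ℝ) : ℂ) * G j‖
      ≤ (1 - ρ) * 2 * ρ ^ m * x ^ (m - j) := by
    intro j hj
    have hjm := mem_range.mp hj
    have hc : 0 ≤ ρ ^ j - ρ ^ (j + 1) :=
      sub_nonneg.mpr (pow_le_pow_of_le_one hρ0.le hρ1 (by omega))
    rw [norm_mul, Complex.norm_real, Real.norm_eq_abs, abs_of_nonneg hc]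
    refine (mul_le_mul_of_nonneg_left (gG_sq_le p i j t hp ht hjm) hc).trans (le_of_eq ?_)
    have e1 : ρ ^ m = ρ ^ j * ρ ^ (m - j) := by rw [← pow_add]; congr 1; omega
    have e2 : rp p = ρ * x := by rw [hx, ← mul_assoc, hinv, one_mul]
    rw [← hm, e1, e2, mul_pow]; ring
  have hlog : 1 - ρ ≤ σ p * Real.log p := by
    rw [hρ, ρp, Real.rpow_def_of_pos (by linarith)]
    have := Real.add_one_le_exp (Real.log p * -(σ p))
    linarith
  calc ‖S‖ ≤ ∑ j ∈ range m, (1 - ρ) * 2 * ρ ^ m * x ^ (m - j) :=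
        (norm_sum_le _ _).trans (sum_le_sum hterm)
    _ = (1 - ρ) * 2 * ρ ^ m * ∑ j ∈ range m, x ^ (m - j) := by rw [mul_sum]
    _ ≤ σ p * Real.log p * 2 * ρ ^ m * (7 * x) := by
        have h0 : (0 : ℝ) ≤ ∑ j ∈ range m, x ^ (m - j) := sum_nonneg fun j _ => pow_nonneg hx0 _
        have hlp : 0 ≤ σ p * Real.log p := mul_nonneg (hσ p) (Real.log_nonneg (by linarith))
        refine mul_le_mul (mul_le_mul_of_nonneg_right (mul_le_mul_of_nonneg_right hlog zero_le_two)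
          (by positivity)) ((geom_le hx0 hx17 (by norm_num) m).trans ?_) h0 (by positivity)
        norm_num
        linarith
    _ = _ := by rw [hx]; ring

lemma absSum_sq {p i : ℕ} (hp : p.Prime) (hi : 1 ≤ i) (t : ℤ) (ht : ¬ (p : ℤ) ∣ t) :
    absSum sqL₀ 0 (p ^ i) t ≤ Real.exp (20 * rp p) := by
  have hm1 : 1 ≤ lev i := by unfold lev; omega
  have hmi : lev i ≤ i := by unfold lev; omega
  have hr0 := rp_nonneg p
  have hr1 := rp_le hp.two_le
  set r := rp p with hr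
  set m := lev i with hm
  set G := gG sqp p i t with hG
  refine le_trans ?_ (Real.add_one_le_exp _)
  rw [absSum]
  simp only [Real.rpow_zero, mul_one]
  rw [Nat.sum_divisors_prime_pow hp, sum_range_succ']
  have h0 : ‖term sqL₀ (p ^ i) (p ^ 0) t‖ ≤ 2 * r := by
    have e : term sqL₀ (p ^ i) (p ^ 0) t = G 0 := by
      simp [term, wt_one, hG, gG, dlt]
    rw [e]
    refine (gG_sq_le p i 0 t hp ht hm1).trans (mul_le_mul_of_nonneg_left ?_ zero_le_two)
    calc r ^ (m - 0) ≤ r ^ 1 := pow_le_pow_of_le_one hr0 (by linarith) (by omega)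
      _ = r := pow_one r
  have hj : ∀ j ∈ range i, ‖term sqL₀ (p ^ i) (p ^ (j + 1)) t‖ ≤
      (if j + 1 = m then 1 + 2 * r else 0) + (if j + 1 < m then 4 * r ^ (m - (j + 1)) else 0) := by
    intro j hj
    have hji : j + 1 ≤ i := mem_range.mp hj
    have e : term sqL₀ (p ^ i) (p ^ (j + 1)) t = G (j + 1) - G j := by
      rw [term]
      simp only [wt_prime_pow _ hp (show 1 ≤ j + 1 by omega)]
      rw [sqL₀, sqL, avg_delta sqp _ _ _ hp hji (Nat.ModEq.refl _) t, Nat.cast_zero, taylor_zero,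
        Nat.add_sub_cancel, hG]
      simp [ρp]
    rw [e]
    rcases lt_trichotomy (j + 1) m with h | h | h
    · rw [if_neg h.ne, if_pos h, zero_add]
      refine (norm_sub_le _ _).trans ?_
      have t1 := gG_sq_le p i (j + 1) t hp ht h
      have t2 := gG_sq_le p i j t hp ht (show j < lev i by omega)
      have t3 : r ^ (m - j) ≤ r ^ (m - (j + 1)) := pow_le_pow_of_le_one hr0 (by linarith) (by omega)
      rw [← hm, ← hG, ← hr] at t1 t2
      linarith
    · rw [if_pos h, if_neg h.ge.not_gt, add_zero]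
      refine (norm_sub_le _ _).trans ?_
      have t2 := gG_sq_le p i j t hp ht (show j < lev i by omega)
      rw [← hm, ← hG, ← hr, show m - j = 1 by omega, pow_one] at t2
      rw [hG, gG_sq_one p i (j + 1) t hp hji h.ge, norm_one]
      rw [hG] at t2
      linarith
    · rw [if_neg h.ne', if_neg (by omega), hG, gG_sq_one p i (j + 1) t hp hji (by omega),
        gG_sq_one p i j t hp (by omega) (by omega), sub_self, norm_zero, add_zero]
  have h1 : ∑ j ∈ range i, (if j + 1 = m then 1 + 2 * r else 0) ≤ 1 + 2 * r := by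
    rw [sum_eq_single_of_mem (m - 1) (mem_range.mpr (by omega))]
    · split_ifs <;> linarith
    · intro j _ hne; rw [if_neg (by omega)]
  have h2 : ∑ j ∈ range i, (if j + 1 < m then 4 * r ^ (m - (j + 1)) else 0) ≤ 16 * r := by
    rw [← sum_filter]
    have e : (range i).filter (fun j => j + 1 < m) = range (m - 1) := by
      ext j; simp only [mem_filter, mem_range]; omega
    rw [e, ← mul_sum, show (16 : ℝ) * r = 4 * (4 * r) by ring]
    refine mul_le_mul_of_nonneg_left (le_trans (le_of_eq (sum_congr rfl fun j hj => ?_))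
      ((geom_le hr0 hr1 (by norm_num) (m - 1)).trans (le_of_eq (by norm_num; ring)))) (by norm_num)
    congr 1
    omega
  have := sum_le_sum hj
  rw [sum_add_distrib] at this
  linarith

/-- A product over prime powers, as a function of `q`. -/
noncomputable def mulExt (RB : ℕ → ℕ → ℝ) (q : ℕ) : ℝ := q.factorization.prod RB

lemma gsum_near_prod {g : ℤ[X]} (L : Dens g) (eB : ℕ → ℝ) (RB : ℕ → ℕ → ℝ)
    (hR : ∀ p i, 0 ≤ RB p i)
    (hloc : ∀ p i : ℕ, p.Prime → 1 ≤ i → ∀ t : ℤ, ¬ (p : ℤ) ∣ t →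
      ‖locS L p i t - ((RB p i : ℝ) : ℂ)‖ ≤ RB p i * eB p) :
    ∀ q : ℕ, 1 ≤ q → ∀ a : ℤ, IsCoprime a (q : ℤ) →
      ‖gsum L q a - ((mulExt RB q : ℝ) : ℂ)‖
        ≤ mulExt RB q * (Real.exp (∑ p ∈ q.primeFactors, eB p) - 1) := by
  intro q
  induction q using Nat.recOnPosPrimePosCoprime with
  | zero => intro h; omega
  | one =>
    intro _ a _
    simp [gsum, term_one, mulExt]
  | prime_pow p i hp hi =>
    intro _ a ha
    have e : mulExt RB (p ^ i) = RB p i := by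
      rw [mulExt, hp.factorization_pow, Finsupp.prod, Finsupp.support_single _ (by omega),
        prod_singleton, Finsupp.single_eq_same]
    rw [e, Nat.primeFactors_prime_pow (by omega) hp, sum_singleton, gsum_prime_pow L hp]
    refine (hloc p i hp hi a (not_dvd_of_coprime hp hi ha)).trans
      (mul_le_mul_of_nonneg_left ?_ (hR p i))
    linarith [Real.add_one_le_exp (eB p)]
  | coprime m n hm hn h ihm ihn =>
    intro _ a ha
    obtain ⟨a₁, a₂, h1, h2, hch⟩ := split_coprime a hm.le hn.le h ha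
    have b1 := ihm hm.le a₁ h1
    have b2 := ihn hn.le a₂ h2
    have e : mulExt RB (m * n) = mulExt RB m * mulExt RB n := by
      rw [mulExt, mulExt, mulExt, Nat.factorization_mul_of_coprime h,
        Finsupp.prod_add_index_of_disjoint]
      simpa [Nat.support_factorization] using h.disjoint_primeFactors
    have p1 : ∀ k, 0 ≤ mulExt RB k := fun k => by
      rw [mulExt, Finsupp.prod]
      exact prod_nonneg fun p _ => hR _ _
    rw [e, Nat.Coprime.primeFactors_mul h, sum_union h.disjoint_primeFactors,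
      gsum_mul L hm.le hn.le h a a₁ a₂ hch, Real.exp_add]
    set E₁ := Real.exp (∑ p ∈ m.primeFactors, eB p)
    set E₂ := Real.exp (∑ p ∈ n.primeFactors, eB p)
    set G₁ := gsum L m a₁
    set G₂ := gsum L n a₂
    set R₁ := mulExt RB m
    set R₂ := mulExt RB n
    have hG2 : ‖G₂‖ ≤ R₂ * E₂ := by
      have := norm_le_norm_sub_add G₂ (R₂ : ℂ)
      rw [Complex.norm_real, Real.norm_eq_abs, abs_of_nonneg (p1 n)] at this
      linarith
    rw [show G₁ * G₂ - ((R₁ * R₂ : ℝ) : ℂ) = (G₁ - R₁) * G₂ + (R₁ : ℂ) * (G₂ - R₂) by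
      push_cast; ring]
    refine (norm_add_le _ _).trans ?_
    rw [norm_mul, norm_mul, Complex.norm_real, Real.norm_eq_abs, abs_of_nonneg (p1 m)]
    have t1 := mul_le_mul b1 hG2 (norm_nonneg _) ((norm_nonneg _).trans b1)
    have t2 := mul_le_mul_of_nonneg_left b2 (p1 m)
    linarith

/-- The product of `ρ_p ^ j` over `p ^ j` exactly dividing `f`. -/
noncomputable def rho (σ : ℕ → ℝ) (f : ℕ) : ℝ := mulExt (fun p j => ρp (σ p) p ^ j) f

lemma wt_sqL (σ : ℕ → ℝ) (hσ : ∀ p, 0 ≤ σ p) (f n : ℕ) :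
    wt (sqL σ hσ) f n = rho σ f * wt sqL₀ f n := by
  simp only [wt, rho, mulExt, Finsupp.prod]
  rw [← prod_mul_distrib]
  refine prod_congr rfl fun p _ => ?_
  simp [sqL, sqL₀, dens, dodd, ρp]

lemma term_sqL (σ : ℕ → ℝ) (hσ : ∀ p, 0 ≤ σ p) (q f : ℕ) (a : ℤ) :
    term (sqL σ hσ) q f a = (rho σ f : ℂ) * term sqL₀ q f a := by
  simp only [term, avg, wt_sqL, Complex.ofReal_mul]
  rw [← mul_div_assoc, mul_sum]
  congr 1
  exact sum_congr rfl fun n _ => by ring

end Vale.Agent.P042.Gen.Sq
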