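import Vale.Agent.P042.WeilBound
import Vale.Agent.P042.SqLocal
import Vale.Agent.P042.Quad

/-! Local factors with square-root decay, for any intersective polynomial, by Weil's bound. -/

namespace Vale.Agent.P042.Gen.Mid

open Finset Polynomial

/-- An exponential sum to a prime modulus. -/
lemma prime_sum {p : ℕ} (hp : p.Prime) (P : ℤ[X]) {k e : ℕ} (he : 1 ≤ e) (hPk : P.natDegree ≤ k)
    (hPe : ¬ (p : ℤ) ∣ P.coeff e) :
    ‖avg p (fun n => ch p (P.eval (n : ℤ)))‖ ≤ k * Sq.rp p := by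
  have : Fact p.Prime := ⟨hp⟩
  set f := P.map (Int.castRingHom (ZMod p)) with hf
  have hd1 : 1 ≤ f.natDegree := by
    refine le_trans he (le_natDegree_of_ne_zero ?_)
    rw [hf, coeff_map]
    exact fun h => hPe ((ZMod.intCast_zmod_eq_zero_iff_dvd _ p).mp h)
  have hdk : f.natDegree ≤ k := natDegree_map_le.trans hPk
  have hsum : ∑ n ∈ range p, ch p (P.eval (n : ℤ)) = ∑ x : ZMod p, ZMod.stdAddChar (f.eval x) := by
    rw [← sum_range_zmod p fun x => ZMod.stdAddChar (f.eval x)]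
    refine sum_congr rfl fun n _ => ?_
    rw [ch_eq_ψ]
    congr 1
    rw [hf]
    simp [eval_map, eval₂_at_natCast]
  have hpR : (0 : ℝ) < p := by exact_mod_cast hp.pos
  rw [avg, norm_div, Complex.norm_natCast, hsum, div_le_iff₀ hpR]
  refine (Weil.weil f hd1).trans ?_
  rw [Sq.rp, mul_assoc, ← div_eq_inv_mul, Real.div_sqrt]
  exact mul_le_mul_of_nonneg_right (by exact_mod_cast hdk) (Real.sqrt_nonneg _)

/-- An exponential sum to a higher prime power modulus. -/
lemma power_sum {p : ℕ} (hp : p.Prime) (P : ℤ[X]) {k e r : ℕ} (he : 1 ≤ e) (hek : e < p)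
    (hPk : P.natDegree ≤ k) (hPe : ¬ (p : ℤ) ∣ P.coeff e) (hr : 2 ≤ r) :
    ‖avg (p ^ r) (fun n => ch (p ^ r) (P.eval (n : ℤ)))‖ ≤ (k : ℝ) / p := by
  classical
  have : Fact p.Prime := ⟨hp⟩
  have hpR : (0 : ℝ) < p := by exact_mod_cast hp.pos
  obtain ⟨u, rfl⟩ : ∃ u, r = u + 2 := ⟨r - 2, by omega⟩
  set D := (derivative P).map (Int.castRingHom (ZMod p)) with hD
  have hDne : D ≠ 0 := by
    intro h0
    have h1 := congrArg (fun f => coeff f (e - 1)) h0
    simp only [hD, coeff_map, coeff_derivative, coeff_zero] at h1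
    rw [show e - 1 + 1 = e by omega, map_mul, mul_eq_zero] at h1
    rcases h1 with h1 | h1
    · exact hPe ((ZMod.intCast_zmod_eq_zero_iff_dvd _ p).mp h1)
    · have h2 : ((e : ℕ) : ZMod p) = 0 := by
        rw [← h1, show ((e - 1 : ℕ) : ℤ) + 1 = ((e : ℕ) : ℤ) by omega]
        simp
      have := Nat.le_of_dvd (by omega) ((ZMod.natCast_eq_zero_iff e p).mp h2)
      omega
  have hroots : D.roots.toFinset.card ≤ k :=
    (Multiset.toFinset_card_le _).trans ((card_roots' D).trans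
      (natDegree_map_le.trans ((natDegree_derivative_le P).trans (Nat.sub_le _ _ |>.trans hPk))))
  set M := p ^ (u + 1) with hM
  have hinner : ∀ w : ℕ, ‖∑ v ∈ range p, ch (p ^ (u + 2)) (P.eval ((w + M * v : ℕ) : ℤ))‖
      ≤ if (p : ℤ) ∣ (derivative P).eval (w : ℤ) then (p : ℝ) else 0 := by
    intro w
    have e1 : ∀ v : ℕ, ch (p ^ (u + 2)) (P.eval ((w + M * v : ℕ) : ℤ))
        = ch (p ^ (u + 2)) (P.eval (w : ℤ))
          * Kloo.ψ ((v : ZMod p) * (((derivative P).eval (w : ℤ) : ℤ) : ZMod p)) := by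
      intro v
      obtain ⟨z, hz⟩ := P.binomExpansion (w : ℤ) ((M : ℤ) * v)
      have hdiv : ((p ^ (u + 2) : ℕ) : ℤ) ∣ P.eval ((w : ℤ) + (M : ℤ) * v)
          - (P.eval (w : ℤ) + (derivative P).eval (w : ℤ) * ((M : ℤ) * v)) := by
        rw [hz]
        refine ⟨z * (p : ℤ) ^ u * (v : ℤ) ^ 2, ?_⟩
        rw [hM]; push_cast; ring
      rw [show (((derivative P).eval (w : ℤ) : ℤ) : ZMod p) = (((derivative P).eval (w : ℤ) : ℤ) : ZMod p)
        from rfl, ← Int.cast_natCast (R := ZMod p) v, ← Int.cast_mul, ← ch_eq_ψ]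
      push_cast
      rw [ch_congr (Nat.one_le_pow _ _ hp.pos) hdiv, ch, ch, ch, ← ee_add]
      congr 1
      rw [hM]; push_cast
      field_simp
      ring
    simp only [e1, ← mul_sum, norm_mul, norm_ch, one_mul]
    rw [sum_range_zmod p (fun x : ZMod p =>
      Kloo.ψ (x * (((derivative P).eval (w : ℤ) : ℤ) : ZMod p))), Kloo.sum_ψ]
    simp only [ZMod.intCast_zmod_eq_zero_iff_dvd]
    split_ifs <;> simp
  set crit := fun w : ℕ => (p : ℤ) ∣ (derivative P).eval (w : ℤ) with hcrit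
  have hbase : ((range p).filter crit).card ≤ k := by
    refine le_trans (card_le_card_of_injOn (fun n : ℕ => (n : ZMod p)) (t := D.roots.toFinset)
      (fun n hn => ?_) fun a ha b hb he => ?_) hroots
    · rw [mem_coe, Multiset.mem_toFinset, mem_roots hDne, IsRoot.def, hD, eval_map,
        eval₂_at_natCast]
      exact (ZMod.intCast_zmod_eq_zero_iff_dvd _ p).mpr (mem_filter.mp hn).2
    · exact ((ZMod.natCast_eq_natCast_iff a b p).mp he).eq_of_lt_of_lt
        (mem_range.mp (mem_filter.mp ha).1) (mem_range.mp (mem_filter.mp hb).1)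
  have hcount : ((range M).filter crit).card ≤ p ^ u * k := by
    refine le_trans (card_le_card_of_injOn (fun w => (w / p, w % p))
      (t := range (p ^ u) ×ˢ (range p).filter crit) (fun w hw => ?_) fun a _ b _ he => ?_) ?_
    · obtain ⟨h1, h2⟩ := mem_filter.mp hw
      have h1 := mem_range.mp h1
      refine mem_product.mpr ⟨mem_range.mpr ?_, mem_filter.mpr ⟨mem_range.mpr (Nat.mod_lt _ hp.pos), ?_⟩⟩
      · rw [Nat.div_lt_iff_lt_mul hp.pos, ← pow_succ]; exact h1
      · simp only [hcrit] at h2 ⊢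
        refine (dvd_sub_right h2).mp ?_
        refine dvd_trans ?_ (sub_dvd_eval_sub (w : ℤ) ((w % p : ℕ) : ℤ) (derivative P))
        refine ⟨((w / p : ℕ) : ℤ), ?_⟩
        have := congrArg (Nat.cast (R := ℤ)) (Nat.mod_add_div w p)
        push_cast at this ⊢
        linarith
    · simp only [Prod.mk.injEq] at he
      rw [← Nat.mod_add_div a p, ← Nat.mod_add_div b p, he.1, he.2]
    · rw [card_product, card_range]
      exact Nat.mul_le_mul_left _ hbase
  rw [avg, norm_div, Complex.norm_natCast, div_le_iff₀ (by exact_mod_cast pow_pos hp.pos _),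
    show p ^ (u + 2) = M * p by rw [hM, ← pow_succ], sum_range_mul', sum_comm]
  refine (norm_sum_le _ _).trans ((sum_le_sum (g := fun w => if crit w then (p : ℝ) else 0)
    fun w _ => ?_).trans ?_)
  · have := hinner w
    rw [show p ^ (u + 2) = M * p by rw [hM, ← pow_succ]] at this
    exact this
  rw [← sum_filter, sum_const, nsmul_eq_mul]
  calc (((range M).filter crit).card : ℝ) * p ≤ ((p ^ u * k : ℕ) : ℝ) * p :=
        mul_le_mul_of_nonneg_right (by exact_mod_cast hcount) hpR.le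
    _ = _ := by
        rw [hM]; push_cast
        field_simp
        ring

/-- The number of levels below which the local sum is not trivial. -/
def lev (e i : ℕ) : ℕ := (i + e - 1) / e

lemma lev_spec {e i : ℕ} (he : 1 ≤ e) (hi : 1 ≤ i) :
    1 ≤ lev e i ∧ lev e i ≤ i ∧ i ≤ e * lev e i ∧ ∀ j < lev e i, e * j < i := by
  unfold lev
  have h1 := Nat.div_add_mod (i + e - 1) e
  have h2 := Nat.mod_lt (i + e - 1) he
  refine ⟨(Nat.one_le_div_iff he).mpr (by omega), ?_, by omega, fun j hj => ?_⟩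
  · apply Nat.div_le_of_le_mul
    obtain ⟨i', rfl⟩ := Nat.exists_eq_add_of_le hi
    obtain ⟨e', rfl⟩ := Nat.exists_eq_add_of_le he
    rw [show 1 + i' + (1 + e') - 1 = 1 + i' + e' by omega, add_mul, mul_add, mul_add]
    omega
  · have h3 : e * (j + 1) ≤ e * ((i + e - 1) / e) := Nat.mul_le_mul_left e hj
    rw [Nat.mul_succ] at h3
    omega

/-- What is used about the polynomial `h` and its chosen `p`-adic roots. -/
structure Loc (h : ℤ[X]) where
  z : ℕ → ℕ → ℕ
  e : ℕ → ℕ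
  A₀ : ℝ
  A₁ : ℝ
  p₀ : ℕ
  η : ℝ
  one_le_A₀ : 1 ≤ A₀
  A_le : A₀ ≤ A₁
  η_pos : 0 < η
  η_le : η ≤ 1
  e_pos : ∀ p : ℕ, p.Prime → 1 ≤ e p
  zcong : ∀ p : ℕ, p.Prime → ∀ i j : ℕ, j ≤ i → z p i ≡ z p j [MOD p ^ j]
  bound : ∀ p i j : ℕ, p.Prime → ∀ t : ℤ, ¬ (p : ℤ) ∣ t → j < lev (e p) i →
    ‖gG (taylor (z p i : ℤ) h) p i t j‖
      ≤ (if p ≤ p₀ then A₁ else A₀) * Sq.rp p * ((p : ℝ) ^ (-η)) ^ (lev (e p) i - j - 1)
  one : ∀ p i j : ℕ, p.Prime → ∀ t : ℤ, j ≤ i → lev (e p) i ≤ j →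
    gG (taylor (z p i : ℤ) h) p i t j = 1

theorem exists_loc {k : ℕ} {θ C : ℝ} (hCB : CB k θ C) (h : ℤ[X]) (hk : 1 ≤ k)
    (hdeg : h.natDegree = k) (hint : ∀ q : ℕ, 1 ≤ q → ∃ t : ℤ, (q : ℤ) ∣ h.eval t) :
    ∃ L : Loc h, L.A₀ = (k : ℝ) * C ∧ L.η = min (θ / 2) 1 := by
  obtain ⟨hθ, hC, -⟩ := id hCB
  obtain ⟨z, e, N, hN, hR⟩ := exists_rootData h (by omega) hint
  set K₀ := C * (N : ℝ) ^ θ with hK₀
  have hK₀1 : 1 ≤ K₀ :=
    one_le_mul_of_one_le_of_one_le hC (Real.one_le_rpow (by exact_mod_cast hN) hθ.le)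
  have hkR : (1 : ℝ) ≤ k := by exact_mod_cast hk
  set A := (k : ℝ) * K₀ * Real.sqrt ((k + N : ℕ) : ℝ) with hA
  have hS1 : 1 ≤ Real.sqrt ((k + N : ℕ) : ℝ) :=
    Real.one_le_sqrt.mpr (by exact_mod_cast (show 1 ≤ k + N by omega))
  have hkK1 : 1 ≤ (k : ℝ) * K₀ := one_le_mul_of_one_le_of_one_le hkR hK₀1
  have hkC1 : 1 ≤ (k : ℝ) * C := one_le_mul_of_one_le_of_one_le hkR hC
  have hA₀A : (k : ℝ) * C ≤ A := by
    rw [hA, mul_assoc]
    refine mul_le_mul_of_nonneg_left ?_ (by linarith)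
    rw [hK₀, mul_assoc]
    exact le_mul_of_one_le_right (by linarith)
      (one_le_mul_of_one_le_of_one_le (Real.one_le_rpow (by exact_mod_cast hN) hθ.le) hS1)
  refine ⟨⟨z, e, (k : ℝ) * C, A, k + N, min (θ / 2) 1, hkC1, hA₀A, lt_min (by linarith) one_pos,
    min_le_right _ _, fun p hp => (hR p hp).1, fun p hp => (hR p hp).2.2.1, ?_, ?_⟩, rfl, rfl⟩
  · intro p i j hp t ht hj
    obtain ⟨he1, hek, -, hco⟩ := hR p hp
    obtain ⟨hlow, htop⟩ := hco i
    set g := taylor (z p i : ℤ) h with hg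
    have hgdeg : g.natDegree ≤ k := by rw [hg, natDegree_taylor, hdeg]
    have hi : 1 ≤ i := by
      by_contra h0
      rw [show i = 0 by omega, lev, Nat.zero_add, Nat.div_eq_of_lt (by omega)] at hj
      omega
    obtain ⟨-, -, -, hlt⟩ := lev_spec he1 hi
    have hej := hlt j hj
    have hbase := gG_bound' hCB g hgdeg hN he1 (hek.trans hdeg.le) hp hlow htop j t ht hej
    rw [← hK₀] at hbase
    set r := i - e p * j with hr
    set s := lev (e p) i - j - 1 with hs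
    have hsr : s ≤ r ∧ s + 1 ≤ r := by
      have h1 := hlt (lev (e p) i - 1) (by omega)
      have h2 : lev (e p) i - 1 = j + s := by omega
      rw [h2, Nat.mul_add] at h1
      have h3 : s ≤ e p * s := Nat.le_mul_of_pos_left s he1
      omega
    have hpR : (1 : ℝ) < p := by exact_mod_cast hp.one_lt
    have hw0 : 0 ≤ (p : ℝ) ^ (-(θ / 2)) := by positivity
    have hw1 : (p : ℝ) ^ (-(θ / 2)) ≤ 1 := Real.rpow_le_one_of_one_le_of_nonpos hpR.le (by linarith)
    have hrp := Sq.rp_nonneg p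
    have hθθ : ((p : ℝ) ^ (-θ)) ^ r = (((p : ℝ) ^ (-(θ / 2))) ^ r) ^ 2 := by
      rw [← pow_mul, mul_comm, pow_mul, ← Real.rpow_natCast ((p : ℝ) ^ (-(θ / 2))) 2,
        ← Real.rpow_mul (by linarith)]
      congr 2; ring
    have hws : ((p : ℝ) ^ (-(θ / 2))) ^ r ≤ ((p : ℝ) ^ (-min (θ / 2) 1)) ^ s :=
      (pow_le_pow_of_le_one hw0 hw1 hsr.1).trans (pow_le_pow_left₀ hw0
        (Real.rpow_le_rpow_of_exponent_le hpR.le (neg_le_neg (min_le_left _ _))) s)
    by_cases hsmall : p ≤ k + N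
    · rw [if_pos hsmall]
      refine hbase.trans ?_
      rw [hθθ, pow_two]
      have h1 : ((p : ℝ) ^ (-(θ / 2))) ^ r * ((p : ℝ) ^ (-(θ / 2))) ^ r
          ≤ ((p : ℝ) ^ (-min (θ / 2) 1)) ^ s :=
        (mul_le_of_le_one_left (by positivity) (pow_le_one₀ hw0 hw1)).trans hws
      have h2 : K₀ ≤ A * Sq.rp p := by
        rw [Sq.rp, ← div_eq_mul_inv, le_div_iff₀ (Real.sqrt_pos.mpr (by linarith)), hA]
        refine mul_le_mul (le_mul_of_one_le_left (by linarith) hkR) (Real.sqrt_le_sqrt ?_)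
          (Real.sqrt_nonneg _) (by positivity)
        exact_mod_cast hsmall
      exact mul_le_mul h2 h1 (by positivity) (by positivity)
    rw [if_neg hsmall]
    push Not at hsmall
    have htop1 : ∀ q u : ℕ, u ≤ i → ((p ^ u : ℕ) : ℤ) ∣ (q : ℤ) * g.coeff (e p) → p ^ u ∣ q * 1 := by
      intro q u hu hd
      rw [mul_one]
      exact (Nat.Coprime.pow_left u (hp.coprime_iff_not_dvd.mpr fun hd2 => by
        have := Nat.le_of_dvd hN hd2
        omega)).dvd_of_dvd_mul_right (htop q u hu hd)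
    have hbase1 : ‖gG g p i t j‖ ≤ C * ((p : ℝ) ^ (-θ)) ^ r := by
      have := gG_bound' hCB g hgdeg le_rfl he1 (hek.trans hdeg.le) hp hlow htop1 j t ht hej
      simpa using this
    have hje : j ≤ e p * j := Nat.le_mul_of_pos_left j he1
    set Q : ℤ[X] := ∑ u ∈ range (k + 1),
      if e p ≤ u then monomial u (g.coeff u * (p : ℤ) ^ (j * (u - e p))) else 0 with hQ
    have hcoef : Q.coeff (e p) = g.coeff (e p) := by
      rw [hQ, finsetSum_coeff, sum_eq_single_of_mem (e p) (mem_range.mpr (by omega))]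
      · simp
      · intro u _ hue
        split_ifs
        · rw [coeff_monomial, if_neg hue]
        · simp
    have hQdeg : (Polynomial.C t * Q).natDegree ≤ k := by
      refine (natDegree_C_mul_le _ _).trans ?_
      refine natDegree_sum_le_of_forall_le _ _ fun u hu => ?_
      split_ifs
      · exact (natDegree_monomial_le _).trans (Nat.lt_succ_iff.mp (mem_range.mp hu))
      · simp
    have hcong : ∀ m : ℕ, ((p ^ i : ℕ) : ℤ) ∣
        g.eval ((p ^ j * m : ℕ) : ℤ) - (p : ℤ) ^ (e p * j) * Q.eval (m : ℤ) := by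
      intro m
      rw [eval_eq_sum_range' (Nat.lt_succ_of_le hgdeg), hQ, eval_finsetSum, mul_sum,
        ← sum_sub_distrib]
      refine dvd_sum fun u _ => ?_
      split_ifs with hte
      · have e1 : ((p ^ j * m : ℕ) : ℤ) ^ u
            = (p : ℤ) ^ (e p * j) * ((p : ℤ) ^ (j * (u - e p)) * (m : ℤ) ^ u) := by
          push_cast
          rw [mul_pow, ← mul_assoc, ← pow_add, ← pow_mul]
          congr 2
          rw [mul_comm (e p) j, ← Nat.mul_add]
          congr 1; omega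
        rw [eval_monomial, e1]
        exact ⟨0, by ring⟩
      · rw [eval_zero, mul_zero, sub_zero]
        exact (hlow u (by omega)).mul_right _
    have heq : gG g p i t j
        = avg (p ^ r) (fun m => ch (p ^ r) ((Polynomial.C t * Q).eval (m : ℤ))) := by
      rw [gG, avg_dlt p i j hp (by omega)]
      have hfun : ∀ m : ℕ, ch (p ^ i) (t * g.eval ((p ^ j * m : ℕ) : ℤ))
          = ch (p ^ r) ((Polynomial.C t * Q).eval (m : ℤ)) := by
        intro m
        rw [ch_congr (Nat.one_le_pow _ _ hp.pos)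
          (y := t * ((p : ℤ) ^ (e p * j) * Q.eval (m : ℤ)))
          (by rw [← mul_sub]; exact (hcong m).mul_left t), eval_mul, eval_C, ch, ch]
        congr 1
        have hpi : (p : ℝ) ^ i = (p : ℝ) ^ (e p * j) * (p : ℝ) ^ r := by
          rw [← pow_add]; congr 1; omega
        have hp0 : (p : ℝ) ≠ 0 := by linarith
        push_cast
        rw [hpi]
        field_simp
      simp only [hfun]
      have hsp : p ^ (i - j) = p ^ r * p ^ (e p * j - j) := by rw [← pow_add]; congr 1; omega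
      rw [hsp, avg_periodic_mul _ (p ^ r) _ (Nat.one_le_pow _ _ hp.pos)
        (ch_eval_periodic (Nat.one_le_pow _ _ hp.pos) _)]
    have hPe : ¬ (p : ℤ) ∣ (Polynomial.C t * Q).coeff (e p) := by
      rw [coeff_C_mul, hcoef]
      intro hd
      have hd2 := ((Nat.prime_iff_prime_int.mp hp).dvd_or_dvd hd).resolve_left ht
      have := htop 1 1 hi (by simpa using hd2)
      rw [pow_one, one_mul] at this
      have := Nat.le_of_dvd hN this
      omega
    rcases eq_or_lt_of_le (show 1 ≤ r by omega) with hr1 | hr2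
    · have hs0 : s = 0 := by omega
      rw [heq, ← hr1, pow_one, hs0, pow_zero, mul_one]
      exact (prime_sum hp _ he1 hQdeg hPe).trans
        (mul_le_mul_of_nonneg_right (le_mul_of_one_le_right (by linarith) hC) hrp)
    · have h1 : ‖gG g p i t j‖ ≤ (k : ℝ) / p := heq ▸ power_sum hp _ he1 (by omega) hQdeg hPe hr2
      refine le_of_pow_le_pow_left₀ two_ne_zero (by positivity) ?_
      rw [pow_two ‖gG g p i t j‖]
      refine (mul_le_mul h1 hbase1 (norm_nonneg _) (by positivity)).trans ?_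
      rw [hθθ, mul_pow, mul_pow]
      have e1 : Sq.rp p ^ 2 = 1 / (p : ℝ) := by
        rw [Sq.rp, inv_pow, Real.sq_sqrt (by linarith), one_div]
      rw [e1]
      calc (k : ℝ) / p * (C * (((p : ℝ) ^ (-(θ / 2))) ^ r) ^ 2)
          = (k : ℝ) * C * (1 / p) * (((p : ℝ) ^ (-(θ / 2))) ^ r) ^ 2 := by ring
        _ ≤ ((k : ℝ) * C) ^ 2 * (1 / p) * (((p : ℝ) ^ (-min (θ / 2) 1)) ^ s) ^ 2 := by
            refine mul_le_mul (mul_le_mul_of_nonneg_right (le_self_pow₀ hkC1 two_ne_zero)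
              (by positivity)) (pow_le_pow_left₀ (by positivity) hws 2) (by positivity) (by positivity)
  · intro p i j hp t hji hj
    obtain ⟨he1, -, -, hco⟩ := hR p hp
    obtain ⟨hlow, -⟩ := hco i
    refine gG_eq_one' _ (e p) p i j hlow t hp hji ?_
    rcases Nat.eq_zero_or_pos i with h0 | h0
    · omega
    · exact (lev_spec he1 h0).2.2.1.trans (Nat.mul_le_mul_left _ hj)

variable {h : ℤ[X]} (L : Loc h)

/-- The constant in the local bounds at `p`, before normalisation. -/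
noncomputable def Loc.Ap (p : ℕ) : ℝ := if p ≤ L.p₀ then L.A₁ else L.A₀

lemma Loc.one_le_Ap (p : ℕ) : 1 ≤ L.Ap p := by
  rw [Loc.Ap]; split_ifs <;> linarith [L.one_le_A₀, L.A_le]

/-- The constant in the local bounds at `p`. -/
noncomputable def Loc.cst (p : ℕ) : ℝ := 4 * L.Ap p / (1 - (2 : ℝ) ^ (-(L.η / 2)))

/-- The constant at large primes; it depends on the degree alone. -/
noncomputable def Loc.cst₀ : ℝ := 4 * L.A₀ / (1 - (2 : ℝ) ^ (-(L.η / 2)))

/-- The constant at the exceptional primes. -/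
noncomputable def Loc.cst₁ : ℝ := 4 * L.A₁ / (1 - (2 : ℝ) ^ (-(L.η / 2)))

lemma Loc.w_lt : (2 : ℝ) ^ (-(L.η / 2)) < 1 :=
  Real.rpow_lt_one_of_one_lt_of_neg (by norm_num) (by linarith [L.η_pos])

lemma Loc.one_le_cst (p : ℕ) : 1 ≤ L.cst p := by
  rw [Loc.cst, one_le_div (by linarith [L.w_lt])]
  have : 0 < (2 : ℝ) ^ (-(L.η / 2)) := by positivity
  linarith [L.one_le_Ap p]

lemma Loc.one_le_cst₀ : 1 ≤ L.cst₀ := by
  rw [Loc.cst₀, one_le_div (by linarith [L.w_lt])]
  have : 0 < (2 : ℝ) ^ (-(L.η / 2)) := by positivity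
  linarith [L.one_le_A₀]

lemma Loc.one_le_cst₁ : 1 ≤ L.cst₁ := by
  rw [Loc.cst₁, one_le_div (by linarith [L.w_lt])]
  have : 0 < (2 : ℝ) ^ (-(L.η / 2)) := by positivity
  linarith [L.one_le_A₀, L.A_le]

lemma Loc.eight_le_cst₀ : 8 ≤ L.cst₀ * L.η := by
  have hη := L.η_pos
  have h1 : 1 - (2 : ℝ) ^ (-(L.η / 2)) ≤ L.η / 2 := by
    rw [Real.rpow_def_of_pos (by norm_num)]
    have h2 := Real.add_one_le_exp (Real.log 2 * -(L.η / 2))
    have h3 := mul_le_mul_of_nonneg_right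
      (show Real.log 2 ≤ 1 by linarith [Real.log_two_lt_d9]) (show 0 ≤ L.η / 2 by linarith)
    linarith
  rw [Loc.cst₀, div_mul_eq_mul_div, le_div_iff₀ (by linarith [L.w_lt])]
  have := mul_le_mul_of_nonneg_right L.one_le_A₀ hη.le
  linarith

lemma Loc.cst_le (p : ℕ) : L.cst p ≤ L.cst₁ := by
  rw [Loc.cst, Loc.cst₁]
  refine div_le_div_of_nonneg_right ?_ (by linarith [L.w_lt])
  rw [Loc.Ap]; split_ifs <;> linarith [L.A_le]

lemma Loc.cst_big {p : ℕ} (hp : L.p₀ < p) : L.cst p = L.cst₀ := by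
  rw [Loc.cst, Loc.cst₀, Loc.Ap, if_neg (Nat.not_le.mpr hp)]

/-- The local densities, with exponents `σ`. -/
noncomputable def Loc.den (σ : ℕ → ℝ) (hσ : ∀ p, 0 ≤ σ p) : Dens h := dens h σ hσ L.z

/-- The unweighted local densities. -/
noncomputable def Loc.den₀ : Dens h := L.den (fun _ => 0) (fun _ => le_rfl)

lemma geom_shift {x w : ℝ} (hx : 0 ≤ x) (hxw : x ≤ w) (hw : w < 1) (m : ℕ) :
    ∑ j ∈ range m, x ^ (m - j - 1) ≤ 1 / (1 - w) := by
  calc ∑ j ∈ range m, x ^ (m - j - 1) = ∑ j ∈ range m, x ^ j := by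
        rw [← sum_range_reflect]
        refine sum_congr rfl fun j hj => ?_
        congr 1
        have := mem_range.mp hj; omega
    _ ≤ 1 / (1 - w) := by
        rw [le_div_iff₀ (by linarith)]
        have h1 := geom_sum_mul_neg x m
        have h2 : 0 ≤ ∑ j ∈ range m, x ^ j := sum_nonneg fun j _ => pow_nonneg hx j
        nlinarith [pow_nonneg hx m]

lemma Loc.locS_bound (σ : ℕ → ℝ) (hσ : ∀ p, 0 ≤ σ p) {p i : ℕ} (hp : p.Prime)
    (hση : σ p ≤ L.η / 2) (hi : 1 ≤ i) (t : ℤ) (ht : ¬ (p : ℤ) ∣ t) :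
    ‖locS (L.den σ hσ) p i t - ((ρp (σ p) p ^ lev (L.e p) i : ℝ) : ℂ)‖ ≤
      ρp (σ p) p ^ lev (L.e p) i * (L.cst p * σ p * Real.log p * (p : ℝ) ^ σ p * Sq.rp p) := by
  obtain ⟨hm1, hmi, -, -⟩ := lev_spec (L.e_pos p hp) hi
  rw [Loc.den, locS_eq h σ hσ _ hp (L.zcong p hp i) t]
  set ρ := ρp (σ p) p with hρ
  set G := gG (taylor (L.z p i : ℤ) h) p i t with hG
  set m := lev (L.e p) i with hm
  have hA := L.one_le_Ap p
  have hη := L.η_pos
  have hp2 : (2 : ℝ) ≤ p := by exact_mod_cast hp.two_le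
  have hρ0 : 0 < ρ := by rw [hρ, ρp]; positivity
  have hρ1 : ρ ≤ 1 := Real.rpow_le_one_of_one_le_of_nonpos (by linarith) (by linarith [hσ p])
  rw [show G i = 1 from L.one p i i hp t le_rfl hmi, mul_one]
  have htel : ∑ j ∈ Ico m i, ((ρ ^ j - ρ ^ (j + 1) : ℝ) : ℂ) * G j
      = ((ρ ^ m : ℝ) : ℂ) - ((ρ ^ i : ℝ) : ℂ) := by
    rw [sum_congr rfl (fun j hj => by
      rw [hG, L.one p i j hp t (mem_Ico.mp hj).2.le (mem_Ico.mp hj).1, mul_one]),
      sum_Ico_eq_sum_range]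
    have h1 := sum_range_sub' (fun j => ((ρ ^ (m + j) : ℝ) : ℂ)) (i - m)
    rw [Nat.add_sub_cancel' hmi, add_zero] at h1
    rw [← h1]
    refine sum_congr rfl fun j _ => ?_
    rw [add_assoc]; push_cast; ring
  rw [← sum_range_add_sum_Ico _ hmi, htel]
  set S := ∑ j ∈ range m, ((ρ ^ j - ρ ^ (j + 1) : ℝ) : ℂ) * G j with hS
  rw [show S + (((ρ ^ m : ℝ) : ℂ) - ((ρ ^ i : ℝ) : ℂ)) + ((ρ ^ i : ℝ) : ℂ) - ((ρ ^ m : ℝ) : ℂ) = S
    by ring]
  have hps : 0 < (p : ℝ) ^ σ p := by positivity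
  have hinv : ρ * (p : ℝ) ^ σ p = 1 := by
    rw [hρ, ρp, ← Real.rpow_add (by linarith), neg_add_cancel, Real.rpow_zero]
  set x := (p : ℝ) ^ σ p * (p : ℝ) ^ (-L.η) with hx
  have hx0 : 0 ≤ x := by positivity
  have hxw : x ≤ (2 : ℝ) ^ (-(L.η / 2)) := by
    rw [hx, ← Real.rpow_add (by linarith)]
    exact (Real.rpow_le_rpow_of_exponent_le (by linarith) (by linarith : σ p + -L.η ≤ -(L.η / 2))).trans
      (Real.rpow_le_rpow_of_nonpos (by norm_num) hp2 (by linarith))
  have hr0 := Sq.rp_nonneg p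
  have hterm : ∀ j ∈ range m, ‖((ρ ^ j - ρ ^ (j + 1) : ℝ) : ℂ) * G j‖
      ≤ (1 - ρ) * ρ ^ m * (L.Ap p * Sq.rp p * (p : ℝ) ^ σ p) * x ^ (m - j - 1) := by
    intro j hj
    have hjm := mem_range.mp hj
    have hc : 0 ≤ ρ ^ j - ρ ^ (j + 1) :=
      sub_nonneg.mpr (pow_le_pow_of_le_one hρ0.le hρ1 (by omega))
    rw [norm_mul, Complex.norm_real, Real.norm_eq_abs, abs_of_nonneg hc]
    refine (mul_le_mul_of_nonneg_left (L.bound p i j hp t ht hjm) hc).trans (le_of_eq ?_)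
    rw [← hm]
    have e1 : ρ ^ m = ρ ^ j * (ρ * ρ ^ (m - j - 1)) := by
      rw [← pow_succ', ← pow_add]; congr 1; omega
    have e3 : ρ * (p : ℝ) ^ σ p = 1 := hinv
    rw [e1, hx, mul_pow]
    have e4 : ρ ^ (m - j - 1) * ((p : ℝ) ^ σ p) ^ (m - j - 1) = 1 := by
      rw [← mul_pow, hinv, one_pow]
    calc (ρ ^ j - ρ ^ (j + 1)) * (L.Ap p * Sq.rp p * ((p : ℝ) ^ (-L.η)) ^ (m - j - 1))
        = (1 - ρ) * ρ ^ j * (L.Ap p * Sq.rp p * ((p : ℝ) ^ (-L.η)) ^ (m - j - 1)) * (ρ * (p : ℝ) ^ σ p)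
          * (ρ ^ (m - j - 1) * ((p : ℝ) ^ σ p) ^ (m - j - 1)) := by rw [e3, e4]; ring
      _ = _ := by ring
  have hlog : 1 - ρ ≤ σ p * Real.log p := by
    rw [hρ, ρp, Real.rpow_def_of_pos (by linarith)]
    have := Real.add_one_le_exp (Real.log p * -(σ p))
    linarith
  have hlp : 0 ≤ σ p * Real.log p := mul_nonneg (hσ p) (Real.log_nonneg (by linarith))
  calc ‖S‖ ≤ ∑ j ∈ range m, (1 - ρ) * ρ ^ m * (L.Ap p * Sq.rp p * (p : ℝ) ^ σ p) * x ^ (m - j - 1) :=
        (norm_sum_le _ _).trans (sum_le_sum hterm)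
    _ = (1 - ρ) * ρ ^ m * (L.Ap p * Sq.rp p * (p : ℝ) ^ σ p) * ∑ j ∈ range m, x ^ (m - j - 1) := by
        rw [mul_sum]
    _ ≤ σ p * Real.log p * ρ ^ m * (L.Ap p * Sq.rp p * (p : ℝ) ^ σ p)
          * (4 / (1 - (2 : ℝ) ^ (-(L.η / 2)))) := by
        refine mul_le_mul (mul_le_mul_of_nonneg_right (mul_le_mul_of_nonneg_right hlog (by positivity))
          (by positivity)) ((geom_shift hx0 hxw L.w_lt m).trans ?_)
          (sum_nonneg fun j _ => pow_nonneg hx0 _) (by positivity)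
        exact div_le_div_of_nonneg_right (by norm_num) (by linarith [L.w_lt])
    _ = _ := by rw [Loc.cst]; ring

lemma Loc.absSum_local {p i : ℕ} (hp : p.Prime) (hi : 1 ≤ i) (t : ℤ) (ht : ¬ (p : ℤ) ∣ t) :
    absSum L.den₀ 0 (p ^ i) t ≤ Real.exp (L.cst p * Sq.rp p) := by
  obtain ⟨hm1, hmi, -, -⟩ := lev_spec (L.e_pos p hp) hi
  have hr0 := Sq.rp_nonneg p
  have hA := L.one_le_Ap p
  have hη := L.η_pos
  have hp2 : (2 : ℝ) ≤ p := by exact_mod_cast hp.two_le
  set r := L.Ap p * Sq.rp p with hr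
  have hr0' : 0 ≤ r := by positivity
  set w := (2 : ℝ) ^ (-(L.η / 2)) with hw
  set x := (p : ℝ) ^ (-L.η) with hx
  have hx0 : 0 ≤ x := by positivity
  have hxw : x ≤ w := (Real.rpow_le_rpow_of_exponent_le (by linarith) (by linarith)).trans
    (Real.rpow_le_rpow_of_nonpos (by norm_num) hp2 (by linarith))
  have hw0 : 0 < w := by positivity
  have hw1 : w < 1 := L.w_lt
  have hx1 : x ≤ 1 := by linarith
  set m := lev (L.e p) i with hm
  set G := gG (taylor (L.z p i : ℤ) h) p i t with hG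
  have hGj : ∀ j < m, ‖G j‖ ≤ r * x ^ (m - j - 1) := fun j hj => L.bound p i j hp t ht hj
  have hone : ∀ j, j ≤ i → m ≤ j → G j = 1 := fun j h1 h2 => L.one p i j hp t h1 h2
  refine le_trans ?_ (Real.add_one_le_exp _)
  rw [absSum]
  simp only [Real.rpow_zero, mul_one]
  rw [Nat.sum_divisors_prime_pow hp, sum_range_succ']
  have h0 : ‖term L.den₀ (p ^ i) (p ^ 0) t‖ ≤ r := by
    have e : term L.den₀ (p ^ i) (p ^ 0) t = G 0 := by
      have h1 := avg_recenter h L.z hp t (fun _ => 1) (fun _ => rfl) (i := i)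
      simpa [term, wt_one, hG, gG, dlt] using h1
    rw [e]
    exact (hGj 0 hm1).trans (mul_le_of_le_one_right hr0' (pow_le_one₀ hx0 hx1))
  have hj : ∀ j ∈ range i, ‖term L.den₀ (p ^ i) (p ^ (j + 1)) t‖ ≤
      (if j + 1 = m then 1 + r else 0) + (if j + 1 < m then 2 * r * x ^ (m - 1 - j - 1) else 0) := by
    intro j hj
    have hji : j + 1 ≤ i := mem_range.mp hj
    have e : term L.den₀ (p ^ i) (p ^ (j + 1)) t = G (j + 1) - G j := by
      rw [term]
      simp only [wt_prime_pow _ hp (show 1 ≤ j + 1 by omega)]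
      rw [Loc.den₀, Loc.den, avg_delta h _ _ _ hp hji (L.zcong p hp i (j + 1) hji) t,
        Nat.add_sub_cancel, hG]
      simp [ρp]
    rw [e]
    rcases lt_trichotomy (j + 1) m with h | h | h
    · rw [if_neg h.ne, if_pos h, zero_add]
      refine (norm_sub_le _ _).trans ?_
      have t1 := hGj (j + 1) h
      have t2 := hGj j (by omega)
      have t3 : x ^ (m - j - 1) ≤ x ^ (m - 1 - j - 1) := pow_le_pow_of_le_one hx0 hx1 (by omega)
      rw [show m - (j + 1) - 1 = m - 1 - j - 1 by omega] at t1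
      have := mul_le_mul_of_nonneg_left t3 hr0'
      linarith
    · rw [if_pos h, if_neg h.ge.not_gt, add_zero]
      refine (norm_sub_le _ _).trans ?_
      have t2 := hGj j (by omega)
      rw [show m - j - 1 = 0 by omega, pow_zero, mul_one] at t2
      rw [hone (j + 1) hji h.ge, norm_one]
      linarith
    · rw [if_neg h.ne', if_neg (by omega), hone (j + 1) hji (by omega), hone j (by omega) (by omega),
        sub_self, norm_zero, add_zero]
  have h1 : ∑ j ∈ range i, (if j + 1 = m then 1 + r else 0) ≤ 1 + r := by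
    rw [sum_eq_single_of_mem (m - 1) (mem_range.mpr (by omega))]
    · split_ifs <;> linarith
    · intro j _ hne; rw [if_neg (by omega)]
  have h2 : ∑ j ∈ range i, (if j + 1 < m then 2 * r * x ^ (m - 1 - j - 1) else 0)
      ≤ 2 * r * (1 / (1 - w)) := by
    rw [← sum_filter]
    have e : (range i).filter (fun j => j + 1 < m) = range (m - 1) := by
      ext j; simp only [mem_filter, mem_range]; omega
    rw [e, ← mul_sum]
    exact mul_le_mul_of_nonneg_left (geom_shift hx0 hxw hw1 (m - 1)) (by positivity)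
  have h3 : 2 * r + 2 * r * (1 / (1 - w)) ≤ L.cst p * Sq.rp p := by
    have e : L.cst p * Sq.rp p = 4 * r * (1 / (1 - w)) := by rw [Loc.cst, hr, ← hw]; ring
    have h4 : 1 ≤ 1 / (1 - w) := by rw [one_le_div (by linarith)]; linarith
    have := mul_le_mul_of_nonneg_left h4 (show 0 ≤ 2 * r by positivity)
    linarith
  have := sum_le_sum hj
  rw [sum_add_distrib] at this
  linarith

lemma Loc.wt_den (σ : ℕ → ℝ) (hσ : ∀ p, 0 ≤ σ p) (f n : ℕ) :
    wt (L.den σ hσ) f n = Sq.rho σ f * wt L.den₀ f n := by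
  simp only [wt, Sq.rho, Sq.mulExt, Finsupp.prod]
  rw [← prod_mul_distrib]
  refine prod_congr rfl fun p _ => ?_
  simp [Loc.den, Loc.den₀, dens, dodd, ρp]

lemma Loc.term_den (σ : ℕ → ℝ) (hσ : ∀ p, 0 ≤ σ p) (q f : ℕ) (a : ℤ) :
    term (L.den σ hσ) q f a = (Sq.rho σ f : ℂ) * term L.den₀ q f a := by
  simp only [term, avg, L.wt_den, Complex.ofReal_mul]
  rw [← mul_div_assoc, mul_sum]
  congr 1
  exact sum_congr rfl fun n _ => by ring

end Vale.Agent.P042.Gen.Mid
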