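import Vale.Agent.P042.CurveIface
import Vale.Agent.P042.WLocal

/-! Local densities for polynomials with controlled roots modulo every modulus, granted the
weights at large primes. -/

namespace Vale.Agent.P042.Curve

open Finset Polynomial

variable {h : ℤ[X]}

/-- A sum over a ball around a noncritical point vanishes. -/
lemma ball_zero {p : ℕ} (hp : p.Prime) (J v i : ℕ) (x₀ U : ℤ)
    (hU : (derivative h).eval x₀ = (p : ℤ) ^ v * U) (hUp : ¬ (p : ℤ) ∣ U)
    (hJ : v + 1 ≤ J) (hi : J + v < i) (t : ℤ) (ht : ¬ (p : ℤ) ∣ t) :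
    avg (p ^ (i - J)) (fun m => ch (p ^ i) (t * h.eval (x₀ + (p : ℤ) ^ J * (m : ℤ)))) = 0 := by
  obtain ⟨r, rfl⟩ : ∃ r, i = J + v + r + 1 := ⟨i - J - v - 1, by omega⟩
  set n := J + v + r + 1 with hn
  have hpi : 1 ≤ p ^ n := Nat.one_le_pow _ _ hp.pos
  refine avg_eq_zero_of_shift _ (p ^ r) _ (ch p (t * U))
    (ch_ne_one hp (fun h => ((Nat.prime_iff_prime_int.mp hp).dvd_or_dvd h).elim ht hUp)) ?_ ?_
  · intro m
    refine ch_congr hpi ?_
    rw [← mul_sub]
    refine Dvd.dvd.mul_left (dvd_trans ?_ (sub_dvd_eval_sub _ _ h)) _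
    refine ⟨1, ?_⟩
    push_cast
    rw [show (p : ℤ) ^ n = (p : ℤ) ^ J * (p : ℤ) ^ (n - J) by
      rw [← pow_add]; congr 1; omega]
    ring
  · intro m
    set x : ℤ := x₀ + (p : ℤ) ^ J * (m : ℤ) with hx
    obtain ⟨z, hz⟩ := h.binomExpansion x ((p : ℤ) ^ (J + r))
    have hd : ((p : ℤ) ^ J) ∣ (derivative h).eval x - (derivative h).eval x₀ :=
      dvd_trans ⟨(m : ℤ), by rw [hx]; ring⟩ (sub_dvd_eval_sub x x₀ (derivative h))
    obtain ⟨e, he⟩ := hd
    have hdiv : ((p ^ n : ℕ) : ℤ) ∣ h.eval (x₀ + (p : ℤ) ^ J * ((m + p ^ r : ℕ) : ℤ))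
        - (h.eval x + (p : ℤ) ^ (n - 1) * U) := by
      push_cast
      rw [show x₀ + (p : ℤ) ^ J * ((m : ℤ) + (p : ℤ) ^ r) = x + (p : ℤ) ^ (J + r) by
        rw [hx, pow_add]; ring, hz]
      have e1 : (derivative h).eval x = (p : ℤ) ^ v * U + (p : ℤ) ^ J * e := by
        rw [← hU, ← he]; ring
      rw [e1, show n - 1 = J + r + v by omega,
        show h.eval x + ((p : ℤ) ^ v * U + (p : ℤ) ^ J * e) * (p : ℤ) ^ (J + r)
            + z * ((p : ℤ) ^ (J + r)) ^ 2 - (h.eval x + (p : ℤ) ^ (J + r + v) * U)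
          = (p : ℤ) ^ (2 * J + r) * e + z * (p : ℤ) ^ (2 * (J + r)) by ring]
      exact dvd_add (Dvd.dvd.mul_right (pow_dvd_pow _ (by omega)) _)
        (Dvd.dvd.mul_left (pow_dvd_pow _ (by omega)) _)
    rw [ch_congr hpi (x := t * h.eval (x₀ + (p : ℤ) ^ J * ((m + p ^ r : ℕ) : ℤ)))
      (y := t * (h.eval x + (p : ℤ) ^ (n - 1) * U)) (by rw [← mul_sub]; exact hdiv.mul_left t),
      ch, ch, ch, ← ee_add]
    congr 1
    have hp0 : (p : ℝ) ≠ 0 := by exact_mod_cast hp.ne_zero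
    have hn1 : (p : ℝ) ^ n = (p : ℝ) ^ (n - 1) * p := by rw [← pow_succ]; congr 1
    push_cast
    rw [hn1]
    field_simp
    ring

/-- A weight vanishing at critical residues gives vanishing sums to higher powers. -/
lemma good_avg_zero {p : ℕ} (hp : p.Prime) (i : ℕ) (hi : 2 ≤ i) (t : ℤ) (ht : ¬ (p : ℤ) ∣ t)
    (F : ℕ → ℂ) (hF : Function.Periodic F p)
    (hcrit : ∀ r : ℕ, (p : ℤ) ∣ (derivative h).eval (r : ℤ) → F r = 0) :
    avg (p ^ i) (fun n => F n * ch (p ^ i) (t * h.eval (n : ℤ))) = 0 := by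
  obtain ⟨k, rfl⟩ : ∃ k, i = k + 1 := ⟨i - 1, by omega⟩
  have hpk : p ^ (k + 1) = p * p ^ k := by rw [pow_succ, mul_comm]
  rw [avg, show ∑ n ∈ range (p ^ (k + 1)), F n * ch (p ^ (k + 1)) (t * h.eval (n : ℤ)) = 0 from ?_,
    zero_div]
  rw [show range (p ^ (k + 1)) = range (p * p ^ k) by rw [hpk], sum_range_mul', sum_comm]
  refine sum_eq_zero fun r _ => ?_
  by_cases hr : (p : ℤ) ∣ (derivative h).eval (r : ℤ)
  · refine sum_eq_zero fun s _ => ?_
    rw [show F (r + p * s) = F r by rw [mul_comm]; exact hF.nat_mul s r, hcrit r hr, zero_mul]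
  · have h0 := ball_zero (h := h) hp 1 0 (k + 1) (r : ℤ) ((derivative h).eval (r : ℤ)) (by simp) hr
      le_rfl (by omega) t ht
    have hpk0 : ((p ^ (k + 1 - 1) : ℕ) : ℂ) ≠ 0 := by exact_mod_cast (pow_pos hp.pos _).ne'
    rw [avg, div_eq_zero_iff, or_iff_left hpk0, Nat.add_sub_cancel] at h0
    calc ∑ s ∈ range (p ^ k), F (r + p * s) * ch (p ^ (k + 1)) (t * h.eval ((r + p * s : ℕ) : ℤ))
        = F r * ∑ s ∈ range (p ^ k),
            ch (p ^ (k + 1)) (t * h.eval ((r : ℤ) + (p : ℤ) ^ 1 * (s : ℤ))) := by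
          rw [mul_sum]
          refine sum_congr rfl fun s _ => ?_
          rw [show F (r + p * s) = F r by rw [mul_comm]; exact hF.nat_mul s r]
          congr 3; push_cast; ring
      _ = 0 := by rw [h0, mul_zero]

/-- The factor at a large prime. -/
lemma big_local (p : ℕ) (hp : p.Prime) (Cn : ℕ) (hC : (2 * Cn + 1) ^ 4 < p)
    (hk : 1 ≤ h.natDegree) (hkp : h.natDegree < p) (hpl : ¬ (p : ℤ) ∣ h.leadingCoeff)
    (z : ℕ) (hz : (p : ℤ) ∣ h.eval (z : ℤ)) (hz' : ¬ (p : ℤ) ∣ (derivative h).eval (z : ℤ))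
    (w : ℕ → ℝ) (hwper : Function.Periodic w p) (hw : ∀ n, 0 ≤ w n ∧ w n ≤ h.natDegree)
    (hwc : ∀ r : ℕ, (p : ℤ) ∣ (derivative h).eval (r : ℤ) → w r = 0)
    (hhat : ∀ t : ℤ, ¬ (p : ℤ) ∣ t →
      (∑ n ∈ range p, (w n : ℂ) * ch p (t * h.eval (n : ℤ))).im = 0 ∧
      ‖∑ n ∈ range p, (w n : ℂ) * ch p (t * h.eval (n : ℤ))‖ ≤ Cn * Real.sqrt p)
    (htot : |(∑ n ∈ range p, w n) - p| ≤ Cn * Real.sqrt p) :
    ∃ f : ℕ → ℝ, Function.Periodic f p ∧
    (∀ n, ∑ s ∈ range p, f (n + p ^ 0 * s) = 0) ∧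
    (∀ n, |f n| ≤ ((p : ℝ)) ^ 2) ∧
    (∀ i, 1 ≤ i → ∀ t : ℤ, ¬ (p : ℤ) ∣ t →
      ‖avg (p ^ i) (fun n => ((f n : ℝ) : ℂ) * ch (p ^ i) (t * h.eval (n : ℤ)))‖
        ≤ (4 * Cn + 2 + 2 * h.natDegree : ℕ) * (p : ℝ) ^ (-(1 / 4) : ℝ)) ∧
    (∀ i, 1 ≤ i → ∀ t : ℤ, ¬ (p : ℤ) ∣ t →
      (avg (p ^ i) (fun n => ((f n + 1 : ℝ) : ℂ) * ch (p ^ i) (t * h.eval (n : ℤ)))).im = 0 ∧
      0 ≤ (avg (p ^ i) (fun n => ((f n + 1 : ℝ) : ℂ) * ch (p ^ i) (t * h.eval (n : ℤ)))).re) := by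
  classical
  haveI := Fact.mk hp
  set k := h.natDegree with hkdef
  set Z := ∑ n ∈ range p, w n with hZ
  have hp0 : (0 : ℝ) < p := by exact_mod_cast hp.pos
  have hp1 : (1 : ℝ) ≤ p := by exact_mod_cast hp.one_lt.le
  have hCp : ((2 * (Cn : ℝ) + 1)) ^ 4 ≤ (p : ℝ) := by exact_mod_cast hC.le
  have hC0 : (0 : ℝ) ≤ Cn := Nat.cast_nonneg Cn
  set q := (p : ℝ) ^ (-(1 / 4) : ℝ) with hq
  have hq0 : 0 < q := by positivity
  set r := Real.sqrt (Real.sqrt p) with hr
  have hr4 : r ^ 4 = p := by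
    rw [show r ^ 4 = (r ^ 2) ^ 2 by ring, hr, Real.sq_sqrt (Real.sqrt_nonneg _),
      Real.sq_sqrt hp0.le]
  have hrC : 2 * (Cn : ℝ) + 1 ≤ r := by
    by_contra hcon
    push Not at hcon
    have := pow_lt_pow_left₀ hcon (Real.sqrt_nonneg _) (show (4 : ℕ) ≠ 0 by norm_num)
    rw [hr4] at this
    linarith
  have hr1 : 1 ≤ r := by linarith
  have hrq : q = r⁻¹ := by
    rw [hq, hr, Real.sqrt_eq_rpow, Real.sqrt_eq_rpow, ← Real.rpow_mul hp0.le,
      ← Real.rpow_neg hp0.le]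
    norm_num
  have hsq : Real.sqrt p = r ^ 2 := by rw [hr, Real.sq_sqrt (Real.sqrt_nonneg _)]
  have hqp : Real.sqrt p / p ≤ q := by
    rw [hrq, hsq, div_le_iff₀ hp0, ← hr4, show r⁻¹ * r ^ 4 = r ^ 3 by field_simp]
    exact pow_le_pow_right₀ hr1 (by norm_num)
  have hZlow : (p : ℝ) / 2 ≤ Z := by
    have h1 := (abs_le.mp htot).1
    have h2 : 2 * ((Cn : ℝ) * Real.sqrt p) ≤ p := by
      rw [hsq, ← hr4]
      calc 2 * ((Cn : ℝ) * r ^ 2) = (2 * Cn) * r ^ 2 := by ring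
        _ ≤ r ^ 2 * r ^ 2 := by
            refine mul_le_mul_of_nonneg_right ?_ (by positivity)
            linarith [le_self_pow₀ hr1 (show (2 : ℕ) ≠ 0 by norm_num)]
        _ = r ^ 4 := by ring
    linarith
  have hZ0 : 0 < Z := lt_of_lt_of_le (by positivity) hZlow
  set π : ℝ := (2 * (Cn : ℝ) + 1) * q with hπ
  have hπ0 : 0 ≤ π := by positivity
  have hπ1 : π ≤ 1 := by rw [hπ, hrq, ← div_eq_mul_inv, div_le_one (by linarith)]; exact hrC
  set den : ℕ → ℝ := fun n => (1 - π) * ((p : ℝ) * w n / Z)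
    + π * (if (n : ZMod p) = (z : ZMod p) then (p : ℝ) else 0) with hden
  have hdper : Function.Periodic den p := by
    intro n
    simp only [hden]
    rw [hwper n, Nat.cast_add, ZMod.natCast_self, add_zero]
  have hcrit : ∀ n : ℕ, (p : ℤ) ∣ (derivative h).eval (n : ℤ) → den n = 0 := by
    intro n hn
    simp only [hden]
    rw [hwc n hn, if_neg]
    · ring
    · intro he
      have hd : (p : ℤ) ∣ (n : ℤ) - z := by
        rw [← ZMod.intCast_zmod_eq_zero_iff_dvd]; push_cast; rw [he, sub_self]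
      exact hz' ((dvd_sub_right hn).mp (dvd_trans hd (sub_dvd_eval_sub _ _ (derivative h))))
  set z₀ := z % p with hz₀
  have hz₀mem : z₀ ∈ range p := mem_range.mpr (Nat.mod_lt _ hp.pos)
  have hz₀eq : ∀ n ∈ range p, ((n : ZMod p) = (z : ZMod p) ↔ n = z₀) := by
    intro n hn
    rw [ZMod.natCast_eq_natCast_iff, Nat.ModEq, Nat.mod_eq_of_lt (mem_range.mp hn)]
  have hone : ∀ t : ℤ, ¬ (p : ℤ) ∣ t →
      avg p (fun n => (den n : ℂ) * ch p (t * h.eval (n : ℤ)))
        = ((1 - π : ℝ) : ℂ) * ((∑ n ∈ range p, (w n : ℂ) * ch p (t * h.eval (n : ℤ))) / (Z : ℂ))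
          + (π : ℂ) := by
    intro t _
    have hpC : (p : ℂ) ≠ 0 := by exact_mod_cast hp.ne_zero
    have hch : ch p (t * h.eval (z₀ : ℤ)) = 1 := by
      rw [ch_congr hp.one_le (y := 0), ch]
      · simp [ee_zero]
      · rw [sub_zero]
        refine Dvd.dvd.mul_left ?_ t
        have hd : (p : ℤ) ∣ (z : ℤ) - z₀ := by
          refine ⟨((z / p : ℕ) : ℤ), ?_⟩
          have := congrArg (Nat.cast (R := ℤ)) (Nat.mod_add_div z p)
          rw [← hz₀] at this
          push_cast at this ⊢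
          linarith
        exact (dvd_sub_right hz).mp (dvd_trans hd (sub_dvd_eval_sub _ _ h))
    have e : ∀ n ∈ range p, (den n : ℂ) * ch p (t * h.eval (n : ℤ))
        = ((1 - π : ℝ) : ℂ) * ((p : ℂ) * ((w n : ℂ) * ch p (t * h.eval (n : ℤ))) / (Z : ℂ))
          + (if n = z₀ then (π : ℂ) * (p : ℂ) else 0) := by
      intro n hn
      simp only [hden]
      by_cases hnz : n = z₀
      · rw [if_pos ((hz₀eq n hn).mpr hnz), if_pos hnz]
        subst hnz
        rw [hch]; push_cast; ring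
      · rw [if_neg (mt (hz₀eq n hn).mp hnz), if_neg hnz]
        push_cast; ring
    rw [avg, sum_congr rfl e, sum_add_distrib, sum_ite_eq' (range p) z₀, if_pos hz₀mem, ← mul_sum,
      ← sum_div, ← mul_sum]
    field_simp
  have hmu : ∀ t : ℤ, ¬ (p : ℤ) ∣ t →
      ((∑ n ∈ range p, (w n : ℂ) * ch p (t * h.eval (n : ℤ))) / (Z : ℂ)).im = 0 ∧
      ‖(∑ n ∈ range p, (w n : ℂ) * ch p (t * h.eval (n : ℤ))) / (Z : ℂ)‖ ≤ 2 * Cn * q := by
    intro t ht
    obtain ⟨h1, h2⟩ := hhat t ht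
    refine ⟨by rw [Complex.div_ofReal_im, h1, zero_div], ?_⟩
    rw [norm_div, Complex.norm_real, Real.norm_eq_abs, abs_of_pos hZ0, div_le_iff₀ hZ0]
    have h3 : Real.sqrt p ≤ q * p := by rwa [div_le_iff₀ hp0] at hqp
    calc ‖∑ n ∈ range p, (w n : ℂ) * ch p (t * h.eval (n : ℤ))‖ ≤ (Cn : ℝ) * Real.sqrt p := h2
      _ ≤ Cn * (q * p) := mul_le_mul_of_nonneg_left h3 hC0
      _ = 2 * Cn * q * (p / 2) := by ring
      _ ≤ 2 * Cn * q * Z := mul_le_mul_of_nonneg_left hZlow (by positivity)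
  have hsum : ∀ n, ∑ s ∈ range p, den (n + s) = p := by
    intro n
    have hshift : ∑ s ∈ range p, den (n + s) = ∑ s ∈ range p, den s := by
      have h1 := sum_shift (fun s => (den s : ℂ)) p n (fun s => by simp only []; rw [hdper s])
      apply Complex.ofReal_injective
      push_cast
      rw [← h1]
      exact sum_congr rfl fun s _ => by rw [add_comm]
    rw [hshift]
    have e : ∀ s ∈ range p, den s = (1 - π) * ((p : ℝ) * w s / Z)
        + (if s = z₀ then π * (p : ℝ) else 0) := by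
      intro s hs
      simp only [hden]
      by_cases hsz : s = z₀
      · rw [if_pos ((hz₀eq s hs).mpr hsz), if_pos hsz]
      · rw [if_neg (mt (hz₀eq s hs).mp hsz), if_neg hsz, mul_zero]
    rw [sum_congr rfl e, sum_add_distrib, sum_ite_eq' (range p) z₀, if_pos hz₀mem, ← mul_sum,
      ← sum_div, ← mul_sum, ← hZ]
    field_simp; ring
  refine ⟨fun n => den n - 1, fun n => by simp only []; rw [hdper n], fun n => ?_, fun n => ?_,
    fun i hi t ht => ?_, fun i hi t ht => ?_⟩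
  · simp only [pow_zero, one_mul]
    rw [sum_sub_distrib, hsum]
    simp
  · simp only [hden]
    obtain ⟨hw0, hwk⟩ := hw n
    have hkp' : (k : ℝ) ≤ p := by exact_mod_cast hkp.le
    have h1 : (p : ℝ) * w n / Z ≤ 2 * p := by
      rw [div_le_iff₀ hZ0]
      calc (p : ℝ) * w n ≤ p * p := mul_le_mul_of_nonneg_left (hwk.trans hkp') hp0.le
        _ = 2 * p * (p / 2) := by ring
        _ ≤ 2 * p * Z := mul_le_mul_of_nonneg_left hZlow (by positivity)
    have h2 : 0 ≤ (p : ℝ) * w n / Z := by positivity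
    have h3 : (if (n : ZMod p) = (z : ZMod p) then (p : ℝ) else 0) ∈ Set.Icc (0 : ℝ) p := by
      split_ifs <;> exact ⟨by linarith, by linarith⟩
    obtain ⟨h3a, h3b⟩ := h3
    have hp2 : (2 : ℝ) ≤ p := by exact_mod_cast hp.two_le
    have g1 := mul_nonneg (show 0 ≤ 1 - π by linarith) h2
    have g2 := mul_nonneg hπ0 h3a
    have g3 := mul_le_mul_of_nonneg_left h1 (show 0 ≤ 1 - π by linarith)
    have g4 := mul_le_mul_of_nonneg_left h3b hπ0
    rw [abs_le]; constructor <;> nlinarith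
  · have hsub : avg (p ^ i) (fun n => ((den n - 1 : ℝ) : ℂ) * ch (p ^ i) (t * h.eval (n : ℤ)))
        = avg (p ^ i) (fun n => (den n : ℂ) * ch (p ^ i) (t * h.eval (n : ℤ)))
          - avg (p ^ i) (fun n => ch (p ^ i) (t * h.eval (n : ℤ))) := by
      simp only [avg, ← sub_div, ← sum_sub_distrib]
      congr 1; refine sum_congr rfl fun n _ => ?_; push_cast; ring
    rw [hsub]
    refine (norm_sub_le _ _).trans ?_
    have hdeg : (Polynomial.C t * h).natDegree ≤ k := natDegree_C_mul_le _ _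
    have hlead : ¬ (p : ℤ) ∣ (Polynomial.C t * h).coeff k := by
      rw [coeff_C_mul]
      intro hd
      rcases (Nat.prime_iff_prime_int.mp hp).dvd_or_dvd hd with h1 | h1
      · exact ht h1
      · exact hpl h1
    have hk0 : (0 : ℝ) ≤ k := Nat.cast_nonneg k
    have hCq : 0 ≤ (Cn : ℝ) * q := by positivity
    have hkq : 0 ≤ (k : ℝ) * q := by positivity
    rcases Nat.eq_or_lt_of_le hi with hi1 | hi2
    · subst hi1
      rw [pow_one, hone t ht]
      have hplain : ‖avg p (fun n => ch p (t * h.eval (n : ℤ)))‖ ≤ k * q := by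
        have h1 := Gen.Mid.prime_sum hp (Polynomial.C t * h) hk hdeg hlead
        simp only [eval_mul, eval_C] at h1
        refine h1.trans (mul_le_mul_of_nonneg_left ?_ hk0)
        refine le_trans (le_of_eq ?_) hqp
        rw [Gen.Sq.rp, Real.sqrt_div_self', one_div]
      refine (add_le_add (norm_add_le _ _) hplain).trans ?_
      rw [norm_mul, Complex.norm_real, Complex.norm_real, Real.norm_eq_abs, Real.norm_eq_abs,
        abs_of_nonneg hπ0, abs_of_nonneg (by linarith : 0 ≤ 1 - π)]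
      have h3 := mul_le_mul (show 1 - π ≤ 1 by linarith) (hmu t ht).2 (norm_nonneg _) zero_le_one
      push_cast
      rw [hπ] at h3 ⊢
      linarith
    · rw [good_avg_zero hp i hi2 t ht (fun n => (den n : ℂ)) (fun n => by simp only []; rw [hdper n])
        (fun r hr => by simp [hcrit r hr]), norm_zero, zero_add]
      have h1 := Gen.Mid.power_sum hp (Polynomial.C t * h) hk hkp hdeg hlead hi2
      simp only [eval_mul, eval_C] at h1
      refine h1.trans ?_
      have h2 : (1 : ℝ) / p ≤ q := by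
        refine le_trans ?_ hqp
        rw [div_le_div_iff_of_pos_right hp0]
        exact Real.one_le_sqrt.mpr hp1
      calc (k : ℝ) / p = k * (1 / p) := by ring
        _ ≤ k * q := mul_le_mul_of_nonneg_left h2 hk0
        _ ≤ _ := by push_cast; linarith
  · simp only [sub_add_cancel]
    rcases Nat.eq_or_lt_of_le hi with hi1 | hi2
    · subst hi1
      rw [pow_one, hone t ht]
      obtain ⟨him, hn⟩ := hmu t ht
      constructor
      · rw [Complex.add_im, Complex.im_ofReal_mul, him, mul_zero, Complex.ofReal_im, add_zero]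
      · rw [Complex.add_re, Complex.re_ofReal_mul, Complex.ofReal_re]
        have h1 := (abs_le.mp ((Complex.abs_re_le_norm _).trans hn)).1
        have h2 := mul_le_mul_of_nonneg_left h1 (show 0 ≤ 1 - π by linarith)
        have h3 : 0 ≤ π * ((Cn : ℝ) * q) := by positivity
        rw [hπ] at h2 h3 ⊢
        linarith
    · rw [good_avg_zero hp i hi2 t ht (fun n => (den n : ℂ)) (fun n => by simp only []; rw [hdper n])
        (fun r hr => by simp [hcrit r hr])]
      simp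

/-- The factor at a small prime. -/
lemma ball_local (p : ℕ) (hp : p.Prime) (u K : ℕ)
    (hu : ¬ ((p : ℤ) ^ (u + 1)) ∣ (derivative h).eval (-(K : ℤ)))
    (hK : ((p : ℤ) ^ (2 * u + 2)) ∣ h.eval (-(K : ℤ))) :
    (∀ i j : ℕ, j ≤ i → j ≤ u + 1 → ∀ t : ℤ,
      ‖avg (p ^ i) (fun n => ((dodd 0 p j (n + K) : ℝ) : ℂ) * ch (p ^ i) (t * h.eval (n : ℤ)))‖ ≤ 2) ∧
    (∀ i, 1 ≤ i → ∀ t : ℤ, ¬ (p : ℤ) ∣ t →
      (avg (p ^ i) (fun n => ch (p ^ i) (t * h.eval (n : ℤ))) + ∑ j ∈ Icc 1 (min i (u + 1)),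
        avg (p ^ i) (fun n => ((dodd 0 p j (n + K) : ℝ) : ℂ) * ch (p ^ i) (t * h.eval (n : ℤ)))).im = 0 ∧
      0 ≤ (avg (p ^ i) (fun n => ch (p ^ i) (t * h.eval (n : ℤ))) + ∑ j ∈ Icc 1 (min i (u + 1)),
        avg (p ^ i) (fun n => ((dodd 0 p j (n + K) : ℝ) : ℂ) * ch (p ^ i) (t * h.eval (n : ℤ)))).re) := by
  set g' := taylor (-(K : ℤ)) h with hg'
  have hshift : ∀ i j : ℕ, j ≤ i → ∀ t : ℤ,
      avg (p ^ i) (fun n => ((dodd 0 p j (n + K) : ℝ) : ℂ) * ch (p ^ i) (t * h.eval (n : ℤ)))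
        = avg (p ^ i) (fun n => ((dodd 0 p j n : ℝ) : ℂ) * ch (p ^ i) (t * g'.eval (n : ℤ))) := by
    intro i j hji t
    simp only [avg]
    congr 1
    have hper : Function.Periodic
        (fun n : ℕ => ((dodd 0 p j n : ℝ) : ℂ) * ch (p ^ i) (t * g'.eval (n : ℤ))) (p ^ i) := by
      intro n
      simp only []
      rw [periodic_of_dvd (dodd_periodic 0 p j) (pow_dvd_pow p hji) n]
      congr 1
      simpa [eval_mul, eval_C] using ch_eval_periodic (Nat.one_le_pow i _ hp.pos) (Polynomial.C t * g') n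
    rw [← sum_shift _ (p ^ i) K hper]
    refine sum_congr rfl fun n _ => ?_
    congr 3
    rw [hg', taylor_eval]; congr 1; push_cast; ring
  have hzero : ∀ i, ∀ t : ℤ, avg (p ^ i) (fun n => ch (p ^ i) (t * h.eval (n : ℤ)))
      = gG g' p i t 0 := by
    intro i t
    simp only [gG, dlt, pow_zero, one_dvd, if_true, Complex.ofReal_one, one_mul, avg]
    congr 1
    have hper : Function.Periodic (fun n : ℕ => ch (p ^ i) (t * g'.eval (n : ℤ))) (p ^ i) := by
      simpa [eval_mul, eval_C] using ch_eval_periodic (Nat.one_le_pow i _ hp.pos) (Polynomial.C t * g')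
    rw [← sum_shift _ (p ^ i) K hper]
    refine sum_congr rfl fun n _ => ?_
    congr 2
    rw [hg', taylor_eval]; congr 1; push_cast; ring
  refine ⟨fun i j hji _ t => ?_, fun i hi t ht => ?_⟩
  · rw [hshift i j hji t]
    refine (dodd_decay g' 0 p i j hp hji t).trans ?_
    simp
  · set m := min i (u + 1) with hm
    have hmi : m ≤ i := min_le_left _ _
    have hrho : ρp 0 p = 1 := by simp [ρp]
    rw [hzero i t, sum_congr rfl (fun j hj => by
        rw [hshift i j (le_trans (mem_Icc.mp hj).2 hmi) t, avg_term_eq]),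
      abel_identity (gG g' p i t) (ρp 0 p) m, hrho]
    simp only [one_pow, sub_self, Complex.ofReal_zero, zero_mul, sum_const_zero, zero_add,
      Complex.ofReal_one, one_mul]
    set y : ℤ := (derivative h).eval (-(K : ℤ)) with hy
    have hex : ∃ v, ¬ (p : ℤ) ^ (v + 1) ∣ y := ⟨u, hu⟩
    set v := Nat.find hex with hv
    have hvu : v ≤ u := Nat.find_min' hex hu
    have hvd : (p : ℤ) ^ v ∣ y := by
      rcases Nat.eq_zero_or_pos v with h0 | h0
      · rw [h0]; simp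
      · have := Nat.find_min hex (show v - 1 < v by omega)
        rw [not_not, show v - 1 + 1 = v by omega] at this
        exact this
    obtain ⟨U, hU⟩ := hvd
    have hUp : ¬ (p : ℤ) ∣ U := fun h => Nat.find_spec hex (by
      rw [← hv, pow_succ, hU]; exact mul_dvd_mul_left _ h)
    by_cases hsmall : i ≤ (u + 1) + v
    · have hone : gG g' p i t m = 1 := by
        rw [gG, avg_dlt p i m hp hmi, avg]
        have : ∀ n : ℕ, ch (p ^ i) (t * g'.eval ((p ^ m * n : ℕ) : ℤ)) = 1 := by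
          intro n
          rw [ch_congr (Nat.one_le_pow i _ hp.pos) (y := 0), ch]
          · simp [ee_zero]
          · rw [sub_zero]
            refine Dvd.dvd.mul_left ?_ _
            rw [hg', taylor_eval]
            push_cast
            obtain ⟨z, hz⟩ := h.binomExpansion (-(K : ℤ)) ((p : ℤ) ^ m * n)
            rw [show (p : ℤ) ^ m * n + -(K : ℤ) = -(K : ℤ) + (p : ℤ) ^ m * n by ring, hz, ← hy, hU,
              show (p : ℤ) ^ v * U * ((p : ℤ) ^ m * n) = (p : ℤ) ^ (m + v) * ((n : ℤ) * U) by ring,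
              show z * ((p : ℤ) ^ m * n) ^ 2 = (z * n ^ 2) * (p : ℤ) ^ (m + m) by ring]
            refine dvd_add (dvd_add (dvd_trans (pow_dvd_pow _ (by omega)) hK) ?_) ?_
            · exact Dvd.dvd.mul_right (pow_dvd_pow _ (by omega)) _
            · exact Dvd.dvd.mul_left (pow_dvd_pow _ (by omega)) _
        simp only [this, sum_const, card_range, nsmul_eq_mul, mul_one]
        exact div_self (by exact_mod_cast (pow_pos hp.pos _).ne')
      rw [hone]; simp
    · have hm' : m = u + 1 := by omega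
      have hz : gG g' p i t m = 0 := by
        rw [gG, avg_dlt p i m hp hmi, hm']
        have h0 := ball_zero (h := h) hp (u + 1) v i (-(K : ℤ)) U hU hUp (by omega) (by omega) t ht
        refine Eq.trans ?_ h0
        congr 1; funext n
        congr 2
        rw [hg', taylor_eval]; congr 1; push_cast; ring
      rw [hz]; simp

/-- The weights at a large prime, transported to the integers. -/
lemma weight_int (hW : WeightStmt h.natDegree) :
    ∃ Cn : ℕ, ∀ p : ℕ, p.Prime → Cn < p → ¬ (p : ℤ) ∣ h.leadingCoeff → ∀ z : ℕ,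
      (p : ℤ) ∣ h.eval (z : ℤ) → ¬ (p : ℤ) ∣ (derivative h).eval (z : ℤ) →
      ∃ w : ℕ → ℝ, Function.Periodic w p ∧ (∀ n, 0 ≤ w n ∧ w n ≤ h.natDegree) ∧
        (∀ r : ℕ, (p : ℤ) ∣ (derivative h).eval (r : ℤ) → w r = 0) ∧
        (∀ t : ℤ, ¬ (p : ℤ) ∣ t →
          (∑ n ∈ range p, (w n : ℂ) * ch p (t * h.eval (n : ℤ))).im = 0 ∧
          ‖∑ n ∈ range p, (w n : ℂ) * ch p (t * h.eval (n : ℤ))‖ ≤ Cn * Real.sqrt p) ∧
        |(∑ n ∈ range p, w n) - p| ≤ Cn * Real.sqrt p := by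
  obtain ⟨C, hC⟩ := hW
  obtain ⟨Cn, hCn⟩ := exists_nat_ge C
  refine ⟨Cn, fun p hp hCp hpl z hz hz' => ?_⟩
  haveI := Fact.mk hp
  set φ := Int.castRingHom (ZMod p) with hφ
  set m := h.map φ with hm
  have hev : ∀ (P : ℤ[X]) (n : ℕ), (P.map φ).eval (n : ZMod p) = ((P.eval (n : ℤ) : ℤ) : ZMod p) := by
    intro P n; simp [hφ, eval_map, eval₂_at_natCast]
  have hdeg : m.natDegree = h.natDegree := by
    refine natDegree_map_of_leadingCoeff_ne_zero _ ?_
    exact fun h0 => hpl ((ZMod.intCast_zmod_eq_zero_iff_dvd _ p).mp h0)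
  obtain ⟨w, hw, hwc, hhat, htot⟩ := hC p (hCn.trans (by exact_mod_cast hCp.le)) m hdeg (z : ZMod p)
    (by rw [hev]; exact (ZMod.intCast_zmod_eq_zero_iff_dvd _ p).mpr hz)
    (by
      rw [derivative_map, hev]
      exact fun h0 => hz' ((ZMod.intCast_zmod_eq_zero_iff_dvd _ p).mp h0))
  have hsq : 0 ≤ Real.sqrt p := Real.sqrt_nonneg _
  refine ⟨fun n => w (n : ZMod p), fun n => ?_, fun n => hw _, fun r hr => ?_, fun t ht => ?_, ?_⟩
  · simp only [Nat.cast_add, ZMod.natCast_self, add_zero]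
  · refine hwc _ ?_
    rw [derivative_map, hev]
    exact (ZMod.intCast_zmod_eq_zero_iff_dvd _ p).mpr hr
  · have hs : (t : ZMod p) ≠ 0 := fun h0 => ht ((ZMod.intCast_zmod_eq_zero_iff_dvd t p).mp h0)
    have e : ∑ n ∈ range p, (w (n : ZMod p) : ℂ) * ch p (t * h.eval (n : ℤ))
        = ∑ x : ZMod p, (w x : ℂ) * Kloo.ψ ((t : ZMod p) * m.eval x) := by
      rw [← sum_range_zmod p fun x => (w x : ℂ) * Kloo.ψ ((t : ZMod p) * m.eval x)]
      refine sum_congr rfl fun n _ => ?_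
      rw [ch_eq_ψ, hev, Int.cast_mul]
    rw [e]
    exact ⟨(hhat _ hs).1, (hhat _ hs).2.trans (mul_le_mul_of_nonneg_right hCn hsq)⟩
  · rw [sum_range_zmod p w]
    exact htot.trans (mul_le_mul_of_nonneg_right hCn hsq)

open Classical in
theorem simple_local (h : ℤ[X]) (hk : 2 ≤ h.natDegree) (hl : 0 < h.leadingCoeff)
    (hW : WeightStmt h.natDegree) (hs : SimpleInt h) : Nonempty (LocalData h) := by
  obtain ⟨D, hD, hroot⟩ := hs
  obtain ⟨Cn, hwt⟩ := weight_int hW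
  set P₀ := (h.leadingCoeff * D).natAbs + h.natDegree + (2 * Cn + 1) ^ 4 with hP₀
  have hCnle : Cn ≤ (2 * Cn + 1) ^ 4 :=
    le_trans (by omega) (Nat.le_self_pow (by norm_num) _)
  have hN : ∀ q : ℕ, ∃ z : ℕ, 1 ≤ q → (q : ℤ) ∣ h.eval (z : ℤ) ∧
      ∀ d : ℤ, d ∣ (q : ℤ) → d ∣ (derivative h).eval (z : ℤ) → d ∣ D := by
    intro q
    by_cases hq : 1 ≤ q
    · obtain ⟨t, ht, htd⟩ := hroot q hq
      refine ⟨(t % (q : ℤ)).toNat, fun _ => ?_⟩
      rw [Int.toNat_of_nonneg (Int.emod_nonneg _ (by omega))]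
      have hd : (q : ℤ) ∣ t - t % (q : ℤ) := by rw [Int.emod_def]; exact ⟨t / (q : ℤ), by ring⟩
      refine ⟨(dvd_sub_right ht).mp (dvd_trans hd (sub_dvd_eval_sub _ _ h)), fun d hdq hd' => ?_⟩
      exact htd d hdq ((dvd_sub_left hd').mp
        (hdq.trans (dvd_trans hd (sub_dvd_eval_sub _ _ (derivative h)))))
    · exact ⟨0, fun h => absurd h hq⟩
  have hM : ∀ q : ℕ, ∃ K : ℕ, 1 ≤ q → (q : ℤ) ∣ h.eval (-(K : ℤ)) ∧
      ∀ d : ℤ, d ∣ (q : ℤ) → d ∣ (derivative h).eval (-(K : ℤ)) → d ∣ D := by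
    intro q
    by_cases hq : 1 ≤ q
    · obtain ⟨t, ht, htd⟩ := hroot q hq
      refine ⟨((-t) % (q : ℤ)).toNat, fun _ => ?_⟩
      rw [Int.toNat_of_nonneg (Int.emod_nonneg _ (by omega))]
      have hd : (q : ℤ) ∣ t - -((-t) % (q : ℤ)) := by
        rw [Int.emod_def]; exact ⟨-((-t) / (q : ℤ)), by ring⟩
      refine ⟨(dvd_sub_right ht).mp (dvd_trans hd (sub_dvd_eval_sub _ _ h)), fun d hdq hd' => ?_⟩
      exact htd d hdq ((dvd_sub_left hd').mp
        (hdq.trans (dvd_trans hd (sub_dvd_eval_sub _ _ (derivative h)))))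
    · exact ⟨0, fun h => absurd h hq⟩
  choose rootN hrootN using hN
  choose root hroot' using hM
  set u : ℕ → ℕ := fun p => padicValInt p D with hu
  have hbig : ∀ p : ℕ, p.Prime → ¬ p ≤ P₀ →
      (2 * Cn + 1) ^ 4 < p ∧ h.natDegree < p ∧ ¬ (p : ℤ) ∣ h.leadingCoeff ∧ ¬ (p : ℤ) ∣ D := by
    intro p hp hpP
    have h0 : ¬ (p : ℤ) ∣ h.leadingCoeff * D := by
      intro hdv
      have h2 := Int.natAbs_dvd_natAbs.mpr hdv
      simp only [Int.natAbs_natCast] at h2
      have := Nat.le_of_dvd (Int.natAbs_pos.mpr (mul_ne_zero hl.ne' hD)) h2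
      omega
    exact ⟨by omega, by omega, fun h' => h0 (h'.mul_right _), fun h' => h0 (h'.mul_left _)⟩
  set Cb : ℕ := 4 * Cn + 2 + 2 * h.natDegree with hCb
  have hex : ∀ p : ℕ, ∃ f : ℕ → ℝ, p.Prime → ¬ p ≤ P₀ →
      Function.Periodic f p ∧ (∀ n, ∑ s ∈ range p, f (n + p ^ 0 * s) = 0) ∧
      (∀ n, |f n| ≤ ((p : ℝ)) ^ 2) ∧
      (∀ i, 1 ≤ i → ∀ t : ℤ, ¬ (p : ℤ) ∣ t →
        ‖avg (p ^ i) (fun n => ((f n : ℝ) : ℂ) * ch (p ^ i) (t * h.eval (n : ℤ)))‖
          ≤ (Cb : ℕ) * (p : ℝ) ^ (-(1 / 4) : ℝ)) ∧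
      (∀ i, 1 ≤ i → ∀ t : ℤ, ¬ (p : ℤ) ∣ t →
        (avg (p ^ i) (fun n => ((f n + 1 : ℝ) : ℂ) * ch (p ^ i) (t * h.eval (n : ℤ)))).im = 0 ∧
        0 ≤ (avg (p ^ i) (fun n => ((f n + 1 : ℝ) : ℂ) * ch (p ^ i) (t * h.eval (n : ℤ)))).re) := by
    intro p
    by_cases hh : p.Prime ∧ ¬ p ≤ P₀
    · obtain ⟨hp, hpP⟩ := hh
      obtain ⟨hC4, hkp, hpl, hpD⟩ := hbig p hp hpP
      obtain ⟨hz, hzd⟩ := hrootN p hp.one_le
      have hz' : ¬ (p : ℤ) ∣ (derivative h).eval (rootN p : ℤ) :=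
        fun h0 => hpD (hzd p dvd_rfl h0)
      obtain ⟨w, hwper, hw, hwc, hhat, htot⟩ :=
        hwt p hp (lt_of_le_of_lt hCnle hC4) hpl (rootN p) hz hz'
      obtain ⟨f, hf⟩ := big_local p hp Cn hC4 (by omega) hkp hpl (rootN p) hz hz' w hwper hw hwc
        hhat htot
      exact ⟨f, fun _ _ => hf⟩
    · exact ⟨fun _ => 0, fun a b => absurd ⟨a, b⟩ hh⟩
  choose δ₁ hgood using hex
  set d : ℕ → ℕ → ℕ → ℝ := fun p j n =>
    if p ≤ P₀ then (if j ≤ u p + 1 then dodd 0 p j (n + root (p ^ (2 * u p + 2))) else 0)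
    else (if j = 1 then δ₁ p n else 0) with hd
  have hball := fun (p : ℕ) (hp : p.Prime) =>
    ball_local (h := h) p hp (u p) (root (p ^ (2 * u p + 2)))
      (by
        haveI := Fact.mk hp
        intro hdv
        have h1 := (hroot' (p ^ (2 * u p + 2)) (Nat.one_le_pow _ _ hp.pos)).2 _
          (by push_cast; exact pow_dvd_pow _ (by omega)) hdv
        rcases (padicValInt_dvd_iff (u p + 1) D).mp (by exact_mod_cast h1) with h0 | h0
        · exact hD h0
        · simp only [hu] at h0; omega)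
      (by
        have := (hroot' (p ^ (2 * u p + 2)) (Nat.one_le_pow _ _ hp.pos)).1
        push_cast at this
        exact this)
  set C₀ : ℝ := max (Cb : ℝ) (2 * ((P₀ : ℝ) * (P₀ : ℝ)) ^ (1 / 4 : ℝ)) with hC₀
  have hCbC : (Cb : ℝ) ≤ C₀ := le_max_left _ _
  have hC1 : (1 : ℝ) ≤ C₀ := le_trans (by exact_mod_cast (by omega : 1 ≤ Cb)) hCbC
  refine ⟨{ δ := d, A := 2, C := C₀, σ := 1 / 4, one_le_C := hC1, σ_pos := by norm_num,
            per := ?_, mean := ?_, sup := ?_, decay := ?_, pos := ?_ }⟩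
  · intro p j hp n
    simp only [hd]
    split_ifs with h1 h2 h3
    · rw [add_right_comm]; exact dodd_periodic 0 p j _
    · rfl
    · subst h3; rw [pow_one, (hgood p hp h1).1 n]
    · rfl
  · intro p j hp hj n
    simp only [hd]
    split_ifs with h1 h2 h3
    · rw [sum_congr rfl (fun s _ => by rw [add_right_comm])]
      exact dodd_mean 0 p j hp hj _
    · simp
    · subst h3; exact (hgood p hp h1).2.1 n
    · simp
  · intro p j hp hj n
    simp only [hd]
    split_ifs with h1 h2 h3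
    · refine (dodd_sup 0 le_rfl p j hp _).trans ?_
      exact pow_le_pow_right₀ (by exact_mod_cast Nat.one_le_pow _ _ hp.pos) (by norm_num)
    · simp
    · subst h3; rw [pow_one]; exact (hgood p hp h1).2.2.1 n
    · simp
  · intro p i j hp hj hji t ht
    simp only [hd]
    split_ifs with h1 h2 h3
    · refine ((hball p hp).1 i j hji h2 t).trans ?_
      have hb : ((p ^ j : ℕ) : ℝ) ≤ (P₀ : ℝ) * (P₀ : ℝ) := by
        have h3 : p ^ u p ≤ P₀ := by
          haveI := Fact.mk hp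
          have hdd : ((p : ℤ) ^ u p) ∣ D := padicValInt_dvd D
          have h4 := Int.natAbs_dvd_natAbs.mpr hdd
          rw [Int.natAbs_pow, Int.natAbs_natCast] at h4
          have h5 := Nat.le_of_dvd (Int.natAbs_pos.mpr hD) h4
          have h6 : D.natAbs ≤ (h.leadingCoeff * D).natAbs := by
            rw [Int.natAbs_mul]; exact Nat.le_mul_of_pos_left _ (Int.natAbs_pos.mpr hl.ne')
          omega
        have : p ^ j ≤ P₀ * P₀ :=
          calc p ^ j ≤ p ^ (u p + 1) := Nat.pow_le_pow_right hp.pos h2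
            _ = p ^ u p * p := pow_succ _ _
            _ ≤ P₀ * P₀ := Nat.mul_le_mul h3 h1
        exact_mod_cast this
      have hpj : (0 : ℝ) < ((p ^ j : ℕ) : ℝ) := by exact_mod_cast pow_pos hp.pos j
      rw [Real.rpow_neg hpj.le, ← div_eq_mul_inv, le_div_iff₀ (by positivity)]
      exact le_trans (mul_le_mul_of_nonneg_left (Real.rpow_le_rpow hpj.le hb (by norm_num)) (by norm_num))
        (le_max_right _ _)
    · simp [avg]; positivity
    · subst h3; rw [pow_one]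
      exact ((hgood p hp h1).2.2.2.1 i hji t ht).trans (mul_le_mul_of_nonneg_right hCbC (by positivity))
    · simp [avg]; positivity
  · intro p i hp hi t ht
    simp only [hd]
    by_cases h1 : p ≤ P₀
    · simp only [if_pos h1]
      have e : ∑ j ∈ Icc 1 i, avg (p ^ i) (fun n => ((if j ≤ u p + 1 then dodd 0 p j (n + root (p ^ (2 * u p + 2))) else 0 : ℝ) : ℂ) * ch (p ^ i) (t * h.eval (n : ℤ)))
          = ∑ j ∈ Icc 1 (min i (u p + 1)), avg (p ^ i) (fun n => ((dodd 0 p j (n + root (p ^ (2 * u p + 2))) : ℝ) : ℂ) * ch (p ^ i) (t * h.eval (n : ℤ))) := by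
        rw [← sum_subset (show Icc 1 (min i (u p + 1)) ⊆ Icc 1 i from Icc_subset_Icc le_rfl (min_le_left _ _))]
        · exact sum_congr rfl fun j hj => by
            simp only [if_pos (le_trans (mem_Icc.mp hj).2 (min_le_right _ _))]
        · intro j hj hj'
          simp only [mem_Icc] at hj hj'
          have : ¬ j ≤ u p + 1 := by omega
          simp [avg, if_neg this]
      rw [e]; exact (hball p hp).2 i hi t ht
    · simp only [if_neg h1]
      have e : avg (p ^ i) (fun n => ch (p ^ i) (t * h.eval (n : ℤ))) + ∑ j ∈ Icc 1 i,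
          avg (p ^ i) (fun n => ((if j = 1 then δ₁ p n else 0 : ℝ) : ℂ) * ch (p ^ i) (t * h.eval (n : ℤ)))
          = avg (p ^ i) (fun n => ((δ₁ p n + 1 : ℝ) : ℂ) * ch (p ^ i) (t * h.eval (n : ℤ))) := by
        rw [sum_eq_single_of_mem 1 (mem_Icc.mpr ⟨le_rfl, hi⟩)]
        · simp only [if_true, avg, ← add_div, ← sum_add_distrib]
          congr 1; refine sum_congr rfl fun n _ => ?_; push_cast; ring
        · intro j _ hj; simp [avg, if_neg hj]
      rw [e]; exact (hgood p hp h1).2.2.2.2 i hi t ht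

/-- Power saving when there are roots with controlled derivative, granted the weights. -/
theorem power_saving_simple (h : ℤ[X]) (hk : 2 ≤ h.natDegree) (hl : 0 < h.leadingCoeff)
    (hW : WeightStmt h.natDegree) (hs : SimpleInt h) :
    ∃ c : ℝ, 0 < c ∧ ∃ C : ℝ, ∀ N : ℕ, ∀ A : Finset ℕ, A ⊆ Icc 1 N →
      (∀ x ∈ A, ∀ y ∈ A, ∀ n : ℕ, 1 ≤ n → (x : ℤ) - y = h.eval (n : ℤ) → x = y) →
      (A.card : ℝ) ≤ C * (N : ℝ) ^ (1 - c) := by
  obtain ⟨L⟩ := simple_local h hk hl hW hs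
  exact core L hk hl 1

end Vale.Agent.P042.Curve
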