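import Vale.Agent.P042.CurveLfun

/-! Newton's identities for the L-function of a curve, and the sums over points. -/

namespace Vale.Agent.P042.Curve

open Polynomial Finset

set_option linter.unusedSectionVars false
set_option linter.style.haveILetI false

variable {p : ℕ} [Fact p.Prime] {L : Type*} [Field L] [Algebra (ZMod p) L] [Algebra (ZMod p)[X] L]
  [IsScalarTower (ZMod p) (ZMod p)[X] L] [FaithfulSMul (ZMod p)[X] L]

/-- The prime ideals of a given degree. -/
noncomputable def IrrI (L : Type*) [Field L] [Algebra (ZMod p) L] [Algebra (ZMod p)[X] L]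
    [IsScalarTower (ZMod p) (ZMod p)[X] L] (d : ℕ) : Finset (Ideal (integralClosure (ZMod p)[X] L)) :=
  open Classical in (Idl (p := p) L d).filter Ideal.IsPrime

/-- The sums of the L-function. -/
noncomputable def SI (L : Type*) [Field L] [Algebra (ZMod p) L] [Algebra (ZMod p)[X] L]
    [IsScalarTower (ZMod p) (ZMod p)[X] L] (f : (ZMod p)[X]) (m : ℕ) : ℂ :=
  ∑ d ∈ (Icc 1 m).filter (· ∣ m), ∑ P ∈ IrrI (p := p) L d, (d : ℂ) * lamI f P ^ (m / d)

variable (K : Type*) [Field K] [Algebra (ZMod p)[X] K] [IsFractionRing (ZMod p)[X] K] [Algebra K L]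
  [IsScalarTower (ZMod p)[X] K L] [FiniteDimensional K L] [Algebra.IsSeparable K L]

include K in
lemma mem_IrrI {d : ℕ} {P : Ideal (integralClosure (ZMod p)[X] L)} :
    P ∈ IrrI (p := p) L d ↔ P ≠ ⊥ ∧ dg (ZMod p) P = d ∧ P.IsPrime := by
  classical
  rw [IrrI, mem_filter, mem_Idl K, and_assoc]

include K in
lemma dg_lamI_mul (f : (ZMod p)[X]) {I J : Ideal (integralClosure (ZMod p)[X] L)} (hI : I ≠ ⊥) (hJ : J ≠ ⊥) :
    dg (ZMod p) (I * J) = dg (ZMod p) I + dg (ZMod p) J ∧ lamI f (I * J) = lamI f I * lamI f J := by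
  haveI := dedekind' (F := ZMod p) (L := L) K
  haveI := finite_quot (F := ZMod p) (L := L) K (mul_ne_zero hI hJ)
  obtain ⟨h1, h2⟩ := ideal_mul_additive f hI hJ
  exact ⟨h1, by rw [lamI, h2, AddChar.map_add_eq_mul]; rfl⟩

include K in
lemma dg_lamI_pow (f : (ZMod p)[X]) {I : Ideal (integralClosure (ZMod p)[X] L)} (hI : I ≠ ⊥) (e : ℕ) :
    dg (ZMod p) (I ^ e) = e * dg (ZMod p) I ∧ lamI f (I ^ e) = lamI f I ^ e := by
  haveI := dedekind' (F := ZMod p) (L := L) K
  induction e with
  | zero => rw [pow_zero, Ideal.one_eq_top, dg_top, lamI, th_top]; simp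
  | succ e ih =>
    obtain ⟨h1, h2⟩ := dg_lamI_mul K f (pow_ne_zero e hI) hI
    rw [pow_succ, h1, h2, ih.1, ih.2, Nat.succ_mul, pow_succ]
    exact ⟨rfl, rfl⟩

include K in
lemma dg_pos {I : Ideal (integralClosure (ZMod p)[X] L)} (hI : I ≠ ⊥) (htop : I ≠ ⊤) : 0 < dg (ZMod p) I := by
  haveI := finite_quot (F := ZMod p) (L := L) K hI
  haveI : Nontrivial ((integralClosure (ZMod p)[X] L) ⧸ I) := Ideal.Quotient.nontrivial_iff.mpr htop
  exact Module.finrank_pos

include K in
lemma dg_eq_zero {I : Ideal (integralClosure (ZMod p)[X] L)} (hI : I ≠ ⊥) : dg (ZMod p) I = 0 ↔ I = ⊤ := by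
  refine ⟨fun h => by_contra fun htop => ?_, fun h => h ▸ dg_top⟩
  have := dg_pos K hI htop
  omega

include K in
lemma cfI_zero (f : (ZMod p)[X]) : cfI (p := p) L f 0 = 1 := by
  have : Idl (p := p) L 0 = {⊤} := by
    ext I
    rw [mem_Idl K, mem_singleton]
    exact ⟨fun h => (dg_eq_zero K h.1).mp h.2, fun h => by subst h; exact ⟨top_ne_bot, dg_top⟩⟩
  rw [cfI, this, sum_singleton, lamI, th_top, AddChar.map_zero_eq_one]

include K in
open Classical in
lemma deg_countI {n : ℕ} {I : Ideal (integralClosure (ZMod p)[X] L)} (hI : I ∈ Idl (p := p) L n) :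
    ∑ d ∈ Icc 1 n, ∑ P ∈ IrrI (p := p) L d, d * ((Icc 1 n).filter fun e => P ^ e ∣ I).card = n := by
  haveI := dedekind' (F := ZMod p) (L := L) K
  obtain ⟨hI0, hd⟩ := (mem_Idl K).mp hI
  set F := UniqueFactorizationMonoid.normalizedFactors I with hF
  have hpr : ∀ P ∈ F, P ≠ ⊥ ∧ P.IsPrime := fun P hP =>
    have h := UniqueFactorizationMonoid.prime_of_normalized_factor P hP
    ⟨h.ne_zero, Ideal.isPrime_of_prime h⟩
  have hprod : F.prod = I :=
    associated_iff_eq.mp (UniqueFactorizationMonoid.prod_normalizedFactors hI0)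
  have hdg : ∀ s : Multiset (Ideal (integralClosure (ZMod p)[X] L)), (∀ P ∈ s, P ≠ ⊥) →
      s.prod ≠ ⊥ ∧ dg (ZMod p) s.prod = (s.map (dg (ZMod p))).sum := by
    intro s
    induction s using Multiset.induction with
    | empty => intro _; exact ⟨one_ne_zero, by rw [Multiset.prod_zero, Ideal.one_eq_top, dg_top]; rfl⟩
    | cons a t ih =>
      intro h
      obtain ⟨h1, h2⟩ := ih fun P hP => h P (Multiset.mem_cons_of_mem hP)
      have ha := h a (Multiset.mem_cons_self a t)
      rw [Multiset.prod_cons, Multiset.map_cons, Multiset.sum_cons, ← h2]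
      exact ⟨mul_ne_zero ha h1, (dg_lamI_mul K 0 ha h1).1⟩
  have hdeg : (F.map (dg (ZMod p))).sum = n := by
    rw [← (hdg F fun P hP => (hpr P hP).1).2, hprod, hd]
  have hcnt : ∀ d ∈ Icc 1 n, ∀ P ∈ IrrI (p := p) L d,
      ((Icc 1 n).filter fun e => P ^ e ∣ I).card = F.count P := by
    intro d _ P hP
    obtain ⟨hP0, -, hPp⟩ := (mem_IrrI K).mp hP
    have hPi : Irreducible P := (Ideal.prime_of_isPrime hP0 hPp).irreducible
    have hle : F.count P ≤ n := by
      rcases Nat.eq_zero_or_pos (F.count P) with h | h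
      · omega
      · have hsub : Multiset.replicate (F.count P) P ≤ F := Multiset.le_count_iff_replicate_le.mp le_rfl
        obtain ⟨R, hR⟩ := Multiset.le_iff_exists_add.mp hsub
        have h1 := hdeg
        rw [hR, Multiset.map_add, Multiset.sum_add, Multiset.map_replicate, Multiset.sum_replicate,
          smul_eq_mul] at h1
        have h2 : F.count P * 1 ≤ F.count P * dg (ZMod p) P :=
          Nat.mul_le_mul_left _ (dg_pos K hP0 hPp.ne_top)
        omega
    have hiff : ∀ e : ℕ, P ^ e ∣ I ↔ e ≤ F.count P := fun e => by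
      rw [pow_dvd_iff_le_emultiplicity,
        UniqueFactorizationMonoid.le_emultiplicity_iff_replicate_le_normalizedFactors hPi hI0,
        normalize_eq, Multiset.le_count_iff_replicate_le]
    rw [filter_congr fun e _ => hiff e]
    have : (Icc 1 n).filter (fun e => e ≤ F.count P) = Icc 1 (F.count P) := by
      ext e; simp only [mem_filter, mem_Icc]; omega
    rw [this, Nat.card_Icc, Nat.add_sub_cancel]
  rw [sum_congr rfl fun d hd => sum_congr rfl fun P hP => show _ = dg (ZMod p) P * F.count P by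
    rw [hcnt d hd P hP, ((mem_IrrI K).mp hP).2.1], ← sum_biUnion]
  swap
  · intro d _ d' _ hne
    exact disjoint_left.mpr fun P hP hP' =>
      hne (((mem_IrrI K).mp hP).2.1.symm.trans ((mem_IrrI K).mp hP').2.1)
  conv_rhs => rw [← hdeg, Finset.sum_multiset_map_count]
  have hsub : F.toFinset ⊆ (Icc 1 n).biUnion (fun d => IrrI (p := p) L d) := by
    intro P hP
    rw [Multiset.mem_toFinset] at hP
    obtain ⟨h0, hp'⟩ := hpr P hP
    refine mem_biUnion.mpr ⟨dg (ZMod p) P, mem_Icc.mpr ⟨dg_pos K h0 hp'.ne_top, ?_⟩,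
      (mem_IrrI K).mpr ⟨h0, rfl, hp'⟩⟩
    rw [← hdeg]
    exact Multiset.le_sum_of_mem (Multiset.mem_map_of_mem _ hP)
  rw [← sum_subset hsub (fun P _ hP => by
    rw [Multiset.count_eq_zero.mpr (fun h => hP (Multiset.mem_toFinset.mpr h)), mul_zero])]
  refine sum_congr rfl fun P _ => ?_
  rw [smul_eq_mul, mul_comm]

include K in
lemma newtonI (f : (ZMod p)[X]) (n : ℕ) :
    (n : ℂ) * cfI (p := p) L f n = ∑ m ∈ Icc 1 n, SI (p := p) L f m * cfI (p := p) L f (n - m) := by
  classical
  haveI := dedekind' (F := ZMod p) (L := L) K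
  have hinner : ∀ d ∈ Icc 1 n, ∀ P ∈ IrrI (p := p) L d, ∀ e ∈ Icc 1 n,
      ∑ I ∈ (Idl (p := p) L n).filter (fun I => P ^ e ∣ I), lamI f I
        = if d * e ≤ n then lamI f P ^ e * cfI (p := p) L f (n - d * e) else 0 := by
    intro d _ P hP e _
    obtain ⟨hP0, hPd, -⟩ := (mem_IrrI K).mp hP
    obtain ⟨hdeg, hlam⟩ := dg_lamI_pow K f hP0 e
    rw [hPd, mul_comm] at hdeg
    split_ifs with hle
    · rw [show (Idl (p := p) L n).filter (fun I => P ^ e ∣ I)
          = (Idl (p := p) L (n - d * e)).image (P ^ e * ·) from ?_,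
        sum_image (fun a _ b _ h => mul_left_cancel₀ (pow_ne_zero e hP0) h), cfI, mul_sum]
      · refine sum_congr rfl fun J hJ => ?_
        rw [(dg_lamI_mul K f (pow_ne_zero e hP0) ((mem_Idl K).mp hJ).1).2, hlam]
      · ext I
        rw [mem_filter, mem_image]
        constructor
        · rintro ⟨hI, J, rfl⟩
          obtain ⟨h0, hdI⟩ := (mem_Idl K).mp hI
          have hJ0 := (mul_ne_zero_iff.mp h0).2
          rw [(dg_lamI_mul K f (pow_ne_zero e hP0) hJ0).1, hdeg] at hdI
          exact ⟨J, (mem_Idl K).mpr ⟨hJ0, by omega⟩, rfl⟩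
        · rintro ⟨J, hJ, rfl⟩
          obtain ⟨hJ0, hdJ⟩ := (mem_Idl K).mp hJ
          refine ⟨(mem_Idl K).mpr ⟨mul_ne_zero (pow_ne_zero e hP0) hJ0, ?_⟩, dvd_mul_right _ _⟩
          rw [(dg_lamI_mul K f (pow_ne_zero e hP0) hJ0).1, hdeg, hdJ]; omega
    · refine sum_eq_zero fun I hI => absurd ?_ hle
      obtain ⟨hI, J, rfl⟩ := mem_filter.mp hI
      obtain ⟨h0, hdI⟩ := (mem_Idl K).mp hI
      rw [(dg_lamI_mul K f (pow_ne_zero e hP0) (mul_ne_zero_iff.mp h0).2).1, hdeg] at hdI
      omega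
  calc (n : ℂ) * cfI (p := p) L f n
      = ∑ I ∈ Idl (p := p) L n, ∑ d ∈ Icc 1 n, ∑ P ∈ IrrI (p := p) L d,
          ∑ e ∈ Icc 1 n, if P ^ e ∣ I then (d : ℂ) * lamI f I else 0 := by
        rw [cfI, mul_sum]
        refine sum_congr rfl fun I hI => ?_
        have h := congrArg (Nat.cast (R := ℂ)) (deg_countI K hI)
        push_cast at h
        rw [← h, sum_mul]
        refine sum_congr rfl fun d _ => ?_
        rw [sum_mul]
        refine sum_congr rfl fun P _ => ?_
        rw [← sum_filter, sum_const, nsmul_eq_mul]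
        ring
    _ = ∑ d ∈ Icc 1 n, ∑ P ∈ IrrI (p := p) L d, ∑ e ∈ Icc 1 n,
          if d * e ≤ n then (d : ℂ) * lamI f P ^ e * cfI (p := p) L f (n - d * e) else 0 := by
        rw [sum_comm]
        refine sum_congr rfl fun d hd => ?_
        rw [sum_comm]
        refine sum_congr rfl fun P hP => ?_
        rw [sum_comm]
        refine sum_congr rfl fun e he => ?_
        rw [← sum_filter, ← mul_sum, hinner d hd P hP e he, mul_ite, mul_zero, ← mul_assoc]
    _ = ∑ d ∈ Icc 1 n, ∑ m ∈ (Icc 1 n).filter (d ∣ ·), ∑ P ∈ IrrI (p := p) L d,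
          (d : ℂ) * lamI f P ^ (m / d) * cfI (p := p) L f (n - m) := by
        refine sum_congr rfl fun d hd => ?_
        have hd1 := (mem_Icc.mp hd).1
        rw [sum_comm (s := (Icc 1 n).filter (d ∣ ·))]
        refine sum_congr rfl fun P _ => ?_
        rw [← sum_filter]
        refine sum_bij' (fun e _ => d * e) (fun m _ => m / d) ?_ ?_ ?_ ?_ ?_
        · intro e he
          obtain ⟨h1, h2⟩ := mem_filter.mp he
          have := (mem_Icc.mp h1).1
          exact mem_filter.mpr ⟨mem_Icc.mpr ⟨Nat.mul_pos hd1 this, h2⟩, dvd_mul_right _ _⟩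
        · intro m hm
          obtain ⟨h1, e, rfl⟩ := mem_filter.mp hm
          obtain ⟨h1, h2⟩ := mem_Icc.mp h1
          rw [Nat.mul_div_cancel_left _ hd1]
          exact mem_filter.mpr ⟨mem_Icc.mpr ⟨Nat.pos_of_ne_zero fun h => by simp [h] at h1,
            (Nat.le_mul_of_pos_left e hd1).trans h2⟩, h2⟩
        · intro e _; exact Nat.mul_div_cancel_left e hd1
        · intro m hm; exact Nat.mul_div_cancel' (mem_filter.mp hm).2
        · intro e _; simp only [Nat.mul_div_cancel_left e hd1]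
    _ = _ := by
        rw [sum_comm' (t' := Icc 1 n) (s' := fun m => (Icc 1 m).filter (· ∣ m))]
        · refine sum_congr rfl fun m _ => ?_
          rw [SI, sum_mul]
          refine sum_congr rfl fun d _ => ?_
          rw [sum_mul]
        · intro d m
          simp only [mem_filter, mem_Icc]
          constructor
          · rintro ⟨⟨h1, h2⟩, ⟨h3, h4⟩, h5⟩
            exact ⟨⟨⟨h1, Nat.le_of_dvd h3 h5⟩, h5⟩, h3, h4⟩
          · rintro ⟨⟨⟨h1, h2⟩, h5⟩, h3, h4⟩
            exact ⟨⟨h1, h2.trans h4⟩, ⟨h3, h4⟩, h5⟩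

section FieldFacts

variable {κ : Type*} [Field κ] [Algebra (ZMod p) κ] [Module.Finite (ZMod p) κ] {Kf : Type*} [Field Kf]
  [Fintype Kf] [Algebra (ZMod p) Kf]

lemma finrank_dvd_of_hom (e : κ →ₐ[ZMod p] Kf) :
    Module.finrank (ZMod p) κ ∣ Module.finrank (ZMod p) Kf := by
  letI : Algebra κ Kf := e.toRingHom.toAlgebra
  haveI : IsScalarTower (ZMod p) κ Kf := IsScalarTower.of_algebraMap_eq fun a => (e.commutes a).symm
  exact ⟨Module.finrank κ Kf, (Module.finrank_mul_finrank (ZMod p) κ Kf).symm⟩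

lemma trace_hom (e : κ →ₐ[ZMod p] Kf) (z : κ) :
    Algebra.trace (ZMod p) Kf (e z)
      = (Module.finrank (ZMod p) Kf / Module.finrank (ZMod p) κ) • Algebra.trace (ZMod p) κ z := by
  letI : Algebra κ Kf := e.toRingHom.toAlgebra
  haveI : IsScalarTower (ZMod p) κ Kf := IsScalarTower.of_algebraMap_eq fun a => (e.commutes a).symm
  rw [show e z = algebraMap κ Kf z from rfl, ← Algebra.trace_trace (S := κ), Algebra.trace_algebraMap,
    map_nsmul, ← Module.finrank_mul_finrank (ZMod p) κ Kf, Nat.mul_div_cancel_left _ Module.finrank_pos]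

lemma card_hom (h : Module.finrank (ZMod p) κ ∣ Module.finrank (ZMod p) Kf) :
    Nat.card (κ →ₐ[ZMod p] Kf) = Module.finrank (ZMod p) κ := by
  haveI : Finite κ := Module.finite_of_finite (ZMod p)
  exact FiniteField.natCard_algHom_of_finrank_dvd h

end FieldFacts

section Points

variable {Kf : Type*} [Field Kf] [Fintype Kf] [Algebra (ZMod p) Kf]

include K in
lemma finite_homs : Finite ((integralClosure (ZMod p)[X] L) →ₐ[ZMod p] Kf) := by
  haveI := IsIntegralClosure.finite (ZMod p)[X] K L (integralClosure (ZMod p)[X] L)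
  obtain ⟨G, hG⟩ := Module.Finite.fg_top (R := (ZMod p)[X]) (M := (integralClosure (ZMod p)[X] L))
  refine Finite.of_injective
    (fun φ => ((φ (algebraMap (ZMod p)[X] (integralClosure (ZMod p)[X] L) X), fun g : G => φ g) : Kf × (G → Kf))) fun φ φ' h => ?_
  obtain ⟨hx, hg⟩ := Prod.ext_iff.mp h
  have hP : ∀ P : (ZMod p)[X],
      φ (algebraMap (ZMod p)[X] (integralClosure (ZMod p)[X] L) P) = φ' (algebraMap (ZMod p)[X] (integralClosure (ZMod p)[X] L) P) := by
    intro P
    induction P using Polynomial.induction_on' with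
    | add a b ha hb => rw [map_add, map_add, map_add, ha, hb]
    | monomial n c =>
      rw [← C_mul_X_pow_eq_monomial, ← Polynomial.algebraMap_eq, map_mul, map_pow,
        ← IsScalarTower.algebraMap_apply, map_mul, map_mul, map_pow, map_pow, AlgHom.commutes,
        AlgHom.commutes]
      exact congrArg (fun y => _ * y ^ n) hx
  refine AlgHom.ext fun v => ?_
  have hv : v ∈ Submodule.span (ZMod p)[X] (G : Set (integralClosure (ZMod p)[X] L)) := by rw [hG]; trivial
  induction hv using Submodule.span_induction with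
  | mem g hg' => exact congrFun hg ⟨g, hg'⟩
  | zero => rw [map_zero, map_zero]
  | add u v _ _ hu hv => rw [map_add, map_add, hu, hv]
  | smul c u _ hu => rw [Algebra.smul_def, map_mul, map_mul, hP, hu]

include K in
lemma hom_kernel (φ : (integralClosure (ZMod p)[X] L) →ₐ[ZMod p] Kf) :
    dg (ZMod p) (RingHom.ker φ) ∣ Module.finrank (ZMod p) Kf ∧
      RingHom.ker φ ∈ IrrI (p := p) L (dg (ZMod p) (RingHom.ker φ)) := by
  set P := RingHom.ker φ with hP
  haveI hPp : P.IsPrime := RingHom.ker_isPrime _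
  have hne : P ≠ ⊥ := by
    intro h
    have hinj : Function.Injective φ := (RingHom.injective_iff_ker_eq_bot φ.toRingHom).mpr h
    have hi : Function.Injective (φ.toRingHom.comp (algebraMap (ZMod p)[X] (integralClosure (ZMod p)[X] L))) :=
      hinj.comp fun a b hab => FaithfulSMul.algebraMap_injective (ZMod p)[X] L (congrArg Subtype.val hab)
    haveI := Finite.of_injective _ hi
    exact not_finite (ZMod p)[X]
  refine ⟨?_, (mem_IrrI K).mpr ⟨hne, rfl, hPp⟩⟩
  haveI := finite_quot (F := ZMod p) (L := L) K hne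
  haveI : P.IsMaximal := by
    haveI := dedekind' (F := ZMod p) (L := L) K
    exact hPp.isMaximal hne
  letI := Ideal.Quotient.field P
  let e : ((integralClosure (ZMod p)[X] L) ⧸ P) →ₐ[ZMod p] Kf := Ideal.Quotient.liftₐ P φ fun a ha => ha
  exact finrank_dvd_of_hom e

include K in
theorem sum_hom_eq_SI (f : (ZMod p)[X]) [Fintype ((integralClosure (ZMod p)[X] L) →ₐ[ZMod p] Kf)] :
    ∑ φ : (integralClosure (ZMod p)[X] L) →ₐ[ZMod p] Kf,
        ZMod.stdAddChar (Algebra.trace (ZMod p) Kf (φ (algebraMap (ZMod p)[X] (integralClosure (ZMod p)[X] L) f)))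
      = SI (p := p) L f (Module.finrank (ZMod p) Kf) := by
  classical
  haveI := dedekind' (F := ZMod p) (L := L) K
  set m := Module.finrank (ZMod p) Kf with hm
  have hm1 : 0 < m := Module.finrank_pos
  have hdisj : ((((Icc 1 m).filter (· ∣ m)) : Finset ℕ) : Set ℕ).PairwiseDisjoint
      (fun d => IrrI (p := p) L d) := fun d _ d' _ hne =>
    disjoint_left.mpr fun P hP hP' =>
      hne (((mem_IrrI K).mp hP).2.1.symm.trans ((mem_IrrI K).mp hP').2.1)
  rw [← sum_fiberwise_of_maps_to (t := ((Icc 1 m).filter (· ∣ m)).biUnion (fun d => IrrI (p := p) L d))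
    (g := fun φ : (integralClosure (ZMod p)[X] L) →ₐ[ZMod p] Kf => RingHom.ker φ)]
  · rw [sum_biUnion hdisj, SI]
    refine sum_congr rfl fun d hd => sum_congr rfl fun P hP => ?_
    obtain ⟨hP0, hPd, hPp⟩ := (mem_IrrI K).mp hP
    obtain ⟨-, hdm⟩ := mem_filter.mp hd
    haveI : P.IsMaximal := hPp.isMaximal hP0
    letI := Ideal.Quotient.field P
    haveI := finite_quot (F := ZMod p) (L := L) K hP0
    haveI : Finite ((integralClosure (ZMod p)[X] L) ⧸ P) := Module.finite_of_finite (ZMod p)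
    have hval : ∀ φ ∈ univ.filter (fun φ : (integralClosure (ZMod p)[X] L) →ₐ[ZMod p] Kf => RingHom.ker φ = P),
        ZMod.stdAddChar (Algebra.trace (ZMod p) Kf (φ (algebraMap (ZMod p)[X] (integralClosure (ZMod p)[X] L) f)))
          = lamI f P ^ (m / d) := by
      intro φ hφ
      have hk := (mem_filter.mp hφ).2
      let e : ((integralClosure (ZMod p)[X] L) ⧸ P) →ₐ[ZMod p] Kf := Ideal.Quotient.liftₐ P φ fun a ha => by
        have : a ∈ RingHom.ker φ := by rw [hk]; exact ha
        exact this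
      have h2 : φ (algebraMap (ZMod p)[X] (integralClosure (ZMod p)[X] L) f) = e (Ideal.Quotient.mk P (algebraMap (ZMod p)[X] (integralClosure (ZMod p)[X] L) f)) := rfl
      rw [h2, trace_hom e, AddChar.map_nsmul_eq_pow, show Module.finrank (ZMod p) ((integralClosure (ZMod p)[X] L) ⧸ P) = d from hPd,
        ← hm]
      rfl
    rw [sum_congr rfl hval, sum_const, nsmul_eq_mul]
    congr 2
    haveI : Fintype (((integralClosure (ZMod p)[X] L) ⧸ P) →ₐ[ZMod p] Kf) := Fintype.ofFinite _
    have hcard : Fintype.card (((integralClosure (ZMod p)[X] L) ⧸ P) →ₐ[ZMod p] Kf) = d := by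
      rw [← Nat.card_eq_fintype_card, card_hom (by rw [← hm, show Module.finrank (ZMod p) ((integralClosure (ZMod p)[X] L) ⧸ P) = d from hPd]; exact hdm)]
      exact hPd
    refine Eq.trans ?_ hcard
    rw [← card_univ]
    refine card_bij' (fun φ hφ => Ideal.Quotient.liftₐ P φ fun a ha => by
        have : a ∈ RingHom.ker φ := by rw [(mem_filter.mp hφ).2]; exact ha
        exact this)
      (fun e _ => e.comp (Ideal.Quotient.mkₐ (ZMod p) P)) (fun _ _ => mem_univ _) ?_ ?_ ?_
    · intro e _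
      refine mem_filter.mpr ⟨mem_univ _, ?_⟩
      ext a
      rw [RingHom.mem_ker, AlgHom.comp_apply, map_eq_zero_iff e (RingHom.injective e.toRingHom)]
      exact Ideal.Quotient.eq_zero_iff_mem
    · intro φ _; exact AlgHom.ext fun a => rfl
    · intro e _; exact AlgHom.ext fun a => by
        obtain ⟨b, rfl⟩ := Ideal.Quotient.mk_surjective a; rfl
  · intro φ _
    obtain ⟨h1, h2⟩ := hom_kernel K φ
    exact mem_biUnion.mpr ⟨_, mem_filter.mpr ⟨mem_Icc.mpr ⟨dg_pos K ((mem_IrrI K).mp h2).1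
      ((mem_IrrI K).mp h2).2.2.ne_top, Nat.le_of_dvd hm1 h1⟩, h1⟩, h2⟩

end Points

end Vale.Agent.P042.Curve
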