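import Vale.Agent.P042.WeilBound

/-! Power sums of nodes. -/

namespace Vale.Agent.P042.Curve

open Polynomial Finset

lemma exists_nodes (c S : ℕ → ℂ) (M : ℕ) (h0 : c 0 = 1)
    (hN : ∀ n : ℕ, (n : ℂ) * c n = ∑ m ∈ Icc 1 n, S m * c (n - m)) (hv : ∀ n, M < n → c n = 0) :
    ∃ s : Multiset ℂ, Multiset.card s ≤ M ∧ ∀ m, 1 ≤ m → S m = -(s.map fun z => z ^ m).sum := by
  classical
  set R : ℂ[X] := X ^ M + ∑ i : Fin M, C (c (M - i)) * X ^ (i : ℕ) with hR
  have hdeg : (∑ i : Fin M, C (c (M - i)) * X ^ (i : ℕ)).degree < (M : WithBot ℕ) :=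
    lt_of_le_of_lt (degree_sum_le _ _) ((Finset.sup_lt_iff (WithBot.bot_lt_coe M)).mpr fun i _ =>
      lt_of_le_of_lt (degree_C_mul_X_pow_le _ _) (WithBot.coe_lt_coe.mpr i.2))
  have hRm : R.Monic := monic_X_pow_add hdeg
  have hRd : R.natDegree = M := by
    refine natDegree_eq_of_degree_eq_some ?_
    rw [hR, degree_add_eq_left_of_degree_lt] <;> rw [degree_X_pow]
    exact hdeg
  have hcoef : ∀ i, i ≤ M → R.coeff i = c (M - i) := by
    intro i hi
    rw [hR, coeff_add, coeff_X_pow, finsetSum_coeff]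
    simp only [coeff_C_mul, coeff_X_pow, mul_ite, mul_one, mul_zero]
    rcases eq_or_lt_of_le hi with rfl | hlt
    · rw [if_pos rfl, Nat.sub_self, h0, sum_eq_zero, add_zero]
      exact fun j _ => if_neg (by have := j.2; omega)
    · rw [if_neg (by omega), zero_add, sum_eq_single (⟨i, hlt⟩ : Fin M)]
      · rw [if_pos rfl]
      · intro j _ hj
        exact if_neg fun h => hj (Fin.ext h.symm)
      · simp
  have hrc : ∀ i, Weil.rc R i = c i := by
    intro i
    rw [Weil.rc, coeff_reverse, hRd]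
    by_cases hi : i ≤ M
    · rw [revAt_le hi, hcoef _ (Nat.sub_le _ _), Nat.sub_sub_self hi]
    · rw [show revAt M i = i from by show revAtFun M i = i; rw [revAtFun, if_neg hi],
        coeff_eq_zero_of_natDegree_lt (by omega), hv i (by omega)]
  have hS : ∀ m, 1 ≤ m → S m = -Weil.psum R m := by
    intro m
    induction m using Nat.strong_induction_on with
    | _ m ih =>
      intro hm
      obtain ⟨m', rfl⟩ := Nat.exists_eq_add_of_le hm
      have e1 := Weil.psum_rec hRm (1 + m')
      rw [sum_range_succ, Nat.sub_self, Weil.psum_zero, mul_zero, add_zero] at e1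
      have e2 : (((1 + m' : ℕ)) : ℂ) * c (1 + m') = ∑ i ∈ range (1 + m'), c i * S (1 + m' - i) := by
        rw [hN]
        refine sum_bij' (fun j _ => 1 + m' - j) (fun i _ => 1 + m' - i) ?_ ?_ ?_ ?_ ?_
        · intro j hj; have := mem_Icc.mp hj; exact mem_range.mpr (by omega)
        · intro i hi; have := mem_range.mp hi; exact mem_Icc.mpr ⟨by omega, by omega⟩
        · intro j hj; have := mem_Icc.mp hj; omega
        · intro i hi; have := mem_range.mp hi; omega
        · intro j hj; have := mem_Icc.mp hj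
          rw [Nat.sub_sub_self this.2, mul_comm]
      have e3 : ∑ i ∈ range (1 + m'), c i * (S (1 + m' - i) + Weil.psum R (1 + m' - i)) = 0 := by
        simp only [hrc] at e1
        simp only [mul_add, sum_add_distrib, ← e2, e1]
        ring
      rw [sum_eq_single_of_mem 0 (mem_range.mpr (by omega)) (fun i hi hi0 => by
        rw [ih _ (by omega) (by have := mem_range.mp hi; omega)]; ring), h0, one_mul,
        Nat.sub_zero] at e3
      linear_combination e3
  refine ⟨R.roots, (card_roots' R).trans hRd.le, fun m hm => ?_⟩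
  rw [hS m hm]
  conv_lhs => rw [(IsAlgClosed.splits R).eq_prod_roots_of_monic hRm]
  rw [Weil.psum_prod R.roots hm]

lemma nodes_agree (A B : Multiset ℂ) (R Cc : ℝ) (hR : 0 < R) (M : ℕ)
    (h : ∀ n, M ≤ n → ‖(A.map fun z => z ^ n).sum - (B.map fun z => z ^ n).sum‖ ≤ Cc * R ^ n) :
    ∀ z : ℂ, R < ‖z‖ → A.count z = B.count z := by
  classical
  intro z hlt
  by_contra hne
  set U := A.toFinset ∪ B.toFinset ∪ {z} with hU
  set P := ∏ w ∈ U.erase z, (X - C w) with hP
  have hPz : P.eval z ≠ 0 := by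
    rw [hP, eval_prod, prod_ne_zero_iff]
    intro w hw
    rw [eval_sub, eval_X, eval_C, sub_ne_zero]
    exact (mem_erase.mp hw).1.symm
  have hexp : ∀ (s : Multiset ℂ), s.toFinset ⊆ U → ∀ n,
      (s.map fun w => w ^ n).sum = ∑ w ∈ U, (s.count w : ℂ) * w ^ n := by
    intro s hs n
    rw [Finset.sum_multiset_map_count]
    simp only [nsmul_eq_mul]
    exact sum_subset hs fun w _ hw => by
      rw [Multiset.count_eq_zero.mpr (fun h => hw (Multiset.mem_toFinset.mpr h))]; simp
  have hA := hexp A (subset_union_left.trans subset_union_left)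
  have hB := hexp B (subset_union_right.trans subset_union_left)
  have hsum : ∀ n, ∑ i ∈ range (P.natDegree + 1),
      P.coeff i * ((A.map fun w => w ^ (n + i)).sum - (B.map fun w => w ^ (n + i)).sum)
        = ((A.count z : ℂ) - B.count z) * P.eval z * z ^ n := by
    intro n
    simp only [hA, hB, ← sum_sub_distrib, ← sub_mul, mul_sum]
    rw [sum_comm, sum_eq_single_of_mem z (by simp [hU])]
    · rw [eval_eq_sum_range, mul_sum, sum_mul]
      exact sum_congr rfl fun i _ => by rw [pow_add]; ring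
    · intro w hw hwz
      have hw0 : P.eval w = 0 := by
        rw [hP, eval_prod]
        exact prod_eq_zero (mem_erase.mpr ⟨hwz, hw⟩) (by simp)
      rw [eval_eq_sum_range] at hw0
      calc _ = ((A.count w : ℂ) - B.count w) * w ^ n * ∑ i ∈ range (P.natDegree + 1), P.coeff i * w ^ i := by
            rw [mul_sum]; exact sum_congr rfl fun i _ => by rw [pow_add]; ring
        _ = 0 := by rw [hw0, mul_zero]
  set D := ∑ i ∈ range (P.natDegree + 1), ‖P.coeff i‖ * (Cc * R ^ i) with hD
  have hc : 0 < ‖((A.count z : ℂ) - B.count z) * P.eval z‖ :=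
    norm_pos_iff.mpr (mul_ne_zero (sub_ne_zero.mpr (by exact_mod_cast hne)) hPz)
  have hbd : ∀ n, M ≤ n → (‖z‖ / R) ^ n ≤ D / ‖((A.count z : ℂ) - B.count z) * P.eval z‖ := by
    intro n hn
    rw [div_pow, div_le_div_iff₀ (by positivity) hc, mul_comm, ← norm_pow, ← norm_mul, ← hsum, hD,
      sum_mul]
    refine (norm_sum_le _ _).trans (sum_le_sum fun i _ => ?_)
    rw [norm_mul, mul_assoc, mul_assoc, ← pow_add, Nat.add_comm i n]
    exact mul_le_mul_of_nonneg_left (h (n + i) (by omega)) (norm_nonneg _)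
  obtain ⟨n, hn⟩ := (Filter.Eventually.and (Filter.eventually_ge_atTop M)
    ((tendsto_pow_atTop_atTop_of_one_lt ((one_lt_div hR).mpr hlt)).eventually
      (Filter.eventually_gt_atTop (D / ‖((A.count z : ℂ) - B.count z) * P.eval z‖)))).exists
  linarith [hbd n hn.1, hn.2]

/-- The bound for a sum whose L-function is a polynomial. -/
theorem poly_sum_bound (c S : ℕ → ℂ) (M : ℕ) (h0 : c 0 = 1)
    (hN : ∀ n : ℕ, (n : ℂ) * c n = ∑ m ∈ Icc 1 n, S m * c (n - m)) (hv : ∀ n, M < n → c n = 0)
    (R Cc : ℝ) (hR : 0 < R) (hS : ∀ n, 1 ≤ n → ‖S n‖ ≤ Cc * R ^ n) : ‖S 1‖ ≤ M * R := by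
  obtain ⟨s, hs, hps⟩ := exists_nodes c S M h0 hN hv
  have hz : ∀ z ∈ s, ‖z‖ ≤ R := by
    intro z hz
    by_contra hlt
    push Not at hlt
    have := nodes_agree s 0 R Cc hR 1 (fun n hn => by
      rw [Multiset.map_zero, Multiset.sum_zero, sub_zero, ← norm_neg, ← hps n hn]
      exact hS n hn) z hlt
    rw [Multiset.count_zero, Multiset.count_eq_zero] at this
    exact this hz
  rw [hps 1 le_rfl, norm_neg]
  refine (norm_multiset_sum_le _).trans ((Multiset.sum_le_card_nsmul _ R fun x hx => ?_).trans ?_)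
  · obtain ⟨y, hy, rfl⟩ := Multiset.mem_map.mp hx
    obtain ⟨z, hz', rfl⟩ := Multiset.mem_map.mp hy
    rw [pow_one]; exact hz z hz'
  · rw [Multiset.card_map, Multiset.card_map, nsmul_eq_mul]
    exact mul_le_mul_of_nonneg_right (by exact_mod_cast hs) hR.le

/-- The count of points, from the periodicity of the number of divisors. -/
theorem periodic_count_bound {p δ : ℕ} (hp : 2 ≤ p) (hδ : 0 < δ) (N S : ℕ → ℂ) (M : ℕ) (h0 : N 0 = 1)
    (hN : ∀ n : ℕ, (n : ℂ) * N n = ∑ m ∈ Icc 1 n, S m * N (n - m))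
    (hper : ∀ n, M ≤ n → N (n + δ) = N n * (p : ℂ) ^ δ)
    (Cc : ℝ) (hS : ∀ n, 1 ≤ n → ‖S n - (p : ℂ) ^ n‖ ≤ Cc * Real.sqrt p ^ n) :
    ‖S 1 - (p : ℂ)‖ ≤ (M + δ + 1) * Real.sqrt p := by
  classical
  set Q : ℂ := (p : ℂ) ^ δ with hQ
  set b : ℕ → ℂ := fun n => if δ ≤ n then N n - Q * N (n - δ) else N n with hb
  set g : ℕ → ℂ := fun m => if δ ∣ m then (δ : ℂ) * (p : ℂ) ^ m else 0 with hg
  have hG : ∀ n, ∑ m ∈ Icc 1 n, g m * b (n - m) = if δ ≤ n then (δ : ℂ) * Q * N (n - δ) else 0 := by
    intro n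
    induction n using Nat.strong_induction_on with
    | _ n ih =>
      by_cases hn : δ ≤ n
      · rw [if_pos hn]
        obtain ⟨r, rfl⟩ := Nat.exists_eq_add_of_le hn
        have hsplit : Icc 1 (δ + r) = Icc 1 δ ∪ (Icc 1 r).image (δ + ·) := by
          ext m
          simp only [mem_union, mem_Icc, mem_image]
          constructor
          · intro h
            by_cases hm : m ≤ δ
            · exact Or.inl ⟨h.1, hm⟩
            · exact Or.inr ⟨m - δ, ⟨by omega, by omega⟩, by omega⟩
          · rintro (h | ⟨a, ha, rfl⟩) <;> omega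
        have hdis : Disjoint (Icc 1 δ) ((Icc 1 r).image (δ + ·)) := by
          rw [disjoint_left]
          intro m hm hm'
          obtain ⟨a, ha, rfl⟩ := mem_image.mp hm'
          simp only [mem_Icc] at hm ha
          omega
        rw [hsplit, sum_union hdis, sum_image (fun a _ c _ h => Nat.add_left_cancel h),
          sum_eq_single_of_mem δ (mem_Icc.mpr ⟨hδ, le_rfl⟩) (fun m hm hne => by
            simp only [hg]
            rw [if_neg, zero_mul]
            intro hd
            obtain ⟨h1, h2⟩ := mem_Icc.mp hm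
            exact hne (le_antisymm h2 (Nat.le_of_dvd h1 hd)))]
        have e : ∑ a ∈ Icc 1 r, g (δ + a) * b (δ + r - (δ + a)) = Q * ∑ a ∈ Icc 1 r, g a * b (r - a) := by
          rw [mul_sum]
          refine sum_congr rfl fun a _ => ?_
          rw [Nat.add_sub_add_left]
          simp only [hg, Nat.dvd_add_self_left]
          split_ifs
          · rw [pow_add, hQ]; ring
          · ring
        rw [e, ih r (by omega), Nat.add_sub_cancel_left]
        simp only [hg, hb, dvd_refl, if_true]
        split_ifs with h1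
        · rw [← hQ]; ring
        · rw [← hQ]; ring
      · rw [if_neg hn]
        refine sum_eq_zero fun m hm => ?_
        simp only [hg]
        rw [if_neg, zero_mul]
        intro hd
        obtain ⟨h1, h2⟩ := mem_Icc.mp hm
        exact hn ((Nat.le_of_dvd h1 hd).trans h2)
  have hshift : ∀ n, δ ≤ n → ∑ m ∈ Icc 1 n, S m * (if δ ≤ n - m then Q * N (n - m - δ) else 0)
      = Q * (((n - δ : ℕ) : ℂ) * N (n - δ)) := by
    intro n hn
    rw [hN, mul_sum]
    symm
    refine (sum_subset_zero_on_sdiff (Icc_subset_Icc le_rfl (Nat.sub_le n δ)) ?_ ?_)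
    · intro m hm
      obtain ⟨h1, h2⟩ := mem_sdiff.mp hm
      simp only [mem_Icc] at h1 h2
      rw [if_neg (by omega), mul_zero]
    · intro m hm
      have := mem_Icc.mp hm
      rw [if_pos (by omega), show n - m - δ = n - δ - m by omega]; ring
  have hnb : ∀ n : ℕ, (n : ℂ) * b n = ∑ m ∈ Icc 1 n, (S m - g m) * b (n - m) := by
    intro n
    simp only [sub_mul, sum_sub_distrib]
    rw [hG n]
    have e : ∀ m, b (n - m) = N (n - m) - (if δ ≤ n - m then Q * N (n - m - δ) else 0) := fun m => by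
      simp only [hb]; split_ifs <;> ring
    simp only [e, mul_sub, sum_sub_distrib, ← hN]
    by_cases hn : δ ≤ n
    · rw [hshift n hn, if_pos hn]
      simp only [hb, if_pos hn, Nat.cast_sub hn]
      ring
    · rw [if_neg hn, sum_eq_zero (fun m _ => by rw [if_neg (by omega), mul_zero])]
      simp only [hb, if_neg hn]
      ring
  obtain ⟨s, hs, hps⟩ := exists_nodes b (fun m => S m - g m) (M + δ)
    (by simp [hb, h0, show ¬ δ ≤ 0 by omega]) hnb (fun n hn => by
      simp only [hb, if_pos (show δ ≤ n by omega)]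
      have := hper (n - δ) (by omega)
      rw [Nat.sub_add_cancel (by omega)] at this
      rw [this, hQ]; ring)
  obtain ⟨ζ, hζ⟩ : ∃ ζ : ℂ, IsPrimitiveRoot ζ δ := ⟨_, Complex.isPrimitiveRoot_exp δ (by omega)⟩
  set A : Multiset ℂ := (Multiset.range δ).map fun i => (p : ℂ) * ζ ^ i with hA
  have hAs : ∀ n, (A.map fun z => z ^ n).sum = g n := by
    intro n
    rw [hA, Multiset.map_map]
    show ∑ i ∈ range δ, ((p : ℂ) * ζ ^ i) ^ n = g n
    simp only [mul_pow, ← pow_mul, ← mul_sum, hg]
    split_ifs with hd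
    · have : ∀ i, ζ ^ (i * n) = 1 := fun i => by
        obtain ⟨c, rfl⟩ := hd
        rw [show i * (δ * c) = δ * (i * c) by ring, pow_mul, hζ.pow_eq_one, one_pow]
      simp only [this, sum_const, card_range, nsmul_eq_mul, mul_one]; ring
    · have hne : ζ ^ n ≠ 1 := fun h => hd ((hζ.pow_eq_one_iff_dvd n).mp h)
      simp only [mul_comm _ n, pow_mul]
      rw [geom_sum_eq hne, ← pow_mul, mul_comm n δ, pow_mul, hζ.pow_eq_one, one_pow]
      simp
  have hsq : 0 < Real.sqrt p := Real.sqrt_pos.mpr (by exact_mod_cast (show 0 < p by omega))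
  have hlt : Real.sqrt p < (p : ℝ) := by
    have h1 : (2 : ℝ) ≤ p := by exact_mod_cast hp
    have h2 : Real.sqrt p * Real.sqrt p = p := Real.mul_self_sqrt (by positivity)
    nlinarith
  set B := ((p : ℂ) ::ₘ s) with hB
  have hagree := nodes_agree A B (Real.sqrt p) Cc hsq 1 (fun n hn => by
    rw [hAs, hB, Multiset.map_cons, Multiset.sum_cons]
    have h1 := hps n hn
    have : g n - ((p : ℂ) ^ n + (s.map fun z => z ^ n).sum) = S n - (p : ℂ) ^ n := by
      linear_combination -h1
    rw [this]; exact hS n hn)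
  have hbigeq : A = B.filter (fun z => Real.sqrt p < ‖z‖) := by
    ext z
    rw [Multiset.count_filter]
    split_ifs with h
    · exact hagree z h
    · rw [Multiset.count_eq_zero]
      intro hz
      obtain ⟨i, -, rfl⟩ := Multiset.mem_map.mp hz
      apply h
      rw [norm_mul, norm_pow, hζ.norm'_eq_one (by omega), one_pow, mul_one, Complex.norm_natCast]
      exact hlt
  have e1 : B.sum = A.sum + (B.filter (fun z => ¬ Real.sqrt p < ‖z‖)).sum := by
    rw [hbigeq, ← Multiset.sum_add, Multiset.filter_add_not]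
  have h1 := hps 1 le_rfl
  simp only [pow_one, Multiset.map_id'] at h1
  have hA1 := hAs 1
  simp only [pow_one, Multiset.map_id'] at hA1
  have e2 : S 1 - (p : ℂ) = -(B.filter (fun z => ¬ Real.sqrt p < ‖z‖)).sum := by
    rw [hB, Multiset.sum_cons] at e1
    linear_combination h1 - hA1 - e1
  rw [e2, norm_neg]
  refine (norm_multiset_sum_le _).trans
    ((Multiset.sum_le_card_nsmul _ (Real.sqrt p) fun x hx => ?_).trans ?_)
  · obtain ⟨z, hz, rfl⟩ := Multiset.mem_map.mp hx
    exact not_lt.mp (Multiset.mem_filter.mp hz).2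
  · rw [Multiset.card_map, nsmul_eq_mul]
    refine mul_le_mul_of_nonneg_right ?_ hsq.le
    have := Multiset.card_le_card (Multiset.filter_le (fun z => ¬ Real.sqrt p < ‖z‖) B)
    rw [hB, Multiset.card_cons] at this
    exact_mod_cast this.trans (Nat.succ_le_succ hs)

end Vale.Agent.P042.Curve
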