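import Mathlib

namespace Vale.Agent.P042.Roots

open Polynomial

lemma clear_den (P : ℚ[X]) : ∃ (d : ℤ) (Q : ℤ[X]), d ≠ 0 ∧
    Q.map (Int.castRingHom ℚ) = Polynomial.C (d : ℚ) * P := by
  obtain ⟨b, hb⟩ := IsLocalization.integerNormalization_map_to_map (nonZeroDivisors ℤ) P
  refine ⟨b, IsLocalization.integerNormalization (nonZeroDivisors ℤ) P,
    nonZeroDivisors.ne_zero b.2, ?_⟩
  rw [← algebraMap_int_eq, hb]
  ext n
  simp [Polynomial.coeff_smul, zsmul_eq_mul]

lemma bezout (g : ℤ[X]) (hg : Irreducible g) (hd : 1 ≤ g.natDegree) (u : ℤ[X]) (hu : ¬ g ∣ u)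
    (e : ℕ) : ∃ N : ℕ, 1 ≤ N ∧ ∃ A B : ℤ[X], A * g + B * ((derivative g) ^ e * u) = C (N : ℤ) := by
  have hprim : g.IsPrimitive := Irreducible.isPrimitive hg (by omega)
  have hirr : Irreducible (g.map (Int.castRingHom ℚ)) :=
    (IsPrimitive.Int.irreducible_iff_irreducible_map_cast hprim).mp hg
  have hgd : ¬ g ∣ derivative g := by
    intro h
    have hne : derivative g ≠ 0 := by
      intro h0
      have := natDegree_eq_zero_of_derivative_eq_zero h0
      omega
    have := natDegree_le_of_dvd h hne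
    have := natDegree_derivative_lt (show g.natDegree ≠ 0 by omega)
    omega
  have hprime : Prime g := hg.prime
  have hgw : ¬ g ∣ (derivative g) ^ e * u := fun h =>
    (hprime.dvd_or_dvd h).elim (fun h1 => hgd (hprime.dvd_of_dvd_pow h1)) hu
  set w := (derivative g) ^ e * u
  clear_value w
  have hnd : ¬ g.map (Int.castRingHom ℚ) ∣ w.map (Int.castRingHom ℚ) := by
    rintro ⟨v, hv⟩
    obtain ⟨d, Q, hd0, hQ⟩ := clear_den v
    have h1 : C d * w = g * Q := by
      apply map_injective (Int.castRingHom ℚ) Int.cast_injective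
      rw [Polynomial.map_mul, Polynomial.map_mul, hQ, hv, map_C]
      simp only [Int.coe_castRingHom]; ring
    rcases hprime.dvd_or_dvd (show g ∣ C d * w from ⟨Q, h1⟩) with h2 | h2
    · have := natDegree_le_of_dvd h2 (C_ne_zero.mpr hd0)
      rw [natDegree_C] at this; omega
    · exact hgw h2
  obtain ⟨A, B, hAB⟩ := (hirr.coprime_iff_not_dvd).mpr hnd
  obtain ⟨dA, A', hdA, hA'⟩ := clear_den A
  obtain ⟨dB, B', hdB, hB'⟩ := clear_den B
  have heq : (C dB * A') * g + (C dA * B') * w = C (dA * dB) := by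
    apply map_injective (Int.castRingHom ℚ) Int.cast_injective
    simp only [Polynomial.map_add, Polynomial.map_mul, map_C, hA', hB', map_mul, Int.coe_castRingHom]
    linear_combination (C (dA : ℚ) * C (dB : ℚ)) * hAB
  rcases le_total 0 (dA * dB) with hs | hs
  · refine ⟨(dA * dB).natAbs, Int.natAbs_pos.mpr (mul_ne_zero hdA hdB), C dB * A', C dA * B', ?_⟩
    rw [heq, Int.natAbs_of_nonneg hs]
  · refine ⟨(dA * dB).natAbs, Int.natAbs_pos.mpr (mul_ne_zero hdA hdB), -(C dB * A'), -(C dA * B'), ?_⟩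
    rw [neg_mul, neg_mul, ← neg_add, heq, Int.ofNat_natAbs_of_nonpos hs, C_neg]

lemma root_exists (h : ℤ[X]) (hint : ∀ q : ℕ, 1 ≤ q → ∃ t : ℤ, (q : ℤ) ∣ h.eval t) (p : ℕ)
    [Fact p.Prime] : ∃ z : ℤ_[p], (h.map (Int.castRingHom ℤ_[p])).eval z = 0 := by
  set H := h.map (Int.castRingHom ℤ_[p]) with hH
  set S : ℕ → Set ℤ_[p] := fun j => {x | ‖H.eval x‖ ≤ (p : ℝ) ^ (-(j : ℤ))} with hS
  have hp1 : (1 : ℝ) < p := by exact_mod_cast (Fact.out : p.Prime).one_lt
  have hclosed : ∀ j, IsClosed (S j) := fun j =>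
    isClosed_le (Polynomial.continuous _).norm continuous_const
  have hdec : ∀ j, S (j + 1) ⊆ S j := fun j x hx =>
    le_trans hx (zpow_le_zpow_right₀ hp1.le (by omega))
  have hne : ∀ j, (S j).Nonempty := by
    intro j
    obtain ⟨t, ht⟩ := hint (p ^ j) (Nat.one_le_pow _ _ (Fact.out : p.Prime).pos)
    refine ⟨(t : ℤ_[p]), ?_⟩
    simp only [hS, Set.mem_ofPred_eq]
    rw [PadicInt.norm_le_pow_iff_mem_span_pow, Ideal.mem_span_singleton, hH]
    have := eval_map_apply (Int.castRingHom ℤ_[p]) (p := h) t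
    simp only [eq_intCast] at this
    rw [this]
    have h2 := map_dvd (Int.castRingHom ℤ_[p]) ht
    simpa using h2
  obtain ⟨z, hz⟩ := IsCompact.nonempty_iInter_of_sequence_nonempty_isCompact_isClosed S hdec hne
    (hclosed 0).isCompact hclosed
  refine ⟨z, ?_⟩
  rw [← norm_le_zero_iff]
  refine le_of_forall_gt_imp_ge_of_dense fun ε hε => ?_
  obtain ⟨j, hj⟩ := exists_pow_lt_of_lt_one hε (show (p : ℝ)⁻¹ < 1 from inv_lt_one_of_one_lt₀ hp1)
  refine le_trans (Set.mem_iInter.mp hz j) ?_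
  rw [zpow_neg, zpow_natCast, ← inv_pow]
  exact hj.le

theorem root_data (h : ℤ[X]) (hk : 1 ≤ h.natDegree)
    (hint : ∀ q : ℕ, 1 ≤ q → ∃ t : ℤ, (q : ℤ) ∣ h.eval t) :
    ∃ N : ℕ, 1 ≤ N ∧ ∀ p : ℕ, p.Prime → ∃ z : ℕ → ℕ, ∃ e : ℕ, 1 ≤ e ∧ e ≤ h.natDegree ∧
      (∀ i j : ℕ, j ≤ i → z i ≡ z j [MOD p ^ j]) ∧
      ∀ i : ℕ, (∀ t < e, ((p ^ i : ℕ) : ℤ) ∣ (taylor (z i : ℤ) h).coeff t) ∧
        ∀ q r : ℕ, r ≤ i → ((p ^ r : ℕ) : ℤ) ∣ (q : ℤ) * (taylor (z i : ℤ) h).coeff e →
          p ^ r ∣ q * N := by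
  have hne : h ≠ 0 := ne_zero_of_natDegree_gt hk
  set F : Finset ℤ[X] := ((UniqueFactorizationMonoid.factors h).toFinset).filter
    (fun g => 1 ≤ g.natDegree) with hF
  have hdat : ∀ g ∈ F, ∃ e : ℕ, ∃ u : ℤ[X], ∃ N : ℕ, 1 ≤ N ∧ 1 ≤ e ∧ e ≤ h.natDegree ∧
      h = g ^ e * u ∧ ∃ A B : ℤ[X], A * g + B * ((derivative g) ^ e * u) = C (N : ℤ) := by
    intro g hg
    obtain ⟨hg1, hgd⟩ := Finset.mem_filter.mp hg
    rw [Multiset.mem_toFinset] at hg1
    have hirr := UniqueFactorizationMonoid.irreducible_of_factor g hg1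
    have hdvd := UniqueFactorizationMonoid.dvd_of_mem_factors hg1
    obtain ⟨e, u, hu, he⟩ := WfDvdMonoid.max_power_factor hne hirr
    have he1 : 1 ≤ e := by
      by_contra h0
      have : e = 0 := by omega
      subst this
      rw [pow_zero, one_mul] at he
      exact hu (he ▸ hdvd)
    have hek : e ≤ h.natDegree := by
      have hu0 : u ≠ 0 := fun h0 => hne (by rw [he, h0, mul_zero])
      rw [he, natDegree_mul (pow_ne_zero _ hirr.ne_zero) hu0, natDegree_pow]
      exact le_add_right (Nat.le_mul_of_pos_right e hgd)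
    obtain ⟨N, hN, A, B, hAB⟩ := bezout g hirr hgd u hu e
    exact ⟨e, u, N, hN, he1, hek, he, A, B, hAB⟩
  choose! ef uf Nf hN1 he1 hek hhe Af Bf hAB using hdat
  refine ⟨∏ g ∈ F, Nf g, Nat.one_le_iff_ne_zero.mpr (Finset.prod_ne_zero_iff.mpr fun g hg => by
    have := hN1 g hg; omega), fun p hp => ?_⟩
  have : Fact p.Prime := Fact.mk hp
  obtain ⟨z, hz⟩ := root_exists h hint p
  set φ := Int.castRingHom ℤ_[p] with hφ
  have hφinj : Function.Injective φ := Int.cast_injective
  obtain ⟨g, hgF, hgz⟩ : ∃ g ∈ F, (g.map φ).eval z = 0 := by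
    obtain ⟨w, hw⟩ := UniqueFactorizationMonoid.factors_prod hne
    have h1 : ((UniqueFactorizationMonoid.factors h).map (fun g => (g.map φ).eval z)).prod = 0 := by
      have h2 := congrArg (fun q : ℤ[X] => (q.map φ).eval z) hw
      simp only [Polynomial.map_mul, eval_mul] at h2
      rw [hz] at h2
      have hunit : IsUnit (((w : ℤ[X]).map φ).eval z) :=
        (w.isUnit.map (mapRingHom φ)).map (evalRingHom z)
      have h3 := (mul_eq_zero.mp h2).resolve_right hunit.ne_zero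
      rw [← h3]
      exact (map_multiset_prod ((evalRingHom z).comp (mapRingHom φ))
        (UniqueFactorizationMonoid.factors h)).symm
    rw [Multiset.prod_eq_zero_iff, Multiset.mem_map] at h1
    obtain ⟨g, hg, hgz⟩ := h1
    refine ⟨g, Finset.mem_filter.mpr ⟨Multiset.mem_toFinset.mpr hg, ?_⟩, hgz⟩
    by_contra hd
    rw [Polynomial.eq_C_of_natDegree_eq_zero (show g.natDegree = 0 by omega), map_C, eval_C,
      map_eq_zero_iff φ hφinj] at hgz
    have := UniqueFactorizationMonoid.irreducible_of_factor g hg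
    rw [Polynomial.eq_C_of_natDegree_eq_zero (show g.natDegree = 0 by omega), hgz, C_0] at this
    exact this.ne_zero rfl
  set e := ef g with he
  set u := uf g
  set G := taylor z (g.map φ) with hG
  obtain ⟨G₁, hG₁⟩ : X ∣ G := by
    rw [X_dvd_iff, hG, taylor_coeff_zero]; exact hgz
  have hG₁0 : G₁.coeff 0 = ((derivative g).map φ).eval z := by
    rw [← derivative_map, ← taylor_coeff_one, ← hG, hG₁, coeff_X_mul]
  have htay : taylor z (h.map φ) = X ^ e * (G₁ ^ e * taylor z (u.map φ)) := by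
    conv_lhs => rw [hhe g hgF]
    rw [Polynomial.map_mul, Polynomial.map_pow, taylor_mul, taylor_pow, ← hG, hG₁, mul_pow, mul_assoc]
  have hlow : ∀ t < e, (taylor z (h.map φ)).coeff t = 0 := fun t ht => by
    rw [htay, coeff_X_pow_mul', if_neg (by omega)]
  have htop : (taylor z (h.map φ)).coeff e = (((derivative g) ^ e * u).map φ).eval z := by
    rw [htay, coeff_X_pow_mul', if_pos le_rfl, Nat.sub_self, mul_coeff_zero, taylor_coeff_zero,
      coeff_zero_eq_eval_zero, eval_pow, ← coeff_zero_eq_eval_zero, hG₁0, Polynomial.map_mul,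
      Polynomial.map_pow, eval_mul, eval_pow]
  refine ⟨fun i => (PadicInt.toZModPow i z).val, e, he1 g hgF, hek g hgF, fun i j hji => ?_, fun i => ?_⟩
  · rw [← ZMod.natCast_eq_natCast_iff]
    have h1 := PadicInt.cast_toZModPow j i hji z
    simp only []
    rw [ZMod.natCast_val, h1, ZMod.natCast_zmod_val]
  · set π := (PadicInt.toZModPow (p := p) i) with hπ
    set zi : ℤ := (((π z).val : ℕ) : ℤ) with hzi
    set ψ := Int.castRingHom (ZMod (p ^ i)) with hψ
    have hzz : ψ zi = π z := by simp [hψ, hzi]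
    have hcomp : π.comp φ = ψ := RingHom.ext_int _ _
    have hev : ∀ q : ℤ[X], π ((q.map φ).eval z) = ψ (q.eval zi) := fun q => by
      rw [← eval_map_apply, Polynomial.map_map, hcomp, ← hzz, eval_map_apply]
    have hcoef : ∀ t, π ((taylor z (h.map φ)).coeff t) = ψ ((taylor zi h).coeff t) := fun t => by
      have e1 : hasseDeriv t (h.map φ) = (hasseDeriv t h).map φ := by
        ext n; simp [hasseDeriv_coeff, coeff_map]
      rw [taylor_coeff, taylor_coeff, e1, hev]
    refine ⟨fun t ht => ?_, fun q r hri hdiv => ?_⟩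
    · rw [← ZMod.intCast_zmod_eq_zero_iff_dvd]
      have h2 := hcoef t
      rw [hlow t ht, map_zero] at h2
      simpa [hψ] using h2.symm
    · have hb := congrArg (fun q : ℤ[X] => π ((q.map φ).eval z)) (hAB g hgF)
      simp only [Polynomial.map_add, Polynomial.map_mul, eval_add, eval_mul, hgz, mul_zero, zero_add,
        map_C, eval_C, map_mul] at hb
      have ht := hcoef e
      rw [htop, Polynomial.map_mul, eval_mul, map_mul] at ht
      rw [ht, hev] at hb
      have hd : ((p ^ i : ℕ) : ℤ) ∣ (Bf g).eval zi * (taylor zi h).coeff e - (Nf g : ℤ) := by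
        rw [← ZMod.intCast_zmod_eq_zero_iff_dvd]
        push_cast
        rw [sub_eq_zero]
        simpa [hψ, hφ] using hb
      have hdr : ((p ^ r : ℕ) : ℤ) ∣ (q : ℤ) * (Nf g : ℤ) := by
        have h1 : ((p ^ r : ℕ) : ℤ) ∣ (q : ℤ) * ((Bf g).eval zi * (taylor zi h).coeff e - (Nf g : ℤ)) :=
          (dvd_trans (by exact_mod_cast pow_dvd_pow p hri) hd).mul_left _
        have h2 := hdiv.mul_left ((Bf g).eval zi)
        have h3 := dvd_sub h2 h1
        rwa [show (Bf g).eval zi * ((q : ℤ) * (taylor zi h).coeff e)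
          - (q : ℤ) * ((Bf g).eval zi * (taylor zi h).coeff e - (Nf g : ℤ)) = (q : ℤ) * (Nf g : ℤ) by ring] at h3
      have h4 : p ^ r ∣ q * Nf g := by exact_mod_cast hdr
      exact h4.trans (Nat.mul_dvd_mul_left q (Finset.dvd_prod_of_mem Nf hgF))

end Vale.Agent.P042.Roots
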