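import Vale.Agent.P042.CurveIface
import Vale.Agent.P042.Roots

/-! Which polynomials have roots at which the derivative is controlled, modulo every modulus. -/

namespace Vale.Agent.P042.Curve

open Polynomial

/-- A factor with roots modulo everything, coprime to `h1' * h2`, gives controlled roots. -/
lemma simple_of_factor (h h1 h2 : ℤ[X]) (hh : h = h1 * h2)
    (hco : IsCoprime (h1.map (Int.castRingHom ℚ))
      ((derivative h1 * h2).map (Int.castRingHom ℚ)))
    (hroot : ∀ q : ℕ, 1 ≤ q → ∃ z : ℤ, (q : ℤ) ∣ h1.eval z) : SimpleInt h := by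
  obtain ⟨A, B, hAB⟩ := hco
  obtain ⟨dA, A', hdA, hA'⟩ := Roots.clear_den A
  obtain ⟨dB, B', hdB, hB'⟩ := Roots.clear_den B
  have heq : (C dB * A') * h1 + (C dA * B') * (derivative h1 * h2) = C (dA * dB) := by
    apply map_injective (Int.castRingHom ℚ) Int.cast_injective
    simp only [Polynomial.map_add, Polynomial.map_mul, map_C, hA', hB', map_mul,
      Int.coe_castRingHom] at hAB ⊢
    linear_combination (C (dA : ℚ) * C (dB : ℚ)) * hAB
  refine ⟨dA * dB, mul_ne_zero hdA hdB, fun q hq => ?_⟩
  obtain ⟨z, hz⟩ := hroot q hq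
  refine ⟨z, by rw [hh, eval_mul]; exact hz.mul_right _, fun d hdq hd => ?_⟩
  have hd1 : d ∣ h1.eval z := hdq.trans hz
  rw [hh, derivative_mul, eval_add, eval_mul (p := h1)] at hd
  have hd2 : d ∣ (derivative h1 * h2).eval z := (dvd_add_left (hd1.mul_right _)).mp hd
  have h3 := congrArg (eval z) heq
  simp only [eval_add, eval_mul, eval_C] at h3 hd2
  rw [← h3]
  exact dvd_add (hd1.mul_left _) (hd2.mul_left _)

/-- An intersective polynomial without repeated factors has controlled roots. -/
lemma simple_of_squarefree (h : ℤ[X]) (hsq : Squarefree (h.map (Int.castRingHom ℚ)))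
    (hroot : ∀ q : ℕ, 1 ≤ q → ∃ z : ℤ, (q : ℤ) ∣ h.eval z) : SimpleInt h := by
  refine simple_of_factor h h 1 (mul_one h).symm ?_ hroot
  rw [mul_one, ← derivative_map]
  exact (PerfectField.separable_iff_squarefree).mpr hsq

end Vale.Agent.P042.Curve
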