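import Vale.Agent.P042.CurveBuild
import Vale.Agent.P042.CurveNewton
import Vale.Agent.P042.CurveNodes

/-! Square root cancellation on an absolutely irreducible plane curve over the prime field, with
constants depending only on the degrees. -/

namespace Vale.Agent.P042.Curve

open Polynomial Finset

set_option linter.unusedSectionVars false
set_option linter.style.haveILetI false

variable {p : ℕ} [Fact p.Prime]

/-- The points of a plane curve over a finite field. -/
noncomputable def pts (P : (ZMod p)[X][X]) (Kf : Type*) [Field Kf] [Fintype Kf] [Algebra (ZMod p) Kf] :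
    Finset (Kf × Kf) :=
  open Classical in univ.filter fun v => (evk P v.1).eval v.2 = 0

section Compare

variable {Kf : Type*} [Field Kf] [Fintype Kf] [Algebra (ZMod p) Kf]

lemma evk_monic {k : Type*} [CommRing k] [Algebra (ZMod p) k] {P : (ZMod p)[X][X]} (hP : P.Monic)
    (x : k) : (evk P x).Monic := hP.map _

lemma evk_map {k : Type*} [Field k] [Algebra (ZMod p) k] (P : (ZMod p)[X][X]) (ι : Kf →ₐ[ZMod p] k)
    (x : Kf) : evk P (ι x) = (evk P x).map ι.toRingHom := by
  rw [evk, evk, Polynomial.map_map, show (aeval (ι x)).toRingHom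
    = ι.toRingHom.comp (aeval x).toRingHom from RingHom.ext fun q => aeval_algHom_apply ι x q]

lemma sum_pts_eq (P : (ZMod p)[X][X]) (hPm : P.Monic) (f : (ZMod p)[X]) :
    ∑ v ∈ pts P Kf, ZMod.stdAddChar (Algebra.trace (ZMod p) Kf (aeval v.1 f))
      = ∑ x ∈ Fq (kbar p) p (Module.finrank (ZMod p) Kf), open Classical in
          ((evk P x).roots.toFinset.filter (fun r => r ^ p ^ Module.finrank (ZMod p) Kf = r)).card •
            ZMod.stdAddChar (trk f (Module.finrank (ZMod p) Kf) x) := by
  classical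
  set n := Module.finrank (ZMod p) Kf with hn
  have hn0 : n ≠ 0 := Module.finrank_pos.ne'
  haveI : Module.Finite (ZMod p) Kf := inferInstance
  let ι : Kf →ₐ[ZMod p] kbar p := IsAlgClosed.lift
  have hι : Function.Injective ι := ι.toRingHom.injective
  have hcard : Fintype.card Kf = p ^ n := by
    rw [Module.card_eq_pow_finrank (K := ZMod p) (V := Kf), ZMod.card]
  have himg : univ.image ι = Fq (kbar p) p n := by
    refine eq_of_subset_of_card_le (fun x hx => ?_) (le_of_eq ?_)
    · obtain ⟨a, -, rfl⟩ := mem_image.mp hx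
      rw [mem_Fq hn0, ← map_pow, ← hcard, FiniteField.pow_card]
    · rw [card_image_of_injective _ hι, card_univ, hcard, card_Fq hn0]
  rw [← himg, sum_image fun a _ b _ h => hι h, pts, sum_filter, Fintype.sum_prod_type]
  refine sum_congr rfl fun x _ => ?_
  simp only []
  rw [← sum_filter, sum_const]
  congr 1
  · rw [← card_image_of_injective _ hι]
    congr 1
    ext r
    simp only [mem_image, mem_filter, mem_univ, true_and, Multiset.mem_toFinset, evk_map,
      mem_roots (((evk_monic hPm x).map ι.toRingHom).ne_zero), IsRoot.def]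
    constructor
    · rintro ⟨a, ha, rfl⟩
      refine ⟨?_, by rw [← map_pow, ← hcard, FiniteField.pow_card]⟩
      show ((evk P x).map ι.toRingHom).eval (ι.toRingHom a) = 0
      rw [eval_map, eval₂_hom, ha, map_zero]
    · rintro ⟨h1, h2⟩
      have h3 : r ∈ univ.image ι := by rw [himg, mem_Fq hn0]; exact h2
      obtain ⟨a, -, rfl⟩ := mem_image.mp h3
      refine ⟨a, ι.toRingHom.injective ?_, rfl⟩
      change ((evk P x).map ι.toRingHom).eval (ι.toRingHom a) = 0 at h1
      rw [eval_map, eval₂_hom] at h1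
      rw [h1, map_zero]
  · congr 1
    have h : ∑ i ∈ range n, (aeval (ι x) f) ^ p ^ i
        = algebraMap (ZMod p) (kbar p) (Algebra.trace (ZMod p) Kf (aeval x f)) := by
      rw [← ι.commutes, FiniteField.algebraMap_trace_eq_sum_pow, map_sum, Nat.card_zmod, ← hn]
      exact sum_congr rfl fun i _ => by rw [map_pow, aeval_algHom_apply]
    rw [trk, h]
    exact (Function.leftInverse_invFun (algebraMap (ZMod p) (kbar p)).injective _).symm

end Compare

section Places

variable {L : Type*} [Field L] [Algebra (ZMod p) L] [Algebra (ZMod p)[X] L]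
  [IsScalarTower (ZMod p) (ZMod p)[X] L] [FaithfulSMul (ZMod p)[X] L]
  (K : Type*) [Field K] [Algebra (ZMod p)[X] K] [IsFractionRing (ZMod p)[X] K] [Algebra K L]
  [IsScalarTower (ZMod p)[X] K L] [FiniteDimensional K L] [Algebra.IsSeparable K L]

variable {P : (ZMod p)[X][X]} (hPm : P.Monic) (hdeg : ∀ i, (P.coeff i).natDegree + i ≤ P.natDegree ∨ P.coeff i = 0)
  (pb : PowerBasis K L) (hpb : minpoly K pb.gen = P.map (algebraMap (ZMod p)[X] K))

include hPm hpb in
lemma gen_root : aeval pb.gen P = 0 := by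
  rw [← aeval_map_algebraMap (A := K) pb.gen P, ← hpb, minpoly.aeval]

include hPm hpb in
lemma finrank_eq_natDegree : Module.finrank K L = P.natDegree := by
  rw [pb.finrank, ← pb.natDegree_minpoly, hpb, hPm.natDegree_map]

include hPm hdeg hpb in
lemma gen_mem : pb.gen ∈ lt (ZMod p) L 2 := by
  refine integral_mem hPm (gen_root K hPm pb hpb) fun i hi => ?_
  rcases hdeg i with h | h
  · omega
  · simp [h]

include hPm hdeg hpb in
lemma gen_pow_mem : ∀ i, pb.gen ^ i ∈ lt (ZMod p) L (i + 1)
  | 0 => by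
    rw [pow_zero, ← map_one (algebraMap (ZMod p)[X] L)]
    exact algebraMap_mem (by simp)
  | i + 1 => by rw [pow_succ]; exact lt_mul (gen_pow_mem i) (gen_mem K hPm hdeg pb hpb)

include hPm hdeg hpb in
lemma hc0_curve (n : ℕ) : Module.finrank K L * n
    ≤ Module.finrank (ZMod p) (lt (ZMod p) L n) + P.natDegree * P.natDegree := by
  have h := finrank_lt_ge (F := ZMod p) (L := L) K pb.basis pb.basis.linearIndependent
    (fun i => (i : ℕ)) (fun i => by rw [pb.coe_basis]; exact gen_pow_mem K hPm hdeg pb hpb i) n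
  rw [Fintype.card_fin, ← pb.finrank] at h
  refine h.trans (Nat.add_le_add_left ?_ _)
  refine (sum_le_card_nsmul _ _ P.natDegree fun i _ => ?_).trans (le_of_eq ?_)
  · have := i.2
    have := finrank_eq_natDegree K hPm pb hpb
    have := pb.finrank
    omega
  · rw [card_univ, Fintype.card_fin, smul_eq_mul]
    have := finrank_eq_natDegree K hPm pb hpb
    have := pb.finrank
    exact Nat.mul_le_mul_right _ (by omega) |>.antisymm (Nat.mul_le_mul_right _ (by omega))

include hPm hdeg hpb in
/-- Away from few values of `x`, the integral closure is generated by the root. -/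
lemma exists_conductor : ∃ d : (ZMod p)[X], d ≠ 0 ∧ d.natDegree ≤ P.natDegree * P.natDegree ∧
    ∀ z : L, IsIntegral (ZMod p)[X] z → ∃ R : (ZMod p)[X][X], algebraMap (ZMod p)[X] L d * z = aeval pb.gen R := by
  set δ := P.natDegree with hδ
  have hδ1 : 1 ≤ δ := by
    rw [hδ, ← finrank_eq_natDegree K hPm pb hpb]; exact Module.finrank_pos
  have hmem : aeval pb.gen (derivative P) ∈ lt (ZMod p) L ((δ - 1) + 1) := by
    rw [aeval_eq_sum_range]
    refine Submodule.sum_mem _ fun i hi => ?_
    rw [Algebra.smul_def, coeff_derivative]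
    rcases hdeg (i + 1) with h | h
    · have h1 : algebraMap (ZMod p)[X] L (P.coeff (i + 1) * ((i : (ZMod p)[X]) + 1))
          ∈ lt (ZMod p) L ((δ - (i + 1)) + 1) := by
        refine algebraMap_mem (lt_of_le_of_lt degree_le_natDegree (Nat.cast_lt.mpr ?_))
        refine lt_of_le_of_lt natDegree_mul_le ?_
        rw [show ((i : (ZMod p)[X]) + 1) = ((i + 1 : ℕ) : (ZMod p)[X]) by push_cast; rfl,
          natDegree_natCast]
        omega
      have := lt_mul h1 (gen_pow_mem K hPm hdeg pb hpb i)
      rwa [show δ - (i + 1) + i + 1 = δ - 1 + 1 by omega] at this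
    · rw [h, zero_mul, map_zero, zero_mul]; exact zero_mem _
  obtain ⟨d, hd, hdd⟩ := norm_deg K hmem
  refine ⟨d, ?_, hdd.trans ?_, fun z hz => ?_⟩
  · intro h0
    rw [h0, map_zero, eq_comm, Algebra.norm_eq_zero_iff] at hd
    have h1 := (Algebra.IsSeparable.isSeparable K pb.gen).aeval_derivative_ne_zero (minpoly.aeval K pb.gen)
    rw [hpb, derivative_map, aeval_map_algebraMap] at h1
    exact h1 hd
  · rw [finrank_eq_natDegree K hPm pb hpb, ← hδ]
    exact Nat.mul_le_mul_left _ (Nat.sub_le _ _)
  · have h1 := Algebra.discr_mul_isIntegral_mem_adjoin K (R := (ZMod p)[X]) (B := pb)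
      ⟨P, hPm, by rw [← aeval_def]; exact gen_root K hPm pb hpb⟩ hz
    rw [Algebra.discr_powerBasis_eq_norm, hpb, derivative_map, aeval_map_algebraMap, ← hd,
      Algebra.smul_def, map_mul, ← IsScalarTower.algebraMap_apply, map_pow, map_neg, map_one] at h1
    have h2 : algebraMap (ZMod p)[X] L d * z ∈ Algebra.adjoin (ZMod p)[X] ({pb.gen} : Set L) := by
      rcases neg_one_pow_eq_or L (Module.finrank K L * (Module.finrank K L - 1) / 2) with h | h
      · rwa [h, one_mul] at h1
      · rw [h, neg_one_mul, neg_mul] at h1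
        simpa using neg_mem h1
    rw [Algebra.adjoin_singleton_eq_range_aeval] at h2
    obtain ⟨R, hR⟩ := h2
    exact ⟨R, hR.symm⟩

include hPm hpb in
lemma aeval_gen_eq_zero {R : (ZMod p)[X][X]} (h : aeval pb.gen R = 0) : P ∣ R := by
  refine (map_dvd_map (algebraMap (ZMod p)[X] K) (IsFractionRing.injective _ _) hPm).mp ?_
  rw [← hpb]
  exact minpoly.dvd _ _ (by rw [aeval_map_algebraMap, h])

variable {Kf : Type*} [Field Kf] [Fintype Kf] [Algebra (ZMod p) Kf]

lemma hom_algMap (φ : (integralClosure (ZMod p)[X] L) →ₐ[ZMod p] Kf) (q : (ZMod p)[X]) :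
    φ (algebraMap (ZMod p)[X] (integralClosure (ZMod p)[X] L) q) = aeval (φ (algebraMap (ZMod p)[X] (integralClosure (ZMod p)[X] L) X)) q := by
  have h : (φ.comp (IsScalarTower.toAlgHom (ZMod p) (ZMod p)[X] (integralClosure (ZMod p)[X] L))) = aeval (φ (algebraMap (ZMod p)[X] (integralClosure (ZMod p)[X] L) X)) :=
    Polynomial.algHom_ext (by simp)
  exact AlgHom.congr_fun h q

/-- The root, as an integral element. -/
noncomputable def genB (h : IsIntegral (ZMod p)[X] pb.gen) : (integralClosure (ZMod p)[X] L) := ⟨pb.gen, h⟩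

include hPm hpb in
lemma gen_integral : IsIntegral (ZMod p)[X] pb.gen :=
  ⟨P, hPm, by rw [← aeval_def]; exact gen_root K hPm pb hpb⟩

lemma hom_aeval (φ : (integralClosure (ZMod p)[X] L) →ₐ[ZMod p] Kf) (y : (integralClosure (ZMod p)[X] L)) (R : (ZMod p)[X][X]) :
    φ (aeval y R) = (evk R (φ (algebraMap (ZMod p)[X] (integralClosure (ZMod p)[X] L) X))).eval (φ y) := by
  rw [aeval_def, evk, eval_map]
  show φ.toRingHom (eval₂ _ y R) = _
  rw [hom_eval₂]
  congr 1
  exact RingHom.ext fun q => hom_algMap φ q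

open Classical in
include hPm hdeg hpb in
/-- The places over a finite field are the points of the plane curve, up to few exceptions. -/
lemma places_close [Fintype ((integralClosure (ZMod p)[X] L) →ₐ[ZMod p] Kf)] (G : Kf → ℂ) (hG : ∀ x, ‖G x‖ ≤ 1) :
    ‖(∑ φ : (integralClosure (ZMod p)[X] L) →ₐ[ZMod p] Kf, G (φ (algebraMap (ZMod p)[X] (integralClosure (ZMod p)[X] L) X))) - ∑ v ∈ pts P Kf, G v.1‖
      ≤ 2 * (P.natDegree * (P.natDegree * P.natDegree) : ℕ) := by
  obtain ⟨d, hd0, hdd, hd⟩ := exists_conductor K hPm hdeg pb hpb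
  set δ := P.natDegree with hδ
  set X' := algebraMap (ZMod p)[X] (integralClosure (ZMod p)[X] L) X with hX'
  set y := genB K pb (gen_integral K hPm pb hpb) with hy
  have hy0 : aeval y P = 0 := by
    apply Subtype.val_injective
    rw [Polynomial.aeval_subalgebra_coe]
    exact gen_root K hPm pb hpb
  set bad : Finset Kf := univ.filter fun x => aeval x d = 0 with hbad
  have hbadc : bad.card ≤ δ * δ := by
    refine le_trans (card_le_card (t := (d.map (algebraMap (ZMod p) Kf)).roots.toFinset) fun x hx => ?_)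
      ((Multiset.toFinset_card_le _).trans ((card_roots' _).trans (natDegree_map_le.trans hdd)))
    rw [Multiset.mem_toFinset, mem_roots ((Polynomial.map_ne_zero_iff (algebraMap (ZMod p) Kf).injective).mpr hd0),
      IsRoot.def, eval_map_algebraMap]
    exact (mem_filter.mp hx).2
  set Hb := univ.filter (fun φ : (integralClosure (ZMod p)[X] L) →ₐ[ZMod p] Kf => φ X' ∈ bad) with hHb
  set Pb := (pts P Kf).filter (fun v => v.1 ∈ bad) with hPb
  have hHbc : Hb.card ≤ δ * (δ * δ) := by
    refine le_trans (card_le_mul_card_image_of_maps_to (f := fun φ : (integralClosure (ZMod p)[X] L) →ₐ[ZMod p] Kf => φ X')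
      (t := bad) (fun φ hφ => (mem_filter.mp hφ).2) δ fun x _ => ?_) (Nat.mul_le_mul_left _ hbadc)
    obtain ⟨m, ⟨b⟩⟩ := exists_basis (F := ZMod p) (L := L) K
    have hm : m ≤ δ := by
      have h1 : LinearIndependent (ZMod p)[X] fun i => ((b i : (integralClosure (ZMod p)[X] L)) : L) :=
        b.linearIndependent.map' ((integralClosure (ZMod p)[X] L)).val.toLinearMap (LinearMap.ker_eq_bot.mpr Subtype.val_injective)
      rw [LinearIndependent.iff_fractionRing (ZMod p)[X] K] at h1
      have := h1.fintype_card_le_finrank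
      rwa [Fintype.card_fin, finrank_eq_natDegree K hPm pb hpb] at this
    refine le_trans ?_ hm
    set S := Hb.filter (fun φ => φ X' = x) with hS
    have hind : LinearIndependent Kf fun φ : S => fun i : Fin m => φ.1 (b i) := by
      rw [Fintype.linearIndependent_iff]
      intro c hc φ
      have hli : LinearIndependent Kf fun ψ : S => (ψ.1 : (integralClosure (ZMod p)[X] L) → Kf) :=
        (linearIndependent_monoidHom (integralClosure (ZMod p)[X] L) Kf).comp (fun ψ : S => (ψ.1.toRingHom.toMonoidHom))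
          (fun a a' h => Subtype.ext (AlgHom.ext fun z => congrArg (fun g : (integralClosure (ZMod p)[X] L) →* Kf => g z) h))
      refine Fintype.linearIndependent_iff.mp hli c ?_ φ
      funext z
      simp only [Finset.sum_apply, Pi.smul_apply, smul_eq_mul, Pi.zero_apply]
      have e : ∀ ψ : S, ψ.1 z = ∑ i, aeval x (b.repr z i) * ψ.1 (b i) := fun ψ => by
        conv_lhs => rw [← b.sum_repr z, map_sum]
        refine sum_congr rfl fun i _ => ?_
        rw [Algebra.smul_def, map_mul, hom_algMap, (mem_filter.mp ψ.2).2]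
      rw [sum_congr rfl fun ψ _ => by rw [e ψ, mul_sum]]
      rw [sum_comm]
      refine sum_eq_zero fun i _ => ?_
      have h := congrFun hc i
      simp only [Finset.sum_apply, Pi.smul_apply, smul_eq_mul, Pi.zero_apply] at h
      rw [sum_congr rfl fun ψ _ => show c ψ * (aeval x (b.repr z i) * ψ.1 (b i))
        = aeval x (b.repr z i) * (c ψ * ψ.1 (b i)) by ring, ← mul_sum, h, mul_zero]
    have := hind.fintype_card_le_finrank
    rwa [Module.finrank_fintype_fun_eq_card, Fintype.card_fin, Fintype.card_coe] at this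
  have hPbc : Pb.card ≤ δ * (δ * δ) := by
    refine le_trans (card_le_mul_card_image_of_maps_to (f := Prod.fst) (t := bad)
      (fun v hv => (mem_filter.mp hv).2) δ fun x _ => ?_) (Nat.mul_le_mul_left _ hbadc)
    refine le_trans (card_le_card_of_injOn Prod.snd (t := (evk P x).roots.toFinset) (fun v hv => ?_)
      fun a ha b hb h => ?_) ((Multiset.toFinset_card_le _).trans ((card_roots' _).trans natDegree_map_le))
    · obtain ⟨h1, h2⟩ := mem_filter.mp hv
      rw [mem_coe, Multiset.mem_toFinset, mem_roots (evk_monic hPm x).ne_zero, IsRoot.def]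
      have := (mem_filter.mp (mem_filter.mp h1).1).2
      rw [h2] at this
      exact this
    · exact Prod.ext ((mem_filter.mp (mem_coe.mp ha)).2.trans (mem_filter.mp (mem_coe.mp hb)).2.symm) h
  choose R hR using fun z : (integralClosure (ZMod p)[X] L) => hd (z : L) z.2
  have hR' : ∀ z, algebraMap (ZMod p)[X] (integralClosure (ZMod p)[X] L) d * z = aeval y (R z) := fun z => by
    apply Subtype.val_injective
    rw [Polynomial.aeval_subalgebra_coe]
    exact hR z
  have hgood : ∑ φ ∈ univ.filter (fun φ : (integralClosure (ZMod p)[X] L) →ₐ[ZMod p] Kf => φ X' ∉ bad), G (φ X')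
      = ∑ v ∈ (pts P Kf).filter (fun v => v.1 ∉ bad), G v.1 := by
    refine sum_bij (fun φ _ => (φ X', φ y)) (fun φ hφ => ?_) (fun φ hφ φ' hφ' h => ?_)
      (fun v hv => ?_) fun φ _ => rfl
    · refine mem_filter.mpr ⟨mem_filter.mpr ⟨mem_univ _, ?_⟩, (mem_filter.mp hφ).2⟩
      rw [← hom_aeval, hy0, map_zero]
    · obtain ⟨h1, h2⟩ := Prod.ext_iff.mp h
      refine AlgHom.ext fun z => ?_
      have hne : aeval (φ X') d ≠ 0 := fun h0 =>
        (mem_filter.mp hφ).2 (mem_filter.mpr ⟨mem_univ _, h0⟩)
      have e : ∀ ψ : (integralClosure (ZMod p)[X] L) →ₐ[ZMod p] Kf, aeval (ψ X') d * ψ z = (evk (R z) (ψ X')).eval (ψ y) := fun ψ => by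
        rw [← hom_algMap, ← map_mul, hR', hom_aeval]
      refine mul_left_cancel₀ hne ?_
      rw [e φ]
      simp only [] at h1 h2
      rw [h1, h2, ← e φ']
    · obtain ⟨h1, h2⟩ := mem_filter.mp hv
      obtain ⟨x, r⟩ := v
      have hev : (evk P x).eval r = 0 := (mem_filter.mp h1).2
      have hdx : aeval x d ≠ 0 := fun h0 => h2 (mem_filter.mpr ⟨mem_univ _, h0⟩)
      let E : (ZMod p)[X][X] →+* Kf := (evalRingHom r).comp (mapRingHom (aeval x).toRingHom)
      have hE : ∀ Q, E Q = (evk Q x).eval r := fun Q => rfl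
      have key : ∀ (z : (integralClosure (ZMod p)[X] L)) (Q : (ZMod p)[X][X]), algebraMap (ZMod p)[X] (integralClosure (ZMod p)[X] L) d * z = aeval y Q →
          E Q = E (R z) := fun z Q hQ => by
        have h0 : aeval pb.gen (Q - R z) = 0 := by
          have h' := congrArg Subtype.val (hQ.symm.trans (hR' z))
          rw [Polynomial.aeval_subalgebra_coe, Polynomial.aeval_subalgebra_coe] at h'
          rw [map_sub, sub_eq_zero]
          exact h'
        obtain ⟨W, hW⟩ := aeval_gen_eq_zero K hPm pb hpb h0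
        rw [← sub_eq_zero, ← map_sub, hW, map_mul, show E P = 0 from hev, zero_mul]
      have hEC : ∀ q : (ZMod p)[X], E (C q) = aeval x q := fun q => by simp [hE, evk]
      have hEy : E (X : (ZMod p)[X][X]) = r := by simp [hE, evk]
      refine ⟨{ toFun := fun z => (aeval x d)⁻¹ * E (R z)
                map_one' := ?_, map_mul' := fun a b => ?_, map_zero' := ?_, map_add' := fun a b => ?_
                commutes' := fun c => ?_ }, mem_filter.mpr ⟨mem_univ _, ?_⟩, ?_⟩
      · rw [← key 1 (C d) (by rw [mul_one, aeval_C]), hEC, inv_mul_cancel₀ hdx]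
      · show (aeval x d)⁻¹ * E (R (a * b)) = (aeval x d)⁻¹ * E (R a) * ((aeval x d)⁻¹ * E (R b))
        have h3 : E (C d * R (a * b)) = E (R a * R b) := by
          have h0 : aeval pb.gen (C d * R (a * b) - R a * R b) = 0 := by
            rw [map_sub, map_mul, map_mul, aeval_C, ← hR, ← hR, ← hR]
            push_cast
            ring
          obtain ⟨W, hW⟩ := aeval_gen_eq_zero K hPm pb hpb h0
          rw [← sub_eq_zero, ← map_sub, hW, map_mul, show E P = 0 from hev, zero_mul]
        rw [map_mul, map_mul, hEC] at h3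
        field_simp
        linear_combination h3
      · rw [← key 0 0 (by rw [mul_zero, map_zero]), map_zero, mul_zero]
      · show (aeval x d)⁻¹ * E (R (a + b)) = _
        rw [← key (a + b) (R a + R b) (by rw [mul_add, hR', hR', map_add]), map_add, mul_add]
      · show (aeval x d)⁻¹ * E (R _) = _
        rw [← key _ (C (d * C c)) (by rw [aeval_C, map_mul, ← Polynomial.algebraMap_eq,
          ← IsScalarTower.algebraMap_apply]), hEC, map_mul, aeval_C, inv_mul_cancel_left₀ hdx]
      · show (aeval x d)⁻¹ * E (R X') ∉ bad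
        rw [← key X' (C (d * X)) (by rw [aeval_C, map_mul]), hEC, map_mul, aeval_X, inv_mul_cancel_left₀ hdx]
        exact h2
      · show ((aeval x d)⁻¹ * E (R X'), (aeval x d)⁻¹ * E (R y)) = (x, r)
        rw [← key X' (C (d * X)) (by rw [aeval_C, map_mul]), hEC, map_mul, aeval_X,
          inv_mul_cancel_left₀ hdx, ← key y (C d * X) (by rw [map_mul, aeval_C, aeval_X]), map_mul, hEC,
          hEy, inv_mul_cancel_left₀ hdx]
  rw [← sum_filter_add_sum_filter_not univ (fun φ : (integralClosure (ZMod p)[X] L) →ₐ[ZMod p] Kf => φ X' ∈ bad),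
    ← sum_filter_add_sum_filter_not (pts P Kf) (fun v => v.1 ∈ bad), hgood, add_sub_add_right_eq_sub]
  refine (norm_sub_le _ _).trans ?_
  rw [two_mul]
  refine add_le_add ((norm_sum_le _ _).trans ?_) ((norm_sum_le _ _).trans ?_)
  · refine (sum_le_card_nsmul _ _ 1 fun φ _ => hG _).trans ?_
    rw [nsmul_eq_mul, mul_one]
    exact_mod_cast hHbc
  · refine (sum_le_card_nsmul _ _ 1 fun φ _ => hG _).trans ?_
    rw [nsmul_eq_mul, mul_one]
    exact_mod_cast hPbc

end Places

/-- The constant in the bound for curves. -/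
def curveCst (δ k : ℕ) : ℕ :=
  δ * (k + δ * δ + δ) + δ * (δ * δ + δ + 1) + δ + 1 + 2 * (δ * (δ * δ))

open Classical in
/-- Weil's bound on an absolutely irreducible plane curve. -/
theorem curve_weil (P : (ZMod p)[X][X]) (hPm : P.Monic) (hd : P.natDegree < p)
    (hdeg : ∀ i, (P.coeff i).natDegree + i ≤ P.natDegree ∨ P.coeff i = 0)
    (hirr : Irreducible (P.map (toKbar p))) (f : (ZMod p)[X]) (hf1 : 1 ≤ f.natDegree)
    (hfp : f.natDegree < p) :
    ‖∑ v ∈ pts P (ZMod p), ZMod.stdAddChar (f.eval v.1)‖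
        ≤ curveCst P.natDegree f.natDegree * Real.sqrt p ∧
      |((pts P (ZMod p)).card : ℝ) - p| ≤ curveCst P.natDegree f.natDegree * Real.sqrt p := by
  have hp := (Fact.out : p.Prime)
  set δ := P.natDegree with hδ
  set k := f.natDegree with hk
  obtain ⟨C, hC⟩ := point_sums p P hPm hd hirr f hf1 hfp
  set K := FractionRing (ZMod p)[X]
  set Q := P.map (algebraMap (ZMod p)[X] K) with hQ
  have hQm : Q.Monic := hPm.map _
  have hirrQ : Irreducible Q :=
    hPm.irreducible_iff_irreducible_map_fraction_map.mp (Monic.irreducible_of_irreducible_map (toKbar p) P hPm hirr)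
  haveI := Fact.mk hirrQ
  haveI : CharP K p := charP_of_injective_algebraMap (IsFractionRing.injective (ZMod p)[X] K) p
  set L := AdjoinRoot Q
  let pb : PowerBasis K L := AdjoinRoot.powerBasis hQm.ne_zero
  haveI : FiniteDimensional K L := pb.finite
  have hgen : pb.gen = AdjoinRoot.root Q := rfl
  have hpb : minpoly K pb.gen = Q :=
    (minpoly.eq_of_irreducible_of_monic hirrQ (by rw [hgen, aeval_def, AdjoinRoot.algebraMap_eq]; exact AdjoinRoot.eval₂_root Q) hQm).symm
  haveI : Algebra.IsSeparable K L := by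
    refine (separableClosure.eq_top_iff _ _).mp (_root_.eq_top_iff.mpr fun x _ => ?_)
    have hx : x ∈ Algebra.adjoin K ({pb.gen} : Set L) := by
      rw [hgen, AdjoinRoot.adjoinRoot_eq_top]; trivial
    refine (Algebra.adjoin_le (S := (separableClosure K L).toSubalgebra) ?_) hx
    intro y hy
    rw [Set.mem_singleton_iff] at hy
    show y ∈ separableClosure K L
    rw [mem_separableClosure_iff, hy]
    show (minpoly K pb.gen).Separable
    rw [hpb]
    exact separable_of_small_degree (p := p) hirrQ (by rw [hPm.natDegree_map]; exact hd)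
  haveI : FaithfulSMul (ZMod p)[X] L := (faithfulSMul_iff_algebraMap_injective _ _).mpr (by
    rw [IsScalarTower.algebraMap_eq (ZMod p)[X] K L]
    exact (algebraMap K L).injective.comp (IsFractionRing.injective _ _))
  have hfin : Module.finrank K L = δ := finrank_eq_natDegree K hPm pb hpb
  have hc₀ := hc0_curve K hPm hdeg pb hpb
  -- sums over the places and over the points
  have hclose : ∀ (g : (ZMod p)[X]) (Kf : Type) [Field Kf] [Fintype Kf] [Algebra (ZMod p) Kf],
      ‖SI (p := p) L g (Module.finrank (ZMod p) Kf)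
        - ∑ v ∈ pts P Kf, ZMod.stdAddChar (Algebra.trace (ZMod p) Kf (aeval v.1 g))‖
        ≤ 2 * ((δ * (δ * δ) : ℕ) : ℝ) := by
    intro g Kf _ _ _
    haveI := finite_homs (p := p) (L := L) (Kf := Kf) K
    haveI : Fintype (integralClosure (ZMod p)[X] L →ₐ[ZMod p] Kf) := Fintype.ofFinite _
    rw [← sum_hom_eq_SI K g, sum_congr rfl fun φ _ => by rw [hom_algMap φ g]]
    exact places_close K hPm hdeg pb hpb (fun x => ZMod.stdAddChar (Algebra.trace (ZMod p) Kf (aeval x g)))
      fun x => by simp
  set E : ℝ := 2 * ((δ * (δ * δ) : ℕ) : ℝ) with hE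
  have hsq : ∀ n : ℕ, Real.sqrt ((p : ℝ) ^ n) = Real.sqrt p ^ n := fun n => by
    refine (Real.sqrt_eq_iff_mul_self_eq (by positivity) (by positivity)).mpr ?_
    rw [← mul_pow, Real.mul_self_sqrt (Nat.cast_nonneg p)]
  have hsp : 1 ≤ Real.sqrt p := Real.one_le_sqrt.mpr (by exact_mod_cast hp.one_lt.le)
  have hlevel : ∀ n : ℕ, 1 ≤ n →
      ‖SI (p := p) L f n‖ ≤ (C + E) * Real.sqrt p ^ n ∧
      ‖SI (p := p) L 0 n - (p : ℂ) ^ n‖ ≤ (C + E) * Real.sqrt p ^ n := by
    intro n hn
    haveI : Fintype (GaloisField p n) := Fintype.ofFinite _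
    have hfr := GaloisField.finrank p (n := n) (by omega)
    obtain ⟨h1, h2⟩ := hC n (by omega)
    rw [hsq] at h1 h2
    have hE1 : E ≤ E * Real.sqrt p ^ n := le_mul_of_one_le_right (by positivity) (one_le_pow₀ hsp)
    constructor
    · have h3 := hclose f (GaloisField p n)
      rw [sum_pts_eq P hPm f, hfr] at h3
      linarith [norm_le_norm_add_norm_sub' (SI (p := p) L f n)
        (∑ x ∈ Fq (kbar p) p n, ((evk P x).roots.toFinset.filter (fun r => r ^ p ^ n = r)).card •
          ZMod.stdAddChar (trk f n x))]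
    · have h3 := hclose 0 (GaloisField p n)
      rw [sum_pts_eq P hPm 0, hfr] at h3
      have e : ∀ x : kbar p, ZMod.stdAddChar (trk (0 : (ZMod p)[X]) n x) = (1 : ℂ) := fun x => by
        have h0 : ∑ i ∈ range n, (aeval x (0 : (ZMod p)[X])) ^ p ^ i = algebraMap (ZMod p) (kbar p) 0 := by
          simp [hp.ne_zero]
        rw [trk, h0, Function.leftInverse_invFun (algebraMap (ZMod p) (kbar p)).injective, AddChar.map_zero_eq_one]
      simp only [e, nsmul_eq_mul, mul_one] at h3
      have h4 : ‖(∑ x ∈ Fq (kbar p) p n, (((evk P x).roots.toFinset.filter (fun r => r ^ p ^ n = r)).card : ℂ))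
          - (p : ℂ) ^ n‖ ≤ C * Real.sqrt p ^ n := by
        rw [← Real.norm_eq_abs, ← Complex.norm_real] at h2
        push_cast at h2
        exact h2
      have := norm_sub_le_norm_sub_add_norm_sub (SI (p := p) L 0 n)
        (∑ x ∈ Fq (kbar p) p n, (((evk P x).roots.toFinset.filter (fun r => r ^ p ^ n = r)).card : ℂ))
        ((p : ℂ) ^ n)
      linarith
  have hpk : ¬ p ∣ k := fun h => by have := Nat.le_of_dvd hf1 h; omega
  have hpδ : ¬ p ∣ Module.finrank K L := fun h => by
    have := Nat.le_of_dvd Module.finrank_pos h; omega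
  set M₁ := δ * (k + δ * δ + δ) with hM₁
  set M₂ := δ * (δ * δ + δ + 1) with hM₂
  have b1 : ‖SI (p := p) L f 1‖ ≤ M₁ * Real.sqrt p :=
    poly_sum_bound (cfI (p := p) L f) (SI (p := p) L f) M₁ (cfI_zero K f) (newtonI K f)
      (fun n hn => cfI_vanish K hc₀ f rfl hf1 hpk hpδ (by rw [hfin]; exact hn.le))
      (Real.sqrt p) (C + E) (by linarith) fun n hn => (hlevel n hn).1
  have b2 : ‖SI (p := p) L 0 1 - (p : ℂ)‖ ≤ ((M₂ : ℝ) + δ + 1) * Real.sqrt p := by
    have hN : ∀ n, cfI (p := p) L (0 : (ZMod p)[X]) n = ((Idl (p := p) L n).card : ℂ) := fun n => by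
      rw [cfI, card_eq_sum_ones, Nat.cast_sum]
      refine sum_congr rfl fun I _ => ?_
      rw [lamI, th, map_zero, map_zero, map_zero, map_zero, AddChar.map_zero_eq_one, Nat.cast_one]
    refine periodic_count_bound hp.two_le (hfin ▸ Module.finrank_pos)
      (fun n => cfI (p := p) L (0 : (ZMod p)[X]) n) (SI (p := p) L 0) M₂ (cfI_zero K 0) (newtonI K 0)
      (fun n hn => ?_) (C + E) fun n hn => (hlevel n hn).2
    rw [hN, hN, ← hfin, count_periodic K hc₀ (by rw [hfin]; exact hn)]
    push_cast; rfl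
  have hone : ∀ g : (ZMod p)[X], ‖SI (p := p) L g 1 - ∑ v ∈ pts P (ZMod p), ZMod.stdAddChar (g.eval v.1)‖
      ≤ E := fun g => by
    have h := hclose g (ZMod p)
    simpa [Module.finrank_self] using h
  have hcst : ((curveCst δ k : ℕ) : ℝ) * Real.sqrt p
      = M₁ * Real.sqrt p + ((M₂ : ℝ) + δ + 1) * Real.sqrt p + E * Real.sqrt p := by
    rw [curveCst, hE, hM₁, hM₂]; push_cast; ring
  have hE2 : E ≤ E * Real.sqrt p := le_mul_of_one_le_right (by positivity) hsp
  have n1 : 0 ≤ (M₁ : ℝ) * Real.sqrt p := by positivity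
  have n2 : 0 ≤ ((M₂ : ℝ) + δ + 1) * Real.sqrt p := by positivity
  refine ⟨?_, ?_⟩
  · rw [hcst]
    linarith [norm_le_norm_add_norm_sub (SI (p := p) L f 1) (∑ v ∈ pts P (ZMod p), ZMod.stdAddChar (f.eval v.1)), hone f]
  · rw [hcst, ← Real.norm_eq_abs, ← Complex.norm_real]
    have h := hone 0
    simp only [eval_zero, AddChar.map_zero_eq_one, sum_const, nsmul_eq_mul, mul_one] at h
    have h5 := norm_sub_le_norm_sub_add_norm_sub (((pts P (ZMod p)).card : ℂ)) (SI (p := p) L 0 1) (p : ℂ)
    rw [norm_sub_rev] at h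
    push_cast
    linarith

end Vale.Agent.P042.Curve
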