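import Vale.Agent.P042.Main

namespace Vale.Agent.P042.Gen

open Finset Polynomial MeasureTheory

/-- A periodic coefficient times a smooth function, summed over an interval. -/
lemma comp_est_gen (f f' Ψ : ℝ → ℂ) (x₀ X P : ℕ) (c : ℕ → ℂ) (Cm F L : ℝ) (hF : 0 ≤ F) (hL : 0 ≤ L)
    (hX : x₀ ≤ X) (hP : 1 ≤ P) (hPX : P ≤ X) (hcper : Function.Periodic c P)
    (hc : ∀ n, ‖c n‖ ≤ Cm)
    (hΨ : ∀ x ∈ Set.Icc (x₀ : ℝ) (2 * X), HasDerivAt Ψ (f x) x)
    (hf : ∀ x ∈ Set.Icc (x₀ : ℝ) (2 * X), HasDerivAt f (f' x) x)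
    (hfb : ∀ x ∈ Set.Icc (x₀ : ℝ) (2 * X), ‖f x‖ ≤ F)
    (hf'b : ∀ x ∈ Set.Icc (x₀ : ℝ) (2 * X), ‖f' x‖ ≤ L) :
    ‖(∑ i ∈ range (X - x₀), c (x₀ + i) * f ((x₀ + i : ℕ) : ℝ)) - avg P c * (Ψ X - Ψ x₀)‖
      ≤ Cm * P * (X * L + 3 * F) := by
  have hCm : 0 ≤ Cm := (norm_nonneg _).trans (hc 0)
  set len := (X - x₀) / P with hlen
  set rem := (X - x₀) % P with hrem
  have hdm : P * len + rem = X - x₀ := Nat.div_add_mod _ _
  have hremP : rem < P := Nat.mod_lt _ hP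
  have hX0R : (x₀ : ℝ) ≤ X := by exact_mod_cast hX
  have hx₀0 : (0 : ℝ) ≤ x₀ := Nat.cast_nonneg _
  have hPXR : (P : ℝ) ≤ X := by exact_mod_cast hPX
  have hdm' : (P : ℝ) * len + rem = (X : ℝ) - x₀ := by
    have := congrArg (Nat.cast (R := ℝ)) hdm
    rw [Nat.cast_sub hX] at this
    push_cast at this; exact this
  have hrem0 : (0 : ℝ) ≤ rem := Nat.cast_nonneg _
  have hremR : (rem : ℝ) ≤ P := by exact_mod_cast hremP.le
  have hΨlip : ∀ u v : ℝ, u ∈ Set.Icc (x₀ : ℝ) (2 * X) → v ∈ Set.Icc (x₀ : ℝ) (2 * X) →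
      ‖Ψ v - Ψ u‖ ≤ F * |v - u| := by
    intro u v hu hv
    have := (convex_Icc (x₀ : ℝ) (2 * X)).norm_image_sub_le_of_norm_hasDerivWithin_le
      (fun y hy => (hΨ y hy).hasDerivWithinAt) hfb hu hv
    rwa [Real.norm_eq_abs] at this
  have hinner : ∀ r ∈ range P,
      ‖(P : ℂ) * ∑ s ∈ range len, f ((x₀ + (r + P * s) : ℕ) : ℝ) - (Ψ X - Ψ x₀)‖
        ≤ (P : ℝ) * (X * L + 2 * F) := by
    intro r hr
    have hrP : (r : ℝ) ≤ P := by exact_mod_cast (mem_range.mp hr).le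
    have hr0 : (0 : ℝ) ≤ r := Nat.cast_nonneg r
    set a : ℝ := (x₀ : ℝ) + r with ha
    have hP0 : (0 : ℝ) ≤ P := Nat.cast_nonneg P
    have hlen0 : (0 : ℝ) ≤ (P : ℝ) * len := by positivity
    have hend : a + (P : ℝ) * len ≤ 2 * X := by linarith
    have hR := riemann Ψ f f' x₀ (2 * X) L hL hΨ hf hf'b P a hP0 len (by linarith) hend
    have e : ∑ s ∈ range len, f ((x₀ + (r + P * s) : ℕ) : ℝ) = ∑ s ∈ range len, f (a + P * s) := by
      refine sum_congr rfl fun s _ => ?_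
      congr 1; rw [ha]; push_cast; ring
    rw [e, show ((P : ℕ) : ℂ) = ((P : ℝ) : ℂ) by simp]
    have h2 := hΨlip (a + P * len) X ⟨by linarith, hend⟩ ⟨hX0R, by linarith⟩
    have h3 := hΨlip (x₀ : ℝ) a ⟨le_rfl, by linarith⟩ ⟨by linarith, by linarith⟩
    have h4 : |(X : ℝ) - (a + P * len)| ≤ P := by rw [abs_le]; constructor <;> linarith
    have h5 : |a - (x₀ : ℝ)| ≤ P := by rw [abs_le]; constructor <;> linarith
    set S := ((P : ℝ) : ℂ) * ∑ s ∈ range len, f (a + P * s)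
    calc ‖S - (Ψ X - Ψ x₀)‖
        = ‖(S - (Ψ (a + P * len) - Ψ a)) + (-(Ψ X - Ψ (a + P * len)) + -(Ψ a - Ψ x₀))‖ := by
          congr 1; ring
      _ ≤ ‖S - (Ψ (a + P * len) - Ψ a)‖ + (‖Ψ X - Ψ (a + P * len)‖ + ‖Ψ a - Ψ x₀‖) := by
          refine (norm_add_le _ _).trans (add_le_add le_rfl ((norm_add_le _ _).trans ?_))
          rw [norm_neg, norm_neg]
      _ ≤ len * (L * (P : ℝ) ^ 2) + (F * P + F * P) :=
          add_le_add hR (add_le_add (h2.trans (mul_le_mul_of_nonneg_left h4 hF))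
            (h3.trans (mul_le_mul_of_nonneg_left h5 hF)))
      _ = (P : ℝ) * ((P * len) * L + 2 * F) := by ring
      _ ≤ _ := by
          refine mul_le_mul_of_nonneg_left (add_le_add ?_ le_rfl) hP0
          exact mul_le_mul_of_nonneg_right (by linarith) hL
  have hPc : (P : ℂ) ≠ 0 := by exact_mod_cast (by omega : P ≠ 0)
  have hmain : ‖∑ r ∈ range P, ∑ s ∈ range len, c (x₀ + (r + P * s)) *
      f ((x₀ + (r + P * s) : ℕ) : ℝ) - avg P c * (Ψ X - Ψ x₀)‖
      ≤ Cm * P * (X * L + 2 * F) := by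
    have e1 : avg P c * (Ψ X - Ψ x₀) = ∑ r ∈ range P, c (x₀ + r) * ((Ψ X - Ψ x₀) / P) := by
      rw [← sum_mul, avg, ← sum_shift c P x₀ hcper]
      simp only [add_comm _ x₀]
      ring
    have e2 : ∀ r ∈ range P, ∑ s ∈ range len, c (x₀ + (r + P * s)) *
        f ((x₀ + (r + P * s) : ℕ) : ℝ)
        = c (x₀ + r) * ∑ s ∈ range len, f ((x₀ + (r + P * s) : ℕ) : ℝ) := by
      intro r _
      rw [mul_sum]
      refine sum_congr rfl fun s _ => ?_
      congr 1
      rw [← add_assoc, mul_comm]; exact hcper.nat_mul s _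
    rw [e1, sum_congr rfl e2, ← sum_sub_distrib]
    refine (norm_sum_le _ _).trans ((sum_le_card_nsmul _ _ (Cm * (X * L + 2 * F)) fun r hr => ?_).trans
      (le_of_eq ?_))
    · rw [← mul_sub, norm_mul]
      refine mul_le_mul (hc _) ?_ (norm_nonneg _) hCm
      have h := hinner r hr
      have hPr : (0 : ℝ) < P := by exact_mod_cast hP
      rw [← mul_le_mul_iff_right₀ hPr]
      refine le_trans (le_of_eq ?_) h
      rw [show (P : ℝ) = ‖(P : ℂ)‖ from (Complex.norm_natCast P).symm, ← norm_mul, mul_sub,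
        mul_div_cancel₀ _ hPc]
    · simp; ring
  have htail : ‖∑ i ∈ range rem, c (x₀ + (P * len + i)) *
      f ((x₀ + (P * len + i) : ℕ) : ℝ)‖ ≤ Cm * P * F := by
    refine (norm_sum_le _ _).trans ((sum_le_card_nsmul _ _ (Cm * F) fun i hi => ?_).trans ?_)
    · rw [norm_mul]
      refine mul_le_mul (hc _) (hfb _ ⟨by exact_mod_cast Nat.le_add_right _ _, ?_⟩) (norm_nonneg _) hCm
      have : x₀ + (P * len + i) ≤ X := by have := mem_range.mp hi; omega
      have h1 : ((x₀ + (P * len + i) : ℕ) : ℝ) ≤ X := by exact_mod_cast this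
      linarith
    · rw [card_range, nsmul_eq_mul]
      calc (rem : ℝ) * (Cm * F) ≤ P * (Cm * F) := mul_le_mul_of_nonneg_right hremR (by positivity)
        _ = _ := by ring
  have hsplit : ∑ i ∈ range (X - x₀), c (x₀ + i) * f ((x₀ + i : ℕ) : ℝ)
      = (∑ r ∈ range P, ∑ s ∈ range len, c (x₀ + (r + P * s)) *
        f ((x₀ + (r + P * s) : ℕ) : ℝ)) + ∑ i ∈ range rem, c (x₀ + (P * len + i)) *
        f ((x₀ + (P * len + i) : ℕ) : ℝ) :=
    split_range (fun i => c (x₀ + i) * f ((x₀ + i : ℕ) : ℝ)) (X - x₀) P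
  rw [hsplit, add_sub_right_comm]
  refine (norm_add_le _ _).trans ((add_le_add hmain htail).trans (le_of_eq ?_))
  ring

variable (g : ℤ[X])

/-- The weight, the density of `√(a x ^ K)` damped by a Gaussian. -/
noncomputable def wG (lam x : ℝ) : ℝ :=
  Real.sqrt (g.leadingCoeff : ℝ) * g.natDegree * x ^ ((g.natDegree : ℝ) / 2 - 1) *
    Real.exp (-lam * ((g.leadingCoeff : ℝ) * x ^ g.natDegree))

/-- The logarithmic derivative of `wG`. -/
noncomputable def lG (lam x : ℝ) : ℝ :=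
  ((g.natDegree : ℝ) / 2 - 1) / x
    - lam * (g.leadingCoeff : ℝ) * g.natDegree * x ^ (g.natDegree - 1)

/-- The smooth summand with the monomial phase. -/
noncomputable def smG (lam β x : ℝ) : ℂ :=
  ((wG g lam x : ℝ) : ℂ) * ee (β * ((g.leadingCoeff : ℝ) * x ^ g.natDegree))

lemma wG_hasDerivAt (lam x : ℝ) (hx : 0 < x) :
    HasDerivAt (wG g lam) (wG g lam x * lG g lam x) x := by
  have h1 := (Real.hasDerivAt_rpow_const (x := x) (p := (g.natDegree : ℝ) / 2 - 1)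
    (Or.inl hx.ne')).const_mul (Real.sqrt (g.leadingCoeff : ℝ) * g.natDegree)
  have h2 := ((((hasDerivAt_pow g.natDegree x).const_mul (g.leadingCoeff : ℝ)).const_mul (-lam))).exp
  refine (h1.mul h2).congr_deriv ?_
  simp only [wG, lG]
  rw [Real.rpow_sub_one hx.ne']
  ring

lemma smG_hasDerivAt (lam β x : ℝ) (hx : 0 < x) :
    HasDerivAt (smG g lam β) (smG g lam β x * ((lG g lam x : ℂ) + Complex.I *
      ((2 * Real.pi * β * ((g.leadingCoeff : ℝ) * g.natDegree * x ^ (g.natDegree - 1)) : ℝ) : ℂ))) x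
    := by
  have h1 := (wG_hasDerivAt g lam x hx).ofReal_comp
  have h2 := (ee_hasDerivAt β ((g.leadingCoeff : ℝ) * x ^ g.natDegree)).scomp x
    ((hasDerivAt_pow g.natDegree x).const_mul (g.leadingCoeff : ℝ))
  refine (h1.mul h2).congr_deriv ?_
  simp only [smG, Complex.real_smul, Function.comp]
  push_cast; ring

/-- An antiderivative of `smG`. -/
noncomputable def PsiG (lam β x : ℝ) : ℂ :=
  2 * ∫ v in (0 : ℝ)..(Real.sqrt (g.leadingCoeff : ℝ) * x ^ ((g.natDegree : ℝ) / 2)),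
    Complex.exp (-((lam : ℂ) - Complex.I * ((2 * Real.pi * β : ℝ) : ℂ)) * (v : ℂ) ^ 2)

lemma half_pow_sq (x : ℝ) (hx : 0 ≤ x) (K : ℕ) : (x ^ ((K : ℝ) / 2)) ^ 2 = x ^ K := by
  rw [← Real.rpow_natCast (x ^ ((K : ℝ) / 2)) 2, ← Real.rpow_mul hx, ← Real.rpow_natCast x K]
  congr 1; push_cast; ring

lemma PsiG_hasDerivAt (hl : 0 ≤ g.leadingCoeff) (lam β x : ℝ) (hx : 0 < x) :
    HasDerivAt (PsiG g lam β) (smG g lam β x) x := by
  have hc : Continuous (fun v : ℝ =>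
      Complex.exp (-((lam : ℂ) - Complex.I * ((2 * Real.pi * β : ℝ) : ℂ)) * (v : ℂ) ^ 2)) := by
    fun_prop
  have h1 := (Real.hasDerivAt_rpow_const (x := x) (p := (g.natDegree : ℝ) / 2)
    (Or.inl hx.ne')).const_mul (Real.sqrt (g.leadingCoeff : ℝ))
  have h2 := ((hc.integral_hasStrictDerivAt 0
    (Real.sqrt (g.leadingCoeff : ℝ) * x ^ ((g.natDegree : ℝ) / 2))).hasDerivAt.scomp x h1).const_mul
      (2 : ℂ)
  refine h2.congr_deriv ?_
  have e1 : ((Real.sqrt (g.leadingCoeff : ℝ) * x ^ ((g.natDegree : ℝ) / 2) : ℝ) : ℂ) ^ 2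
      = (((g.leadingCoeff : ℝ) * x ^ g.natDegree : ℝ) : ℂ) := by
    rw [← Complex.ofReal_pow, mul_pow, Real.sq_sqrt (by exact_mod_cast hl), half_pow_sq x hx.le]
  have e2 : ∀ u : ℝ, Complex.exp (-((lam : ℂ) - Complex.I * ((2 * Real.pi * β : ℝ) : ℂ)) * (u : ℂ))
      = ((Real.exp (-lam * u) : ℝ) : ℂ) * ee (β * u) := by
    intro u
    rw [ee, Complex.ofReal_exp, ← Complex.exp_add]
    congr 1; push_cast; ring
  rw [Complex.real_smul, e1, e2, smG, wG]
  push_cast; ring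

/-- The complete Gaussian integral. -/
noncomputable def J (lam β : ℝ) : ℂ :=
  ((Real.pi : ℂ) / ((lam : ℂ) - Complex.I * ((2 * Real.pi * β : ℝ) : ℂ))) ^ (1 / 2 : ℂ)

lemma zre (lam β : ℝ) : ((lam : ℂ) - Complex.I * ((2 * Real.pi * β : ℝ) : ℂ)).re = lam := by
  simp

lemma J_sq (lam β : ℝ) :
    J lam β ^ 2 = (Real.pi : ℂ) / ((lam : ℂ) - Complex.I * ((2 * Real.pi * β : ℝ) : ℂ)) := by
  rw [J, ← Complex.cpow_nat_mul]
  norm_num

lemma J_norm (lam β : ℝ) (hlam : 0 < lam) : ‖J lam β‖ ≤ Real.sqrt (Real.pi / lam) := by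
  refine Real.le_sqrt_of_sq_le ?_
  rw [← norm_pow, J_sq, norm_div, Complex.norm_real, Real.norm_eq_abs, abs_of_pos Real.pi_pos]
  refine div_le_div_of_nonneg_left Real.pi_pos.le hlam ?_
  refine le_trans ?_ (Complex.re_le_norm _)
  rw [zre]

lemma J_re_nonneg (lam β : ℝ) (hlam : 0 < lam) : 0 ≤ (J lam β).re := by
  have hz : ((Real.pi : ℂ) / ((lam : ℂ) - Complex.I * ((2 * Real.pi * β : ℝ) : ℂ))) ≠ 0 := by
    refine div_ne_zero (by exact_mod_cast Real.pi_ne_zero) (fun h => ?_)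
    have := congrArg Complex.re h
    rw [zre, Complex.zero_re] at this
    linarith
  rw [J, Complex.cpow_def_of_ne_zero hz, Complex.exp_re]
  refine mul_nonneg (Real.exp_pos _).le (Real.cos_nonneg_of_mem_Icc ?_)
  simp [Complex.log_im, Complex.mul_im]
  have h1 := Complex.arg_le_pi
    ((Real.pi : ℂ) / ((lam : ℂ) - Complex.I * ((2 * Real.pi * β : ℝ) : ℂ)))
  have h2 := Complex.neg_pi_lt_arg
    ((Real.pi : ℂ) / ((lam : ℂ) - Complex.I * ((2 * Real.pi * β : ℝ) : ℂ)))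
  push_cast at h1 h2
  constructor <;> linarith

lemma J_cone (lam β : ℝ) (hlam : 0 < lam) : |(J lam β).im| ≤ (J lam β).re := by
  have h := congrArg Complex.re (J_sq lam β)
  have h2 : 0 ≤ ((Real.pi : ℂ) / ((lam : ℂ) - Complex.I * ((2 * Real.pi * β : ℝ) : ℂ))).re := by
    rw [Complex.div_re, zre]
    simp only [Complex.ofReal_re, Complex.ofReal_im, zero_mul, zero_div, add_zero]
    exact div_nonneg (by positivity) (Complex.normSq_nonneg _)
  rw [pow_two, Complex.mul_re] at h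
  refine abs_le_of_sq_le_sq ?_ (J_re_nonneg lam β hlam)
  nlinarith

lemma J_zero (lam : ℝ) (hlam : 0 < lam) : Real.sqrt (1 / lam) ≤ (J lam 0).re := by
  have h := congrArg Complex.re (J_sq lam 0)
  rw [pow_two, Complex.mul_re] at h
  have h2 : ((Real.pi : ℂ) / ((lam : ℂ) - Complex.I * ((2 * Real.pi * (0 : ℝ) : ℝ) : ℂ))).re
      = Real.pi / lam := by
    simp [← Complex.ofReal_div]
  rw [h2] at h
  rw [← Real.sqrt_sq (J_re_nonneg lam 0 hlam)]
  refine Real.sqrt_le_sqrt ?_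
  have h3 : 1 / lam ≤ Real.pi / lam :=
    div_le_div_of_nonneg_right (by linarith [Real.two_le_pi]) hlam.le
  nlinarith [mul_self_nonneg (J lam 0).im]

lemma re_mul_nonneg {w z : ℂ} (hw : |w.im| ≤ w.re) (hz : |z.im| ≤ z.re) : 0 ≤ (w * z).re := by
  rw [Complex.mul_re]
  have h := mul_le_mul hw hz (abs_nonneg _) ((abs_nonneg _).trans hw)
  rw [← abs_mul] at h
  linarith [le_abs_self (w.im * z.im)]

lemma PsiG_low (lam β x : ℝ) (hlam : 0 ≤ lam) (hx : 0 ≤ x) :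
    ‖PsiG g lam β x‖ ≤ 2 * (Real.sqrt (g.leadingCoeff : ℝ) * x ^ ((g.natDegree : ℝ) / 2)) := by
  rw [PsiG, norm_mul, Complex.norm_two]
  refine mul_le_mul_of_nonneg_left ?_ zero_le_two
  refine (intervalIntegral.norm_integral_le_of_norm_le_const (C := 1) fun v _ => ?_).trans
    (le_of_eq ?_)
  · rw [Complex.norm_exp, ← Complex.ofReal_pow, Complex.re_mul_ofReal, Complex.neg_re, zre]
    refine Real.exp_le_one_iff.mpr ?_
    nlinarith [sq_nonneg v]
  · rw [sub_zero, one_mul, abs_of_nonneg (by positivity)]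

lemma PsiG_high (lam β x : ℝ) (hlam : 0 < lam) (hx : 0 ≤ x) :
    ‖PsiG g lam β x - J lam β‖ ≤ 2 * (Real.exp (-(lam / 2) *
      (Real.sqrt (g.leadingCoeff : ℝ) * x ^ ((g.natDegree : ℝ) / 2)) ^ 2)
        * Real.sqrt (2 * Real.pi / lam)) := by
  set z := (lam : ℂ) - Complex.I * ((2 * Real.pi * β : ℝ) : ℂ) with hz
  set U := Real.sqrt (g.leadingCoeff : ℝ) * x ^ ((g.natDegree : ℝ) / 2) with hU
  have hU0 : 0 ≤ U := by positivity
  have hzre : 0 < z.re := by rw [hz, zre]; exact hlam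
  have hint := integrable_cexp_neg_mul_sq hzre
  have hG : J lam β = 2 * ∫ v in Set.Ioi (0 : ℝ), Complex.exp (-z * (v : ℂ) ^ 2) := by
    rw [integral_gaussian_complex_Ioi hzre, J, ← hz]; ring
  rw [PsiG, ← hz, ← hU, hG, ← mul_sub, norm_mul, Complex.norm_two,
    ← intervalIntegral.integral_interval_add_Ioi hint.integrableOn hint.integrableOn (a := 0) (b := U),
    sub_add_cancel_left, norm_neg]
  refine mul_le_mul_of_nonneg_left ?_ zero_le_two
  have hint2 := integrable_exp_neg_mul_sq (half_pos hlam)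
  have hint3 := hint2.const_mul (Real.exp (-(lam / 2) * U ^ 2))
  refine (norm_integral_le_of_norm_le hint3.integrableOn ?_).trans ?_
  · refine (ae_restrict_iff' measurableSet_Ioi).mpr (Filter.Eventually.of_forall fun v hv => ?_)
    rw [Complex.norm_exp, ← Complex.ofReal_pow, Complex.re_mul_ofReal, Complex.neg_re, hz, zre,
      ← Real.exp_add]
    refine Real.exp_le_exp.mpr ?_
    have : U ^ 2 ≤ v ^ 2 := pow_le_pow_left₀ hU0 (le_of_lt hv) 2
    nlinarith
  · refine (setIntegral_le_integral hint3 (Filter.Eventually.of_forall fun v =>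
      (mul_pos (Real.exp_pos _) (Real.exp_pos _)).le)).trans (le_of_eq ?_)
    rw [integral_const_mul, integral_gaussian]
    congr 2
    field_simp

end Vale.Agent.P042.Gen
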