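import Vale.Agent.P042.GenLocal
import Vale.Agent.P042.Odd
import Vale.Agent.P042.Roots

namespace Vale.Agent.P042.Gen

open Finset Polynomial

lemma periodic_modEq {β : Type*} {f : ℕ → β} {P : ℕ} (hf : Function.Periodic f P) {a b : ℕ}
    (h : a ≡ b [MOD P]) : f a = f b := by
  rw [← hf.map_mod_nat a, ← hf.map_mod_nat b]
  exact congrArg f h

/-- The shift that moves the chosen root modulo `p ^ j` to the origin. -/
def shift (z : ℕ → ℕ → ℕ) (p j : ℕ) : ℕ := p ^ j - z p j % p ^ j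

/-- Densities concentrated near the chosen `p`-adic roots. -/
noncomputable def dens (h : ℤ[X]) (σ : ℕ → ℝ) (hσ : ∀ p, 0 ≤ σ p) (z : ℕ → ℕ → ℕ) : Dens h where
  δ p j n := dodd (σ p) p j (n + shift z p j)
  per p j _ n := by
    simp only []
    rw [add_right_comm]
    exact dodd_periodic (σ p) p j _
  mean p j hp hj n := by
    simp only [add_right_comm n _ (shift z p j)]
    exact dodd_mean (σ p) p j hp hj _
  sup p j hp _ n := by
    have := dodd_sup (σ p) (hσ p) p j hp (n + shift z p j)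
    simpa using this

section LocalBounds

variable (h : ℤ[X]) (σ : ℕ → ℝ) (hσ : ∀ p, 0 ≤ σ p) (z : ℕ → ℕ → ℕ)

lemma avg_recenter {p i : ℕ} (hp : p.Prime) (t : ℤ) (F : ℕ → ℂ) (hF : Function.Periodic F (p ^ i)) :
    avg (p ^ i) (fun n => F n * ch (p ^ i) (t * h.eval (n : ℤ))) =
      avg (p ^ i) (fun m => F (m + z p i) *
        ch (p ^ i) (t * (taylor (z p i : ℤ) h).eval (m : ℤ))) := by
  have hper : Function.Periodic (fun n : ℕ => F n * ch (p ^ i) (t * h.eval (n : ℤ))) (p ^ i) := by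
    intro n
    simp only []
    rw [hF n]
    congr 1
    simpa [eval_mul, eval_C] using
      ch_eval_periodic (Nat.one_le_pow _ _ hp.pos) (Polynomial.C t * h) n
  rw [avg, avg, ← sum_shift _ (p ^ i) (z p i) hper]
  congr 1
  refine sum_congr rfl fun m _ => ?_
  rw [taylor_eval]
  push_cast
  rfl

lemma avg_delta {p i j : ℕ} (hp : p.Prime) (hji : j ≤ i)
    (hz : z p i ≡ z p j [MOD p ^ j]) (t : ℤ) :
    avg (p ^ i) (fun n => ((dens h σ hσ z).δ p j n : ℂ) * ch (p ^ i) (t * h.eval (n : ℤ))) =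
      ((ρp (σ p) p ^ j : ℝ) : ℂ) * (gG (taylor (z p i : ℤ) h) p i t j
        - gG (taylor (z p i : ℤ) h) p i t (j - 1)) := by
  rw [avg_recenter h z hp t _ (fun n => by
    rw [periodic_of_dvd ((dens h σ hσ z).per p j hp) (pow_dvd_pow p hji) n]),
    ← avg_term_eq]
  congr 1
  funext m
  congr 2
  refine periodic_modEq (dodd_periodic (σ p) p j) ?_
  have hb : z p j % p ^ j < p ^ j := Nat.mod_lt _ (pow_pos hp.pos j)
  have h1 : z p i + shift z p j ≡ 0 [MOD p ^ j] := by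
    refine (Nat.ModEq.add_right _ (hz.trans (Nat.mod_modEq _ _).symm)).trans ?_
    rw [shift, Nat.add_sub_cancel' hb.le]
    exact Nat.modEq_zero_iff_dvd.mpr dvd_rfl
  have h2 := h1.add_left m
  rw [add_zero, ← add_assoc] at h2
  exact h2

lemma locS_eq {p i : ℕ} (hp : p.Prime) (hz : ∀ j ≤ i, z p i ≡ z p j [MOD p ^ j]) (t : ℤ) :
    locS (dens h σ hσ z) p i t =
      (∑ j ∈ range i, ((ρp (σ p) p ^ j - ρp (σ p) p ^ (j + 1) : ℝ) : ℂ) *
          gG (taylor (z p i : ℤ) h) p i t j)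
        + ((ρp (σ p) p ^ i : ℝ) : ℂ) * gG (taylor (z p i : ℤ) h) p i t i := by
  rw [← abel_identity, locS]
  congr 1
  · have := avg_recenter h z hp t (fun _ => 1) (fun _ => rfl) (i := i)
    simpa [gG, dlt] using this
  · exact sum_congr rfl fun j hj =>
      avg_delta h σ hσ z hp (mem_Icc.mp hj).2 (hz j (mem_Icc.mp hj).2) t

end LocalBounds

lemma gG_eq_one' (g : ℤ[X]) (e p i j : ℕ) (hlow : ∀ t < e, ((p ^ i : ℕ) : ℤ) ∣ g.coeff t) (a : ℤ)
    (hp : p.Prime) (hji : j ≤ i) (hej : i ≤ e * j) : gG g p i a j = 1 := by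
  rw [gG, avg_dlt p i j hp hji, avg]
  have : ∀ m : ℕ, ch (p ^ i) (a * g.eval ((p ^ j * m : ℕ) : ℤ)) = 1 := by
    intro m
    rw [ch_congr (Nat.one_le_pow _ _ hp.pos) (y := 0), ch]
    · simp [ee_zero]
    · rw [sub_zero]
      refine Dvd.dvd.mul_left ?_ _
      rw [eval_eq_sum_range]
      refine dvd_sum fun t _ => ?_
      rcases Nat.lt_or_ge t e with ht | ht
      · exact (hlow t ht).mul_right _
      · refine Dvd.dvd.mul_left ?_ _
        push_cast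
        rw [mul_pow, ← pow_mul]
        refine Dvd.dvd.mul_right (pow_dvd_pow _ (hej.trans ?_)) _
        rw [mul_comm]; exact Nat.mul_le_mul_left j ht
  simp only [this, sum_const, card_range, nsmul_eq_mul, mul_one]
  exact div_self (by exact_mod_cast (pow_pos hp.pos _).ne')

lemma gG_bound' {k : ℕ} {θ C : ℝ} (hCB : CB k θ C) (g : ℤ[X]) (hdeg : g.natDegree ≤ k) {e N : ℕ}
    (hN : 1 ≤ N) (he : 1 ≤ e) (hek : e ≤ k) {p i : ℕ} (hp : p.Prime)
    (hlow : ∀ t < e, ((p ^ i : ℕ) : ℤ) ∣ g.coeff t)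
    (htop : ∀ q r : ℕ, r ≤ i → ((p ^ r : ℕ) : ℤ) ∣ (q : ℤ) * g.coeff e → p ^ r ∣ q * N)
    (j : ℕ) (a : ℤ) (hpa : ¬ (p : ℤ) ∣ a) (hej : e * j < i) :
    ‖gG g p i a j‖ ≤ C * (N : ℝ) ^ θ * ((p : ℝ) ^ (-θ)) ^ (i - e * j) := by
  obtain ⟨hθ, hC, hcb⟩ := hCB
  have hje : j ≤ e * j := Nat.le_mul_of_pos_left j he
  rw [gG, avg_dlt p i j hp (by omega)]
  set r := i - e * j with hr
  set Q : ℤ[X] := ∑ t ∈ range (k + 1),
    if e ≤ t then monomial t (g.coeff t * (p : ℤ) ^ (j * (t - e))) else 0 with hQ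
  have hcoef : Q.coeff e = g.coeff e := by
    rw [hQ, finsetSum_coeff, sum_eq_single_of_mem e (mem_range.mpr (by omega))]
    · simp
    · intro t _ hte
      split_ifs
      · rw [coeff_monomial, if_neg hte]
      · simp
  have hQdeg : (Polynomial.C a * Q).natDegree ≤ k := by
    refine (natDegree_C_mul_le _ _).trans ?_
    refine natDegree_sum_le_of_forall_le _ _ fun t ht => ?_
    split_ifs
    · exact (natDegree_monomial_le _).trans (Nat.lt_succ_iff.mp (mem_range.mp ht))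
    · simp
  have hcong : ∀ m : ℕ, ((p ^ i : ℕ) : ℤ) ∣
      g.eval ((p ^ j * m : ℕ) : ℤ) - (p : ℤ) ^ (e * j) * Q.eval (m : ℤ) := by
    intro m
    rw [eval_eq_sum_range' (Nat.lt_succ_of_le hdeg), hQ, eval_finsetSum, mul_sum,
      ← sum_sub_distrib]
    refine dvd_sum fun t _ => ?_
    split_ifs with hte
    · have e1 : ((p ^ j * m : ℕ) : ℤ) ^ t
          = (p : ℤ) ^ (e * j) * ((p : ℤ) ^ (j * (t - e)) * (m : ℤ) ^ t) := by
        push_cast
        rw [mul_pow, ← mul_assoc, ← pow_add, ← pow_mul]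
        congr 2
        rw [mul_comm e j, ← Nat.mul_add]
        congr 1; omega
      rw [eval_monomial, e1]
      exact ⟨0, by ring⟩
    · rw [eval_zero, mul_zero, sub_zero]
      exact (hlow t (by omega)).mul_right _
  have hfun : ∀ m : ℕ, ch (p ^ i) (a * g.eval ((p ^ j * m : ℕ) : ℤ))
      = ch (p ^ r) ((Polynomial.C a * Q).eval (m : ℤ)) := by
    intro m
    rw [ch_congr (Nat.one_le_pow _ _ hp.pos)
      (y := a * ((p : ℤ) ^ (e * j) * Q.eval (m : ℤ))) (by rw [← mul_sub]; exact (hcong m).mul_left a),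
      eval_mul, eval_C, ch, ch]
    congr 1
    have hpi : (p : ℝ) ^ i = (p : ℝ) ^ (e * j) * (p : ℝ) ^ r := by
      rw [← pow_add]; congr 1; omega
    have hpR : (p : ℝ) ≠ 0 := by exact_mod_cast hp.ne_zero
    push_cast
    rw [hpi]
    field_simp
  simp only [hfun]
  have hsp : p ^ (i - j) = p ^ r * p ^ (e * j - j) := by rw [← pow_add]; congr 1; omega
  rw [hsp, avg_periodic_mul _ (p ^ r) _ (Nat.one_le_pow _ _ hp.pos)
    (ch_eval_periodic (Nat.one_le_pow _ _ hp.pos) _)]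
  refine (hcb _ hQdeg (p ^ r) (Nat.one_le_pow _ _ hp.pos) e he N hN (fun q hq hdiv => ?_)).trans
    (le_of_eq ?_)
  · rw [coeff_C_mul, hcoef, mul_left_comm] at hdiv
    have hco : IsCoprime ((p ^ r : ℕ) : ℤ) a := by
      push_cast
      exact ((Nat.prime_iff_prime_int.mp hp).coprime_iff_not_dvd.mpr hpa).pow_left
    rw [mul_comm N q]
    exact Nat.le_of_dvd (by positivity) (htop q r (Nat.sub_le _ _) (hco.dvd_of_dvd_mul_left hdiv))
  · push_cast
    rw [Real.div_rpow (Nat.cast_nonneg N) (by positivity), Real.rpow_pow_comm (Nat.cast_nonneg p),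
      Real.rpow_neg (by positivity)]
    ring

/-- The data of `Roots.root_data`, packed for all primes at once. -/
def RootData (h : ℤ[X]) (z : ℕ → ℕ → ℕ) (e : ℕ → ℕ) (N : ℕ) : Prop :=
  1 ≤ N ∧ ∀ p : ℕ, p.Prime → 1 ≤ e p ∧ e p ≤ h.natDegree ∧
    (∀ i j : ℕ, j ≤ i → z p i ≡ z p j [MOD p ^ j]) ∧
    ∀ i : ℕ, (∀ t < e p, ((p ^ i : ℕ) : ℤ) ∣ (taylor (z p i : ℤ) h).coeff t) ∧
      ∀ q r : ℕ, r ≤ i → ((p ^ r : ℕ) : ℤ) ∣ (q : ℤ) * (taylor (z p i : ℤ) h).coeff (e p) →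
        p ^ r ∣ q * N

theorem exists_rootData (h : ℤ[X]) (hk : 1 ≤ h.natDegree)
    (hint : ∀ q : ℕ, 1 ≤ q → ∃ t : ℤ, (q : ℤ) ∣ h.eval t) : ∃ z e N, RootData h z e N := by
  obtain ⟨N, hN, hd⟩ := Roots.root_data h hk hint
  choose! z e hd using hd
  exact ⟨z, e, N, hN, fun p hp => hd p hp⟩

lemma loc_bound {k : ℕ} {θ C : ℝ} (hCB : CB k θ C) {h : ℤ[X]} (hdeg : h.natDegree = k)
    {z : ℕ → ℕ → ℕ} {e : ℕ → ℕ} {N : ℕ} (hR : RootData h z e N) (σ : ℕ → ℝ) (hσ : ∀ p, 0 ≤ σ p)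
    (hσ' : ∀ p, σ p ≤ θ / 2) {p i : ℕ} (hp : p.Prime) (hi : 1 ≤ i) (t : ℤ) (ht : ¬ (p : ℤ) ∣ t) :
    ∃ R : ℝ, 0 ≤ R ∧ R ≤ ρp (σ p) p ∧ ‖locS (dens h σ hσ z) p i t - (R : ℂ)‖ ≤
      R * ((1 - ρp (σ p) p) * (C * (N : ℝ) ^ θ / (1 - (2 : ℝ) ^ (-(θ / 2))))
        * (p : ℝ) ^ (-(θ / 2))) := by
  obtain ⟨hθ, hC1, -⟩ := id hCB
  obtain ⟨hN, hRp⟩ := hR
  obtain ⟨he1, hek, hz, hco⟩ := hRp p hp
  obtain ⟨hlow, htop⟩ := hco i
  set g := taylor (z p i : ℤ) h with hg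
  have hgdeg : g.natDegree ≤ k := by rw [hg, natDegree_taylor, hdeg]
  rw [locS_eq h σ hσ z hp (hz i) t, ← hg]
  set ρ := ρp (σ p) p with hρ
  set G := gG g p i t with hG
  set w := (2 : ℝ) ^ (-(θ / 2)) with hw
  set K₀ := C * (N : ℝ) ^ θ with hK₀
  have hK0 : 0 ≤ K₀ := by positivity
  have hp1 : (1 : ℝ) < p := by exact_mod_cast hp.one_lt
  have hρ0 : 0 < ρ := by rw [hρ, ρp]; positivity
  have hρ1 : ρ ≤ 1 := Real.rpow_le_one_of_one_le_of_nonpos hp1.le (by linarith [hσ p])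
  have hw1 : w < 1 := Real.rpow_lt_one_of_one_lt_of_neg (by norm_num) (by linarith)
  have hex : ∃ j, i ≤ e p * j := ⟨i, Nat.le_mul_of_pos_left i he1⟩
  set m := Nat.find hex with hm
  have hm1 : 1 ≤ m := by
    by_contra h0
    have h1 := Nat.find_spec hex
    rw [← hm, show m = 0 by omega, mul_zero] at h1
    omega
  have hmi : m ≤ i := Nat.find_min' hex (Nat.le_mul_of_pos_left i he1)
  have hone : ∀ j, m ≤ j → j ≤ i → G j = 1 := fun j hj hji =>
    gG_eq_one' g (e p) p i j hlow t hp hji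
      ((Nat.find_spec hex).trans (Nat.mul_le_mul_left (e p) hj))
  refine ⟨ρ ^ m, by positivity, ?_, ?_⟩
  · calc ρ ^ m ≤ ρ ^ 1 := pow_le_pow_of_le_one hρ0.le hρ1 hm1
      _ = ρ := pow_one ρ
  rw [hone i hmi le_rfl, mul_one]
  have htel : ∑ j ∈ Ico m i, ((ρ ^ j - ρ ^ (j + 1) : ℝ) : ℂ) * G j
      = ((ρ ^ m : ℝ) : ℂ) - ((ρ ^ i : ℝ) : ℂ) := by
    rw [sum_congr rfl (fun j hj => by
      rw [hone j (mem_Ico.mp hj).1 (mem_Ico.mp hj).2.le, mul_one]), sum_Ico_eq_sum_range]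
    have h1 := sum_range_sub' (fun j => ((ρ ^ (m + j) : ℝ) : ℂ)) (i - m)
    rw [Nat.add_sub_cancel' hmi, add_zero] at h1
    rw [← h1]
    refine sum_congr rfl fun j _ => ?_
    rw [add_assoc]; push_cast; ring
  rw [← sum_range_add_sum_Ico _ hmi, htel]
  set S := ∑ j ∈ range m, ((ρ ^ j - ρ ^ (j + 1) : ℝ) : ℂ) * G j with hS
  rw [show S + (((ρ ^ m : ℝ) : ℂ) - ((ρ ^ i : ℝ) : ℂ)) + ((ρ ^ i : ℝ) : ℂ) - ((ρ ^ m : ℝ) : ℂ) = S
    by ring]
  set x := (p : ℝ) ^ (-θ) / ρ with hx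
  have hx0 : 0 ≤ x := by positivity
  have hxp : x ≤ (p : ℝ) ^ (-(θ / 2)) := by
    rw [hx, hρ, ρp, ← Real.rpow_sub (by linarith)]
    exact Real.rpow_le_rpow_of_exponent_le hp1.le (by linarith [hσ' p])
  have hxw : x ≤ w := hxp.trans (Real.rpow_le_rpow_of_nonpos (by norm_num)
    (by exact_mod_cast hp.two_le) (by linarith))
  have hterm : ∀ j ∈ range m, ‖((ρ ^ j - ρ ^ (j + 1) : ℝ) : ℂ) * G j‖
      ≤ (1 - ρ) * K₀ * ρ ^ m * x ^ (m - j) := by
    intro j hj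
    have hjm := mem_range.mp hj
    have hej : e p * j < i := not_le.mp (Nat.find_min hex hjm)
    have hm1' : e p * (m - 1) < i := not_le.mp (Nat.find_min hex (by omega))
    have hr : m - j ≤ i - e p * j := by
      have h1 : e p * (m - 1) = e p * (m - 1 - j) + e p * j := by
        rw [← Nat.mul_add]; congr 1; omega
      have h2 : m - 1 - j ≤ e p * (m - 1 - j) := Nat.le_mul_of_pos_left _ he1
      omega
    have hpθ0 : 0 ≤ (p : ℝ) ^ (-θ) := by positivity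
    have hpθ1 : (p : ℝ) ^ (-θ) ≤ 1 := Real.rpow_le_one_of_one_le_of_nonpos hp1.le (by linarith)
    have hb : ‖G j‖ ≤ K₀ * (ρ ^ (m - j) * x ^ (m - j)) := by
      refine (gG_bound' hCB g hgdeg hN he1 (hek.trans hdeg.le) hp hlow htop j t ht hej).trans
        (mul_le_mul_of_nonneg_left ?_ hK0)
      rw [← mul_pow, hx, mul_div_cancel₀ _ hρ0.ne']
      exact pow_le_pow_of_le_one hpθ0 hpθ1 hr
    have hc : 0 ≤ ρ ^ j - ρ ^ (j + 1) :=
      sub_nonneg.mpr (pow_le_pow_of_le_one hρ0.le hρ1 (by omega))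
    rw [norm_mul, Complex.norm_real, Real.norm_eq_abs, abs_of_nonneg hc]
    refine (mul_le_mul_of_nonneg_left hb hc).trans (le_of_eq ?_)
    have e1 : ρ ^ m = ρ ^ j * ρ ^ (m - j) := by rw [← pow_add]; congr 1; omega
    rw [e1]; ring
  have hsum : ∑ j ∈ range m, x ^ (m - j) ≤ x / (1 - w) := by
    have e2 : ∑ j ∈ range m, x ^ (m - j) = x * ∑ j ∈ range m, x ^ j := by
      rw [mul_sum, ← sum_range_reflect]
      refine sum_congr rfl fun j hj => ?_
      rw [← pow_succ']; congr 1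
      have := mem_range.mp hj; omega
    rw [e2, div_eq_mul_inv]
    refine mul_le_mul_of_nonneg_left ?_ hx0
    have h1 := geom_sum_mul_neg x m
    have hpos : 0 < 1 - w := by linarith
    rw [inv_eq_one_div, le_div_iff₀ hpos]
    have : 0 ≤ ∑ j ∈ range m, x ^ j := sum_nonneg fun j _ => pow_nonneg hx0 j
    nlinarith [pow_nonneg hx0 m]
  calc ‖S‖ ≤ ∑ j ∈ range m, (1 - ρ) * K₀ * ρ ^ m * x ^ (m - j) :=
        (norm_sum_le _ _).trans (sum_le_sum hterm)
    _ = (1 - ρ) * K₀ * ρ ^ m * ∑ j ∈ range m, x ^ (m - j) := by rw [mul_sum]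
    _ ≤ (1 - ρ) * K₀ * ρ ^ m * ((p : ℝ) ^ (-(θ / 2)) / (1 - w)) := by
        refine mul_le_mul_of_nonneg_left (hsum.trans ?_)
          (mul_nonneg (mul_nonneg (by linarith) hK0) (by positivity))
        exact div_le_div_of_nonneg_right hxp (by linarith)
    _ = _ := by ring

lemma absSum_local {k : ℕ} {θ C : ℝ} (hCB : CB k θ C) {h : ℤ[X]} (hk : 1 ≤ k)
    (hdeg : h.natDegree = k)
    {z : ℕ → ℕ → ℕ} {e : ℕ → ℕ} {N : ℕ} (hR : RootData h z e N) (σ : ℕ → ℝ) (hσ : ∀ p, 0 ≤ σ p)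
    {p i : ℕ} (hp : p.Prime) (s x : ℝ)
    (hx : ρp (σ p) p * (p : ℝ) ^ s ≤ x) (hx1 : x < 1) (t : ℤ) (ht : ¬ (p : ℤ) ∣ t) :
    absSum (dens h σ hσ z) s (p ^ i) t ≤
      C * (((h.leadingCoeff.natAbs : ℕ) : ℝ) / ((p : ℝ) ^ i)) ^ θ + 2 * x / (1 - x) := by
  have hρ0 : 0 ≤ ρp (σ p) p := by unfold ρp; positivity
  have hx0 : 0 ≤ x := le_trans (by positivity) hx
  obtain ⟨-, -, hz, -⟩ := hR.2 p hp
  rw [absSum, Nat.sum_divisors_prime_pow hp, sum_range_succ', add_comm]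
  refine add_le_add ?_ ?_
  · have hco : IsCoprime t ((p ^ i : ℕ) : ℤ) := by
      push_cast
      exact (((Nat.prime_iff_prime_int.mp hp).coprime_iff_not_dvd.mpr ht).symm).pow_right
    have := term_weyl (dens h σ hσ z) hCB hk hdeg (Nat.one_le_pow i _ hp.pos) (one_dvd _) hco
    simpa using this
  · have hb : ∀ j ∈ range i, ‖term (dens h σ hσ z) (p ^ i) (p ^ (j + 1)) t‖ *
        (((p ^ (j + 1) : ℕ)) : ℝ) ^ s ≤ 2 * x ^ (j + 1) := by
      intro j hj
      have hji : j + 1 ≤ i := mem_range.mp hj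
      rw [term]
      simp only [wt_prime_pow _ hp (show 1 ≤ j + 1 by omega)]
      rw [avg_delta h σ hσ z hp hji (hz i (j + 1) hji) t, norm_mul, Complex.norm_real,
        Real.norm_eq_abs, abs_of_nonneg (pow_nonneg hρ0 _)]
      have e1 : (((p ^ (j + 1) : ℕ)) : ℝ) ^ s = ((p : ℝ) ^ s) ^ (j + 1) := by
        push_cast; rw [Real.rpow_pow_comm (Nat.cast_nonneg p)]
      rw [e1, mul_comm (2 : ℝ), mul_right_comm, ← mul_pow]
      refine mul_le_mul (pow_le_pow_left₀ (by positivity) hx _) ?_ (norm_nonneg _) (by positivity)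
      refine (norm_sub_le _ _).trans ?_
      have := norm_gG_le_one (taylor (z p i : ℤ) h) p i (j + 1) t hp hji
      have := norm_gG_le_one (taylor (z p i : ℤ) h) p i (j + 1 - 1) t hp (by omega)
      linarith
    refine (sum_le_sum hb).trans ?_
    simp only [pow_succ', ← mul_assoc]
    rw [← mul_sum, div_eq_mul_inv]
    refine mul_le_mul_of_nonneg_left ?_ (by positivity)
    have h1 := geom_sum_mul_neg x i
    have hpos : 0 < 1 - x := by linarith
    rw [inv_eq_one_div, le_div_iff₀ hpos]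
    linarith [pow_nonneg hx0 i]

end Vale.Agent.P042.Gen
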