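import Vale.Agent.P042.Local

namespace Vale.Agent.P042.Gen

open Finset Polynomial

/-- Densities at every prime power, without positivity requirements. -/
structure Dens (g : ℤ[X]) where
  δ : ℕ → ℕ → ℕ → ℝ
  per : ∀ p j : ℕ, p.Prime → Function.Periodic (δ p j) (p ^ j)
  mean : ∀ p j : ℕ, p.Prime → 1 ≤ j → ∀ n, ∑ s ∈ range p, δ p j (n + p ^ (j - 1) * s) = 0
  sup : ∀ p j : ℕ, p.Prime → 1 ≤ j → ∀ n, |δ p j n| ≤ (((p ^ j : ℕ)) : ℝ)

variable {g : ℤ[X]} (L : Dens g)

/-- The weight attached to the modulus `f`. -/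
noncomputable def wt (f n : ℕ) : ℝ := f.factorization.prod fun p j => L.δ p j n

lemma wt_one (n : ℕ) : wt L 1 n = 1 := by simp [wt]

lemma wt_prime_pow {p j : ℕ} (hp : p.Prime) (hj : 1 ≤ j) (n : ℕ) :
    wt L (p ^ j) n = L.δ p j n := by
  rw [wt, hp.factorization_pow, Finsupp.prod, Finsupp.support_single_ne_zero _ (by omega),
    prod_singleton, Finsupp.single_eq_same]

lemma wt_mul {a b : ℕ} (h : a.Coprime b) (n : ℕ) : wt L (a * b) n = wt L a n * wt L b n := by
  rw [wt, wt, wt, Nat.factorization_mul_of_coprime h, Finsupp.prod_add_index_of_disjoint]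
  simpa [Nat.support_factorization] using h.disjoint_primeFactors

lemma periodic_of_dvd {β : Type*} {F : ℕ → β} {d m : ℕ} (h : Function.Periodic F d) (hd : d ∣ m) :
    Function.Periodic F m := by
  obtain ⟨k, rfl⟩ := hd
  rw [mul_comm]; exact h.nat_mul k

lemma prime_of_mem_support {f p : ℕ} (hp : p ∈ f.factorization.support) : p.Prime :=
  Nat.prime_of_mem_primeFactors hp

lemma wt_periodic {f : ℕ} (_hf : 1 ≤ f) : Function.Periodic (wt L f) f := fun n =>
  prod_congr rfl fun p hp => periodic_of_dvd (L.per p _ (prime_of_mem_support hp))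
    (Nat.ordProj_dvd f p) n

lemma abs_wt_le {f : ℕ} (hf : 1 ≤ f) (n : ℕ) : |wt L f n| ≤ (f : ℝ) := by
  rw [wt, Finsupp.prod, abs_prod]
  refine (prod_le_prod (fun _ _ => abs_nonneg _) (fun p hp => L.sup p _ (prime_of_mem_support hp)
    (Nat.one_le_iff_ne_zero.mpr (Finsupp.mem_support_iff.mp hp)) n)).trans (le_of_eq ?_)
  exact_mod_cast Nat.prod_factorization_pow_eq_self (n := f) (by omega)

/-- The local factor of modulus `f` at the fraction `a / q`. -/
noncomputable def term (q f : ℕ) (a : ℤ) : ℂ :=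
  avg q fun n => (wt L f n : ℂ) * ch q (a * g.eval (n : ℤ))

lemma term_summand_periodic {q f : ℕ} (hq : 1 ≤ q) (hf : 1 ≤ f) (hfq : f ∣ q) (a : ℤ) :
    Function.Periodic (fun n : ℕ => (wt L f n : ℂ) * ch q (a * g.eval (n : ℤ))) q := by
  intro n
  simp only []
  rw [periodic_of_dvd (wt_periodic L hf) hfq n]
  congr 1
  simpa [eval_mul, eval_C] using ch_eval_periodic hq (Polynomial.C a * g) n

lemma avg_wt_eq_zero {f q : ℕ} (hf : 1 ≤ f) (hq : 1 ≤ q) (h : ¬ f ∣ q) (a : ℤ) :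
    avg (f * q) (fun n => (wt L f n : ℂ) * ch q (a * g.eval (n : ℤ))) = 0 := by
  rw [← Nat.factorization_le_iff_dvd (by omega) (by omega)] at h
  have : ∃ p, q.factorization p < f.factorization p := by
    by_contra hc; push Not at hc; exact h hc
  obtain ⟨p, hp⟩ := this
  have hps : p ∈ f.factorization.support := by rw [Finsupp.mem_support_iff]; omega
  have hpp : p.Prime := prime_of_mem_support hps
  set j := f.factorization p with hj
  set v := q.factorization p with hv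
  have hfe : p ^ j * (f / p ^ j) = f := Nat.ordProj_mul_ordCompl_eq_self f p
  have hqe : p ^ v * (q / p ^ v) = q := Nat.ordProj_mul_ordCompl_eq_self q p
  set L' := (f / p ^ j) * (q / p ^ v) with hL'
  have hL'p : ¬ p ∣ L' := by
    rw [hL', hpp.dvd_mul]
    exact not_or.mpr ⟨Nat.not_dvd_ordCompl hpp (by omega), Nat.not_dvd_ordCompl hpp (by omega)⟩
  set t := p ^ (j - 1) * L' with ht
  set rest : ℕ → ℂ := fun n =>
    ((∏ x ∈ f.factorization.support.erase p, L.δ x (f.factorization x) n : ℝ) : ℂ)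
      * ch q (a * g.eval (n : ℤ)) with hrest
  have hsplit : ∀ n, (wt L f n : ℂ) * ch q (a * g.eval (n : ℤ)) = (L.δ p j n : ℂ) * rest n := by
    intro n
    rw [hrest, wt, Finsupp.prod, ← mul_prod_erase _ _ hps, Complex.ofReal_mul, hj, mul_assoc]
  have hqt : q ∣ t := by
    rw [ht, hL', ← hqe]
    have : p ^ v ∣ p ^ (j - 1) := pow_dvd_pow p (by omega)
    rw [hqe]
    calc q = p ^ v * (q / p ^ v) := hqe.symm
      _ ∣ p ^ (j - 1) * ((f / p ^ j) * (q / p ^ v)) := mul_dvd_mul this (dvd_mul_left _ _)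
  have hrper : Function.Periodic rest t := by
    intro n
    simp only [hrest]
    congr 1
    · congr 1
      refine prod_congr rfl fun x hx => ?_
      obtain ⟨hxp, hxs⟩ := mem_erase.mp hx
      have hxpr := prime_of_mem_support hxs
      refine periodic_of_dvd (L.per x _ hxpr) ?_ n
      have h1 : x ^ f.factorization x ∣ p ^ j * (f / p ^ j) := by
        rw [hfe]; exact Nat.ordProj_dvd f x
      have h2 := (Nat.Coprime.pow (f.factorization x) j ((Nat.coprime_primes hxpr hpp).mpr hxp)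
        ).dvd_of_dvd_mul_left h1
      exact h2.trans (dvd_mul_of_dvd_right (dvd_mul_right _ _) _)
    · simpa [eval_mul, eval_C] using periodic_of_dvd (ch_eval_periodic hq (Polynomial.C a * g)) hqt n
  have hFper : Function.Periodic (fun n => (wt L f n : ℂ) * ch q (a * g.eval (n : ℤ))) (f * q) := by
    intro n
    simp only []
    rw [periodic_of_dvd (wt_periodic L hf) (dvd_mul_right f q) n]
    congr 1
    simpa [eval_mul, eval_C] using
      periodic_of_dvd (ch_eval_periodic hq (Polynomial.C a * g)) (dvd_mul_left q f) n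
  have hinner : ∀ n, ∑ s ∈ range p, L.δ p j (n + s * t) = 0 := by
    intro n
    have him : (range p).image (fun s => s * L' % p) = range p := by
      refine eq_of_subset_of_card_le (fun x hx => ?_) (le_of_eq ?_)
      · obtain ⟨s, _, rfl⟩ := mem_image.mp hx
        exact mem_range.mpr (Nat.mod_lt _ hpp.pos)
      · rw [card_image_of_injOn]
        intro s hs s' hs' he
        have : s ≡ s' [MOD p] :=
          Nat.ModEq.cancel_right_of_coprime ((Nat.Prime.coprime_iff_not_dvd hpp).mpr hL'p) he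
        exact this.eq_of_lt_of_lt (mem_range.mp hs) (mem_range.mp hs')
    have := L.mean p j hpp (by omega) n
    rw [← him, sum_image] at this
    · refine Eq.trans (sum_congr rfl fun s _ => ?_) this
      have e : n + s * t = (n + p ^ (j - 1) * (s * L' % p)) + (s * L' / p) * p ^ j := by
        have h1 := Nat.mod_add_div (s * L') p
        have h2 : p ^ j = p ^ (j - 1) * p := by rw [← pow_succ]; congr 1; omega
        rw [h2, ht]
        calc n + s * (p ^ (j - 1) * L') = n + p ^ (j - 1) * (s * L') := by ring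
          _ = n + p ^ (j - 1) * (s * L' % p + p * (s * L' / p)) := by rw [h1]
          _ = _ := by ring
      rw [e]
      exact (L.per p j hpp).nat_mul (s * L' / p) _
    · intro s hs s' hs' he
      have : s ≡ s' [MOD p] :=
        Nat.ModEq.cancel_right_of_coprime ((Nat.Prime.coprime_iff_not_dvd hpp).mpr hL'p) he
      exact this.eq_of_lt_of_lt (mem_range.mp hs) (mem_range.mp hs')
  have hzero : (p : ℂ) * ∑ n ∈ range (f * q), (wt L f n : ℂ) * ch q (a * g.eval (n : ℤ)) = 0 := by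
    calc (p : ℂ) * ∑ n ∈ range (f * q), (wt L f n : ℂ) * ch q (a * g.eval (n : ℤ))
        = ∑ s ∈ range p, ∑ n ∈ range (f * q), (L.δ p j (n + s * t) : ℂ) * rest n := by
          rw [show (p : ℂ) * _ = ∑ _s ∈ range p, _ from (by rw [sum_const, card_range, nsmul_eq_mul])]
          refine sum_congr rfl fun s _ => ?_
          rw [← sum_shift _ (f * q) (s * t) hFper]
          refine sum_congr rfl fun n _ => ?_
          have := hrper.nat_mul s n
          simp only [Nat.cast_id] at this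
          rw [hsplit, this]
      _ = ∑ n ∈ range (f * q), ((∑ s ∈ range p, L.δ p j (n + s * t) : ℝ) : ℂ) * rest n := by
          rw [sum_comm]; push_cast; simp_rw [sum_mul]
      _ = 0 := by simp [hinner]
  rw [avg, (mul_eq_zero.mp hzero).resolve_left (by exact_mod_cast hpp.ne_zero), zero_div]

/-- The full local sum at `a / q`. -/
noncomputable def gsum (q : ℕ) (a : ℤ) : ℂ := ∑ f ∈ q.divisors, term L q f a

lemma split_coprime {m n : ℕ} (a : ℤ) (hm : 1 ≤ m) (hn : 1 ≤ n) (h : m.Coprime n)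
    (ha : IsCoprime a ((m * n : ℕ) : ℤ)) :
    ∃ a₁ a₂ : ℤ, IsCoprime a₁ (m : ℤ) ∧ IsCoprime a₂ (n : ℤ) ∧
      ∀ x : ℤ, ch (m * n) (a * x) = ch m (a₁ * x) * ch n (a₂ * x) := by
  obtain ⟨x, y, hxy⟩ := Int.isCoprime_iff_nat_coprime.mpr (show Nat.Coprime (m : ℤ).natAbs
    (n : ℤ).natAbs by simpa using h)
  push_cast at ha
  refine ⟨a * y, a * x, ?_, ?_, fun z => ?_⟩
  · exact IsCoprime.mul_left (ha.of_mul_right_left) ⟨(n : ℤ), x, by linear_combination hxy⟩
  · exact IsCoprime.mul_left (ha.of_mul_right_right) ⟨(m : ℤ), y, by linear_combination hxy⟩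
  · rw [ch, ch, ch, ← ee_add]
    congr 1
    have : ((x : ℝ) * m + y * n) = 1 := by exact_mod_cast hxy
    have hm0 : (m : ℝ) ≠ 0 := by exact_mod_cast (by omega : m ≠ 0)
    have hn0 : (n : ℝ) ≠ 0 := by exact_mod_cast (by omega : n ≠ 0)
    push_cast
    field_simp
    linear_combination (-((a : ℝ) * z)) * this

lemma term_mul {m n f₁ f₂ : ℕ} (hm : 1 ≤ m) (hn : 1 ≤ n) (h : m.Coprime n) (h₁ : f₁ ∣ m)
    (h₂ : f₂ ∣ n) (a a₁ a₂ : ℤ) (hch : ∀ x : ℤ, ch (m * n) (a * x) = ch m (a₁ * x) * ch n (a₂ * x)) :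
    term L (m * n) (f₁ * f₂) a = term L m f₁ a₁ * term L n f₂ a₂ := by
  have hf₁ : 1 ≤ f₁ := Nat.pos_of_dvd_of_pos h₁ hm
  have hf₂ : 1 ≤ f₂ := Nat.pos_of_dvd_of_pos h₂ hn
  rw [term, term, term, ← avg_crt hm hn h _ _ (term_summand_periodic L hm hf₁ h₁ a₁)
    (term_summand_periodic L hn hf₂ h₂ a₂)]
  congr 1
  funext x
  rw [wt_mul L ((h.coprime_dvd_left h₁).coprime_dvd_right h₂), hch, Complex.ofReal_mul]
  ring

lemma gsum_mul {m n : ℕ} (hm : 1 ≤ m) (hn : 1 ≤ n) (h : m.Coprime n) (a a₁ a₂ : ℤ)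
    (hch : ∀ x : ℤ, ch (m * n) (a * x) = ch m (a₁ * x) * ch n (a₂ * x)) :
    gsum L (m * n) a = gsum L m a₁ * gsum L n a₂ := by
  rw [gsum, gsum, gsum, sum_mul_sum, ← sum_product', Nat.Coprime.divisors_mul h, sum_map,
    ← sum_attach (m.divisors ×ˢ n.divisors)]
  refine sum_congr rfl fun x _ => ?_
  obtain ⟨h1, h2⟩ := mem_product.mp x.2
  exact term_mul L hm hn h (Nat.dvd_of_mem_divisors h1) (Nat.dvd_of_mem_divisors h2) a a₁ a₂ hch
/-- The truncated major-arc factor. -/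
noncomputable def major (D q : ℕ) (a : ℤ) : ℂ :=
  ∑ f ∈ Icc 1 D, avg (f * q) fun n => (wt L f n : ℂ) * ch q (a * g.eval (n : ℤ))

lemma major_eq {D q : ℕ} (hq : 1 ≤ q) (a : ℤ) :
    major L D q a = ∑ f ∈ q.divisors.filter (fun f => f ≤ D), term L q f a := by
  rw [major, ← sum_filter_of_ne (p := fun f => f ∣ q)]
  · refine sum_congr ?_ fun f hf => ?_
    · ext f
      simp only [mem_filter, mem_Icc, Nat.mem_divisors]
      constructor
      · rintro ⟨⟨h1, h2⟩, h3⟩; exact ⟨⟨h3, by omega⟩, h2⟩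
      · rintro ⟨⟨h1, h2⟩, h3⟩; exact ⟨⟨Nat.pos_of_dvd_of_pos h1 hq, h3⟩, h1⟩
    · have hfq : f ∣ q := Nat.dvd_of_mem_divisors (mem_filter.mp hf).1
      have hf1 := Nat.pos_of_dvd_of_pos hfq hq
      rw [mul_comm, avg_periodic_mul _ q f hf1 (term_summand_periodic L hq hf1 hfq a), term]
  · intro f hf hne
    by_contra hd
    exact hne (avg_wt_eq_zero L (mem_Icc.mp hf).1 hq hd a)


/-- The contribution of one prime power. -/
noncomputable def locS (p i : ℕ) (t : ℤ) : ℂ :=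
  avg (p ^ i) (fun n => ch (p ^ i) (t * g.eval (n : ℤ))) + ∑ j ∈ Icc 1 i,
    avg (p ^ i) (fun n => (L.δ p j n : ℂ) * ch (p ^ i) (t * g.eval (n : ℤ)))

lemma not_dvd_of_coprime {p i : ℕ} (hp : p.Prime) (hi : 1 ≤ i) {a : ℤ}
    (ha : IsCoprime a ((p ^ i : ℕ) : ℤ)) : ¬ (p : ℤ) ∣ a := by
  intro hdvd
  have hd2 : (p : ℤ) ∣ ((p ^ i : ℕ) : ℤ) := by
    push_cast; exact dvd_pow_self _ (by omega)
  have := ha.isUnit_of_dvd' hdvd hd2
  rw [Int.isUnit_iff] at this
  have := hp.two_le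
  omega

lemma gsum_prime_pow {p i : ℕ} (hp : p.Prime) (a : ℤ) : gsum L (p ^ i) a = locS L p i a := by
  rw [gsum, locS, Nat.sum_divisors_prime_pow hp, sum_range_succ', add_comm]
  congr 1
  · simp [term, wt_one]
  · rw [← Ico_add_one_right_eq_Icc, sum_Ico_eq_sum_range, Nat.add_sub_cancel]
    refine sum_congr rfl fun j _ => ?_
    rw [add_comm 1 j, term]
    congr 1; funext n
    rw [wt_prime_pow L hp (by omega)]

lemma term_one (a : ℤ) : term L 1 1 a = 1 := by
  have h1 : ch 1 (a * g.eval ((0 : ℕ) : ℤ)) = 1 := by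
    rw [ch, Nat.cast_one, div_one, ee_int]
  simp [term, avg, wt_one]
  simp at h1
  simp [h1]

lemma gsum_near (eB RB : ℕ → ℝ) (hR : ∀ p, 0 ≤ RB p)
    (hloc : ∀ p i : ℕ, p.Prime → 1 ≤ i → ∀ t : ℤ, ¬ (p : ℤ) ∣ t →
      ∃ R : ℝ, 0 ≤ R ∧ R ≤ RB p ∧ ‖locS L p i t - (R : ℂ)‖ ≤ R * eB p) :
    ∀ q : ℕ, 1 ≤ q → ∀ a : ℤ, IsCoprime a (q : ℤ) →
      ∃ R : ℝ, 0 ≤ R ∧ R ≤ ∏ p ∈ q.primeFactors, RB p ∧
        ‖gsum L q a - (R : ℂ)‖ ≤ R * (Real.exp (∑ p ∈ q.primeFactors, eB p) - 1) := by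
  intro q
  induction q using Nat.recOnPosPrimePosCoprime with
  | zero => intro h; omega
  | one =>
    intro _ a _
    exact ⟨1, zero_le_one, by simp, by simp [gsum, term_one]⟩
  | prime_pow p i hp hi =>
    intro _ a ha
    obtain ⟨R, hR0, hR1, hRb⟩ := hloc p i hp hi a (not_dvd_of_coprime hp hi ha)
    refine ⟨R, hR0, ?_, ?_⟩
    · rwa [Nat.primeFactors_prime_pow (by omega) hp, prod_singleton]
    · rw [Nat.primeFactors_prime_pow (by omega) hp, sum_singleton, gsum_prime_pow L hp]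
      refine hRb.trans (mul_le_mul_of_nonneg_left ?_ hR0)
      linarith [Real.add_one_le_exp (eB p)]
  | coprime m n hm hn h ihm ihn =>
    intro _ a ha
    obtain ⟨a₁, a₂, h1, h2, hch⟩ := split_coprime a hm.le hn.le h ha
    obtain ⟨R₁, p1, q1, b1⟩ := ihm hm.le a₁ h1
    obtain ⟨R₂, p2, q2, b2⟩ := ihn hn.le a₂ h2
    refine ⟨R₁ * R₂, mul_nonneg p1 p2, ?_, ?_⟩
    · rw [Nat.Coprime.primeFactors_mul h, prod_union h.disjoint_primeFactors]
      exact mul_le_mul q1 q2 p2 (prod_nonneg fun p _ => hR p)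
    · rw [Nat.Coprime.primeFactors_mul h, sum_union h.disjoint_primeFactors,
        gsum_mul L hm.le hn.le h a a₁ a₂ hch, Real.exp_add]
      set E₁ := Real.exp (∑ p ∈ m.primeFactors, eB p)
      set E₂ := Real.exp (∑ p ∈ n.primeFactors, eB p)
      set G₁ := gsum L m a₁
      set G₂ := gsum L n a₂
      have hG2 : ‖G₂‖ ≤ R₂ * E₂ := by
        have := norm_le_norm_sub_add G₂ (R₂ : ℂ)
        rw [Complex.norm_real, Real.norm_eq_abs, abs_of_nonneg p2] at this
        linarith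
      rw [show G₁ * G₂ - ((R₁ * R₂ : ℝ) : ℂ) = (G₁ - R₁) * G₂ + (R₁ : ℂ) * (G₂ - R₂) by
        push_cast; ring]
      refine (norm_add_le _ _).trans ?_
      rw [norm_mul, norm_mul, Complex.norm_real, Real.norm_eq_abs, abs_of_nonneg p1]
      have t1 := mul_le_mul b1 hG2 (norm_nonneg _) ((norm_nonneg _).trans b1)
      have t2 := mul_le_mul_of_nonneg_left b2 p1
      linarith

/-- The weighted sum of the absolute local factors. -/
noncomputable def absSum (s : ℝ) (q : ℕ) (a : ℤ) : ℝ :=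
  ∑ f ∈ q.divisors, ‖term L q f a‖ * (f : ℝ) ^ s

lemma absSum_bound (s : ℝ) (ZB : ℕ → ℝ) (hZ : ∀ p, 0 ≤ ZB p)
    (hloc : ∀ p i : ℕ, p.Prime → 1 ≤ i → ∀ t : ℤ, ¬ (p : ℤ) ∣ t → absSum L s (p ^ i) t ≤ ZB p) :
    ∀ q : ℕ, 1 ≤ q → ∀ a : ℤ, IsCoprime a (q : ℤ) → absSum L s q a ≤ ∏ p ∈ q.primeFactors, ZB p := by
  intro q
  induction q using Nat.recOnPosPrimePosCoprime with
  | zero => intro h; omega
  | one =>
    intro _ a _
    simp [absSum, term_one]
  | prime_pow p i hp hi =>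
    intro _ a ha
    rw [Nat.primeFactors_prime_pow (by omega) hp, prod_singleton]
    exact hloc p i hp hi a (not_dvd_of_coprime hp hi ha)
  | coprime m n hm hn h ihm ihn =>
    intro _ a ha
    obtain ⟨a₁, a₂, h1, h2, hch⟩ := split_coprime a hm.le hn.le h ha
    rw [Nat.Coprime.primeFactors_mul h, prod_union h.disjoint_primeFactors]
    have e : absSum L s (m * n) a = absSum L s m a₁ * absSum L s n a₂ := by
      rw [absSum, absSum, absSum, sum_mul_sum, ← sum_product', Nat.Coprime.divisors_mul h, sum_map,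
        ← sum_attach (m.divisors ×ˢ n.divisors)]
      refine sum_congr rfl fun x _ => ?_
      obtain ⟨d1, d2⟩ := mem_product.mp x.2
      show ‖term L (m * n) (x.1.1 * x.1.2) a‖ * ((x.1.1 * x.1.2 : ℕ) : ℝ) ^ s = _
      rw [term_mul L hm.le hn.le h (Nat.dvd_of_mem_divisors d1) (Nat.dvd_of_mem_divisors d2) a a₁ a₂
        hch, norm_mul, Nat.cast_mul, Real.mul_rpow (Nat.cast_nonneg _) (Nat.cast_nonneg _)]
      ring
    rw [e]
    exact mul_le_mul (ihm hm.le a₁ h1) (ihn hn.le a₂ h2)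
      (sum_nonneg fun _ _ => by positivity) (prod_nonneg fun p _ => hZ p)

/-- The bound for complete sums of degree at most `k`, with constants `θ` and `C`. -/
def CB (k : ℕ) (θ C : ℝ) : Prop :=
  0 < θ ∧ 1 ≤ C ∧ ∀ P : ℤ[X], P.natDegree ≤ k →
    ∀ Q : ℕ, 1 ≤ Q → ∀ i : ℕ, 1 ≤ i → ∀ d : ℕ, 1 ≤ d →
    (∀ q : ℕ, 1 ≤ q → (Q : ℤ) ∣ (q : ℤ) * P.coeff i → Q ≤ d * q) →
    ‖avg Q (fun n => ch Q (P.eval (n : ℤ)))‖ ≤ C * ((d : ℝ) / Q) ^ θ

theorem term_weyl {k : ℕ} {θ C₁ : ℝ} (hCB : CB k θ C₁) (hk : 1 ≤ k) (hdegk : g.natDegree = k)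
    {q f : ℕ} (hq : 1 ≤ q) (hf : f ∣ q) {a : ℤ} (ha : IsCoprime a (q : ℤ)) :
    ‖term L q f a‖ ≤ (f : ℝ) * (C₁ * (((g.leadingCoeff.natAbs * f ^ k : ℕ) : ℝ) / q) ^ θ) := by
  obtain ⟨hθ, hC₁, hcb⟩ := hCB
  have hg0 : g ≠ 0 := ne_zero_of_natDegree_gt (show 0 < g.natDegree by omega)
  have hl1 : 1 ≤ g.leadingCoeff.natAbs := Int.natAbs_pos.mpr (leadingCoeff_ne_zero.mpr hg0)
  have hf1 : 1 ≤ f := Nat.pos_of_dvd_of_pos hf hq
  subst hdegk
  set K := g.natDegree with hK
  have hg : 1 ≤ K := hk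
  set l : ℕ := g.leadingCoeff.natAbs with hl
  have e : term L q f a =
      avg f (fun r => (wt L f r : ℂ) * avg q (fun s => ch q (a * g.eval ((r + f * s : ℕ) : ℤ)))) := by
    rw [term, ← avg_periodic_mul _ q f hf1 (term_summand_periodic L hq hf1 hf a),
      mul_comm q f, avg, sum_range_mul', sum_comm, avg, sum_div, sum_div]
    refine sum_congr rfl fun r _ => ?_
    rw [avg, ← mul_div_assoc, div_div, mul_sum, Nat.cast_mul, mul_comm (q : ℂ)]
    congr 1
    refine sum_congr rfl fun s _ => ?_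
    congr 2
    rw [mul_comm]; exact (wt_periodic L hf1).nat_mul s r
  rw [e]
  refine norm_avg_le _ _ _ (by positivity) fun r => ?_
  rw [norm_mul, Complex.norm_real, Real.norm_eq_abs]
  refine mul_le_mul (abs_wt_le L hf1 r) ?_ (norm_nonneg _) (by positivity)
  set P := Polynomial.C a * (taylor (r : ℤ) g).comp (Polynomial.C (f : ℤ) * X) with hP
  have hev : ∀ s : ℕ, a * g.eval ((r + f * s : ℕ) : ℤ) = P.eval (s : ℤ) := by
    intro s; rw [hP]; simp [taylor_eval, add_comm]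
  simp only [hev]
  have hdeg : P.natDegree ≤ K := by
    refine (natDegree_C_mul_le _ _).trans ?_
    rw [natDegree_comp, natDegree_taylor]
    refine (Nat.mul_le_mul_left _ (natDegree_C_mul_le _ _)).trans ?_
    simp [hK]
  refine hcb P hdeg q hq K hg (l * f ^ K) (Nat.one_le_iff_ne_zero.mpr (by positivity))
    (fun q' hq' hd => ?_)
  rw [hP, coeff_C_mul, comp_C_mul_X_coeff, hK, coeff_taylor_natDegree, ← hK] at hd
  have hd2 : (q : ℤ) ∣ (q' : ℤ) * (g.leadingCoeff * (f : ℤ) ^ K) := by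
    refine (ha.symm).dvd_of_dvd_mul_left ?_
    rwa [mul_left_comm]
  have := Int.natAbs_dvd_natAbs.mpr hd2
  simp only [Int.natAbs_natCast, Int.natAbs_mul, Int.natAbs_pow, ← hl] at this
  refine (Nat.le_of_dvd (by positivity) this).trans (le_of_eq ?_)
  ring

end Vale.Agent.P042.Gen
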