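import Vale.Agent.P042.GenDens

namespace Vale.Agent.P042.Gen

open Finset Polynomial Filter

lemma exp_third : Real.exp (1 / 3) ≤ 3 / 2 := by
  have := Real.exp_bound_div_one_sub_of_interval (by norm_num : (0:ℝ) ≤ 1 / 3) (by norm_num)
  norm_num at this ⊢
  linarith

lemma one_div_one_sub_two_rpow (u : ℝ) (hu : 0 < u) :
    1 / (1 - (2 : ℝ) ^ (-u)) ≤ 1 + 1 / (Real.log 2 * u) := by
  have h2 : 0 < Real.log 2 := Real.log_pos (by norm_num)
  have hv : 0 < Real.log 2 * u := mul_pos h2 hu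
  set v := Real.log 2 * u
  have he : (2 : ℝ) ^ (-u) = Real.exp (-v) := by
    rw [Real.rpow_def_of_pos (by norm_num), mul_neg]
  have h3 : Real.exp (-v) ≤ 1 / (1 + v) := by
    rw [Real.exp_neg, one_div]
    exact inv_anti₀ (by linarith) (by linarith [Real.add_one_le_exp v])
  rw [he]
  have h4 : v / (1 + v) ≤ 1 - Real.exp (-v) := by
    have : v / (1 + v) = 1 - 1 / (1 + v) := by field_simp; ring
    linarith
  refine (one_div_le_one_div_of_le (by positivity) h4).trans (le_of_eq ?_)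
  field_simp
  ring

/-- The conclusion of the local analysis at one modulus. -/
def Good {h : ℤ[X]} (L : Dens h) (D : ℕ) (c : ℝ) : Prop :=
  ∀ q : ℕ, 1 ≤ q → ∀ a : ℤ, IsCoprime a (q : ℤ) →
    (|(major L D q a).im| ≤ (major L D q a).re ∧ ‖major L D q a‖ ≤ 2) ∨
      ‖major L D q a‖ ≤ Real.exp (-(Real.log D) ^ c)

/-- The parameters of the construction at one scale. -/
noncomputable def sg (θ η : ℝ) (Y : ℕ) (p : ℕ) : ℝ := if p ≤ Y then η / Y else θ / 2

lemma sg_nonneg {θ η : ℝ} (hθ : 0 ≤ θ) (hη : 0 ≤ η) (Y p : ℕ) : 0 ≤ sg θ η Y p := by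
  rw [sg]; split_ifs <;> positivity

lemma sg_le {θ η : ℝ} (hη : 0 ≤ η) (hηθ : η ≤ θ / 2) {Y : ℕ} (hY : 1 ≤ Y) (p : ℕ) :
    sg θ η Y p ≤ θ / 2 := by
  rw [sg]; split_ifs
  · exact (div_le_self hη (by exact_mod_cast hY)).trans hηθ
  · exact le_rfl

lemma card_small_le (Y : ℕ) (q : ℕ) : ((q.primeFactors.filter (fun p => p ≤ Y)).card : ℝ) ≤ Y := by
  have : (q.primeFactors.filter (fun p => p ≤ Y)).card ≤ (Icc 1 Y).card := card_le_card fun p hp => by
    obtain ⟨h1, h2⟩ := mem_filter.mp hp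
    exact mem_Icc.mpr ⟨(Nat.prime_of_mem_primeFactors h1).one_lt.le, h2⟩
  rw [Nat.card_Icc, Nat.add_sub_cancel] at this
  exact_mod_cast this

lemma gsum_dichotomy {k : ℕ} {θ C : ℝ} (hCB : CB k θ C) {h : ℤ[X]} (hdeg : h.natDegree = k)
    {z : ℕ → ℕ → ℕ} {e : ℕ → ℕ} {N : ℕ} (hR : RootData h z e N) (K₁ η : ℝ)
    (hK₁ : K₁ = C * (N : ℝ) ^ θ / (1 - (2 : ℝ) ^ (-(θ / 2)))) (hη : 0 < η) (hηθ : η ≤ θ / 2)
    (hηK : η ≤ θ / (12 * K₁)) (Y : ℕ) (hY : 1 ≤ Y)
    (hbig : (Y : ℝ) ^ (-(θ / 2)) * Real.exp K₁ ≤ Real.exp (-2))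
    (hu : 1 / 6 ≤ (Y : ℝ) ^ (θ / 2) / (6 * K₁))
    (hσ : ∀ p, 0 ≤ sg θ η Y p) (q : ℕ) (hq : 1 ≤ q) (a : ℤ) (ha : IsCoprime a (q : ℤ)) :
    (|(gsum (dens h (sg θ η Y) hσ z) q a).im| ≤ (gsum (dens h (sg θ η Y) hσ z) q a).re ∧
        ‖gsum (dens h (sg θ η Y) hσ z) q a‖ ≤ 2) ∨
      ‖gsum (dens h (sg θ η Y) hσ z) q a‖ ≤ Real.exp (-((Y : ℝ) ^ (θ / 2) / (6 * K₁))) := by
  obtain ⟨hθ, hC, -⟩ := id hCB
  have hw1 : (2 : ℝ) ^ (-(θ / 2)) < 1 :=
    Real.rpow_lt_one_of_one_lt_of_neg (by norm_num) (by linarith)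
  have hNR : (1 : ℝ) ≤ N := by exact_mod_cast hR.1
  have hK10 : 0 < K₁ := by
    rw [hK₁]; exact div_pos (by positivity) (by linarith)
  have hYR : (1 : ℝ) ≤ Y := by exact_mod_cast hY
  set b := (Y : ℝ) ^ (-(θ / 2)) with hb
  have hb0 : 0 < b := by positivity
  have hb1 : b ≤ 1 := Real.rpow_le_one_of_one_le_of_nonpos hYR (by linarith)
  set eB : ℕ → ℝ := fun p => if p ≤ Y then 1 / (6 * (Y : ℝ)) else K₁ * b with heB
  set RB : ℕ → ℝ := fun p => if p ≤ Y then 1 else b with hRB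
  have hloc : ∀ p i : ℕ, p.Prime → 1 ≤ i → ∀ t : ℤ, ¬ (p : ℤ) ∣ t →
      ∃ R : ℝ, 0 ≤ R ∧ R ≤ RB p ∧
        ‖locS (dens h (sg θ η Y) hσ z) p i t - (R : ℂ)‖ ≤ R * eB p := by
    intro p i hp hi t ht
    obtain ⟨R, h0, h1, h2⟩ := loc_bound hCB hdeg hR _ hσ (sg_le hη.le hηθ hY) hp hi t ht
    rw [← hK₁] at h2
    have hp1 : (1 : ℝ) < p := by exact_mod_cast hp.one_lt
    have hρ1 : ρp (sg θ η Y p) p ≤ 1 :=
      Real.rpow_le_one_of_one_le_of_nonpos hp1.le (by linarith [hσ p])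
    have hρ0 : 0 ≤ ρp (sg θ η Y p) p := by unfold ρp; positivity
    refine ⟨R, h0, h1.trans ?_, h2.trans (mul_le_mul_of_nonneg_left ?_ h0)⟩
    · simp only [hRB]
      split_ifs with hpY
      · exact hρ1
      · rw [ρp, sg, if_neg hpY, hb]
        exact Real.rpow_le_rpow_of_nonpos (by linarith) (by exact_mod_cast (Nat.le_of_not_le hpY))
          (by linarith)
    · simp only [heB]
      split_ifs with hpY
      · have h3 : 1 - ρp (sg θ η Y p) p ≤ η / Y * ((p : ℝ) ^ (θ / 2) / (θ / 2)) := by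
          rw [sg, if_pos hpY]
          have h4 : 1 - ρp (η / Y) p ≤ η / Y * Real.log p := by
            rw [ρp, Real.rpow_def_of_pos (by linarith)]
            have := Real.add_one_le_exp (Real.log p * -(η / Y))
            linarith
          exact h4.trans (mul_le_mul_of_nonneg_left
            (Real.log_le_rpow_div (Nat.cast_nonneg p) (by linarith)) (by positivity))
        calc (1 - ρp (sg θ η Y p) p) * K₁ * (p : ℝ) ^ (-(θ / 2))
            ≤ η / Y * ((p : ℝ) ^ (θ / 2) / (θ / 2)) * K₁ * (p : ℝ) ^ (-(θ / 2)) :=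
              mul_le_mul_of_nonneg_right (mul_le_mul_of_nonneg_right h3 hK10.le) (by positivity)
          _ = η * (2 * K₁ / θ) / Y * ((p : ℝ) ^ (θ / 2) * (p : ℝ) ^ (-(θ / 2))) := by
              field_simp
          _ = η * (2 * K₁ / θ) / Y := by
              rw [← Real.rpow_add (by linarith), add_neg_cancel, Real.rpow_zero, mul_one]
          _ ≤ θ / (12 * K₁) * (2 * K₁ / θ) / Y := by
              refine div_le_div_of_nonneg_right ?_ (by linarith)
              exact mul_le_mul_of_nonneg_right hηK (by positivity)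
          _ = 1 / (6 * (Y : ℝ)) := by field_simp; ring
      · have h3 : (p : ℝ) ^ (-(θ / 2)) ≤ b := Real.rpow_le_rpow_of_nonpos (by linarith)
          (by exact_mod_cast (Nat.le_of_not_le hpY)) (by linarith)
        exact mul_le_mul (mul_le_of_le_one_left hK10.le (by linarith)) h3 (by positivity) hK10.le
  obtain ⟨R, hR0, hR1, hRd⟩ := gsum_near (dens h (sg θ η Y) hσ z) eB RB
    (fun p => by simp only [hRB]; split_ifs <;> linarith) hloc q hq a ha
  set F := gsum (dens h (sg θ η Y) hσ z) q a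
  set ω : ℕ := (q.primeFactors.filter (fun p => ¬ p ≤ Y)).card with hω
  have hsplit : ∑ p ∈ q.primeFactors, eB p ≤ 1 / 6 + ω * (K₁ * b) := by
    rw [← sum_filter_add_sum_filter_not q.primeFactors (fun p => p ≤ Y)]
    refine add_le_add ?_ (le_of_eq ?_)
    · rw [sum_congr rfl (fun p hp => show eB p = 1 / (6 * (Y : ℝ)) by
        simp only [heB, if_pos (mem_filter.mp hp).2]), sum_const, nsmul_eq_mul]
      refine (mul_le_mul_of_nonneg_right (card_small_le Y q) (by positivity)).trans (le_of_eq ?_)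
      field_simp
    · rw [sum_congr rfl (fun p hp => show eB p = K₁ * b by
        simp only [heB, if_neg (mem_filter.mp hp).2]), sum_const, nsmul_eq_mul]
  have hprod : ∏ p ∈ q.primeFactors, RB p = b ^ ω := by
    rw [← prod_filter_mul_prod_filter_not q.primeFactors (fun p => p ≤ Y),
      prod_eq_one (fun p hp => by simp only [hRB, if_pos (mem_filter.mp hp).2]), one_mul,
      prod_congr rfl (fun p hp => show RB p = b by simp only [hRB, if_neg (mem_filter.mp hp).2]),
      prod_const]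
  have hF : ‖F‖ ≤ R * Real.exp (∑ p ∈ q.primeFactors, eB p) := by
    have := norm_le_norm_sub_add F (R : ℂ)
    rw [Complex.norm_real, Real.norm_eq_abs, abs_of_nonneg hR0] at this
    linarith
  rcases le_or_gt ((ω : ℝ) * (K₁ * b)) (1 / 6) with hc | hc
  · left
    have he : Real.exp (∑ p ∈ q.primeFactors, eB p) ≤ 3 / 2 :=
      (Real.exp_le_exp.mpr (by linarith)).trans exp_third
    have hd : ‖F - (R : ℂ)‖ ≤ R / 2 := hRd.trans (by
      have := mul_le_mul_of_nonneg_left he hR0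
      linarith)
    have h1 := (Complex.abs_im_le_norm (F - R)).trans hd
    have h2 := abs_le.mp ((Complex.abs_re_le_norm (F - R)).trans hd)
    simp only [Complex.sub_im, Complex.ofReal_im, sub_zero] at h1
    simp only [Complex.sub_re, Complex.ofReal_re] at h2
    refine ⟨by linarith, hF.trans ?_⟩
    have hR1' : R ≤ 1 := hR1.trans (hprod ▸ pow_le_one₀ hb0.le hb1)
    calc R * Real.exp (∑ p ∈ q.primeFactors, eB p) ≤ 1 * (3 / 2) :=
          mul_le_mul hR1' he (Real.exp_pos _).le zero_le_one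
      _ ≤ 2 := by norm_num
  · right
    set u := (Y : ℝ) ^ (θ / 2) / (6 * K₁)
    have hωu : u ≤ ω := by
      have hbb : b * (Y : ℝ) ^ (θ / 2) = 1 := by
        rw [hb, ← Real.rpow_add (by linarith), neg_add_cancel, Real.rpow_zero]
      rw [div_le_iff₀ (by positivity)]
      have h1 := mul_le_mul_of_nonneg_right hc.le
        (show 0 ≤ 6 * (Y : ℝ) ^ (θ / 2) by positivity)
      have h2 : (ω : ℝ) * (K₁ * b) * (6 * (Y : ℝ) ^ (θ / 2)) = (ω : ℝ) * (6 * K₁) := by
        linear_combination ((ω : ℝ) * K₁ * 6) * hbb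
      linarith
    refine hF.trans ?_
    calc R * Real.exp (∑ p ∈ q.primeFactors, eB p)
        ≤ b ^ ω * Real.exp (1 / 6 + ω * (K₁ * b)) := by
          refine mul_le_mul (hprod ▸ hR1) (Real.exp_le_exp.mpr hsplit) (Real.exp_pos _).le
            (by positivity)
      _ = Real.exp (1 / 6) * (b * Real.exp (K₁ * b)) ^ ω := by
          rw [Real.exp_add, mul_pow, ← Real.exp_nat_mul]; ring
      _ ≤ Real.exp (1 / 6) * Real.exp (-2) ^ ω := by
          refine mul_le_mul_of_nonneg_left (pow_le_pow_left₀ (by positivity) ?_ _) (Real.exp_pos _).le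
          refine le_trans ?_ hbig
          exact mul_le_mul_of_nonneg_left
            (Real.exp_le_exp.mpr (mul_le_of_le_one_right hK10.le hb1)) hb0.le
      _ = Real.exp (1 / 6 + ω * (-2)) := by rw [Real.exp_add, Real.exp_nat_mul]
      _ ≤ Real.exp (-u) := Real.exp_le_exp.mpr (by linarith)

lemma tail_bound {k : ℕ} {θ C : ℝ} (hCB : CB k θ C) (hk : 1 ≤ k) {h : ℤ[X]}
    (hdeg : h.natDegree = k) {z : ℕ → ℕ → ℕ} {e : ℕ → ℕ} {N : ℕ} (hR : RootData h z e N)
    (η : ℝ) (hη : 0 < η) (hη1 : η ≤ 1) (hηθ : η ≤ θ / 2) (Y : ℕ) (hY : 1 ≤ Y)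
    (hY1 : C * (h.leadingCoeff.natAbs : ℝ) ^ θ * (Y : ℝ) ^ (-θ) ≤ 1 / 2)
    (hY2 : (Y : ℝ) ^ (-(θ / 4)) ≤ 1 / 8)
    (hσ : ∀ p, 0 ≤ sg θ η Y p) (D q : ℕ) (hD : 1 ≤ D) (hDq : D ≤ q) (a : ℤ)
    (ha : IsCoprime a (q : ℤ)) :
    ‖major (dens h (sg θ η Y) hσ z) D q a‖ ≤
      C * (h.leadingCoeff.natAbs : ℝ) ^ θ * (D : ℝ) ^ (-(θ / 2)) +
      Real.exp (-(θ / (2 * (2 + k * θ)) * η / 2 * (Real.log D / Y)))
        * Real.exp ((C * (h.leadingCoeff.natAbs : ℝ) ^ θ + 2 + 4 / (η * Real.log 2)) * Y * Y) := by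
  obtain ⟨hθ, hC, -⟩ := id hCB
  set L := dens h (sg θ η Y) hσ z with hL
  set l : ℝ := (h.leadingCoeff.natAbs : ℝ) with hl
  have hl0 : 0 ≤ l := by positivity
  have hYR : (1 : ℝ) ≤ Y := by exact_mod_cast hY
  have hq : 1 ≤ q := le_trans hD hDq
  have hDR : (1 : ℝ) ≤ D := by exact_mod_cast hD
  have hl2 : 0 < Real.log 2 := Real.log_pos (by norm_num)
  set κ := θ / (2 * (2 + k * θ)) with hκ
  set W := (D : ℝ) ^ κ with hW
  have hW1 : 1 ≤ W := Real.one_le_rpow hDR (by positivity)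
  set s := η / (2 * (Y : ℝ)) with hs
  have hs0 : 0 < s := by positivity
  set Cs := C * l ^ θ + 2 + 4 / (η * Real.log 2) with hCs
  set ZB : ℕ → ℝ := fun p => if p ≤ Y then Cs * Y else 1 with hZB
  have hCs1 : 1 ≤ Cs := by
    have h1 : 0 ≤ C * l ^ θ := by positivity
    have h2 : 0 ≤ 4 / (η * Real.log 2) := by positivity
    linarith
  have hCsY : 1 ≤ Cs * Y := one_le_mul_of_one_le_of_one_le hCs1 hYR
  have hZ : ∀ p, 0 ≤ ZB p := fun p => by simp only [hZB]; split_ifs <;> linarith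
  have habs : absSum L s q a ≤ Real.exp (Cs * Y * Y) := by
    refine (absSum_bound L s ZB hZ ?_ q hq a ha).trans ?_
    · intro p i hp hi t ht
      have hp1 : (1 : ℝ) < p := by exact_mod_cast hp.one_lt
      have hCl : C * (l / (p : ℝ) ^ i) ^ θ ≤ C * l ^ θ * (p : ℝ) ^ (-θ) := by
        rw [mul_assoc]
        refine mul_le_mul_of_nonneg_left ?_ (by linarith)
        rw [Real.div_rpow hl0 (by positivity), div_eq_mul_inv,
          ← Real.rpow_neg (by positivity)]
        refine mul_le_mul_of_nonneg_left (Real.rpow_le_rpow_of_nonpos (by linarith) ?_ (by linarith))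
          (by positivity)
        exact le_self_pow₀ hp1.le (by omega)
      simp only [hZB]
      by_cases hpY : p ≤ Y
      · rw [if_pos hpY]
        set u := η / (2 * (Y : ℝ)) with hu
        have hx1 : (2 : ℝ) ^ (-u) < 1 := Real.rpow_lt_one_of_one_lt_of_neg (by norm_num) (by linarith)
        refine (absSum_local hCB hk hdeg hR _ hσ hp s ((2 : ℝ) ^ (-u)) ?_ hx1 t ht).trans ?_
        · rw [ρp, sg, if_pos hpY, ← Real.rpow_add (by linarith)]
          refine le_trans (le_of_eq ?_) (Real.rpow_le_rpow_of_nonpos (by norm_num)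
            (show (2 : ℝ) ≤ p by exact_mod_cast hp.two_le) (by linarith : -u ≤ 0))
          congr 1
          rw [hs, hu]; field_simp; ring
        have h1 : 2 * (2 : ℝ) ^ (-u) / (1 - (2 : ℝ) ^ (-u)) ≤ 2 * (1 + 1 / (Real.log 2 * u)) := by
          calc 2 * (2 : ℝ) ^ (-u) / (1 - (2 : ℝ) ^ (-u))
              ≤ 2 * 1 / (1 - (2 : ℝ) ^ (-u)) :=
                div_le_div_of_nonneg_right (by linarith) (by linarith)
            _ = 2 * (1 / (1 - (2 : ℝ) ^ (-u))) := by ring
            _ ≤ _ := mul_le_mul_of_nonneg_left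
                (one_div_one_sub_two_rpow u (by positivity)) (by norm_num)
        have h2 : 2 * (1 / (Real.log 2 * u)) = 4 / (η * Real.log 2) * Y := by
          rw [hu]; field_simp; ring
        have h3 : C * l ^ θ * (p : ℝ) ^ (-θ) ≤ C * l ^ θ :=
          mul_le_of_le_one_right (by positivity)
            (Real.rpow_le_one_of_one_le_of_nonpos hp1.le (by linarith))
        have h4 : C * l ^ θ + 2 ≤ (C * l ^ θ + 2) * Y :=
          le_mul_of_one_le_right (by positivity) hYR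
        rw [hCs]
        linarith
      · rw [if_neg hpY]
        have hpY' : (Y : ℝ) ≤ p := by exact_mod_cast (Nat.le_of_not_le hpY)
        have hxe : ρp (sg θ η Y p) p * (p : ℝ) ^ s ≤ 1 / 8 := by
          rw [ρp, sg, if_neg hpY, ← Real.rpow_add (by linarith)]
          refine le_trans ?_ hY2
          refine le_trans (Real.rpow_le_rpow_of_exponent_le hp1.le
            (show -(θ / 2) + s ≤ -(θ / 4) from ?_))
            (Real.rpow_le_rpow_of_nonpos (by linarith) hpY' (by linarith))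
          have : s ≤ η / 2 := by
            rw [hs]
            exact div_le_div_of_nonneg_left hη.le (by norm_num) (by linarith)
          linarith
        refine (absSum_local hCB hk hdeg hR _ hσ hp s (1 / 8) hxe (by norm_num) t ht).trans ?_
        have h3 : C * l ^ θ * (p : ℝ) ^ (-θ) ≤ 1 / 2 :=
          le_trans (mul_le_mul_of_nonneg_left
            (Real.rpow_le_rpow_of_nonpos (by linarith) hpY' (by linarith)) (by positivity)) hY1
        linarith [show (2 : ℝ) * (1 / 8) / (1 - 1 / 8) = 2 / 7 by norm_num]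
    · rw [← prod_filter_mul_prod_filter_not q.primeFactors (fun p => p ≤ Y),
        prod_congr rfl (fun p hp => show ZB p = Cs * Y by simp only [hZB, if_pos (mem_filter.mp hp).2]),
        prod_const, prod_eq_one (fun p hp => show ZB p = 1 by
          simp only [hZB, if_neg (mem_filter.mp hp).2]), mul_one]
      refine (pow_le_pow_left₀ (by linarith) (show Cs * Y ≤ Real.exp (Cs * Y) by
        linarith [Real.add_one_le_exp (Cs * (Y : ℝ))]) _).trans ?_
      rw [← Real.exp_nat_mul]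
      refine Real.exp_le_exp.mpr ?_
      rw [mul_comm]
      exact mul_le_mul_of_nonneg_left (card_small_le Y q) (by linarith)
  rw [major_eq L hq]
  refine (norm_sum_le _ _).trans ?_
  rw [← sum_filter_add_sum_filter_not (q.divisors.filter (fun f => f ≤ D))
    (fun f : ℕ => (f : ℝ) ≤ W)]
  refine add_le_add ?_ ?_
  · set S := (q.divisors.filter (fun f => f ≤ D)).filter (fun f : ℕ => (f : ℝ) ≤ W) with hS
    have hcard : (S.card : ℝ) ≤ W := by
      have h1 : S ⊆ Icc 1 ⌊W⌋₊ := fun f hf => by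
        obtain ⟨h1, h2⟩ := mem_filter.mp hf
        exact mem_Icc.mpr ⟨Nat.pos_of_mem_divisors (mem_filter.mp h1).1, Nat.le_floor h2⟩
      have h2 := card_le_card h1
      rw [Nat.card_Icc, Nat.add_sub_cancel] at h2
      exact le_trans (by exact_mod_cast h2) (Nat.floor_le (by linarith))
    refine (sum_le_card_nsmul _ _ (W * (C * ((l * W ^ k) / D) ^ θ)) fun f hf => ?_).trans ?_
    · obtain ⟨h1, h2⟩ := mem_filter.mp hf
      have hfq := Nat.dvd_of_mem_divisors (mem_filter.mp h1).1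
      refine (term_weyl L hCB hk hdeg hq hfq ha).trans ?_
      refine mul_le_mul h2 (mul_le_mul_of_nonneg_left ?_ (by linarith)) (by positivity) (by linarith)
      refine Real.rpow_le_rpow (by positivity) ?_ hθ.le
      push_cast
      refine div_le_div₀ (by positivity) (mul_le_mul_of_nonneg_left
        (pow_le_pow_left₀ (Nat.cast_nonneg f) h2 k) hl0) (by linarith) (by exact_mod_cast hDq)
    rw [nsmul_eq_mul]
    refine (mul_le_mul_of_nonneg_right hcard (by positivity)).trans (le_of_eq ?_)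
    have e1 : W * W * (W ^ k) ^ θ = (D : ℝ) ^ (θ / 2) := by
      rw [hW, ← Real.rpow_natCast ((D : ℝ) ^ κ) k, ← Real.rpow_mul (by linarith),
        ← Real.rpow_mul (by linarith), ← Real.rpow_add (by linarith), ← Real.rpow_add (by linarith)]
      congr 1
      rw [hκ]; field_simp
      ring
    rw [Real.div_rpow (by positivity) (by linarith), Real.mul_rpow hl0 (by positivity),
      Real.rpow_neg (by linarith)]
    have e2 : (D : ℝ) ^ θ = (D : ℝ) ^ (θ / 2) * (D : ℝ) ^ (θ / 2) := by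
      rw [← Real.rpow_add (by linarith)]; congr 1; ring
    rw [show W * (W * (C * (l ^ θ * (W ^ k) ^ θ / (D : ℝ) ^ θ)))
      = (W * W * (W ^ k) ^ θ) * C * l ^ θ / (D : ℝ) ^ θ by ring, e1, e2]
    field_simp
  · refine le_trans (sum_le_sum (g := fun f => W ^ (-s) * (‖term L q f a‖ * (f : ℝ) ^ s))
      fun f hf => ?_) ?_
    · have h2 : W ≤ (f : ℝ) := (not_le.mp (mem_filter.mp hf).2).le
      rw [← mul_assoc, mul_comm (W ^ (-s)), mul_assoc]
      refine le_mul_of_one_le_right (norm_nonneg _) ?_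
      rw [Real.rpow_neg (by linarith), ← div_eq_inv_mul, le_div_iff₀ (by positivity), one_mul]
      exact Real.rpow_le_rpow (by linarith) h2 hs0.le
    rw [← mul_sum]
    refine mul_le_mul ?_ ((sum_le_sum_of_subset_of_nonneg ((filter_subset _ _).trans
      (filter_subset _ _)) fun _ _ _ => by positivity).trans habs)
      (sum_nonneg fun _ _ => by positivity) (Real.exp_pos _).le
    rw [hW, ← Real.rpow_mul (by linarith), Real.rpow_def_of_pos (by linarith)]
    refine le_of_eq (congrArg Real.exp ?_)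
    rw [hs]; field_simp

theorem exists_good (k : ℕ) (hk : 1 ≤ k) : ∃ c : ℝ, 0 < c ∧ ∀ h : ℤ[X], h.natDegree = k →
    (∀ q : ℕ, 1 ≤ q → ∃ t : ℤ, (q : ℤ) ∣ h.eval t) →
    ∀ᶠ D : ℕ in atTop, ∃ L : Dens h, Good L D c := by
  obtain ⟨θ, hθ, C, hC, hcb⟩ := coeff_bound k
  have hCB : CB k θ C := ⟨hθ, hC, hcb⟩
  refine ⟨min (θ / 16) (1 / 2), lt_min (by positivity) (by norm_num), fun h hdeg hint => ?_⟩
  set c := min (θ / 16) (1 / 2) with hc
  obtain ⟨z, e, N, hR⟩ := exists_rootData h (hdeg ▸ hk) hint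
  have hw1 : (2 : ℝ) ^ (-(θ / 2)) < 1 :=
    Real.rpow_lt_one_of_one_lt_of_neg (by norm_num) (by linarith)
  set K₁ := C * (N : ℝ) ^ θ / (1 - (2 : ℝ) ^ (-(θ / 2))) with hK₁
  have hNR : (1 : ℝ) ≤ N := by exact_mod_cast hR.1
  have hK10 : 0 < K₁ := div_pos (by positivity) (by linarith)
  set η := min (min (θ / 2) (θ / (12 * K₁))) 1 with hηdef
  have hη : 0 < η := lt_min (lt_min (by linarith) (by positivity)) one_pos
  have hηθ : η ≤ θ / 2 := (min_le_left _ _).trans (min_le_left _ _)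
  have hηK : η ≤ θ / (12 * K₁) := (min_le_left _ _).trans (min_le_right _ _)
  have hη1 : η ≤ 1 := min_le_right _ _
  set l : ℝ := (h.leadingCoeff.natAbs : ℝ) with hl
  set a' := θ / (2 * (2 + k * θ)) * η / 2 with ha'
  have ha'0 : 0 < a' := by positivity
  set Cs := C * l ^ θ + 2 + 4 / (η * Real.log 2) with hCs
  have hl2 : 0 < Real.log 2 := Real.log_pos (by norm_num)
  have hlog : Tendsto (fun D : ℕ => Real.log (D : ℝ)) atTop atTop :=
    Real.tendsto_log_atTop.comp tendsto_natCast_atTop_atTop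
  have hY : Tendsto (fun D : ℕ => ((⌊Real.log (D : ℝ) ^ (1 / 4 : ℝ)⌋₊ : ℕ) : ℝ)) atTop atTop :=
    tendsto_natCast_atTop_atTop.comp (tendsto_nat_floor_atTop.comp
      ((tendsto_rpow_atTop (by norm_num : (0:ℝ) < 1 / 4)).comp hlog))
  have hneg : ∀ r : ℝ, 0 < r → ∀ ε : ℝ, 0 < ε → ∀ᶠ D : ℕ in atTop,
      ((⌊Real.log (D : ℝ) ^ (1 / 4 : ℝ)⌋₊ : ℕ) : ℝ) ^ (-r) ≤ ε := fun r hr ε hε =>
    (((tendsto_rpow_neg_atTop hr).comp hY).eventually (eventually_le_nhds hε))
  filter_upwards [hY.eventually (eventually_ge_atTop 1),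
    hneg (θ / 2) (by linarith) (Real.exp (-2) / Real.exp K₁) (by positivity),
    ((tendsto_rpow_atTop (by linarith : (0:ℝ) < θ / 2)).comp hY).eventually
      (eventually_ge_atTop K₁),
    hneg θ hθ (1 / (2 * (C * l ^ θ + 1))) (by positivity),
    hneg (θ / 4) (by linarith) (1 / 8) (by norm_num),
    ((tendsto_rpow_atTop (by positivity : (0:ℝ) < θ / 16)).comp hlog).eventually
      (eventually_ge_atTop (6 * K₁ * 2 ^ (θ / 2))),
    hlog.eventually (eventually_ge_atTop 1),
    ((tendsto_rpow_atTop (by norm_num : (0:ℝ) < 1 / 4)).comp hlog).eventually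
      (eventually_ge_atTop ((Cs + 2) / a')),
    ((tendsto_rpow_atTop (by norm_num : (0:ℝ) < 1 / 2)).comp hlog).eventually
      (eventually_ge_atTop (2 * (2 + C * l ^ θ) / θ + 2)),
    eventually_ge_atTop 1] with D hY1 hb1 hu1 hl1 hb8 hlc hΛ hΛ4 hΛ2 hD
  simp only [Function.comp] at hu1 hlc hΛ4 hΛ2
  set Λ := Real.log (D : ℝ) with hΛdef
  set Y := ⌊Λ ^ (1 / 4 : ℝ)⌋₊ with hYdef
  have hY1' : 1 ≤ Y := by exact_mod_cast hY1
  have hσ : ∀ p, 0 ≤ sg θ η Y p := fun p => sg_nonneg hθ.le hη.le Y p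
  refine ⟨dens h (sg θ η Y) hσ z, fun q hq a hcop => ?_⟩
  have hΛ4' : Λ ^ (1 / 4 : ℝ) < (Y : ℝ) + 1 := Nat.lt_floor_add_one _
  have hYle : (Y : ℝ) ≤ Λ ^ (1 / 4 : ℝ) := Nat.floor_le (by positivity)
  by_cases hqD : q ≤ D
  · have hmaj : major (dens h (sg θ η Y) hσ z) D q a = gsum (dens h (sg θ η Y) hσ z) q a := by
      rw [major_eq _ hq, gsum, filter_true_of_mem (fun f hf => (Nat.divisor_le hf).trans hqD)]
    rw [hmaj]
    refine (gsum_dichotomy hCB hdeg hR K₁ η hK₁ hη hηθ hηK Y hY1' ?_ ?_ hσ q hq a hcop).imp id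
      (fun hsm => hsm.trans (Real.exp_le_exp.mpr (neg_le_neg ?_)))
    · rwa [le_div_iff₀ (Real.exp_pos _)] at hb1
    · rw [div_le_div_iff₀ (by norm_num) (by positivity)]
      linarith
    · rw [le_div_iff₀ (by positivity)]
      have h1 : Λ ^ c * (6 * K₁) * 2 ^ (θ / 2) ≤ Λ ^ (θ / 8) := by
        calc Λ ^ c * (6 * K₁) * 2 ^ (θ / 2) = Λ ^ c * (6 * K₁ * 2 ^ (θ / 2)) := by ring
          _ ≤ Λ ^ (θ / 16) * Λ ^ (θ / 16) := mul_le_mul
              (Real.rpow_le_rpow_of_exponent_le hΛ (min_le_left _ _)) hlc (by positivity)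
              (by positivity)
          _ = Λ ^ (θ / 8) := by rw [← Real.rpow_add (by linarith)]; congr 1; ring
      have h2 : Λ ^ (θ / 8) ≤ (2 * (Y : ℝ)) ^ (θ / 2) := by
        calc Λ ^ (θ / 8) = (Λ ^ (1 / 4 : ℝ)) ^ (θ / 2) := by
              rw [← Real.rpow_mul (by linarith)]; congr 1; ring
          _ ≤ _ := Real.rpow_le_rpow (by positivity) (by linarith) (by linarith)
      rw [Real.mul_rpow (by norm_num) (Nat.cast_nonneg _)] at h2
      have h3 : 0 < (2 : ℝ) ^ (θ / 2) := by positivity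
      refine le_of_mul_le_mul_right ?_ h3
      linarith
  · right
    refine (tail_bound hCB hk hdeg hR η hη hη1 hηθ Y hY1' ?_ hb8 hσ D q hD (by omega) a hcop).trans ?_
    · refine (mul_le_mul_of_nonneg_left hl1 (by positivity)).trans ?_
      have h0 : 0 ≤ C * l ^ θ := by positivity
      rw [← hl, mul_one_div, div_le_div_iff₀ (by positivity) (by norm_num)]
      linarith
    set T := Λ ^ (1 / 2 : ℝ) with hT
    have hTT : T * T = Λ := by
      rw [hT, ← Real.rpow_add (by linarith)]; norm_num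
    have hT1 : 1 ≤ T := Real.one_le_rpow hΛ (by norm_num)
    have hYY : (Y : ℝ) * Y ≤ T := by
      refine (mul_le_mul hYle hYle (Nat.cast_nonneg _) (by positivity)).trans (le_of_eq ?_)
      rw [hT, ← Real.rpow_add (by linarith)]; norm_num
    have hmain : Λ ^ (1 / 4 : ℝ) * T ≤ Λ / Y := by
      rw [le_div_iff₀ (by linarith)]
      calc Λ ^ (1 / 4 : ℝ) * T * Y ≤ Λ ^ (1 / 4 : ℝ) * T * Λ ^ (1 / 4 : ℝ) :=
            mul_le_mul_of_nonneg_left hYle (by positivity)
        _ = Λ := by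
            rw [hT, ← Real.rpow_add (by linarith), ← Real.rpow_add (by linarith)]; norm_num
    have hCs0 : 0 ≤ Cs := by positivity
    have hsecond : Real.exp (-(a' * (Λ / Y))) * Real.exp (Cs * Y * Y) ≤ Real.exp (-(2 * T)) := by
      rw [← Real.exp_add]
      refine Real.exp_le_exp.mpr ?_
      have h1 : (Cs + 2) * T ≤ a' * (Λ ^ (1 / 4 : ℝ) * T) := by
        rw [← mul_assoc]
        refine mul_le_mul_of_nonneg_right ?_ (by linarith)
        rw [div_le_iff₀ ha'0] at hΛ4
        linarith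
      have h2 := mul_le_mul_of_nonneg_left hmain ha'0.le
      have h3 := mul_le_mul_of_nonneg_left hYY hCs0
      linarith
    have hfirst : C * l ^ θ * (D : ℝ) ^ (-(θ / 2)) ≤ Real.exp (-(2 * T)) := by
      rw [Real.rpow_def_of_pos (by exact_mod_cast hD : (0:ℝ) < D), ← hΛdef]
      refine (mul_le_mul_of_nonneg_right (show C * l ^ θ ≤ Real.exp (C * l ^ θ) by
        linarith [Real.add_one_le_exp (C * l ^ θ)]) (Real.exp_pos _).le).trans ?_
      rw [← Real.exp_add]
      refine Real.exp_le_exp.mpr ?_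
      have h0 : 0 ≤ C * l ^ θ := by positivity
      have h1 : 2 + C * l ^ θ + θ ≤ θ / 2 * T := by
        have h2 := mul_le_mul_of_nonneg_left hΛ2 (by linarith : (0:ℝ) ≤ θ / 2)
        have h3 : θ / 2 * (2 * (2 + C * l ^ θ) / θ + 2) = 2 + C * l ^ θ + θ := by field_simp
        linarith
      have h4 := mul_le_mul_of_nonneg_right h1 (by linarith : (0:ℝ) ≤ T)
      rw [mul_assoc, hTT] at h4
      have h5 : 2 * T + C * l ^ θ ≤ (2 + C * l ^ θ + θ) * T := by
        have h6 := le_mul_of_one_le_right h0 hT1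
        have h7 : 0 ≤ θ * T := by positivity
        linarith
      linarith
    refine (add_le_add hfirst hsecond).trans ?_
    rw [← two_mul]
    refine (mul_le_mul_of_nonneg_right (show (2 : ℝ) ≤ Real.exp T by
      linarith [Real.add_one_le_exp T]) (Real.exp_pos _).le).trans ?_
    rw [← Real.exp_add]
    refine Real.exp_le_exp.mpr ?_
    have : Λ ^ c ≤ T := Real.rpow_le_rpow_of_exponent_le hΛ (min_le_right _ _)
    linarith

end Vale.Agent.P042.Gen
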