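import Vale.Agent.P042.GenCircle
import Vale.Agent.P042.GenParams

namespace Vale.Agent.P042.Gen

open Finset Polynomial Filter

variable {g : ℤ[X]}

lemma norm_ee_sub_le (x y : ℝ) : ‖ee x - ee y‖ ≤ 8 * |x - y| := by
  have h := convex_univ.norm_image_sub_le_of_norm_hasDerivWithin_le
    (fun t _ => (ee_hasDerivAt 1 t).hasDerivWithinAt) (C := 8) (fun t _ => ?_)
    (Set.mem_univ y) (Set.mem_univ x)
  · simpa [Real.norm_eq_abs] using h
  · rw [norm_mul, norm_ee, one_mul, norm_mul, Complex.norm_I, one_mul, Complex.norm_real,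
      Real.norm_eq_abs, mul_one, abs_of_pos (by positivity)]
    linarith [Real.pi_le_four]

/-- The size of the leading term `√(a X ^ K)`, up to `√a`. -/
noncomputable def Sz (g : ℤ[X]) (X : ℕ) : ℝ := (X : ℝ) ^ ((g.natDegree : ℝ) / 2)

/-- The bound for the weight. -/
noncomputable def Fz (g : ℤ[X]) (H : ℝ) (X : ℕ) : ℝ := H * (X : ℝ) ^ ((g.natDegree : ℝ) / 2 - 1)

/-- Bounds for the weight and the phase. -/
def GBounds (g : ℤ[X]) (H : ℝ) : Prop :=
  1 ≤ H ∧
  (∀ x : ℝ, 1 ≤ x → |(rpoly g).eval x - (g.leadingCoeff : ℝ) * x ^ g.natDegree|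
      ≤ H * x ^ (g.natDegree - 1)) ∧
  (∀ x : ℝ, 1 ≤ x → |(rpoly g).eval x| ≤ H * x ^ g.natDegree) ∧
  ∀ (D X : ℕ) (lam : ℝ), 1 ≤ X → 1 ≤ D → 0 ≤ lam →
    lam * ((g.leadingCoeff : ℝ) * (X : ℝ) ^ g.natDegree) ≤ D →
    ∀ x : ℝ, (X : ℝ) ≤ D * x → x ≤ 2 * X →
      |wG g lam x| ≤ Fz g H X ∧ |wG g lam x * lG g lam x| ≤ Fz g H X * (H * D / X) ∧
      ∀ β : ℝ, ‖smG g lam β x * ((lG g lam x : ℂ) + Complex.I *
        ((2 * Real.pi * β * ((g.leadingCoeff : ℝ) * g.natDegree * x ^ (g.natDegree - 1)) : ℝ) : ℂ))‖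
          ≤ Fz g H X * (H * D / X) * (1 + |β| * (X : ℝ) ^ g.natDegree)

lemma exists_gbounds (hK : 2 ≤ g.natDegree) (hl : 0 < g.leadingCoeff) : ∃ H, GBounds g H := by
  set G := rpoly g with hG
  set K := g.natDegree with hKdef
  set a : ℝ := (g.leadingCoeff : ℝ) with ha
  have ha0 : 0 < a := by rw [ha]; exact_mod_cast hl
  have hinj : Function.Injective (Int.castRingHom ℝ) := Int.cast_injective
  have hdeg : G.natDegree = K := natDegree_map_eq_of_injective hinj g
  have hlc : G.leadingCoeff = a := by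
    rw [hG, rpoly, leadingCoeff_map_of_injective hinj]; simp [ha]
  obtain ⟨H₁, hH₁, hb₁⟩ := eval_bound G.eraseLead (K - 1) (hdeg ▸ G.eraseLead_natDegree_le)
  obtain ⟨H₀, hH₀, hb₀⟩ := eval_bound G K hdeg.le
  set H := 1 + H₀ + H₁ + Real.sqrt a * K * 2 ^ K + (K + K * 2 ^ K) + 8 * a * K * 2 ^ K with hH
  have t1 : 0 ≤ Real.sqrt a * K * 2 ^ K := by positivity
  have t2 : 0 ≤ (K : ℝ) + K * 2 ^ K := by positivity
  have t3 : 0 ≤ 8 * a * K * 2 ^ K := by positivity
  refine ⟨H, by linarith, fun x hx => ?_, fun x hx => (hb₀ x hx).trans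
    (mul_le_mul_of_nonneg_right (by linarith) (by positivity)), fun D X lam hX hD hlam hlamX x hxl hxu => ?_⟩
  · have h2 := congrArg (eval x) G.eraseLead_add_monomial_natDegree_leadingCoeff
    rw [eval_add, eval_monomial, hdeg, hlc] at h2
    rw [← h2, add_sub_cancel_right]
    exact (hb₁ x hx).trans (mul_le_mul_of_nonneg_right (by linarith) (by positivity))
  have hXR : (1 : ℝ) ≤ X := by exact_mod_cast hX
  have hDR : (1 : ℝ) ≤ D := by exact_mod_cast hD
  have hx0 : 0 < x := by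
    by_contra h0
    nlinarith
  have hK2 : (2 : ℝ) ≤ K := by exact_mod_cast hK
  have hw : |wG g lam x| ≤ Real.sqrt a * K * 2 ^ K * (X : ℝ) ^ ((K : ℝ) / 2 - 1) := by
    rw [wG, abs_of_nonneg (by positivity), ← ha, ← hKdef]
    refine le_trans (mul_le_of_le_one_right (by positivity) (Real.exp_le_one_iff.mpr ?_)) ?_
    · rw [neg_mul]
      have : 0 ≤ lam * (a * x ^ K) := by positivity
      linarith
    refine le_trans (mul_le_mul_of_nonneg_left
      (Real.rpow_le_rpow hx0.le hxu (by linarith)) (by positivity)) ?_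
    rw [Real.mul_rpow (by norm_num) (by linarith), mul_assoc (Real.sqrt a * K) ((2 : ℝ) ^ K),
      ← Real.rpow_natCast 2 K]
    refine mul_le_mul_of_nonneg_left (mul_le_mul_of_nonneg_right
      (Real.rpow_le_rpow_of_exponent_le (by norm_num) (by linarith)) (by positivity)) (by positivity)
  have hw' : |wG g lam x| ≤ Fz g H X :=
    hw.trans (mul_le_mul_of_nonneg_right (by linarith) (by positivity))
  have hpow : x ^ (K - 1) * X ≤ 2 ^ K * (X : ℝ) ^ K := by
    calc x ^ (K - 1) * X ≤ (2 * (X : ℝ)) ^ (K - 1) * (2 * X) :=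
          mul_le_mul (pow_le_pow_left₀ hx0.le hxu _) (by linarith) (by linarith) (by positivity)
      _ = 2 ^ K * (X : ℝ) ^ K := by rw [← pow_succ, ← mul_pow]; congr 1; omega
  have hl1 : |lG g lam x| ≤ (K + K * 2 ^ K) * D / X := by
    rw [lG, ← ha, ← hKdef, le_div_iff₀ (by linarith)]
    refine (mul_le_mul_of_nonneg_right (abs_sub _ _) (by linarith)).trans ?_
    rw [abs_div, abs_of_pos hx0, abs_of_nonneg (show 0 ≤ (K : ℝ) / 2 - 1 by linarith),
      abs_of_nonneg (show 0 ≤ lam * a * K * x ^ (K - 1) by positivity), add_mul, add_mul]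
    refine add_le_add ?_ ?_
    · rw [div_mul_eq_mul_div, div_le_iff₀ hx0, mul_assoc]
      exact mul_le_mul (by linarith) hxl (by linarith) (by positivity)
    · calc lam * a * K * x ^ (K - 1) * X = lam * a * K * (x ^ (K - 1) * X) := by ring
        _ ≤ lam * a * K * (2 ^ K * (X : ℝ) ^ K) := mul_le_mul_of_nonneg_left hpow (by positivity)
        _ = K * 2 ^ K * (lam * (a * (X : ℝ) ^ K)) := by ring
        _ ≤ K * 2 ^ K * D := mul_le_mul_of_nonneg_left hlamX (by positivity)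
  have hl2 : |lG g lam x| ≤ H * D / X :=
    hl1.trans (div_le_div_of_nonneg_right (mul_le_mul_of_nonneg_right (by linarith) (by linarith))
      (by linarith))
  refine ⟨hw', ?_, fun β => ?_⟩
  · rw [abs_mul]
    exact mul_le_mul hw' hl2 (abs_nonneg _) ((abs_nonneg _).trans hw')
  rw [norm_mul, smG, norm_mul, norm_ee, mul_one, Complex.norm_real, Real.norm_eq_abs,
    mul_assoc (Fz g H X)]
  refine mul_le_mul hw' ?_ (norm_nonneg _) ((abs_nonneg _).trans hw')
  refine (norm_add_le _ _).trans ?_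
  rw [Complex.norm_real, Real.norm_eq_abs, norm_mul, Complex.norm_I, one_mul, Complex.norm_real,
    Real.norm_eq_abs, mul_add, mul_one]
  refine add_le_add hl2 ?_
  rw [← ha, ← hKdef, abs_mul, abs_mul, abs_of_pos (by positivity : (0:ℝ) < 2 * Real.pi),
    abs_of_nonneg (show 0 ≤ a * K * x ^ (K - 1) by positivity), div_mul_eq_mul_div,
    le_div_iff₀ (by linarith)]
  calc 2 * Real.pi * |β| * (a * K * x ^ (K - 1)) * X
      = 2 * Real.pi * (|β| * (a * K * (x ^ (K - 1) * X))) := by ring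
    _ ≤ 8 * (|β| * (a * K * (2 ^ K * (X : ℝ) ^ K))) := mul_le_mul (by linarith [Real.pi_le_four])
        (mul_le_mul_of_nonneg_left (mul_le_mul_of_nonneg_left hpow (by positivity)) (abs_nonneg _))
        (by positivity) (by norm_num)
    _ = (8 * a * K * 2 ^ K) * (|β| * (X : ℝ) ^ K) := by ring
    _ ≤ H * D * (|β| * (X : ℝ) ^ K) := mul_le_mul_of_nonneg_right
        (le_trans (by linarith) (le_mul_of_one_le_right (by linarith) hDR)) (by positivity)

/-- The weighted exponential sum. -/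
noncomputable def tG (L : Dens g) (D x₀ X : ℕ) (lam α : ℝ) : ℂ :=
  ∑ i ∈ range (X - x₀),
    (((∑ f ∈ Icc 1 D, wt L f (x₀ + i)) * wG g lam ((x₀ + i : ℕ) : ℝ) : ℝ) : ℂ)
      * ee (α * ((g.eval ((x₀ + i : ℕ) : ℤ) : ℤ) : ℝ))

lemma tG_split (L : Dens g) (D x₀ X : ℕ) (lam α : ℝ) :
    tG L D x₀ X lam α = ∑ f ∈ Icc 1 D, ∑ i ∈ range (X - x₀), (wt L f (x₀ + i) : ℂ) *
      ((wG g lam ((x₀ + i : ℕ) : ℝ) : ℂ) * ee (α * (rpoly g).eval ((x₀ + i : ℕ) : ℝ))) := by
  rw [tG, sum_comm]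
  refine sum_congr rfl fun i _ => ?_
  rw [Complex.ofReal_mul, Complex.ofReal_sum, sum_mul, sum_mul]
  refine sum_congr rfl fun f _ => ?_
  rw [rpoly_eval g (x₀ + i), mul_assoc]

lemma major_est' (L : Dens g) {H : ℝ} (hB : GBounds g H) (hK : 2 ≤ g.natDegree)
    (hl : 0 < g.leadingCoeff) {D x₀ X : ℕ} (lam : ℝ) (hlam : 0 ≤ lam)
    (hlamX : lam * ((g.leadingCoeff : ℝ) * (X : ℝ) ^ g.natDegree) ≤ D)
    (hx₀ : 1 ≤ x₀) (hD : 1 ≤ D) (hX : X = D * x₀) (q : ℕ) (a : ℤ) (β α M : ℝ) (hq : 1 ≤ q)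
    (hα : α = (a : ℝ) / q + β) (hM : 1 ≤ M) (hqM : (q : ℝ) ≤ M)
    (hβM : |β| * (X : ℝ) ^ g.natDegree ≤ M) (hMX : (D : ℝ) * M ≤ X) :
    ‖tG L D x₀ X lam α - major L D q a * (PsiG g lam β X - PsiG g lam β x₀)‖
      ≤ 16 * H * (D : ℝ) ^ 4 * M ^ 2 * Fz g H X := by
  obtain ⟨hH1, hphase, -, hb⟩ := hB
  set K := g.natDegree with hKdef
  have hX1 : 1 ≤ X := hX ▸ Nat.one_le_iff_ne_zero.mpr (Nat.mul_ne_zero (by omega) (by omega))
  have hxX : x₀ ≤ X := hX ▸ Nat.le_mul_of_pos_left x₀ (by omega)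
  have hXR : (1 : ℝ) ≤ X := by exact_mod_cast hX1
  have hDR : (1 : ℝ) ≤ D := by exact_mod_cast hD
  have hxl : ∀ x : ℝ, (x₀ : ℝ) ≤ x → (X : ℝ) ≤ D * x := fun x hx => by
    rw [hX, Nat.cast_mul]; exact mul_le_mul_of_nonneg_left hx (by linarith)
  have hx0R : (1 : ℝ) ≤ x₀ := by exact_mod_cast hx₀
  set F := Fz g H X with hF
  have hF0 : 0 ≤ F := by rw [hF, Fz]; positivity
  have hHD : (1 : ℝ) ≤ H * D := one_le_mul_of_one_le_of_one_le hH1 hDR
  have hper : ∀ f ∈ Icc 1 D, ‖(∑ i ∈ range (X - x₀), (wt L f (x₀ + i) : ℂ) *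
      ((wG g lam ((x₀ + i : ℕ) : ℝ) : ℂ) * ee (α * (rpoly g).eval ((x₀ + i : ℕ) : ℝ))))
      - avg (f * q) (fun n => (wt L f n : ℂ) * ch q (a * g.eval (n : ℤ))) *
        (PsiG g lam β X - PsiG g lam β x₀)‖ ≤ 16 * H * (D : ℝ) ^ 3 * M ^ 2 * F := by
    intro f hf
    obtain ⟨hf1, hf2⟩ := mem_Icc.mp hf
    set c : ℕ → ℂ := fun n => (wt L f n : ℂ) * ch q (a * g.eval (n : ℤ)) with hc
    have hcper : Function.Periodic c (f * q) := fun n => by
      simp only [hc]
      rw [periodic_of_dvd (wt_periodic L hf1) (dvd_mul_right f q) n]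
      congr 1
      simpa [eval_mul, eval_C] using
        periodic_of_dvd (ch_eval_periodic hq (Polynomial.C a * g)) (dvd_mul_left q f) n
    have hcb : ∀ n, ‖c n‖ ≤ (D : ℝ) := fun n => by
      simp only [hc]
      rw [norm_mul, norm_ch, mul_one, Complex.norm_real, Real.norm_eq_abs]
      exact (abs_wt_le L hf1 n).trans (by exact_mod_cast hf2)
    have hP1 : 1 ≤ f * q := Nat.one_le_iff_ne_zero.mpr (Nat.mul_ne_zero (by omega) (by omega))
    have hPR : ((f * q : ℕ) : ℝ) ≤ D * M := by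
      push_cast; exact mul_le_mul (by exact_mod_cast hf2) hqM (Nat.cast_nonneg _) (by linarith)
    have hPX : f * q ≤ X := by exact_mod_cast hPR.trans hMX
    have hest := comp_est_gen (smG g lam β) _ (PsiG g lam β) x₀ X (f * q) c D F
      (F * (H * D / X) * (1 + |β| * (X : ℝ) ^ K)) hF0 (by positivity) hxX hP1 hPX hcper hcb
      (fun x hx => PsiG_hasDerivAt g hl.le lam β x (by linarith [hx.1]))
      (fun x hx => smG_hasDerivAt g lam β x (by linarith [hx.1]))
      (fun x hx => by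
        rw [smG, norm_mul, norm_ee, mul_one, Complex.norm_real, Real.norm_eq_abs]
        exact (hb D X lam hX1 hD hlam hlamX x (hxl x hx.1) hx.2).1)
      (fun x hx => (hb D X lam hX1 hD hlam hlamX x (hxl x hx.1) hx.2).2.2 β)
    have hdiff : ‖(∑ i ∈ range (X - x₀), (wt L f (x₀ + i) : ℂ) *
        ((wG g lam ((x₀ + i : ℕ) : ℝ) : ℂ) * ee (α * (rpoly g).eval ((x₀ + i : ℕ) : ℝ))))
        - ∑ i ∈ range (X - x₀), c (x₀ + i) * smG g lam β ((x₀ + i : ℕ) : ℝ)‖
        ≤ 8 * H * D * M * F := by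
      rw [← sum_sub_distrib]
      refine (norm_sum_le _ _).trans ((sum_le_card_nsmul _ _
        (D * (F * (8 * (|β| * (H * (X : ℝ) ^ (K - 1)))))) fun i hi => ?_).trans ?_)
      · have hn1 : (x₀ : ℝ) ≤ ((x₀ + i : ℕ) : ℝ) := by exact_mod_cast Nat.le_add_right x₀ i
        have hn2 : ((x₀ + i : ℕ) : ℝ) ≤ X := by
          exact_mod_cast (show x₀ + i ≤ X by have := mem_range.mp hi; omega)
        set n := x₀ + i with hn
        have e : ee (α * (rpoly g).eval (n : ℝ))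
            = ch q (a * g.eval (n : ℤ)) * ee (β * (rpoly g).eval (n : ℝ)) := by
          rw [rpoly_eval g n, hα, ch, ← ee_add]
          congr 1; push_cast; ring
        simp only [hc, smG]
        rw [e, show (wt L f n : ℂ) * ((wG g lam (n : ℝ) : ℂ) *
            (ch q (a * g.eval (n : ℤ)) * ee (β * (rpoly g).eval (n : ℝ)))) -
            (wt L f n : ℂ) * ch q (a * g.eval (n : ℤ)) * ((wG g lam (n : ℝ) : ℂ) *
              ee (β * ((g.leadingCoeff : ℝ) * (n : ℝ) ^ g.natDegree))) =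
            ((wt L f n : ℂ) * ch q (a * g.eval (n : ℤ))) * ((wG g lam (n : ℝ) : ℂ) *
              (ee (β * (rpoly g).eval (n : ℝ))
                - ee (β * ((g.leadingCoeff : ℝ) * (n : ℝ) ^ g.natDegree)))) by ring,
          norm_mul]
        refine mul_le_mul (hcb n) ?_ (norm_nonneg _) (by linarith)
        rw [norm_mul, Complex.norm_real, Real.norm_eq_abs]
        refine mul_le_mul (hb D X lam hX1 hD hlam hlamX _ (hxl _ hn1) (by linarith)).1
          ((norm_ee_sub_le _ _).trans ?_) (norm_nonneg _) hF0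
        rw [← mul_sub, abs_mul]
        refine mul_le_mul_of_nonneg_left (mul_le_mul_of_nonneg_left
          ((hphase _ (le_trans hx0R hn1)).trans ?_) (abs_nonneg _)) (by norm_num)
        exact mul_le_mul_of_nonneg_left
          (pow_le_pow_left₀ (by positivity) hn2 _) (by linarith)
      · rw [card_range, nsmul_eq_mul]
        refine (mul_le_mul_of_nonneg_right (show ((X - x₀ : ℕ) : ℝ) ≤ X by
          exact_mod_cast Nat.sub_le X x₀) (by positivity)).trans ?_
        have e : (X : ℝ) ^ (K - 1) * X = (X : ℝ) ^ K := by rw [← pow_succ]; congr 1; omega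
        calc (X : ℝ) * (D * (F * (8 * (|β| * (H * (X : ℝ) ^ (K - 1))))))
            = 8 * H * D * F * (|β| * ((X : ℝ) ^ (K - 1) * X)) := by ring
          _ ≤ 8 * H * D * F * M := by
              rw [e]; exact mul_le_mul_of_nonneg_left hβM (by positivity)
          _ = _ := by ring
    have hcomp : (D : ℝ) * ((f * q : ℕ) : ℝ) *
        ((X : ℝ) * (F * (H * D / X) * (1 + |β| * (X : ℝ) ^ K)) + 3 * F)
        ≤ 5 * H * (D : ℝ) ^ 3 * M ^ 2 * F := by
      have e : (X : ℝ) * (F * (H * D / X) * (1 + |β| * (X : ℝ) ^ K))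
          = F * (H * D) * (1 + |β| * (X : ℝ) ^ K) := by field_simp
      rw [e]
      have hHDM : 1 ≤ H * D * M := one_le_mul_of_one_le_of_one_le hHD hM
      have h1 : F * (H * D) * (1 + |β| * (X : ℝ) ^ K) + 3 * F ≤ 5 * (H * D * M) * F := by
        have t1 : F * (H * D) * (1 + |β| * (X : ℝ) ^ K) ≤ F * (H * D) * (2 * M) :=
          mul_le_mul_of_nonneg_left (by linarith) (by positivity)
        have t2 : F ≤ H * D * M * F := le_mul_of_one_le_left hF0 hHDM
        linarith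
      calc (D : ℝ) * ((f * q : ℕ) : ℝ) * (F * (H * D) * (1 + |β| * (X : ℝ) ^ K) + 3 * F)
          ≤ (D : ℝ) * (D * M) * (5 * (H * D * M) * F) :=
            mul_le_mul (mul_le_mul_of_nonneg_left hPR (by linarith)) h1 (by positivity) (by positivity)
        _ = _ := by ring
    refine (norm_sub_le_norm_sub_add_norm_sub _
      (∑ i ∈ range (X - x₀), c (x₀ + i) * smG g lam β ((x₀ + i : ℕ) : ℝ)) _).trans
      ((add_le_add hdiff (hest.trans hcomp)).trans ?_)
    have hD3 : (D : ℝ) ≤ (D : ℝ) ^ 3 := le_self_pow₀ hDR (by norm_num)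
    have hM2 : M ≤ M ^ 2 := le_self_pow₀ hM (by norm_num)
    have t := mul_le_mul hD3 hM2 (by linarith) (by positivity)
    have t2 : 8 * H * D * M * F ≤ 8 * H * (D : ℝ) ^ 3 * M ^ 2 * F := by
      have := mul_le_mul_of_nonneg_left t (show 0 ≤ 8 * H * F by positivity)
      linarith
    have t3 : 0 ≤ H * (D : ℝ) ^ 3 * M ^ 2 * F := by positivity
    linarith
  rw [tG_split, major, sum_mul, ← sum_sub_distrib]
  refine (norm_sum_le _ _).trans ((sum_le_card_nsmul _ _ _ hper).trans (le_of_eq ?_))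
  rw [Nat.card_Icc, Nat.add_sub_cancel, nsmul_eq_mul]
  ring

lemma minor_est' (L : Dens g) {H : ℝ} (hB : GBounds g H) {D x₀ X : ℕ} (lam : ℝ) (hlam : 0 ≤ lam)
    (hlamX : lam * ((g.leadingCoeff : ℝ) * (X : ℝ) ^ g.natDegree) ≤ D)
    (hx₀ : 1 ≤ x₀) (hD : 1 ≤ D) (hX : X = D * x₀) (α δ : ℝ)
    (hall : ∀ f ∈ Icc 1 D, ∀ r j : ℕ, j ≤ X →
      ‖∑ s ∈ range j, ee (α * (rpoly g).eval ((x₀ + r + f * s : ℕ) : ℝ))‖ ≤ δ * X) :
    ‖tG L D x₀ X lam α‖ ≤ (D : ℝ) ^ 4 * (2 * H) * Fz g H X * (δ * X) + (D : ℝ) ^ 3 * Fz g H X := by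
  obtain ⟨hH1, -, -, hb⟩ := hB
  have hX1 : 1 ≤ X := hX ▸ Nat.one_le_iff_ne_zero.mpr (Nat.mul_ne_zero (by omega) (by omega))
  have hxX : x₀ ≤ X := hX ▸ Nat.le_mul_of_pos_left x₀ (by omega)
  have hDX : D ≤ X := hX ▸ Nat.le_mul_of_pos_right D (by omega)
  have hXR : (1 : ℝ) ≤ X := by exact_mod_cast hX1
  have hDR : (1 : ℝ) ≤ D := by exact_mod_cast hD
  have hx0R : (1 : ℝ) ≤ x₀ := by exact_mod_cast hx₀
  have hxl : ∀ x : ℝ, (x₀ : ℝ) ≤ x → (X : ℝ) ≤ D * x := fun x hx => by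
    rw [hX, Nat.cast_mul]; exact mul_le_mul_of_nonneg_left hx (by linarith)
  have hHD : (1 : ℝ) ≤ H * D := one_le_mul_of_one_le_of_one_le hH1 hDR
  set F := Fz g H X with hF
  have hF0 : 0 ≤ F := by rw [hF, Fz]; positivity
  have hδ0 : 0 ≤ δ * X := (norm_nonneg _).trans
    (hall 1 (mem_Icc.mpr ⟨le_rfl, hD⟩) 0 0 (Nat.zero_le _))
  have hper : ∀ f ∈ Icc 1 D, ‖∑ i ∈ range (X - x₀), (wt L f (x₀ + i) : ℂ) *
      ((wG g lam ((x₀ + i : ℕ) : ℝ) : ℂ) * ee (α * (rpoly g).eval ((x₀ + i : ℕ) : ℝ)))‖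
      ≤ (D : ℝ) ^ 3 * (2 * H) * F * (δ * X) + (D : ℝ) ^ 2 * F := by
    intro f hf
    obtain ⟨hf1, hf2⟩ := mem_Icc.mp hf
    have hfR : (f : ℝ) ≤ D := by exact_mod_cast hf2
    set len := (X - x₀) / f with hlen
    set rem := (X - x₀) % f with hrem
    have hdm : f * len + rem = X - x₀ := Nat.div_add_mod _ _
    have hremf : rem < f := Nat.mod_lt _ hf1
    have hlenX : len ≤ X := (Nat.div_le_self _ _).trans (Nat.sub_le _ _)
    have hflX : (f : ℝ) * len ≤ X := by exact_mod_cast (show f * len ≤ X by omega)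
    rw [split_range (fun i => (wt L f (x₀ + i) : ℂ) *
      ((wG g lam ((x₀ + i : ℕ) : ℝ) : ℂ) * ee (α * (rpoly g).eval ((x₀ + i : ℕ) : ℝ)))) (X - x₀) f,
      ← hlen, ← hrem]
    refine (norm_add_le _ _).trans (add_le_add ?_ ?_)
    · refine (norm_sum_le _ _).trans ((sum_le_card_nsmul _ _
        (D * ((2 * H * D * F) * (δ * X))) fun r hr => ?_).trans ?_)
      · have hwt : ∀ s, wt L f (x₀ + (r + f * s)) = wt L f (x₀ + r) := fun s => by
          rw [← add_assoc, mul_comm]; exact (wt_periodic L hf1).nat_mul s _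
        simp only [hwt]
        rw [← mul_sum, norm_mul, Complex.norm_real, Real.norm_eq_abs]
        refine mul_le_mul ((abs_wt_le L hf1 _).trans hfR) ?_ (norm_nonneg _) (by linarith)
        have hr' := mem_range.mp hr
        have hmem : ∀ s ≤ len, ((x₀ + (r + f * s) : ℕ) : ℝ) ∈ Set.Icc (x₀ : ℝ) (2 * X) := by
          intro s hs
          refine ⟨by exact_mod_cast Nat.le_add_right _ _, ?_⟩
          have h1 : f * s ≤ f * len := Nat.mul_le_mul_left f hs
          exact_mod_cast (show x₀ + (r + f * s) ≤ 2 * X by omega)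
        have hlip : ∀ s < len, |wG g lam ((x₀ + (r + f * (s + 1)) : ℕ) : ℝ)
            - wG g lam ((x₀ + (r + f * s) : ℕ) : ℝ)| ≤ F * (H * D / X) * f := by
          intro s hs
          have h := (convex_Icc (x₀ : ℝ) (2 * X)).norm_image_sub_le_of_norm_hasDerivWithin_le
            (fun y hy => (wG_hasDerivAt g lam y (by linarith [hy.1])).hasDerivWithinAt)
            (fun y hy => by
              rw [Real.norm_eq_abs]
              exact (hb D X lam hX1 hD hlam hlamX y (hxl y hy.1) hy.2).2.1)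
            (hmem s hs.le) (hmem (s + 1) hs)
          rw [Real.norm_eq_abs, Real.norm_eq_abs] at h
          refine h.trans (le_of_eq ?_)
          congr 1
          push_cast
          ring_nf
          exact abs_of_nonneg (Nat.cast_nonneg f)
        refine (abel (fun s => wG g lam ((x₀ + (r + f * s) : ℕ) : ℝ))
          (fun s => ee (α * (rpoly g).eval ((x₀ + (r + f * s) : ℕ) : ℝ))) F
          (F * (H * D / X) * f) (δ * X) len
          (hb D X lam hX1 hD hlam hlamX _ (hxl _ (hmem len le_rfl).1) (hmem len le_rfl).2).1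
          hlip (fun j hj => ?_)).trans ?_
        · have := hall f hf r j (hj.trans hlenX)
          simpa only [add_assoc] using this
        · refine mul_le_mul_of_nonneg_right ?_ hδ0
          have h1 : (len : ℝ) * (F * (H * D / X) * f) ≤ F * (H * D) := by
            calc (len : ℝ) * (F * (H * D / X) * f) = F * (H * D / X) * (f * len) := by ring
              _ ≤ F * (H * D / X) * X := mul_le_mul_of_nonneg_left hflX (by positivity)
              _ = _ := by field_simp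
          have h2 : F ≤ H * D * F := le_mul_of_one_le_left hF0 hHD
          linarith
      · rw [card_range, nsmul_eq_mul]
        refine (mul_le_mul_of_nonneg_right hfR (by positivity)).trans (le_of_eq ?_)
        ring
    · refine (norm_sum_le _ _).trans ((sum_le_card_nsmul _ _ (D * F) fun i hi => ?_).trans ?_)
      · rw [norm_mul, norm_mul, norm_ee, mul_one, Complex.norm_real, Complex.norm_real,
          Real.norm_eq_abs, Real.norm_eq_abs]
        refine mul_le_mul ((abs_wt_le L hf1 _).trans hfR)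
          (hb D X lam hX1 hD hlam hlamX _ (hxl _ (by exact_mod_cast Nat.le_add_right _ _)) ?_).1
          (abs_nonneg _) (by linarith)
        have hi' := mem_range.mp hi
        exact_mod_cast (show x₀ + (f * len + i) ≤ 2 * X by omega)
      · rw [card_range, nsmul_eq_mul, pow_two, mul_assoc]
        exact mul_le_mul_of_nonneg_right
          (le_trans (by exact_mod_cast hremf.le) hfR) (by positivity)
  rw [tG_split]
  refine (norm_sum_le _ _).trans ((sum_le_card_nsmul _ _ _ hper).trans (le_of_eq ?_))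
  rw [Nat.card_Icc, Nat.add_sub_cancel, nsmul_eq_mul]
  ring

theorem tsum_lower' (hK : 2 ≤ g.natDegree) (hl : 0 < g.leadingCoeff) {H : ℝ} (hB : GBounds g H) :
    ∃ E : ℕ, 2 ≤ E ∧ ∃ C₅ : ℝ, 1 ≤ C₅ ∧ ∃ D₀ : ℕ, ∀ D : ℕ, D₀ ≤ D → 1 ≤ Real.log (D : ℝ) →
      ∀ (L : Dens g) (c : ℝ), c ≤ 1 → (Real.log (D : ℝ)) ^ c ≤ Real.log (D : ℝ) / 2 → Good L D c →
        ∃ lam : ℝ,
        (∀ α : ℝ, -(C₅ * Sz g (D ^ E) * Real.exp (-(Real.log D) ^ c))
          ≤ (tG L D (D ^ (E - 1)) (D ^ E) lam α).re) ∧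
        Real.sqrt (g.leadingCoeff : ℝ) * Sz g (D ^ E) / Real.sqrt (Real.log D)
            - C₅ * Sz g (D ^ E) * Real.exp (-(Real.log D) ^ c)
          ≤ (tG L D (D ^ (E - 1)) (D ^ E) lam 0).re := by
  obtain ⟨B, C₁, hC₁, hstep⟩ := minor_step hK hl
  obtain ⟨hH1, -, -, -⟩ := id hB
  set K := g.natDegree with hKdef
  set a : ℝ := (g.leadingCoeff : ℝ) with hadef
  have ha0 : 0 < a := by rw [hadef]; exact_mod_cast hl
  set B₁ := 5 * B + K with hB₁
  set E := 2 * B₁ + 7 with hE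
  set C₄ := 2 * Real.sqrt (8 * a) + 2 * Real.sqrt a with hC₄
  set C₅ := 16 * H ^ 2 * C₁ ^ 2 + 3 * H ^ 2 + 3 * C₄ + Real.sqrt (4 * a) with hC₅
  have hC40 : 0 ≤ C₄ := by positivity
  have hH2 : 1 ≤ H ^ 2 := one_le_pow₀ hH1
  have hC50 : 1 ≤ C₅ := by
    have : 0 ≤ 16 * H ^ 2 * C₁ ^ 2 := by positivity
    have : 0 ≤ Real.sqrt (4 * a) := Real.sqrt_nonneg _
    linarith
  obtain ⟨N₀, hN₀⟩ := exists_nat_ge C₁
  refine ⟨E, by omega, C₅, hC50, max N₀ 1, fun D hD hΛ L c hc1 hcΛ hgood => ?_⟩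
  have hD1 : 1 ≤ D := le_trans (le_max_right _ _) hD
  have hDC : C₁ ≤ D := hN₀.trans (by exact_mod_cast le_trans (le_max_left _ _) hD)
  have hDR : (1 : ℝ) ≤ D := by exact_mod_cast hD1
  set x₀ := D ^ (E - 1) with hx₀def
  set X := D ^ E with hXdef
  have hX : X = D * x₀ := by rw [hXdef, hx₀def, ← pow_succ']; congr 1
  have hx₀ : 1 ≤ x₀ := Nat.one_le_pow _ _ hD1
  have hX1 : 1 ≤ X := Nat.one_le_pow _ _ hD1
  have hXR : (1 : ℝ) ≤ X := by exact_mod_cast hX1
  have hXR' : (X : ℝ) = (D : ℝ) ^ E := by rw [hXdef]; push_cast; rfl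
  set Λ := Real.log (D : ℝ) with hΛdef
  set Y := (X : ℝ) ^ K with hYdef
  have hY0 : 0 < Y := by positivity
  set lam := Λ / (a * Y) with hlamdef
  have hlam : 0 < lam := by positivity
  have hlamY : lam * (a * Y) = Λ := div_mul_cancel₀ _ (by positivity)
  have hΛD : Λ ≤ D := Real.log_le_self (by linarith)
  have hlamX : lam * (a * (X : ℝ) ^ K) ≤ D := by rw [← hYdef, hlamY]; exact hΛD
  set S := Sz g X with hSdef
  have hS0 : 0 < S := by rw [hSdef, Sz]; positivity
  have hS2 : S ^ 2 = Y := half_pow_sq _ (Nat.cast_nonneg X) K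
  set ε := Real.exp (-Λ ^ c) with hε
  have hε0 : 0 < ε := Real.exp_pos _
  have hhalf : Real.exp (-(Λ / 2)) ≤ ε := Real.exp_le_exp.mpr (by linarith)
  have hinvD : 1 / (D : ℝ) ≤ Real.exp (-(Λ / 2)) := by
    have h1 : 1 / (D : ℝ) = Real.exp (-Λ) := by
      rw [Real.exp_neg, hΛdef, Real.exp_log (by linarith), one_div]
    rw [h1]; exact Real.exp_le_exp.mpr (by linarith)
  have hFS : Fz g H X = H * S / X := by
    rw [Fz, hSdef, Sz, Real.rpow_sub_one (by linarith : (X : ℝ) ≠ 0), mul_div_assoc]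
  have hIJ : ∀ β : ℝ, ‖(PsiG g lam β X - PsiG g lam β x₀) - J lam β‖
      ≤ C₄ * S * Real.exp (-(Λ / 2)) := by
    intro β
    have h1 := PsiG_high g lam β X hlam (Nat.cast_nonneg X)
    have h2 := PsiG_low g lam β x₀ hlam.le (Nat.cast_nonneg x₀)
    have e1 : -(lam / 2) * (Real.sqrt a * (X : ℝ) ^ ((K : ℝ) / 2)) ^ 2 = -(Λ / 2) := by
      rw [mul_pow, Real.sq_sqrt ha0.le, half_pow_sq _ (Nat.cast_nonneg X), ← hYdef, ← hlamY]; ring
    have e2 : Real.sqrt (2 * Real.pi / lam) ≤ Real.sqrt (8 * a) * S := by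
      rw [← Real.sqrt_sq hS0.le, hS2, ← Real.sqrt_mul (by positivity)]
      refine Real.sqrt_le_sqrt ?_
      rw [hlamdef, div_div_eq_mul_div, div_le_iff₀ (by linarith)]
      have := mul_le_mul_of_nonneg_left hΛ (show 0 ≤ 8 * a * Y by positivity)
      have := mul_le_mul_of_nonneg_right (show 2 * Real.pi ≤ 8 by linarith [Real.pi_le_four])
        (show 0 ≤ a * Y by positivity)
      linarith
    have e3 : (x₀ : ℝ) ^ ((K : ℝ) / 2) ≤ S * (1 / (D : ℝ)) := by
      have hXd : (X : ℝ) = (D : ℝ) * x₀ := by rw [hX]; push_cast; rfl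
      rw [hSdef, Sz, hXd, Real.mul_rpow (by linarith) (Nat.cast_nonneg _), ← hKdef]
      have hD2 : (D : ℝ) ≤ (D : ℝ) ^ ((K : ℝ) / 2) :=
        Real.self_le_rpow_of_one_le hDR (by
          have : (2 : ℝ) ≤ K := by exact_mod_cast hK
          linarith)
      have h0 : (0 : ℝ) ≤ (x₀ : ℝ) ^ ((K : ℝ) / 2) := by positivity
      rw [mul_one_div, le_div_iff₀ (by linarith), mul_comm]
      exact mul_le_mul_of_nonneg_right hD2 h0
    rw [← hadef, ← hKdef] at h1 h2
    rw [e1] at h1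
    refine (le_of_eq (congrArg norm (sub_right_comm _ _ _))).trans
      ((norm_sub_le _ _).trans ((add_le_add h1 h2).trans ?_))
    have t1 := mul_le_mul_of_nonneg_left e2 (Real.exp_pos (-(Λ / 2))).le
    have t2 := mul_le_mul_of_nonneg_left
      (e3.trans (mul_le_mul_of_nonneg_left hinvD hS0.le)) (Real.sqrt_nonneg a)
    rw [hC₄]
    linarith
  have hJn : ∀ β : ℝ, ‖J lam β‖ ≤ Real.sqrt (4 * a) * S := by
    intro β
    refine (J_norm lam β hlam).trans ?_
    rw [← Real.sqrt_sq hS0.le, hS2, ← Real.sqrt_mul (by positivity)]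
    refine Real.sqrt_le_sqrt ?_
    rw [hlamdef, div_div_eq_mul_div, div_le_iff₀ (by linarith)]
    have := mul_le_mul_of_nonneg_left hΛ (show 0 ≤ 4 * a * Y by positivity)
    have := mul_le_mul_of_nonneg_right Real.pi_le_four (show 0 ≤ a * Y by positivity)
    linarith
  have hSε : 0 ≤ S * ε := by positivity
  have hmajor : ∀ (q : ℕ) (b : ℤ) (β α : ℝ), 1 ≤ q → α = (b : ℝ) / q + β →
      (q : ℝ) ≤ C₁ * (D : ℝ) ^ B₁ → |β| * Y ≤ C₁ * (D : ℝ) ^ B₁ →
      ‖tG L D x₀ X lam α - major L D q b * (PsiG g lam β X - PsiG g lam β x₀)‖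
        ≤ 16 * H ^ 2 * C₁ ^ 2 * (S * ε) := by
    intro q b β α hq hα hqb hβb
    have hM : 1 ≤ C₁ * (D : ℝ) ^ B₁ := one_le_mul_of_one_le_of_one_le hC₁ (one_le_pow₀ hDR)
    have hMX : (D : ℝ) * (C₁ * (D : ℝ) ^ B₁) ≤ X := by
      calc (D : ℝ) * (C₁ * (D : ℝ) ^ B₁) ≤ (D : ℝ) * (D * (D : ℝ) ^ B₁) :=
            mul_le_mul_of_nonneg_left (mul_le_mul_of_nonneg_right hDC (by positivity)) (by linarith)
        _ = (D : ℝ) ^ (B₁ + 2) := by ring
        _ ≤ X := hXR' ▸ pow_le_pow_right₀ hDR (by omega)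
    refine (major_est' L hB hK hl lam hlam.le hlamX hx₀ hD1 hX q b β α _ hq hα hM hqb hβb hMX).trans ?_
    rw [hFS]
    calc 16 * H * (D : ℝ) ^ 4 * (C₁ * (D : ℝ) ^ B₁) ^ 2 * (H * S / X)
        = 16 * H ^ 2 * C₁ ^ 2 * (S * ((D : ℝ) ^ (2 * B₁ + 4) / X)) := by ring
      _ ≤ 16 * H ^ 2 * C₁ ^ 2 * (S * ε) := by
          refine mul_le_mul_of_nonneg_left (mul_le_mul_of_nonneg_left
            (le_trans ?_ (hinvD.trans hhalf)) hS0.le) (by positivity)
          rw [div_le_div_iff₀ (by linarith) (by linarith), one_mul, ← pow_succ, hXR']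
          exact pow_le_pow_right₀ hDR (by omega)
  refine ⟨lam, fun α => ?_, ?_⟩
  · set δ : ℝ := 1 / (D : ℝ) ^ 5 with hδ
    have hδ0 : 0 < δ := by positivity
    have hq0 : 0 ≤ Real.sqrt (4 * a) := Real.sqrt_nonneg _
    have n1 : 0 ≤ 16 * H ^ 2 * C₁ ^ 2 * (S * ε) := by positivity
    have n2 : 0 ≤ 3 * H ^ 2 * (S * ε) := by positivity
    have n3 : 0 ≤ C₄ * (S * ε) := by positivity
    have n4 : 0 ≤ Real.sqrt (4 * a) * (S * ε) := by positivity
    by_cases hall : ∀ f ∈ Icc 1 D, ∀ r j : ℕ, j ≤ X →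
        ‖∑ s ∈ range j, ee (α * (rpoly g).eval ((x₀ + r + f * s : ℕ) : ℝ))‖ ≤ δ * X
    · have hb : ‖tG L D x₀ X lam α‖ ≤ 3 * H ^ 2 * (S * ε) := by
        refine (minor_est' L hB lam hlam.le hlamX hx₀ hD1 hX α δ hall).trans ?_
        rw [hFS]
        have e1 : (D : ℝ) ^ 4 * (2 * H) * (H * S / X) * (δ * X) = 2 * H ^ 2 * (S * (1 / (D : ℝ))) := by
          rw [hδ]; field_simp
        have e2 : (D : ℝ) ^ 3 * (H * S / X) ≤ H ^ 2 * (S * (1 / (D : ℝ))) := by
          rw [show (D : ℝ) ^ 3 * (H * S / X) = H * (S * ((D : ℝ) ^ 3 / X)) by ring]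
          refine mul_le_mul (le_self_pow₀ hH1 (by norm_num)) (mul_le_mul_of_nonneg_left ?_ hS0.le)
            (by positivity) (by positivity)
          rw [div_le_div_iff₀ (by linarith) (by linarith), one_mul, ← pow_succ, hXR']
          exact pow_le_pow_right₀ hDR (by omega)
        have e3 := mul_le_mul_of_nonneg_left
          (mul_le_mul_of_nonneg_left (hinvD.trans hhalf) hS0.le) (show 0 ≤ 3 * H ^ 2 by positivity)
        linarith
      have h1 := (abs_le.mp ((Complex.abs_re_le_norm _).trans hb)).1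
      rw [hC₅]; linarith
    · push Not at hall
      obtain ⟨f, hf, r, j, hj, hbig⟩ := hall
      obtain ⟨hf1, hf2⟩ := mem_Icc.mp hf
      obtain ⟨q, b, hq, hco, hqb, hβb⟩ := hstep X f (x₀ + r) α δ hf1 hX1 hδ0 j hj hbig
      have hu : (1 / δ) ^ B = (D : ℝ) ^ (5 * B) := by rw [hδ, one_div_one_div, ← pow_mul]
      rw [hu] at hqb hβb
      have hqb' : (q : ℝ) ≤ C₁ * (D : ℝ) ^ B₁ := by
        refine hqb.trans ?_
        rw [hB₁, pow_add, mul_assoc]
        exact mul_le_mul_of_nonneg_left (mul_le_mul_of_nonneg_left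
          (pow_le_pow_left₀ (Nat.cast_nonneg _) (by exact_mod_cast hf2) _) (by positivity))
          (by linarith)
      have hβb' : |α - (b : ℝ) / q| * Y ≤ C₁ * (D : ℝ) ^ B₁ := hβb.trans
        (mul_le_mul_of_nonneg_left (pow_le_pow_right₀ hDR (by omega)) (by linarith))
      have hm := hmajor q b (α - (b : ℝ) / q) α hq (by ring) hqb' hβb'
      set β := α - (b : ℝ) / q
      set M := major L D q b
      set I := PsiG g lam β X - PsiG g lam β x₀ with hI
      have hre : -((3 * C₄ + Real.sqrt (4 * a)) * (S * ε)) ≤ (M * I).re := by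
        rcases hgood q hq b hco with ⟨hcone, hn2⟩ | hsmall
        · have h0 := re_mul_nonneg hcone (J_cone lam β hlam)
          have h1 : ‖M * (I - J lam β)‖ ≤ 2 * (C₄ * S * Real.exp (-(Λ / 2))) := by
            rw [norm_mul]; exact mul_le_mul hn2 (hIJ β) (norm_nonneg _) zero_le_two
          have h2 := (abs_le.mp ((Complex.abs_re_le_norm _).trans h1)).1
          rw [mul_sub, Complex.sub_re] at h2
          have h3 := mul_le_mul_of_nonneg_left hhalf (show 0 ≤ C₄ * S by positivity)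
          linarith
        · have h1 : ‖I‖ ≤ (Real.sqrt (4 * a) + C₄) * S := by
            have t1 := norm_le_norm_sub_add I (J lam β)
            have t2 := hIJ β
            have t3 := hJn β
            have t4 : C₄ * S * Real.exp (-(Λ / 2)) ≤ C₄ * S :=
              mul_le_of_le_one_right (by positivity) (Real.exp_le_one_iff.mpr (by linarith))
            rw [← hI] at t2
            linarith
          have h2 : ‖M * I‖ ≤ ε * ((Real.sqrt (4 * a) + C₄) * S) := by
            rw [norm_mul]; exact mul_le_mul hsmall h1 (norm_nonneg _) hε0.le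
          have h3 := (abs_le.mp ((Complex.abs_re_le_norm _).trans h2)).1
          linarith
      have h2 := (abs_le.mp ((Complex.abs_re_le_norm _).trans hm)).1
      rw [Complex.sub_re] at h2
      rw [hC₅]
      linarith
  · have h1C : (1 : ℝ) ≤ C₁ * (D : ℝ) ^ B₁ :=
      one_le_mul_of_one_le_of_one_le hC₁ (one_le_pow₀ hDR)
    have hm := hmajor 1 0 0 0 le_rfl (by simp) (by simpa using h1C)
      (by simp only [abs_zero, zero_mul]; linarith)
    have hM1 : major L D 1 0 = 1 := by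
      rw [major_eq L le_rfl]
      simp [Nat.divisors_one, filter_singleton, hD1, term_one]
    rw [hM1, one_mul] at hm
    have h2 := (abs_le.mp ((Complex.abs_re_le_norm _).trans hm)).1
    have h3 := (abs_le.mp ((Complex.abs_re_le_norm _).trans (hIJ 0))).1
    rw [Complex.sub_re] at h2 h3
    have h4 : Real.sqrt a * S / Real.sqrt Λ ≤ (J lam 0).re := by
      refine le_trans (le_of_eq ?_) (J_zero lam hlam)
      rw [hlamdef, one_div_div, Real.sqrt_div (by positivity), Real.sqrt_mul ha0.le, ← hS2,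
        Real.sqrt_sq hS0.le]
    have h5 := mul_le_mul_of_nonneg_left hhalf (show 0 ≤ C₄ * S by positivity)
    have n2 : 0 ≤ (3 * H ^ 2 + Real.sqrt (4 * a) + 2 * C₄) * (S * ε) := by positivity
    rw [hC₅]
    linarith

theorem general_bound (k : ℕ) (hk : 2 ≤ k) : ∃ c : ℝ, 0 < c ∧ ∀ h : ℤ[X], h.natDegree = k →
    0 < h.leadingCoeff → (∀ q : ℕ, 1 ≤ q → ∃ t : ℤ, (q : ℤ) ∣ h.eval t) →
    ∃ C : ℝ, ∀ N : ℕ, ∀ A : Finset ℕ, A ⊆ Icc 1 N →
      (∀ x ∈ A, ∀ y ∈ A, ∀ n : ℕ, 1 ≤ n → (x : ℤ) - y = h.eval (n : ℤ) → x = y) →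
      (A.card : ℝ) ≤ C * N * Real.exp (-(Real.log N) ^ c) := by
  obtain ⟨c₀, hc₀, hgood⟩ := exists_good k (by omega)
  set c := min c₀ (1 / 2) with hcdef
  have hc : 0 < c := lt_min hc₀ (by norm_num)
  refine ⟨c / 2, by positivity, fun h hdeg hl hint => ?_⟩
  have hK : 2 ≤ h.natDegree := hdeg ▸ hk
  obtain ⟨H, hB⟩ := exists_gbounds hK hl
  obtain ⟨E, hE, C₅, hC₅, D₀, hT⟩ := tsum_lower' hK hl hB
  obtain ⟨hH1, -, hup, -⟩ := id hB
  set a : ℝ := (h.leadingCoeff : ℝ) with hadef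
  have ha0 : 0 < a := by rw [hadef]; exact_mod_cast hl
  have hinj : Function.Injective (Int.castRingHom ℝ) := Int.cast_injective
  obtain ⟨n₀, hn₀, hlow⟩ := eval_lower (rpoly h)
    (by rw [rpoly, natDegree_map_eq_of_injective hinj]; omega)
    (by rw [rpoly, leadingCoeff_map_of_injective hinj]; simpa using hl)
  set m := E * k with hm
  have hm1 : 1 ≤ m := Nat.one_le_iff_ne_zero.mpr (Nat.mul_ne_zero (by omega) (by omega))
  have hmR : (0 : ℝ) < m := by exact_mod_cast hm1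
  have hlog : Tendsto (fun D : ℕ => Real.log (D : ℝ)) atTop atTop :=
    Real.tendsto_log_atTop.comp tendsto_natCast_atTop_atTop
  have hev : ∀ᶠ D : ℕ in atTop, (∃ L : Dens h, Good L D c₀) ∧ D₀ ≤ D ∧ n₀ ≤ D ∧ 1 ≤ D ∧
      1 ≤ Real.log (D : ℝ) ∧ 2 ≤ Real.log (D : ℝ) ^ (1 / 2 : ℝ) ∧
      2 * (2 * (m : ℝ)) ^ (c / 2) ≤ Real.log (D : ℝ) ^ (c / 2) ∧
      (Real.log (D : ℝ) ^ c) ^ (1 / (2 * c)) * Real.exp (-(1 / 2) * Real.log (D : ℝ) ^ c) ≤ 1 := by
    filter_upwards [hgood h hdeg hint, eventually_ge_atTop D₀, eventually_ge_atTop n₀,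
      eventually_ge_atTop 1, hlog.eventually (eventually_ge_atTop 1),
      ((tendsto_rpow_atTop (by norm_num : (0:ℝ) < 1 / 2)).comp hlog).eventually
        (eventually_ge_atTop 2),
      ((tendsto_rpow_atTop (half_pos hc)).comp hlog).eventually
        (eventually_ge_atTop (2 * (2 * (m : ℝ)) ^ (c / 2))),
      ((tendsto_rpow_mul_exp_neg_mul_atTop_nhds_zero (1 / (2 * c)) (1 / 2) (by norm_num)).comp
        ((tendsto_rpow_atTop hc).comp hlog)).eventually (eventually_le_nhds zero_lt_one)]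
      with D h1 h2 h3 h4 h5 h6 h7 h8
    exact ⟨h1, h2, h3, h4, h5, h6, h7, h8⟩
  obtain ⟨D₂, hD₂⟩ := eventually_atTop.mp hev
  set M₂ : ℝ := ((D₂ : ℝ) + 1) ^ m with hM₂
  set C₃ := C₅ / Real.sqrt a * (H + 3) with hC₃
  have hC₃0 : 0 ≤ C₃ := by positivity
  refine ⟨C₃ + Real.exp ((Real.log M₂) ^ (c / 2)), fun N A hA hav => ?_⟩
  rcases Nat.eq_zero_or_pos A.card with hA0 | hA0
  · rw [hA0, Nat.cast_zero]; positivity
  have hN : 1 ≤ N := by
    obtain ⟨x, hx⟩ := card_pos.mp hA0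
    have := mem_Icc.mp (hA hx); omega
  have hNR : (1 : ℝ) ≤ N := by exact_mod_cast hN
  have hcard : (A.card : ℝ) ≤ N := by
    have := card_le_card hA
    rw [Nat.card_Icc, Nat.add_sub_cancel] at this
    exact_mod_cast this
  set ℓ := Real.log (N : ℝ) with hℓ
  have hℓ0 : 0 ≤ ℓ := Real.log_nonneg hNR
  set D := ⌊(N : ℝ) ^ (1 / (m : ℝ))⌋₊ with hD
  by_cases hsmall : D < D₂
  · have h1 : (N : ℝ) ^ (1 / (m : ℝ)) ≤ (D₂ : ℝ) + 1 := by
      refine (Nat.lt_floor_add_one _).le.trans ?_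
      rw [← hD]; have : (D : ℝ) ≤ D₂ := by exact_mod_cast hsmall.le
      linarith
    have h2 : (N : ℝ) ≤ M₂ := by
      have h := pow_le_pow_left₀ (by positivity) h1 m
      rwa [← Real.rpow_natCast ((N : ℝ) ^ _) m, ← Real.rpow_mul (by positivity),
        one_div_mul_cancel hmR.ne', Real.rpow_one] at h
    have h3 : ℓ ^ (c / 2) ≤ (Real.log M₂) ^ (c / 2) :=
      Real.rpow_le_rpow hℓ0 (Real.log_le_log (by linarith) h2) (by positivity)
    have h4 : 1 ≤ Real.exp ((Real.log M₂) ^ (c / 2)) * Real.exp (-ℓ ^ (c / 2)) := by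
      rw [← Real.exp_add]; exact Real.one_le_exp (by linarith)
    calc (A.card : ℝ) ≤ N * 1 := by linarith
      _ ≤ N * (Real.exp ((Real.log M₂) ^ (c / 2)) * Real.exp (-ℓ ^ (c / 2))) :=
          mul_le_mul_of_nonneg_left h4 (by linarith)
      _ = Real.exp ((Real.log M₂) ^ (c / 2)) * N * Real.exp (-ℓ ^ (c / 2)) := by ring
      _ ≤ _ := mul_le_mul_of_nonneg_right (mul_le_mul_of_nonneg_right
          (le_add_of_nonneg_left hC₃0) (by linarith)) (Real.exp_pos _).le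
  push Not at hsmall
  obtain ⟨⟨L, hLgood⟩, hDD₀, hDn₀, hD1, hΛ, hΛ2, hΛm, hΛexp⟩ := hD₂ D hsmall
  set Λ := Real.log (D : ℝ) with hΛdef
  have hLgood' : Good L D c := fun q hq b hb => (hLgood q hq b hb).imp id fun hs =>
    hs.trans (Real.exp_le_exp.mpr (neg_le_neg
      (Real.rpow_le_rpow_of_exponent_le hΛ (min_le_left _ _))))
  have hcΛ : Λ ^ c ≤ Λ / 2 := by
    have h1 : Λ ^ c ≤ Λ ^ (1 / 2 : ℝ) := Real.rpow_le_rpow_of_exponent_le hΛ (min_le_right _ _)
    have h2 : Λ ^ (1 / 2 : ℝ) * Λ ^ (1 / 2 : ℝ) = Λ := by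
      rw [← Real.rpow_add (by linarith)]; norm_num
    have h3 := mul_le_mul_of_nonneg_left hΛ2 (by positivity : 0 ≤ Λ ^ (1 / 2 : ℝ))
    linarith
  obtain ⟨lam, hTlow, hT0⟩ := hT D hDD₀ hΛ L c
    (le_trans (min_le_right _ _) (by norm_num)) hcΛ hLgood'
  have hDR : (1 : ℝ) ≤ D := by exact_mod_cast hD1
  set X := D ^ E with hX
  set x₀ := D ^ (E - 1) with hx₀
  have hx₀1 : 1 ≤ x₀ := Nat.one_le_pow _ _ hD1
  have hx₀n : n₀ ≤ x₀ := hDn₀.trans (Nat.le_self_pow (by omega) D)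
  have hDle : (D : ℝ) ≤ (N : ℝ) ^ (1 / (m : ℝ)) := Nat.floor_le (by positivity)
  have hYN : (X : ℝ) ^ k ≤ N := by
    have h := pow_le_pow_left₀ (by positivity) hDle m
    rw [← Real.rpow_natCast ((N : ℝ) ^ _) m, ← Real.rpow_mul (by positivity),
      one_div_mul_cancel hmR.ne', Real.rpow_one] at h
    rw [hX, Nat.cast_pow, ← pow_mul]; exact h
  set V := ⌈H * N⌉₊ with hV
  have hvV : ∀ i ∈ range (X - x₀), 0 < h.eval ((x₀ + i : ℕ) : ℤ) ∧
      h.eval ((x₀ + i : ℕ) : ℤ) ≤ (V : ℤ) := by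
    intro i hi
    have hi' := mem_range.mp hi
    set n := x₀ + i with hn
    have hn1 : (1 : ℝ) ≤ n := by exact_mod_cast (le_trans hx₀1 (Nat.le_add_right x₀ i))
    have h2 : (n : ℝ) ≤ X := by exact_mod_cast (show n ≤ X by omega)
    refine ⟨?_, ?_⟩
    · have h3 := hlow (n : ℝ) (by exact_mod_cast (le_trans hx₀n (Nat.le_add_right x₀ i)))
      have h4 : 0 < (rpoly h).leadingCoeff := by
        rw [rpoly, leadingCoeff_map_of_injective hinj]; simpa using hl
      have h5 : 0 < (rpoly h).eval (n : ℝ) := lt_of_lt_of_le (by positivity) h3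
      rw [rpoly_eval] at h5
      exact_mod_cast h5
    · have h4 := (le_abs_self _).trans (hup _ hn1)
      rw [rpoly_eval, hdeg] at h4
      have h5 : ((h.eval (n : ℤ) : ℤ) : ℝ) ≤ ((V : ℕ) : ℝ) := by
        refine h4.trans (le_trans ?_ (Nat.le_ceil _))
        exact mul_le_mul_of_nonneg_left
          ((pow_le_pow_left₀ (Nat.cast_nonneg n) h2 k).trans hYN) (by linarith)
      exact_mod_cast h5
  set S := Sz h X with hS
  have hS0 : 0 < S := by
    have : (0 : ℝ) < X := by exact_mod_cast Nat.one_le_pow E D hD1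
    rw [hS, Sz]; positivity
  set ε := Real.exp (-Λ ^ c) with hε
  have hlp := lp_bound A N V (range (X - x₀)) (fun i => h.eval ((x₀ + i : ℕ) : ℤ))
    (fun i => (∑ f ∈ Icc 1 D, wt L f (x₀ + i)) * wG h lam ((x₀ + i : ℕ) : ℝ))
    (C₅ * S * ε) hA hvV ?_ hTlow
  rotate_left
  · intro x hx y hy i hi he
    have := hav x hx y hy (x₀ + i) (le_trans hx₀1 (Nat.le_add_right _ _)) he
    subst this
    have := (hvV i hi).1
    rw [← he] at this; simp at this
  have hsum : Real.sqrt a * S / Real.sqrt Λ ≤ (∑ i ∈ range (X - x₀),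
      (∑ f ∈ Icc 1 D, wt L f (x₀ + i)) * wG h lam ((x₀ + i : ℕ) : ℝ)) + C₅ * S * ε := by
    rw [← sub_le_iff_le_add]
    refine hT0.trans (le_of_eq ?_)
    rw [tG, Complex.re_sum]
    refine sum_congr rfl fun i _ => ?_
    rw [zero_mul, ee_zero, mul_one, Complex.ofReal_re]
  rcases hlp with hlp | hlp
  swap
  · omega
  have hsa : 0 < Real.sqrt a := Real.sqrt_pos.mpr ha0
  have hsΛ : 0 < Real.sqrt Λ := Real.sqrt_pos.mpr (by linarith)
  have h2 : ((N + V + 1 : ℕ) : ℝ) ≤ (H + 3) * N := by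
    push_cast
    have := (Nat.ceil_lt_add_one (by positivity : 0 ≤ H * (N : ℝ))).le
    rw [← hV] at this
    linarith
  have h3 : (A.card : ℝ) ≤ C₃ * N * (Real.sqrt Λ * ε) := by
    have h4 : (A.card : ℝ) * (Real.sqrt a * S / Real.sqrt Λ)
        ≤ C₃ * N * (Real.sqrt Λ * ε) * (Real.sqrt a * S / Real.sqrt Λ) := by
      refine ((mul_le_mul_of_nonneg_left hsum (Nat.cast_nonneg _)).trans hlp).trans
        ((mul_le_mul_of_nonneg_left h2 (by positivity)).trans (le_of_eq ?_))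
      rw [hC₃]; field_simp
    exact le_of_mul_le_mul_right h4 (by positivity)
  have h4 : Real.sqrt Λ * ε ≤ Real.exp (-ℓ ^ (c / 2)) := by
    have e1 : Real.sqrt Λ = (Λ ^ c) ^ (1 / (2 * c)) := by
      rw [← Real.rpow_mul (by linarith), Real.sqrt_eq_rpow]
      congr 1; field_simp
    have e2 : ε = Real.exp (-(1 / 2) * Λ ^ c) * Real.exp (-(1 / 2) * Λ ^ c) := by
      rw [hε, ← Real.exp_add]; congr 1; ring
    have e3 : ℓ ^ (c / 2) ≤ (1 / 2) * Λ ^ c := by
      have h5 : ℓ ≤ 2 * m * Λ := by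
        have h6 : (N : ℝ) ^ (1 / (m : ℝ)) ≤ 2 * D := by
          have := Nat.lt_floor_add_one ((N : ℝ) ^ (1 / (m : ℝ)))
          rw [← hD] at this; linarith
        have h7 := Real.log_le_log (by positivity) h6
        rw [Real.log_rpow (by linarith), Real.log_mul (by norm_num) (by linarith), ← hℓ, ← hΛdef,
          div_mul_eq_mul_div, one_mul, div_le_iff₀ hmR] at h7
        have h8 := mul_le_mul_of_nonneg_right
          (show Real.log 2 + Λ ≤ 2 * Λ by
            linarith [Real.log_le_sub_one_of_pos (show (0:ℝ) < 2 by norm_num)]) hmR.le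
        linarith
      have h6 := Real.rpow_le_rpow hℓ0 h5 (by positivity : 0 ≤ c / 2)
      rw [Real.mul_rpow (by positivity) (by linarith)] at h6
      have h7 : Λ ^ c = Λ ^ (c / 2) * Λ ^ (c / 2) := by
        rw [← Real.rpow_add (by linarith)]; congr 1; ring
      have h8 := mul_le_mul_of_nonneg_right hΛm (by positivity : 0 ≤ Λ ^ (c / 2))
      linarith
    rw [e1, e2, ← mul_assoc]
    refine (mul_le_of_le_one_left (Real.exp_pos _).le hΛexp).trans (Real.exp_le_exp.mpr ?_)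
    linarith
  calc (A.card : ℝ) ≤ C₃ * N * Real.exp (-ℓ ^ (c / 2)) :=
        h3.trans (mul_le_mul_of_nonneg_left h4 (by positivity))
    _ ≤ _ := mul_le_mul_of_nonneg_right (mul_le_mul_of_nonneg_right
        (le_add_of_nonneg_right (Real.exp_pos _).le) (by linarith)) (Real.exp_pos _).le

end Vale.Agent.P042.Gen
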