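import Vale.Agent.P042.GenMain

namespace Vale.Agent.P042.Gen

open Finset Polynomial Filter

variable {g : ℤ[X]}

/-- A mixture of major-arc factors. -/
noncomputable def majorMix {ι : Type} (s : Finset ι) (c : ι → ℝ) (L : ι → Dens g) (D q : ℕ) (a : ℤ) :
    ℂ := ∑ x ∈ s, ((c x : ℝ) : ℂ) * major (L x) D q a

/-- A mixture of weighted exponential sums. -/
noncomputable def tMix {ι : Type} (s : Finset ι) (c : ι → ℝ) (L : ι → Dens g) (D x₀ X : ℕ)
    (lam α : ℝ) : ℂ := ∑ x ∈ s, ((c x : ℝ) : ℂ) * tG (L x) D x₀ X lam α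

lemma mix_norm_le' {ι : Type} (s : Finset ι) (c : ι → ℝ) (hc0 : ∀ x ∈ s, 0 ≤ c x)
    (hc1 : ∑ x ∈ s, c x = 1) (F : ι → ℂ) (R : ℝ) (h : ∀ x ∈ s, ‖F x‖ ≤ R) :
    ‖∑ x ∈ s, ((c x : ℝ) : ℂ) * F x‖ ≤ R := by
  refine (norm_sum_le _ _).trans ((sum_le_sum (g := fun x => c x * R) fun x hx => ?_).trans ?_)
  · rw [norm_mul, Complex.norm_real, Real.norm_eq_abs, abs_of_nonneg (hc0 x hx)]
    exact mul_le_mul_of_nonneg_left (h x hx) (hc0 x hx)
  · rw [← sum_mul, hc1, one_mul]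

lemma mix_norm_le {ι : Type} (s : Finset ι) (c : ι → ℝ) (hc0 : ∀ x ∈ s, 0 ≤ c x)
    (hc1 : ∑ x ∈ s, c x = 1) (F G : ι → ℂ) (I : ℂ) (R : ℝ) (h : ∀ x ∈ s, ‖F x - G x * I‖ ≤ R) :
    ‖(∑ x ∈ s, ((c x : ℝ) : ℂ) * F x) - (∑ x ∈ s, ((c x : ℝ) : ℂ) * G x) * I‖ ≤ R := by
  rw [sum_mul, ← sum_sub_distrib]
  simp only [mul_assoc, ← mul_sub]
  exact mix_norm_le' s c hc0 hc1 _ R h

theorem tsum_lower_mix' (K : ℕ) : ∃ E : ℕ, 2 ≤ E ∧ ∀ g : ℤ[X], g.natDegree = K →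
    2 ≤ g.natDegree → 0 < g.leadingCoeff → ∀ H : ℝ, GBounds g H → ∃ C₁ : ℝ, 1 ≤ C₁ ∧ ∃ B' : ℕ, ∃ C₅ : ℝ, 1 ≤ C₅ ∧ ∃ D₀ : ℕ, ∀ D : ℕ, D₀ ≤ D →
      1 ≤ Real.log (D : ℝ) → ∀ (ι : Type) (s : Finset ι) (c : ι → ℝ) (L : ι → Dens g),
      (∀ x ∈ s, 0 ≤ c x) → ∑ x ∈ s, c x = 1 → ∀ ε : ℝ, Real.exp (-(Real.log (D : ℝ) / 2)) ≤ ε →
      (∀ q : ℕ, 1 ≤ q → (q : ℝ) ≤ C₁ * (D : ℝ) ^ B' → ∀ a : ℤ, IsCoprime a (q : ℤ) →
        (|(majorMix s c L D q a).im| ≤ (majorMix s c L D q a).re ∧ ‖majorMix s c L D q a‖ ≤ 2) ∨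
          ‖majorMix s c L D q a‖ ≤ ε) →
        ∃ lam : ℝ,
        (∀ α : ℝ, -(C₅ * Sz g (D ^ E) * ε) ≤ (tMix s c L D (D ^ (E - 1)) (D ^ E) lam α).re) ∧
        Real.sqrt (g.leadingCoeff : ℝ) * Sz g (D ^ E) / Real.sqrt (Real.log D)
            - C₅ * Sz g (D ^ E) * ε
          ≤ (tMix s c L D (D ^ (E - 1)) (D ^ E) lam 0).re := by
  obtain ⟨B, hstep₀⟩ := minor_step' K
  refine ⟨2 * (5 * B + K) + 7, by omega, fun g hgK hK hl H hB => ?_⟩
  subst hgK
  obtain ⟨C₁, hC₁, hstep⟩ := hstep₀ g rfl hK hl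
  obtain ⟨hH1, -, -, -⟩ := id hB
  set K := g.natDegree with hKdef
  set a : ℝ := (g.leadingCoeff : ℝ) with hadef
  have ha0 : 0 < a := by rw [hadef]; exact_mod_cast hl
  set B₁ := 5 * B + K with hB₁
  set E := 2 * B₁ + 7 with hE
  set C₄ := 2 * Real.sqrt (8 * a) + 2 * Real.sqrt a with hC₄
  set C₅ := 16 * H ^ 2 * C₁ ^ 2 + 3 * H ^ 2 + 3 * C₄ + Real.sqrt (4 * a) with hC₅
  have hC40 : 0 ≤ C₄ := by positivity
  have hH2 : 1 ≤ H ^ 2 := one_le_pow₀ hH1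
  have hC50 : 1 ≤ C₅ := by
    have : 0 ≤ 16 * H ^ 2 * C₁ ^ 2 := by positivity
    have : 0 ≤ Real.sqrt (4 * a) := Real.sqrt_nonneg _
    linarith
  obtain ⟨N₀, hN₀⟩ := exists_nat_ge C₁
  refine ⟨C₁, hC₁, B₁, C₅, hC50, max N₀ 1,
    fun D hD hΛ ι s c L hc0 hc1 ε hhalf hgood => ?_⟩
  have hD1 : 1 ≤ D := le_trans (le_max_right _ _) hD
  have hDC : C₁ ≤ D := hN₀.trans (by exact_mod_cast le_trans (le_max_left _ _) hD)
  have hDR : (1 : ℝ) ≤ D := by exact_mod_cast hD1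
  set x₀ := D ^ (E - 1) with hx₀def
  set X := D ^ E with hXdef
  have hX : X = D * x₀ := by rw [hXdef, hx₀def, ← pow_succ']; congr 1
  have hx₀ : 1 ≤ x₀ := Nat.one_le_pow _ _ hD1
  have hX1 : 1 ≤ X := Nat.one_le_pow _ _ hD1
  have hXR : (1 : ℝ) ≤ X := by exact_mod_cast hX1
  have hXR' : (X : ℝ) = (D : ℝ) ^ E := by rw [hXdef]; push_cast; rfl
  set Λ := Real.log (D : ℝ) with hΛdef
  set Y := (X : ℝ) ^ K with hYdef
  have hY0 : 0 < Y := by positivity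
  set lam := Λ / (a * Y) with hlamdef
  have hlam : 0 < lam := by positivity
  have hlamY : lam * (a * Y) = Λ := div_mul_cancel₀ _ (by positivity)
  have hΛD : Λ ≤ D := Real.log_le_self (by linarith)
  have hlamX : lam * (a * (X : ℝ) ^ K) ≤ D := by rw [← hYdef, hlamY]; exact hΛD
  set S := Sz g X with hSdef
  have hS0 : 0 < S := by rw [hSdef, Sz]; positivity
  have hS2 : S ^ 2 = Y := half_pow_sq _ (Nat.cast_nonneg X) K
  have hε0 : 0 < ε := lt_of_lt_of_le (Real.exp_pos _) hhalf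
  have hinvD : 1 / (D : ℝ) ≤ Real.exp (-(Λ / 2)) := by
    have h1 : 1 / (D : ℝ) = Real.exp (-Λ) := by
      rw [Real.exp_neg, hΛdef, Real.exp_log (by linarith), one_div]
    rw [h1]; exact Real.exp_le_exp.mpr (by linarith)
  have hFS : Fz g H X = H * S / X := by
    rw [Fz, hSdef, Sz, Real.rpow_sub_one (by linarith : (X : ℝ) ≠ 0), mul_div_assoc]
  have hIJ : ∀ β : ℝ, ‖(PsiG g lam β X - PsiG g lam β x₀) - J lam β‖
      ≤ C₄ * S * Real.exp (-(Λ / 2)) := by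
    intro β
    have h1 := PsiG_high g lam β X hlam (Nat.cast_nonneg X)
    have h2 := PsiG_low g lam β x₀ hlam.le (Nat.cast_nonneg x₀)
    have e1 : -(lam / 2) * (Real.sqrt a * (X : ℝ) ^ ((K : ℝ) / 2)) ^ 2 = -(Λ / 2) := by
      rw [mul_pow, Real.sq_sqrt ha0.le, half_pow_sq _ (Nat.cast_nonneg X), ← hYdef, ← hlamY]; ring
    have e2 : Real.sqrt (2 * Real.pi / lam) ≤ Real.sqrt (8 * a) * S := by
      rw [← Real.sqrt_sq hS0.le, hS2, ← Real.sqrt_mul (by positivity)]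
      refine Real.sqrt_le_sqrt ?_
      rw [hlamdef, div_div_eq_mul_div, div_le_iff₀ (by linarith)]
      have := mul_le_mul_of_nonneg_left hΛ (show 0 ≤ 8 * a * Y by positivity)
      have := mul_le_mul_of_nonneg_right (show 2 * Real.pi ≤ 8 by linarith [Real.pi_le_four])
        (show 0 ≤ a * Y by positivity)
      linarith
    have e3 : (x₀ : ℝ) ^ ((K : ℝ) / 2) ≤ S * (1 / (D : ℝ)) := by
      have hXd : (X : ℝ) = (D : ℝ) * x₀ := by rw [hX]; push_cast; rfl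
      rw [hSdef, Sz, hXd, Real.mul_rpow (by linarith) (Nat.cast_nonneg _), ← hKdef]
      have hD2 : (D : ℝ) ≤ (D : ℝ) ^ ((K : ℝ) / 2) :=
        Real.self_le_rpow_of_one_le hDR (by
          have : (2 : ℝ) ≤ K := by exact_mod_cast hK
          linarith)
      have h0 : (0 : ℝ) ≤ (x₀ : ℝ) ^ ((K : ℝ) / 2) := by positivity
      rw [mul_one_div, le_div_iff₀ (by linarith), mul_comm]
      exact mul_le_mul_of_nonneg_right hD2 h0
    rw [← hadef, ← hKdef] at h1 h2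
    rw [e1] at h1
    refine (le_of_eq (congrArg norm (sub_right_comm _ _ _))).trans
      ((norm_sub_le _ _).trans ((add_le_add h1 h2).trans ?_))
    have t1 := mul_le_mul_of_nonneg_left e2 (Real.exp_pos (-(Λ / 2))).le
    have t2 := mul_le_mul_of_nonneg_left
      (e3.trans (mul_le_mul_of_nonneg_left hinvD hS0.le)) (Real.sqrt_nonneg a)
    rw [hC₄]
    linarith
  have hJn : ∀ β : ℝ, ‖J lam β‖ ≤ Real.sqrt (4 * a) * S := by
    intro β
    refine (J_norm lam β hlam).trans ?_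
    rw [← Real.sqrt_sq hS0.le, hS2, ← Real.sqrt_mul (by positivity)]
    refine Real.sqrt_le_sqrt ?_
    rw [hlamdef, div_div_eq_mul_div, div_le_iff₀ (by linarith)]
    have := mul_le_mul_of_nonneg_left hΛ (show 0 ≤ 4 * a * Y by positivity)
    have := mul_le_mul_of_nonneg_right Real.pi_le_four (show 0 ≤ a * Y by positivity)
    linarith
  have hSε : 0 ≤ S * ε := by positivity
  have hmajor : ∀ (q : ℕ) (b : ℤ) (β α : ℝ), 1 ≤ q → α = (b : ℝ) / q + β →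
      (q : ℝ) ≤ C₁ * (D : ℝ) ^ B₁ → |β| * Y ≤ C₁ * (D : ℝ) ^ B₁ →
      ‖tMix s c L D x₀ X lam α - majorMix s c L D q b * (PsiG g lam β X - PsiG g lam β x₀)‖
        ≤ 16 * H ^ 2 * C₁ ^ 2 * (S * ε) := by
    intro q b β α hq hα hqb hβb
    have hM : 1 ≤ C₁ * (D : ℝ) ^ B₁ := one_le_mul_of_one_le_of_one_le hC₁ (one_le_pow₀ hDR)
    have hMX : (D : ℝ) * (C₁ * (D : ℝ) ^ B₁) ≤ X := by
      calc (D : ℝ) * (C₁ * (D : ℝ) ^ B₁) ≤ (D : ℝ) * (D * (D : ℝ) ^ B₁) :=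
            mul_le_mul_of_nonneg_left (mul_le_mul_of_nonneg_right hDC (by positivity)) (by linarith)
        _ = (D : ℝ) ^ (B₁ + 2) := by ring
        _ ≤ X := hXR' ▸ pow_le_pow_right₀ hDR (by omega)
    refine (mix_norm_le s c hc0 hc1 _ _ _ _ fun x _ =>
      major_est' (L x) hB hK hl lam hlam.le hlamX hx₀ hD1 hX q b β α _ hq hα hM hqb hβb hMX).trans ?_
    rw [hFS]
    calc 16 * H * (D : ℝ) ^ 4 * (C₁ * (D : ℝ) ^ B₁) ^ 2 * (H * S / X)
        = 16 * H ^ 2 * C₁ ^ 2 * (S * ((D : ℝ) ^ (2 * B₁ + 4) / X)) := by ring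
      _ ≤ 16 * H ^ 2 * C₁ ^ 2 * (S * ε) := by
          refine mul_le_mul_of_nonneg_left (mul_le_mul_of_nonneg_left
            (le_trans ?_ (hinvD.trans hhalf)) hS0.le) (by positivity)
          rw [div_le_div_iff₀ (by linarith) (by linarith), one_mul, ← pow_succ, hXR']
          exact pow_le_pow_right₀ hDR (by omega)
  refine ⟨lam, fun α => ?_, ?_⟩
  · set δ : ℝ := 1 / (D : ℝ) ^ 5 with hδ
    have hδ0 : 0 < δ := by positivity
    have hq0 : 0 ≤ Real.sqrt (4 * a) := Real.sqrt_nonneg _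
    have n1 : 0 ≤ 16 * H ^ 2 * C₁ ^ 2 * (S * ε) := by positivity
    have n2 : 0 ≤ 3 * H ^ 2 * (S * ε) := by positivity
    have n3 : 0 ≤ C₄ * (S * ε) := by positivity
    have n4 : 0 ≤ Real.sqrt (4 * a) * (S * ε) := by positivity
    by_cases hall : ∀ f ∈ Icc 1 D, ∀ r j : ℕ, j ≤ X →
        ‖∑ s ∈ range j, ee (α * (rpoly g).eval ((x₀ + r + f * s : ℕ) : ℝ))‖ ≤ δ * X
    · have hb : ‖tMix s c L D x₀ X lam α‖ ≤ 3 * H ^ 2 * (S * ε) := by
        refine (mix_norm_le' s c hc0 hc1 _ _ fun x _ =>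
          minor_est' (L x) hB lam hlam.le hlamX hx₀ hD1 hX α δ hall).trans ?_
        rw [hFS]
        have e1 : (D : ℝ) ^ 4 * (2 * H) * (H * S / X) * (δ * X) = 2 * H ^ 2 * (S * (1 / (D : ℝ))) := by
          rw [hδ]; field_simp
        have e2 : (D : ℝ) ^ 3 * (H * S / X) ≤ H ^ 2 * (S * (1 / (D : ℝ))) := by
          rw [show (D : ℝ) ^ 3 * (H * S / X) = H * (S * ((D : ℝ) ^ 3 / X)) by ring]
          refine mul_le_mul (le_self_pow₀ hH1 (by norm_num)) (mul_le_mul_of_nonneg_left ?_ hS0.le)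
            (by positivity) (by positivity)
          rw [div_le_div_iff₀ (by linarith) (by linarith), one_mul, ← pow_succ, hXR']
          exact pow_le_pow_right₀ hDR (by omega)
        have e3 := mul_le_mul_of_nonneg_left
          (mul_le_mul_of_nonneg_left (hinvD.trans hhalf) hS0.le) (show 0 ≤ 3 * H ^ 2 by positivity)
        linarith
      have h1 := (abs_le.mp ((Complex.abs_re_le_norm _).trans hb)).1
      rw [hC₅]; linarith
    · push Not at hall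
      obtain ⟨f, hf, r, j, hj, hbig⟩ := hall
      obtain ⟨hf1, hf2⟩ := mem_Icc.mp hf
      obtain ⟨q, b, hq, hco, hqb, hβb⟩ := hstep X f (x₀ + r) α δ hf1 hX1 hδ0 j hj hbig
      have hu : (1 / δ) ^ B = (D : ℝ) ^ (5 * B) := by rw [hδ, one_div_one_div, ← pow_mul]
      rw [hu] at hqb hβb
      have hqb' : (q : ℝ) ≤ C₁ * (D : ℝ) ^ B₁ := by
        refine hqb.trans ?_
        rw [hB₁, pow_add, mul_assoc]
        exact mul_le_mul_of_nonneg_left (mul_le_mul_of_nonneg_left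
          (pow_le_pow_left₀ (Nat.cast_nonneg _) (by exact_mod_cast hf2) _) (by positivity))
          (by linarith)
      have hβb' : |α - (b : ℝ) / q| * Y ≤ C₁ * (D : ℝ) ^ B₁ := hβb.trans
        (mul_le_mul_of_nonneg_left (pow_le_pow_right₀ hDR (by omega)) (by linarith))
      have hm := hmajor q b (α - (b : ℝ) / q) α hq (by ring) hqb' hβb'
      set β := α - (b : ℝ) / q
      set M := majorMix s c L D q b
      set I := PsiG g lam β X - PsiG g lam β x₀ with hI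
      have hre : -((3 * C₄ + Real.sqrt (4 * a)) * (S * ε)) ≤ (M * I).re := by
        rcases hgood q hq hqb' b hco with ⟨hcone, hn2⟩ | hsmall
        · have h0 := re_mul_nonneg hcone (J_cone lam β hlam)
          have h1 : ‖M * (I - J lam β)‖ ≤ 2 * (C₄ * S * Real.exp (-(Λ / 2))) := by
            rw [norm_mul]; exact mul_le_mul hn2 (hIJ β) (norm_nonneg _) zero_le_two
          have h2 := (abs_le.mp ((Complex.abs_re_le_norm _).trans h1)).1
          rw [mul_sub, Complex.sub_re] at h2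
          have h3 := mul_le_mul_of_nonneg_left hhalf (show 0 ≤ C₄ * S by positivity)
          linarith
        · have h1 : ‖I‖ ≤ (Real.sqrt (4 * a) + C₄) * S := by
            have t1 := norm_le_norm_sub_add I (J lam β)
            have t2 := hIJ β
            have t3 := hJn β
            have t4 : C₄ * S * Real.exp (-(Λ / 2)) ≤ C₄ * S :=
              mul_le_of_le_one_right (by positivity) (Real.exp_le_one_iff.mpr (by linarith))
            rw [← hI] at t2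
            linarith
          have h2 : ‖M * I‖ ≤ ε * ((Real.sqrt (4 * a) + C₄) * S) := by
            rw [norm_mul]; exact mul_le_mul hsmall h1 (norm_nonneg _) hε0.le
          have h3 := (abs_le.mp ((Complex.abs_re_le_norm _).trans h2)).1
          linarith
      have h2 := (abs_le.mp ((Complex.abs_re_le_norm _).trans hm)).1
      rw [Complex.sub_re] at h2
      rw [hC₅]
      linarith
  · have h1C : (1 : ℝ) ≤ C₁ * (D : ℝ) ^ B₁ :=
      one_le_mul_of_one_le_of_one_le hC₁ (one_le_pow₀ hDR)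
    have hm := hmajor 1 0 0 0 le_rfl (by simp) (by simpa using h1C)
      (by simp only [abs_zero, zero_mul]; linarith)
    have hM1 : majorMix s c L D 1 0 = 1 := by
      have h1 : ∀ x, major (L x) D 1 0 = 1 := fun x => by
        rw [major_eq (L x) le_rfl]
        simp [Nat.divisors_one, filter_singleton, hD1, term_one]
      simp only [majorMix, h1, mul_one]
      rw [← Complex.ofReal_sum, hc1, Complex.ofReal_one]
    rw [hM1, one_mul] at hm
    have h2 := (abs_le.mp ((Complex.abs_re_le_norm _).trans hm)).1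
    have h3 := (abs_le.mp ((Complex.abs_re_le_norm _).trans (hIJ 0))).1
    rw [Complex.sub_re] at h2 h3
    have h4 : Real.sqrt a * S / Real.sqrt Λ ≤ (J lam 0).re := by
      refine le_trans (le_of_eq ?_) (J_zero lam hlam)
      rw [hlamdef, one_div_div, Real.sqrt_div (by positivity), Real.sqrt_mul ha0.le, ← hS2,
        Real.sqrt_sq hS0.le]
    have h5 := mul_le_mul_of_nonneg_left hhalf (show 0 ≤ C₄ * S by positivity)
    have n2 : 0 ≤ (3 * H ^ 2 + Real.sqrt (4 * a) + 2 * C₄) * (S * ε) := by positivity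
    rw [hC₅]
    linarith

theorem tsum_lower_mix (hK : 2 ≤ g.natDegree) (hl : 0 < g.leadingCoeff) {H : ℝ} (hB : GBounds g H) :
    ∃ E : ℕ, 2 ≤ E ∧ ∃ C₁ : ℝ, 1 ≤ C₁ ∧ ∃ B' : ℕ, ∃ C₅ : ℝ, 1 ≤ C₅ ∧ ∃ D₀ : ℕ, ∀ D : ℕ, D₀ ≤ D →
      1 ≤ Real.log (D : ℝ) → ∀ (ι : Type) (s : Finset ι) (c : ι → ℝ) (L : ι → Dens g),
      (∀ x ∈ s, 0 ≤ c x) → ∑ x ∈ s, c x = 1 → ∀ ε : ℝ, Real.exp (-(Real.log (D : ℝ) / 2)) ≤ ε →
      (∀ q : ℕ, 1 ≤ q → (q : ℝ) ≤ C₁ * (D : ℝ) ^ B' → ∀ a : ℤ, IsCoprime a (q : ℤ) →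
        (|(majorMix s c L D q a).im| ≤ (majorMix s c L D q a).re ∧ ‖majorMix s c L D q a‖ ≤ 2) ∨
          ‖majorMix s c L D q a‖ ≤ ε) →
        ∃ lam : ℝ,
        (∀ α : ℝ, -(C₅ * Sz g (D ^ E) * ε) ≤ (tMix s c L D (D ^ (E - 1)) (D ^ E) lam α).re) ∧
        Real.sqrt (g.leadingCoeff : ℝ) * Sz g (D ^ E) / Real.sqrt (Real.log D)
            - C₅ * Sz g (D ^ E) * ε
          ≤ (tMix s c L D (D ^ (E - 1)) (D ^ E) lam 0).re := by
  obtain ⟨E, hE, h⟩ := tsum_lower_mix' g.natDegree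
  exact ⟨E, hE, h g rfl hK hl H hB⟩

end Vale.Agent.P042.Gen
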