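import Vale.Agent.P042.Arith

namespace Vale.Agent.P042

open Finset Polynomial

/-- Local densities at every prime power, adapted to the polynomial `g`. -/
structure LocalData (g : ℤ[X]) where
  δ : ℕ → ℕ → ℕ → ℝ
  A : ℕ
  C : ℝ
  σ : ℝ
  one_le_C : 1 ≤ C
  σ_pos : 0 < σ
  per : ∀ p j : ℕ, p.Prime → Function.Periodic (δ p j) (p ^ j)
  mean : ∀ p j : ℕ, p.Prime → 1 ≤ j → ∀ n, ∑ s ∈ range p, δ p j (n + p ^ (j - 1) * s) = 0
  sup : ∀ p j : ℕ, p.Prime → 1 ≤ j → ∀ n, |δ p j n| ≤ (((p ^ j : ℕ)) : ℝ) ^ A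
  decay : ∀ p i j : ℕ, p.Prime → 1 ≤ j → j ≤ i → ∀ a : ℤ, ¬ (p : ℤ) ∣ a →
    ‖avg (p ^ i) (fun n => (δ p j n : ℂ) * ch (p ^ i) (a * g.eval (n : ℤ)))‖
      ≤ C * (((p ^ j : ℕ)) : ℝ) ^ (-σ)
  pos : ∀ p i : ℕ, p.Prime → 1 ≤ i → ∀ a : ℤ, ¬ (p : ℤ) ∣ a →
    (avg (p ^ i) (fun n => ch (p ^ i) (a * g.eval (n : ℤ))) + ∑ j ∈ Icc 1 i,
        avg (p ^ i) (fun n => (δ p j n : ℂ) * ch (p ^ i) (a * g.eval (n : ℤ)))).im = 0 ∧
    0 ≤ (avg (p ^ i) (fun n => ch (p ^ i) (a * g.eval (n : ℤ))) + ∑ j ∈ Icc 1 i,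
        avg (p ^ i) (fun n => (δ p j n : ℂ) * ch (p ^ i) (a * g.eval (n : ℤ)))).re

variable {g : ℤ[X]} (L : LocalData g)

/-- The weight attached to the modulus `f`. -/
noncomputable def wt (f n : ℕ) : ℝ := f.factorization.prod fun p j => L.δ p j n

lemma wt_one (n : ℕ) : wt L 1 n = 1 := by simp [wt]

lemma wt_prime_pow {p j : ℕ} (hp : p.Prime) (hj : 1 ≤ j) (n : ℕ) :
    wt L (p ^ j) n = L.δ p j n := by
  rw [wt, hp.factorization_pow, Finsupp.prod, Finsupp.support_single_ne_zero _ (by omega),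
    prod_singleton, Finsupp.single_eq_same]

lemma wt_mul {a b : ℕ} (h : a.Coprime b) (n : ℕ) : wt L (a * b) n = wt L a n * wt L b n := by
  rw [wt, wt, wt, Nat.factorization_mul_of_coprime h, Finsupp.prod_add_index_of_disjoint]
  simpa [Nat.support_factorization] using h.disjoint_primeFactors

lemma periodic_of_dvd {β : Type*} {F : ℕ → β} {d m : ℕ} (h : Function.Periodic F d) (hd : d ∣ m) :
    Function.Periodic F m := by
  obtain ⟨k, rfl⟩ := hd
  rw [mul_comm]; exact h.nat_mul k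

lemma prime_of_mem_support {f p : ℕ} (hp : p ∈ f.factorization.support) : p.Prime :=
  Nat.prime_of_mem_primeFactors hp

lemma wt_periodic {f : ℕ} (hf : 1 ≤ f) : Function.Periodic (wt L f) f := fun n =>
  prod_congr rfl fun p hp => periodic_of_dvd (L.per p _ (prime_of_mem_support hp))
    (Nat.ordProj_dvd f p) n

lemma abs_wt_le {f : ℕ} (hf : 1 ≤ f) (n : ℕ) : |wt L f n| ≤ (f : ℝ) ^ L.A := by
  rw [wt, Finsupp.prod, abs_prod]
  refine (prod_le_prod (fun _ _ => abs_nonneg _) (fun p hp => L.sup p _ (prime_of_mem_support hp)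
    (Nat.one_le_iff_ne_zero.mpr (Finsupp.mem_support_iff.mp hp)) n)).trans (le_of_eq ?_)
  rw [prod_pow]; congr 1
  exact_mod_cast Nat.prod_factorization_pow_eq_self (n := f) (by omega)

/-- The local factor of modulus `f` at the fraction `a / q`. -/
noncomputable def term (q f : ℕ) (a : ℤ) : ℂ :=
  avg q fun n => (wt L f n : ℂ) * ch q (a * g.eval (n : ℤ))

lemma term_summand_periodic {q f : ℕ} (hq : 1 ≤ q) (hf : 1 ≤ f) (hfq : f ∣ q) (a : ℤ) :
    Function.Periodic (fun n : ℕ => (wt L f n : ℂ) * ch q (a * g.eval (n : ℤ))) q := by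
  intro n
  simp only []
  rw [periodic_of_dvd (wt_periodic L hf) hfq n]
  congr 1
  simpa [eval_mul, eval_C] using ch_eval_periodic hq (Polynomial.C a * g) n

lemma avg_wt_eq_zero {f q : ℕ} (hf : 1 ≤ f) (hq : 1 ≤ q) (h : ¬ f ∣ q) (a : ℤ) :
    avg (f * q) (fun n => (wt L f n : ℂ) * ch q (a * g.eval (n : ℤ))) = 0 := by
  rw [← Nat.factorization_le_iff_dvd (by omega) (by omega)] at h
  have : ∃ p, q.factorization p < f.factorization p := by
    by_contra hc; push Not at hc; exact h hc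
  obtain ⟨p, hp⟩ := this
  have hps : p ∈ f.factorization.support := by rw [Finsupp.mem_support_iff]; omega
  have hpp : p.Prime := prime_of_mem_support hps
  set j := f.factorization p with hj
  set v := q.factorization p with hv
  have hfe : p ^ j * (f / p ^ j) = f := Nat.ordProj_mul_ordCompl_eq_self f p
  have hqe : p ^ v * (q / p ^ v) = q := Nat.ordProj_mul_ordCompl_eq_self q p
  set L' := (f / p ^ j) * (q / p ^ v) with hL'
  have hL'p : ¬ p ∣ L' := by
    rw [hL', hpp.dvd_mul]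
    exact not_or.mpr ⟨Nat.not_dvd_ordCompl hpp (by omega), Nat.not_dvd_ordCompl hpp (by omega)⟩
  set t := p ^ (j - 1) * L' with ht
  set rest : ℕ → ℂ := fun n =>
    ((∏ x ∈ f.factorization.support.erase p, L.δ x (f.factorization x) n : ℝ) : ℂ)
      * ch q (a * g.eval (n : ℤ)) with hrest
  have hsplit : ∀ n, (wt L f n : ℂ) * ch q (a * g.eval (n : ℤ)) = (L.δ p j n : ℂ) * rest n := by
    intro n
    rw [hrest, wt, Finsupp.prod, ← mul_prod_erase _ _ hps, Complex.ofReal_mul, hj, mul_assoc]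
  have hqt : q ∣ t := by
    rw [ht, hL', ← hqe]
    have : p ^ v ∣ p ^ (j - 1) := pow_dvd_pow p (by omega)
    rw [hqe]
    calc q = p ^ v * (q / p ^ v) := hqe.symm
      _ ∣ p ^ (j - 1) * ((f / p ^ j) * (q / p ^ v)) := mul_dvd_mul this (dvd_mul_left _ _)
  have hrper : Function.Periodic rest t := by
    intro n
    simp only [hrest]
    congr 1
    · congr 1
      refine prod_congr rfl fun x hx => ?_
      obtain ⟨hxp, hxs⟩ := mem_erase.mp hx
      have hxpr := prime_of_mem_support hxs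
      refine periodic_of_dvd (L.per x _ hxpr) ?_ n
      have h1 : x ^ f.factorization x ∣ p ^ j * (f / p ^ j) := by
        rw [hfe]; exact Nat.ordProj_dvd f x
      have h2 := (Nat.Coprime.pow (f.factorization x) j ((Nat.coprime_primes hxpr hpp).mpr hxp)
        ).dvd_of_dvd_mul_left h1
      exact h2.trans (dvd_mul_of_dvd_right (dvd_mul_right _ _) _)
    · simpa [eval_mul, eval_C] using periodic_of_dvd (ch_eval_periodic hq (Polynomial.C a * g)) hqt n
  have hFper : Function.Periodic (fun n => (wt L f n : ℂ) * ch q (a * g.eval (n : ℤ))) (f * q) := by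
    intro n
    simp only []
    rw [periodic_of_dvd (wt_periodic L hf) (dvd_mul_right f q) n]
    congr 1
    simpa [eval_mul, eval_C] using
      periodic_of_dvd (ch_eval_periodic hq (Polynomial.C a * g)) (dvd_mul_left q f) n
  have hinner : ∀ n, ∑ s ∈ range p, L.δ p j (n + s * t) = 0 := by
    intro n
    have him : (range p).image (fun s => s * L' % p) = range p := by
      refine eq_of_subset_of_card_le (fun x hx => ?_) (le_of_eq ?_)
      · obtain ⟨s, _, rfl⟩ := mem_image.mp hx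
        exact mem_range.mpr (Nat.mod_lt _ hpp.pos)
      · rw [card_image_of_injOn]
        intro s hs s' hs' he
        have : s ≡ s' [MOD p] :=
          Nat.ModEq.cancel_right_of_coprime ((Nat.Prime.coprime_iff_not_dvd hpp).mpr hL'p) he
        exact this.eq_of_lt_of_lt (mem_range.mp hs) (mem_range.mp hs')
    have := L.mean p j hpp (by omega) n
    rw [← him, sum_image] at this
    · refine Eq.trans (sum_congr rfl fun s _ => ?_) this
      have e : n + s * t = (n + p ^ (j - 1) * (s * L' % p)) + (s * L' / p) * p ^ j := by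
        have h1 := Nat.mod_add_div (s * L') p
        have h2 : p ^ j = p ^ (j - 1) * p := by rw [← pow_succ]; congr 1; omega
        rw [h2, ht]
        calc n + s * (p ^ (j - 1) * L') = n + p ^ (j - 1) * (s * L') := by ring
          _ = n + p ^ (j - 1) * (s * L' % p + p * (s * L' / p)) := by rw [h1]
          _ = _ := by ring
      rw [e]
      exact (L.per p j hpp).nat_mul (s * L' / p) _
    · intro s hs s' hs' he
      have : s ≡ s' [MOD p] :=
        Nat.ModEq.cancel_right_of_coprime ((Nat.Prime.coprime_iff_not_dvd hpp).mpr hL'p) he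
      exact this.eq_of_lt_of_lt (mem_range.mp hs) (mem_range.mp hs')
  have hzero : (p : ℂ) * ∑ n ∈ range (f * q), (wt L f n : ℂ) * ch q (a * g.eval (n : ℤ)) = 0 := by
    calc (p : ℂ) * ∑ n ∈ range (f * q), (wt L f n : ℂ) * ch q (a * g.eval (n : ℤ))
        = ∑ s ∈ range p, ∑ n ∈ range (f * q), (L.δ p j (n + s * t) : ℂ) * rest n := by
          rw [show (p : ℂ) * _ = ∑ _s ∈ range p, _ from (by rw [sum_const, card_range, nsmul_eq_mul])]
          refine sum_congr rfl fun s _ => ?_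
          rw [← sum_shift _ (f * q) (s * t) hFper]
          refine sum_congr rfl fun n _ => ?_
          have := hrper.nat_mul s n
          simp only [Nat.cast_id] at this
          rw [hsplit, this]
      _ = ∑ n ∈ range (f * q), ((∑ s ∈ range p, L.δ p j (n + s * t) : ℝ) : ℂ) * rest n := by
          rw [sum_comm]; push_cast; simp_rw [sum_mul]
      _ = 0 := by simp [hinner]
  rw [avg, (mul_eq_zero.mp hzero).resolve_left (by exact_mod_cast hpp.ne_zero), zero_div]

/-- The full local sum at `a / q`. -/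
noncomputable def gsum (q : ℕ) (a : ℤ) : ℂ := ∑ f ∈ q.divisors, term L q f a

lemma split_coprime {m n : ℕ} (a : ℤ) (hm : 1 ≤ m) (hn : 1 ≤ n) (h : m.Coprime n)
    (ha : IsCoprime a ((m * n : ℕ) : ℤ)) :
    ∃ a₁ a₂ : ℤ, IsCoprime a₁ (m : ℤ) ∧ IsCoprime a₂ (n : ℤ) ∧
      ∀ x : ℤ, ch (m * n) (a * x) = ch m (a₁ * x) * ch n (a₂ * x) := by
  obtain ⟨x, y, hxy⟩ := Int.isCoprime_iff_nat_coprime.mpr (show Nat.Coprime (m : ℤ).natAbs
    (n : ℤ).natAbs by simpa using h)
  push_cast at ha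
  refine ⟨a * y, a * x, ?_, ?_, fun z => ?_⟩
  · exact IsCoprime.mul_left (ha.of_mul_right_left) ⟨(n : ℤ), x, by linear_combination hxy⟩
  · exact IsCoprime.mul_left (ha.of_mul_right_right) ⟨(m : ℤ), y, by linear_combination hxy⟩
  · rw [ch, ch, ch, ← ee_add]
    congr 1
    have : ((x : ℝ) * m + y * n) = 1 := by exact_mod_cast hxy
    have hm0 : (m : ℝ) ≠ 0 := by exact_mod_cast (by omega : m ≠ 0)
    have hn0 : (n : ℝ) ≠ 0 := by exact_mod_cast (by omega : n ≠ 0)
    push_cast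
    field_simp
    linear_combination (-((a : ℝ) * z)) * this

lemma term_mul {m n f₁ f₂ : ℕ} (hm : 1 ≤ m) (hn : 1 ≤ n) (h : m.Coprime n) (h₁ : f₁ ∣ m)
    (h₂ : f₂ ∣ n) (a a₁ a₂ : ℤ) (hch : ∀ x : ℤ, ch (m * n) (a * x) = ch m (a₁ * x) * ch n (a₂ * x)) :
    term L (m * n) (f₁ * f₂) a = term L m f₁ a₁ * term L n f₂ a₂ := by
  have hf₁ : 1 ≤ f₁ := Nat.pos_of_dvd_of_pos h₁ hm
  have hf₂ : 1 ≤ f₂ := Nat.pos_of_dvd_of_pos h₂ hn
  rw [term, term, term, ← avg_crt hm hn h _ _ (term_summand_periodic L hm hf₁ h₁ a₁)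
    (term_summand_periodic L hn hf₂ h₂ a₂)]
  congr 1
  funext x
  rw [wt_mul L ((h.coprime_dvd_left h₁).coprime_dvd_right h₂), hch, Complex.ofReal_mul]
  ring

lemma gsum_mul {m n : ℕ} (hm : 1 ≤ m) (hn : 1 ≤ n) (h : m.Coprime n) (a a₁ a₂ : ℤ)
    (hch : ∀ x : ℤ, ch (m * n) (a * x) = ch m (a₁ * x) * ch n (a₂ * x)) :
    gsum L (m * n) a = gsum L m a₁ * gsum L n a₂ := by
  rw [gsum, gsum, gsum, sum_mul_sum, ← sum_product', Nat.Coprime.divisors_mul h, sum_map,
    ← sum_attach (m.divisors ×ˢ n.divisors)]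
  refine sum_congr rfl fun x _ => ?_
  obtain ⟨h1, h2⟩ := mem_product.mp x.2
  exact term_mul L hm hn h (Nat.dvd_of_mem_divisors h1) (Nat.dvd_of_mem_divisors h2) a a₁ a₂ hch

lemma gsum_pos : ∀ q : ℕ, 1 ≤ q → ∀ a : ℤ, IsCoprime a (q : ℤ) →
    (gsum L q a).im = 0 ∧ 0 ≤ (gsum L q a).re := by
  intro q
  induction q using Nat.recOnPosPrimePosCoprime with
  | zero => intro h; omega
  | one =>
    intro _ a _
    have h1 : ch 1 (a * g.eval ((0 : ℕ) : ℤ)) = 1 := by
      rw [ch, Nat.cast_one, div_one, ee_int]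
    simp [gsum, term, avg, wt_one]
    simp at h1
    simp [h1]
  | prime_pow p i hp hi =>
    intro _ a ha
    have hpa : ¬ (p : ℤ) ∣ a := by
      intro hdvd
      have hd2 : (p : ℤ) ∣ ((p ^ i : ℕ) : ℤ) := by
        push_cast; exact dvd_pow_self _ (by omega)
      have := ha.isUnit_of_dvd' hdvd hd2
      rw [Int.isUnit_iff] at this
      have := hp.two_le; omega
    have e : gsum L (p ^ i) a = avg (p ^ i) (fun n => ch (p ^ i) (a * g.eval (n : ℤ)))
        + ∑ j ∈ Icc 1 i, avg (p ^ i) (fun n => (L.δ p j n : ℂ) * ch (p ^ i) (a * g.eval (n : ℤ))) := by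
      rw [gsum, Nat.sum_divisors_prime_pow hp, sum_range_succ', add_comm]
      congr 1
      · simp [term, wt_one]
      · rw [← Ico_add_one_right_eq_Icc, sum_Ico_eq_sum_range, Nat.add_sub_cancel]
        refine sum_congr rfl fun j _ => ?_
        rw [add_comm 1 j, term]
        congr 1; funext n
        rw [wt_prime_pow L hp (by omega)]
    rw [e]; exact L.pos p i hp hi a hpa
  | coprime m n hm hn h ihm ihn =>
    intro _ a ha
    obtain ⟨a₁, a₂, h1, h2, hch⟩ := split_coprime a hm.le hn.le h ha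
    obtain ⟨i1, r1⟩ := ihm hm.le a₁ h1
    obtain ⟨i2, r2⟩ := ihn hn.le a₂ h2
    rw [gsum_mul L hm.le hn.le h a a₁ a₂ hch]
    constructor
    · simp [Complex.mul_im, i1, i2]
    · simp [Complex.mul_re, i1, i2]; positivity

/-- The multiplicative majorant of the local factors. -/
noncomputable def maj (f : ℕ) : ℝ :=
  f.factorization.prod fun p j => L.C * (((p ^ j : ℕ)) : ℝ) ^ (-L.σ)

lemma maj_nonneg (f : ℕ) : 0 ≤ maj L f := by
  rw [maj, Finsupp.prod]
  exact prod_nonneg fun p _ => mul_nonneg (by linarith [L.one_le_C]) (by positivity)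

lemma term_decay : ∀ q : ℕ, 1 ≤ q → ∀ f : ℕ, f ∣ q → ∀ a : ℤ, IsCoprime a (q : ℤ) →
    ‖term L q f a‖ ≤ maj L f := by
  intro q
  induction q using Nat.recOnPosPrimePosCoprime with
  | zero => intro h; omega
  | one =>
    intro _ f hf a _
    rw [Nat.dvd_one] at hf; subst hf
    refine (norm_avg_le _ _ 1 zero_le_one fun n => ?_).trans (le_of_eq (by simp [maj]))
    simp [wt_one, norm_ch]
  | prime_pow p i hp hi =>
    intro _ f hf a ha
    obtain ⟨j, hji, rfl⟩ := (Nat.dvd_prime_pow hp).mp hf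
    have hpa : ¬ (p : ℤ) ∣ a := by
      intro hdvd
      have hd2 : (p : ℤ) ∣ ((p ^ i : ℕ) : ℤ) := by
        push_cast; exact dvd_pow_self _ (by omega)
      have := ha.isUnit_of_dvd' hdvd hd2
      rw [Int.isUnit_iff] at this
      have := hp.two_le; omega
    rcases Nat.eq_zero_or_pos j with hj | hj
    · subst hj
      refine (norm_avg_le _ _ 1 zero_le_one fun n => ?_).trans (le_of_eq (by simp [maj]))
      simp [wt_one, norm_ch]
    · have e : maj L (p ^ j) = L.C * (((p ^ j : ℕ)) : ℝ) ^ (-L.σ) := by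
        rw [maj, hp.factorization_pow, Finsupp.prod, Finsupp.support_single_ne_zero _ (by omega),
          prod_singleton, Finsupp.single_eq_same]
      rw [e, term]
      have := L.decay p i j hp hj hji a hpa
      simpa only [wt_prime_pow L hp hj] using this
  | coprime m n hm hn h ihm ihn =>
    intro _ f hf a ha
    obtain ⟨a₁, a₂, h1, h2, hch⟩ := split_coprime a hm.le hn.le h ha
    have hfe : f = f.gcd m * f.gcd n := by
      rw [← Nat.Coprime.gcd_mul f h, Nat.gcd_eq_left hf]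
    have hco := (h.coprime_dvd_left (Nat.gcd_dvd_right f m)).coprime_dvd_right (Nat.gcd_dvd_right f n)
    rw [hfe, term_mul L hm.le hn.le h (Nat.gcd_dvd_right f m) (Nat.gcd_dvd_right f n) a a₁ a₂ hch,
      norm_mul]
    refine (mul_le_mul (ihm hm.le _ (Nat.gcd_dvd_right f m) a₁ h1)
      (ihn hn.le _ (Nat.gcd_dvd_right f n) a₂ h2) (norm_nonneg _) (maj_nonneg L _)).trans
      (le_of_eq ?_)
    rw [maj, maj, maj, Nat.factorization_mul_of_coprime hco, Finsupp.prod_add_index_of_disjoint]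
    simpa [Nat.support_factorization] using hco.disjoint_primeFactors

lemma omega_bound (C ε : ℝ) (hC : 1 ≤ C) (hε : 0 < ε) :
    ∃ K : ℝ, 1 ≤ K ∧ ∀ n : ℕ, 1 ≤ n → C ^ n.primeFactors.card ≤ K * (n : ℝ) ^ ε := by
  obtain ⟨N₀, hN₀⟩ := exists_nat_ge (C ^ (1 / ε))
  refine ⟨C ^ (N₀ + 1), one_le_pow₀ hC, fun n hn => ?_⟩
  have key : ∀ p ∈ n.primeFactors, C ≤ (if p ≤ N₀ then C else 1) * (p : ℝ) ^ ε := by
    intro p hp
    have hpp := Nat.prime_of_mem_primeFactors hp
    have h1 : (1 : ℝ) ≤ (p : ℝ) ^ ε :=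
      Real.one_le_rpow (by exact_mod_cast hpp.one_lt.le) hε.le
    split_ifs with hle
    · exact le_mul_of_one_le_right (by linarith) h1
    · rw [one_mul]
      calc C = (C ^ (1 / ε)) ^ ε := by
            rw [← Real.rpow_mul (by linarith), one_div_mul_cancel hε.ne', Real.rpow_one]
        _ ≤ _ := Real.rpow_le_rpow (by positivity)
            (hN₀.trans (by exact_mod_cast (not_le.mp hle).le)) hε.le
  calc C ^ n.primeFactors.card = ∏ _p ∈ n.primeFactors, C := by rw [prod_const]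
    _ ≤ ∏ p ∈ n.primeFactors, (if p ≤ N₀ then C else 1) * (p : ℝ) ^ ε :=
        prod_le_prod (fun _ _ => by linarith) key
    _ = C ^ (n.primeFactors.filter (fun p => p ≤ N₀)).card
          * ((∏ p ∈ n.primeFactors, p : ℕ) : ℝ) ^ ε := by
        rw [prod_mul_distrib, ← prod_filter, prod_const, Nat.cast_prod,
          ← Real.finset_prod_rpow _ _ (fun p _ => Nat.cast_nonneg p)]
    _ ≤ C ^ (N₀ + 1) * (n : ℝ) ^ ε := by
        refine mul_le_mul (pow_le_pow_right₀ hC ?_) (Real.rpow_le_rpow (Nat.cast_nonneg _)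
          (by exact_mod_cast Nat.le_of_dvd hn (Nat.prod_primeFactors_dvd n)) hε.le)
          (by positivity) (by positivity)
        refine (card_le_card (fun p hp => ?_)).trans (le_of_eq (card_range _))
        exact mem_range.mpr (Nat.lt_succ_of_le (mem_filter.mp hp).2)

lemma divisor_bound (ε : ℝ) (hε : 0 < ε) :
    ∃ K : ℝ, 1 ≤ K ∧ ∀ n : ℕ, 1 ≤ n → (n.divisors.card : ℝ) ≤ K * (n : ℝ) ^ ε := by
  set e := ε / 2 with he
  have he0 : 0 < e := by rw [he]; linarith
  have hl2 : 0 < e * Real.log 2 := mul_pos he0 (Real.log_pos (by norm_num))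
  set E := 1 + 1 / (e * Real.log 2) with hE
  have hE1 : 1 ≤ E := by rw [hE]; linarith [one_div_pos.mpr hl2]
  obtain ⟨K, hK, hKb⟩ := omega_bound E e hE1 he0
  refine ⟨K, hK, fun n hn => ?_⟩
  have key : ∀ p ∈ n.primeFactors, ((n.factorization p + 1 : ℕ) : ℝ)
      ≤ E * (((p ^ n.factorization p : ℕ)) : ℝ) ^ e := by
    intro p hp
    set j := n.factorization p
    have hp2 : (2 : ℝ) ≤ p := by exact_mod_cast (Nat.prime_of_mem_primeFactors hp).two_le
    have h1 : (j : ℝ) * (e * Real.log 2) + 1 ≤ ((p ^ j : ℕ) : ℝ) ^ e := by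
      refine (Real.add_one_le_exp _).trans ?_
      push_cast
      rw [← Real.rpow_natCast, ← Real.rpow_mul (by linarith),
        Real.rpow_def_of_pos (by linarith : (0:ℝ) < p)]
      refine Real.exp_le_exp.mpr ?_
      have := Real.log_le_log (by norm_num : (0:ℝ) < 2) hp2
      calc (j : ℝ) * (e * Real.log 2) = Real.log 2 * (j * e) := by ring
        _ ≤ _ := mul_le_mul_of_nonneg_right this (by positivity)
    refine le_trans ?_ (mul_le_mul_of_nonneg_left h1 (by linarith))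
    push_cast
    rw [hE]
    have : 1 / (e * Real.log 2) * (e * Real.log 2) = 1 := one_div_mul_cancel hl2.ne'
    have hpos : 0 ≤ 1 / (e * Real.log 2) := (one_div_pos.mpr hl2).le
    have hj : 0 ≤ (j : ℝ) * (e * Real.log 2) := by positivity
    nlinarith
  calc (n.divisors.card : ℝ) = ∏ p ∈ n.primeFactors, ((n.factorization p + 1 : ℕ) : ℝ) := by
        rw [Nat.card_divisors (by omega)]; push_cast; rfl
    _ ≤ ∏ p ∈ n.primeFactors, E * (((p ^ n.factorization p : ℕ)) : ℝ) ^ e :=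
        prod_le_prod (fun _ _ => by positivity) key
    _ = E ^ n.primeFactors.card * (n : ℝ) ^ e := by
        rw [prod_mul_distrib, prod_const, Real.finset_prod_rpow _ _ (fun _ _ => Nat.cast_nonneg _),
          ← Nat.cast_prod]
        congr 2
        exact_mod_cast Nat.prod_factorization_pow_eq_self (n := n) (by omega)
    _ ≤ K * (n : ℝ) ^ e * (n : ℝ) ^ e :=
        mul_le_mul_of_nonneg_right (hKb n hn) (by positivity)
    _ = K * (n : ℝ) ^ ε := by
        rw [mul_assoc, ← Real.rpow_add (by exact_mod_cast hn), he]; congr 2; ring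

theorem term_small (hg : 1 ≤ g.natDegree) :
    ∃ η : ℝ, 0 < η ∧ ∃ C : ℝ, 1 ≤ C ∧ ∀ q : ℕ, 1 ≤ q → ∀ f : ℕ, f ∣ q → ∀ a : ℤ,
      IsCoprime a (q : ℤ) → ‖term L q f a‖ ≤ C * (q : ℝ) ^ (-η) := by
  obtain ⟨θ, hθ, C₁, hC₁, hcb⟩ := coeff_bound g.natDegree
  obtain ⟨K₁, hK₁, hK₁b⟩ := omega_bound L.C (L.σ / 2) L.one_le_C (by linarith [L.σ_pos])
  set K := g.natDegree with hK
  set l : ℕ := g.leadingCoeff.natAbs with hl
  have hl1 : 1 ≤ l := by
    rw [hl, Nat.one_le_iff_ne_zero, Int.natAbs_ne_zero, leadingCoeff_ne_zero]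
    rintro rfl; simp at hK; omega
  set γ := θ / (2 * ((L.A : ℝ) + K * θ)) with hγ
  have hden : 0 < (L.A : ℝ) + K * θ := by
    have : (1 : ℝ) ≤ K := by exact_mod_cast hg
    nlinarith [Nat.cast_nonneg (α := ℝ) L.A]
  have hγ0 : 0 < γ := by rw [hγ]; positivity
  refine ⟨min (θ / 2) (γ * (L.σ / 2)), lt_min (by linarith) (by have := L.σ_pos; positivity),
    max (C₁ * (l : ℝ) ^ θ) K₁, le_max_of_le_right hK₁, fun q hq f hf a ha => ?_⟩
  have hf1 : 1 ≤ f := Nat.pos_of_dvd_of_pos hf hq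
  have hqR : (1 : ℝ) ≤ q := by exact_mod_cast hq
  have hfR : (1 : ℝ) ≤ f := by exact_mod_cast hf1
  by_cases hsmall : (f : ℝ) ≤ (q : ℝ) ^ γ
  · have hb : ‖term L q f a‖ ≤ (f : ℝ) ^ L.A * (C₁ * (((l * f ^ K : ℕ) : ℝ) / q) ^ θ) := by
      have e : term L q f a =
          avg f (fun r => (wt L f r : ℂ) * avg q (fun s => ch q (a * g.eval ((r + f * s : ℕ) : ℤ)))) := by
        rw [term, ← avg_periodic_mul _ q f hf1 (term_summand_periodic L hq hf1 hf a),
          mul_comm q f, avg, sum_range_mul', sum_comm, avg, sum_div, sum_div]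
        refine sum_congr rfl fun r _ => ?_
        rw [avg, ← mul_div_assoc, div_div, mul_sum, Nat.cast_mul, mul_comm (q : ℂ)]
        congr 1
        refine sum_congr rfl fun s _ => ?_
        congr 2
        rw [mul_comm]; exact (wt_periodic L hf1).nat_mul s r
      rw [e]
      refine norm_avg_le _ _ _ (by positivity) fun r => ?_
      rw [norm_mul, Complex.norm_real, Real.norm_eq_abs]
      refine mul_le_mul (abs_wt_le L hf1 r) ?_ (norm_nonneg _) (by positivity)
      set P := Polynomial.C a * (taylor (r : ℤ) g).comp (Polynomial.C (f : ℤ) * X) with hP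
      have hev : ∀ s : ℕ, a * g.eval ((r + f * s : ℕ) : ℤ) = P.eval (s : ℤ) := by
        intro s; rw [hP]; simp [taylor_eval, add_comm]
      simp only [hev]
      have hdeg : P.natDegree ≤ K := by
        refine (natDegree_C_mul_le _ _).trans ?_
        rw [natDegree_comp, natDegree_taylor]
        refine (Nat.mul_le_mul_left _ (natDegree_C_mul_le _ _)).trans ?_
        simp [hK]
      refine hcb P hdeg q hq K hg (l * f ^ K) (Nat.one_le_iff_ne_zero.mpr (by positivity))
        (fun q' hq' hd => ?_)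
      rw [hP, coeff_C_mul, comp_C_mul_X_coeff, hK, coeff_taylor_natDegree, ← hK] at hd
      have hd2 : (q : ℤ) ∣ (q' : ℤ) * (g.leadingCoeff * (f : ℤ) ^ K) := by
        refine (ha.symm).dvd_of_dvd_mul_left ?_
        rwa [mul_left_comm]
      have := Int.natAbs_dvd_natAbs.mpr hd2
      simp only [Int.natAbs_natCast, Int.natAbs_mul, Int.natAbs_pow, ← hl] at this
      refine (Nat.le_of_dvd (by positivity) this).trans (le_of_eq ?_)
      ring
    refine hb.trans ?_
    have e1 : (f : ℝ) ^ L.A * (C₁ * (((l * f ^ K : ℕ) : ℝ) / q) ^ θ)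
        = C₁ * (l : ℝ) ^ θ * ((f : ℝ) ^ ((L.A : ℝ) + K * θ) * (q : ℝ) ^ (-θ)) := by
      push_cast
      rw [Real.div_rpow (by positivity) (by positivity), Real.mul_rpow (by positivity) (by positivity),
        ← Real.rpow_natCast (f : ℝ) K, ← Real.rpow_mul (by positivity), ← Real.rpow_natCast (f : ℝ) L.A,
        Real.rpow_add (by positivity), Real.rpow_neg (by positivity)]
      ring
    rw [e1]
    refine mul_le_mul (le_max_left _ _) ?_ (by positivity) (by positivity)
    calc (f : ℝ) ^ ((L.A : ℝ) + K * θ) * (q : ℝ) ^ (-θ)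
        ≤ ((q : ℝ) ^ γ) ^ ((L.A : ℝ) + K * θ) * (q : ℝ) ^ (-θ) :=
          mul_le_mul_of_nonneg_right (Real.rpow_le_rpow (by positivity) hsmall hden.le) (by positivity)
      _ = (q : ℝ) ^ (-(θ / 2)) := by
          rw [← Real.rpow_mul (by positivity), ← Real.rpow_add (by positivity)]
          congr 1; rw [hγ]; field_simp; ring
      _ ≤ _ := Real.rpow_le_rpow_of_exponent_le hqR (neg_le_neg (min_le_left _ _))
  · push Not at hsmall
    refine (term_decay L q hq f hf a ha).trans ?_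
    have e1 : maj L f = L.C ^ f.primeFactors.card * (f : ℝ) ^ (-L.σ) := by
      rw [maj, Finsupp.prod, prod_mul_distrib, prod_const, Nat.support_factorization,
        Real.finset_prod_rpow _ _ (fun _ _ => Nat.cast_nonneg _), ← Nat.cast_prod]
      congr 2
      exact_mod_cast Nat.prod_factorization_pow_eq_self (n := f) (by omega)
    rw [e1]
    calc L.C ^ f.primeFactors.card * (f : ℝ) ^ (-L.σ)
        ≤ K₁ * (f : ℝ) ^ (L.σ / 2) * (f : ℝ) ^ (-L.σ) :=
          mul_le_mul_of_nonneg_right (hK₁b f hf1) (by positivity)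
      _ = K₁ * (f : ℝ) ^ (-(L.σ / 2)) := by
          rw [mul_assoc, ← Real.rpow_add (by positivity)]; congr 2; ring
      _ ≤ K₁ * ((q : ℝ) ^ γ) ^ (-(L.σ / 2)) := mul_le_mul_of_nonneg_left
          (Real.rpow_le_rpow_of_nonpos (by positivity) hsmall.le (by linarith [L.σ_pos])) (by linarith)
      _ = K₁ * (q : ℝ) ^ (-(γ * (L.σ / 2))) := by
          rw [← Real.rpow_mul (by positivity), mul_neg]
      _ ≤ _ := mul_le_mul (le_max_right _ _)
          (Real.rpow_le_rpow_of_exponent_le hqR (neg_le_neg (min_le_right _ _)))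
          (by positivity) (by positivity)

/-- The truncated major-arc factor. -/
noncomputable def major (D q : ℕ) (a : ℤ) : ℂ :=
  ∑ f ∈ Icc 1 D, avg (f * q) fun n => (wt L f n : ℂ) * ch q (a * g.eval (n : ℤ))

lemma major_eq {D q : ℕ} (hq : 1 ≤ q) (a : ℤ) :
    major L D q a = ∑ f ∈ q.divisors.filter (fun f => f ≤ D), term L q f a := by
  rw [major, ← sum_filter_of_ne (p := fun f => f ∣ q)]
  · refine sum_congr ?_ fun f hf => ?_
    · ext f
      simp only [mem_filter, mem_Icc, Nat.mem_divisors]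
      constructor
      · rintro ⟨⟨h1, h2⟩, h3⟩; exact ⟨⟨h3, by omega⟩, h2⟩
      · rintro ⟨⟨h1, h2⟩, h3⟩; exact ⟨⟨Nat.pos_of_dvd_of_pos h1 hq, h3⟩, h1⟩
    · have hfq : f ∣ q := Nat.dvd_of_mem_divisors (mem_filter.mp hf).1
      have hf1 := Nat.pos_of_dvd_of_pos hfq hq
      rw [mul_comm, avg_periodic_mul _ q f hf1 (term_summand_periodic L hq hf1 hfq a), term]
  · intro f hf hne
    by_contra hd
    exact hne (avg_wt_eq_zero L (mem_Icc.mp hf).1 hq hd a)

lemma major_pos {D q : ℕ} (hq : 1 ≤ q) (hqD : q ≤ D) (a : ℤ) (ha : IsCoprime a (q : ℤ)) :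
    (major L D q a).im = 0 ∧ 0 ≤ (major L D q a).re := by
  rw [major_eq L hq, filter_true_of_mem (fun f hf => (Nat.divisor_le hf).trans hqD)]
  exact gsum_pos L q hq a ha

theorem major_small (hg : 1 ≤ g.natDegree) :
    ∃ η : ℝ, 0 < η ∧ ∃ C : ℝ, 1 ≤ C ∧ ∀ D q : ℕ, 1 ≤ q → ∀ a : ℤ,
      IsCoprime a (q : ℤ) → ‖major L D q a‖ ≤ C * (q : ℝ) ^ (-η) := by
  obtain ⟨η, hη, C, hC, hb⟩ := term_small L hg
  obtain ⟨K, hK, hKb⟩ := divisor_bound (η / 2) (by linarith)
  refine ⟨η / 2, by linarith, K * C, one_le_mul_of_one_le_of_one_le hK hC, fun D q hq a ha => ?_⟩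
  rw [major_eq L hq]
  refine (norm_sum_le _ _).trans ?_
  calc ∑ f ∈ q.divisors.filter (fun f => f ≤ D), ‖term L q f a‖
      ≤ ∑ f ∈ q.divisors, ‖term L q f a‖ :=
        sum_le_sum_of_subset_of_nonneg (filter_subset _ _) (fun _ _ _ => norm_nonneg _)
    _ ≤ q.divisors.card * (C * (q : ℝ) ^ (-η)) := by
        rw [← nsmul_eq_mul]
        exact sum_le_card_nsmul _ _ _ fun f hf => hb q hq f (Nat.dvd_of_mem_divisors hf) a ha
    _ ≤ K * (q : ℝ) ^ (η / 2) * (C * (q : ℝ) ^ (-η)) :=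
        mul_le_mul_of_nonneg_right (hKb q hq) (by positivity)
    _ = K * C * (q : ℝ) ^ (-(η / 2)) := by
        rw [show K * (q : ℝ) ^ (η / 2) * (C * (q : ℝ) ^ (-η))
          = K * C * ((q : ℝ) ^ (η / 2) * (q : ℝ) ^ (-η)) by ring,
          ← Real.rpow_add (by exact_mod_cast hq)]
        congr 2; ring

end Vale.Agent.P042
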