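import Vale.Agent.P042.Circle

namespace Vale.Agent.P042

open Finset Polynomial

variable {g : ℤ[X]}

/-- The smooth summand. -/
noncomputable def sm (g : ℤ[X]) (U β x : ℝ) : ℂ :=
  ((wgt g U x : ℝ) : ℂ) * ee (β * (rpoly g).eval x)

/-- The derivative of the smooth summand. -/
noncomputable def sm' (g : ℤ[X]) (U β x : ℝ) : ℂ :=
  ((wgt' g U x : ℝ) : ℂ) * ee (β * (rpoly g).eval x)
    + ((wgt g U x : ℝ) : ℂ) * (ee (β * (rpoly g).eval x)
        * (Complex.I * ((2 * Real.pi * β * (rpoly g).derivative.eval x : ℝ) : ℂ)))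

lemma sm_hasDerivAt (g : ℤ[X]) (U β x : ℝ) : HasDerivAt (sm g U β) (sm' g U β x) x := by
  have h1 := (wgt_hasDerivAt g U x).ofReal_comp
  have h2 := (ee_hasDerivAt β ((rpoly g).eval x)).scomp x ((rpoly g).hasDerivAt x)
  refine (h1.mul h2).congr_deriv ?_
  simp only [sm', Complex.real_smul, Function.comp]
  push_cast; ring

lemma prim_comp_hasDerivAt (g : ℤ[X]) (U β x : ℝ) (hU : U ≠ 0) :
    HasDerivAt (fun t => prim β U ((rpoly g).eval t)) (sm g U β x) x := by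
  have h := (prim_hasDerivAt β U ((rpoly g).eval x) hU).scomp x ((rpoly g).hasDerivAt x)
  refine h.congr_deriv ?_
  simp only [sm, wgt, Complex.real_smul]
  push_cast; ring

/-- The main term `I(β)`. -/
noncomputable def mainI (g : ℤ[X]) (x₀ X : ℕ) (β : ℝ) : ℂ :=
  prim β ((rpoly g).eval (X : ℝ)) ((rpoly g).eval (X : ℝ))
    - prim β ((rpoly g).eval (X : ℝ)) ((rpoly g).eval (x₀ : ℝ))

/-- One component of the weighted exponential sum. -/
noncomputable def comp' (g : ℤ[X]) (x₀ X : ℕ) (c : ℕ → ℂ) (α : ℝ) : ℂ :=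
  ∑ i ∈ range (X - x₀), c (x₀ + i) * sm g ((rpoly g).eval (X : ℝ)) α (x₀ + i : ℕ)

lemma sm_bounds {x₀ : ℕ} {H c : ℝ} (hB : Bounds g x₀ H c) (hK : 2 ≤ g.natDegree) (X : ℕ)
    (hX : x₀ ≤ X) (β x : ℝ) (h1 : 1 ≤ x) (h2 : x ≤ 2 * X) :
    ‖sm g ((rpoly g).eval (X : ℝ)) β x‖ ≤ H * (X : ℝ) ^ (g.natDegree - 1) ∧
    ‖sm' g ((rpoly g).eval (X : ℝ)) β x‖
      ≤ 8 * H ^ 2 * (X : ℝ) ^ (g.natDegree - 2) * (1 + |β| * (X : ℝ) ^ g.natDegree) := by
  obtain ⟨_, hH1, _, _, _, _, hb⟩ := hB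
  obtain ⟨hw, hw', hg'⟩ := hb X hX x h1 h2
  set K := g.natDegree
  set U := (rpoly g).eval (X : ℝ)
  refine ⟨?_, ?_⟩
  · rw [sm, norm_mul, norm_ee, mul_one, Complex.norm_real, Real.norm_eq_abs]; exact hw
  · rw [sm']
    refine (norm_add_le _ _).trans ?_
    simp only [norm_mul, norm_ee, mul_one, Complex.norm_real, Complex.norm_I, one_mul,
      Real.norm_eq_abs]
    have hX1 : (0 : ℝ) ≤ X := Nat.cast_nonneg X
    have hH0 : 0 ≤ H := by linarith
    have t : |2 * Real.pi * β * (rpoly g).derivative.eval x|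
        ≤ 8 * |β| * (H * (X : ℝ) ^ (K - 1)) := by
      rw [abs_mul, abs_mul, abs_of_pos (by positivity : (0:ℝ) < 2 * Real.pi)]
      refine mul_le_mul ?_ hg' (abs_nonneg _) (by positivity)
      nlinarith [abs_nonneg β, Real.pi_le_four]
    have t2 := mul_le_mul hw t (abs_nonneg _) (by positivity)
    have e : (X : ℝ) ^ (K - 1) * (X : ℝ) ^ (K - 1) = (X : ℝ) ^ (K - 2) * (X : ℝ) ^ K := by
      rw [← pow_add, ← pow_add]; congr 1; omega
    have t3 : H * (X : ℝ) ^ (K - 1) * (8 * |β| * (H * (X : ℝ) ^ (K - 1)))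
        = 8 * H ^ 2 * (X : ℝ) ^ (K - 2) * (|β| * (X : ℝ) ^ K) := by
      calc _ = 8 * H ^ 2 * |β| * ((X : ℝ) ^ (K - 1) * (X : ℝ) ^ (K - 1)) := by ring
        _ = _ := by rw [e]; ring
    have t4 : H * (X : ℝ) ^ (K - 2) ≤ 8 * H ^ 2 * (X : ℝ) ^ (K - 2) :=
      mul_le_mul_of_nonneg_right (by nlinarith) (by positivity)
    rw [t3, abs_mul, abs_mul, abs_mul] at t2
    nlinarith

lemma split_range {β : Type*} [AddCommMonoid β] (F : ℕ → β) (n P : ℕ) :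
    ∑ i ∈ range n, F i = (∑ r ∈ range P, ∑ s ∈ range (n / P), F (r + P * s))
      + ∑ i ∈ range (n % P), F (P * (n / P) + i) := by
  rw [sum_comm, ← sum_range_mul', ← sum_range_add, Nat.div_add_mod]

lemma comp_est {x₀ : ℕ} {H c₀ : ℝ} (hB : Bounds g x₀ H c₀) (hK : 2 ≤ g.natDegree) (X P : ℕ)
    (c : ℕ → ℂ) (Cm : ℝ) (hX : x₀ ≤ X) (hP : 1 ≤ P) (hPX : P ≤ X) (hcper : Function.Periodic c P)
    (hc : ∀ n, ‖c n‖ ≤ Cm) (β : ℝ) :
    ‖comp' g x₀ X c β - avg P c * mainI g x₀ X β‖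
      ≤ Cm * P * (11 * H ^ 2 * (X : ℝ) ^ (g.natDegree - 1) * (1 + |β| * (X : ℝ) ^ g.natDegree)) := by
  have hB' := hB
  obtain ⟨hx₀, hH1, _, _, _, hU1, _⟩ := hB'
  set K := g.natDegree with hKdef
  set U := (rpoly g).eval (X : ℝ) with hU
  have hU0 : U ≠ 0 := by have := hU1 X hX; linarith
  set F := H * (X : ℝ) ^ (K - 1) with hF
  set L := 8 * H ^ 2 * (X : ℝ) ^ (K - 2) * (1 + |β| * (X : ℝ) ^ K) with hL
  have hH0 : 0 ≤ H := by linarith
  have hL0 : 0 ≤ L := by positivity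
  have hF0 : 0 ≤ F := by positivity
  have hCm : 0 ≤ Cm := (norm_nonneg _).trans (hc 0)
  set len := (X - x₀) / P with hlen
  set rem := (X - x₀) % P with hrem
  have hdm : P * len + rem = X - x₀ := Nat.div_add_mod _ _
  have hremP : rem < P := Nat.mod_lt _ hP
  have hI : mainI g x₀ X β = (fun t => prim β U ((rpoly g).eval t)) (X : ℝ)
      - (fun t => prim β U ((rpoly g).eval t)) (x₀ : ℝ) := rfl
  set Ψ := fun t => prim β U ((rpoly g).eval t) with hΨdef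
  have hx₀R : (1 : ℝ) ≤ x₀ := by exact_mod_cast hx₀
  have hX0R : (x₀ : ℝ) ≤ X := by exact_mod_cast hX
  have hPXR : (P : ℝ) ≤ X := by exact_mod_cast hPX
  have hdm' : (P : ℝ) * len + rem = (X : ℝ) - x₀ := by
    have := congrArg (Nat.cast (R := ℝ)) hdm
    rw [Nat.cast_sub hX] at this
    push_cast at this; exact this
  have hrem0 : (0 : ℝ) ≤ rem := Nat.cast_nonneg _
  have hremR : (rem : ℝ) ≤ P := by exact_mod_cast hremP.le
  have hΨlip : ∀ u v : ℝ, u ∈ Set.Icc (1 : ℝ) (2 * X) → v ∈ Set.Icc (1 : ℝ) (2 * X) →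
      ‖Ψ v - Ψ u‖ ≤ F * |v - u| := by
    intro u v hu hv
    have := (convex_Icc (1 : ℝ) (2 * X)).norm_image_sub_le_of_norm_hasDerivWithin_le
      (fun y _ => (prim_comp_hasDerivAt g U β y hU0).hasDerivWithinAt)
      (fun y hy => (sm_bounds hB hK X hX β y hy.1 hy.2).1) hu hv
    rwa [Real.norm_eq_abs] at this
  have hinner : ∀ r ∈ range P,
      ‖(P : ℂ) * ∑ s ∈ range len, sm g U β ((x₀ + (r + P * s) : ℕ) : ℝ) - mainI g x₀ X β‖
        ≤ (P : ℝ) * (X * L + 2 * F) := by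
    intro r hr
    have hrP : (r : ℝ) ≤ P := by exact_mod_cast (mem_range.mp hr).le
    have hr0 : (0 : ℝ) ≤ r := Nat.cast_nonneg r
    set a : ℝ := (x₀ : ℝ) + r with ha
    have hP0 : (0 : ℝ) ≤ P := Nat.cast_nonneg P
    have hlen0 : (0 : ℝ) ≤ (P : ℝ) * len := by positivity
    have hend : a + (P : ℝ) * len ≤ 2 * X := by linarith
    have hR := riemann Ψ (sm g U β) (sm' g U β) 1 (2 * X) L hL0
      (fun y _ => prim_comp_hasDerivAt g U β y hU0) (fun y _ => sm_hasDerivAt g U β y)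
      (fun y hy => (sm_bounds hB hK X hX β y hy.1 hy.2).2) P a hP0 len (by linarith) hend
    have e : ∑ s ∈ range len, sm g U β ((x₀ + (r + P * s) : ℕ) : ℝ)
        = ∑ s ∈ range len, sm g U β (a + P * s) := by
      refine sum_congr rfl fun s _ => ?_
      congr 1; rw [ha]; push_cast; ring
    rw [e, hI, show ((P : ℕ) : ℂ) = ((P : ℝ) : ℂ) by simp]
    have h2 := hΨlip (a + P * len) X ⟨by linarith, hend⟩ ⟨by linarith, by linarith⟩
    have h3 := hΨlip (x₀ : ℝ) a ⟨hx₀R, by linarith⟩ ⟨by linarith, by linarith⟩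
    have h4 : |(X : ℝ) - (a + P * len)| ≤ P := by rw [abs_le]; constructor <;> linarith
    have h5 : |a - (x₀ : ℝ)| ≤ P := by rw [abs_le]; constructor <;> linarith
    set S := ((P : ℝ) : ℂ) * ∑ s ∈ range len, sm g U β (a + P * s)
    calc ‖S - (Ψ X - Ψ x₀)‖
        = ‖(S - (Ψ (a + P * len) - Ψ a)) + (-(Ψ X - Ψ (a + P * len)) + -(Ψ a - Ψ x₀))‖ := by
          congr 1; ring
      _ ≤ ‖S - (Ψ (a + P * len) - Ψ a)‖ + (‖Ψ X - Ψ (a + P * len)‖ + ‖Ψ a - Ψ x₀‖) := by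
          refine (norm_add_le _ _).trans (add_le_add le_rfl ((norm_add_le _ _).trans ?_))
          rw [norm_neg, norm_neg]
      _ ≤ len * (L * (P : ℝ) ^ 2) + (F * P + F * P) :=
          add_le_add hR (add_le_add (h2.trans (mul_le_mul_of_nonneg_left h4 hF0))
            (h3.trans (mul_le_mul_of_nonneg_left h5 hF0)))
      _ = (P : ℝ) * ((P * len) * L + 2 * F) := by ring
      _ ≤ _ := by
          refine mul_le_mul_of_nonneg_left (add_le_add ?_ le_rfl) hP0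
          exact mul_le_mul_of_nonneg_right (by linarith) hL0
  have hPc : (P : ℂ) ≠ 0 := by exact_mod_cast (by omega : P ≠ 0)
  have hmain : ‖∑ r ∈ range P, ∑ s ∈ range len, c (x₀ + (r + P * s)) *
      sm g U β ((x₀ + (r + P * s) : ℕ) : ℝ) - avg P c * mainI g x₀ X β‖
      ≤ Cm * P * (X * L + 2 * F) := by
    have e1 : avg P c * mainI g x₀ X β = ∑ r ∈ range P, c (x₀ + r) * (mainI g x₀ X β / P) := by
      rw [← sum_mul, avg, ← sum_shift c P x₀ hcper]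
      simp only [add_comm _ x₀]
      ring
    have e2 : ∀ r ∈ range P, ∑ s ∈ range len, c (x₀ + (r + P * s)) *
        sm g U β ((x₀ + (r + P * s) : ℕ) : ℝ)
        = c (x₀ + r) * ∑ s ∈ range len, sm g U β ((x₀ + (r + P * s) : ℕ) : ℝ) := by
      intro r _
      rw [mul_sum]
      refine sum_congr rfl fun s _ => ?_
      congr 1
      rw [← add_assoc, mul_comm]; exact hcper.nat_mul s _
    rw [e1, sum_congr rfl e2, ← sum_sub_distrib]
    refine (norm_sum_le _ _).trans ((sum_le_card_nsmul _ _ (Cm * (X * L + 2 * F)) fun r hr => ?_).trans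
      (le_of_eq ?_))
    · rw [← mul_sub, norm_mul]
      refine mul_le_mul (hc _) ?_ (norm_nonneg _) hCm
      have h := hinner r hr
      have hPr : (0 : ℝ) < P := by exact_mod_cast hP
      rw [← mul_le_mul_iff_right₀ hPr]
      refine le_trans (le_of_eq ?_) h
      rw [show (P : ℝ) = ‖(P : ℂ)‖ from (Complex.norm_natCast P).symm, ← norm_mul, mul_sub,
        mul_div_cancel₀ _ hPc]
    · simp; ring
  have htail : ‖∑ i ∈ range rem, c (x₀ + (P * len + i)) *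
      sm g U β ((x₀ + (P * len + i) : ℕ) : ℝ)‖ ≤ Cm * P * F := by
    refine (norm_sum_le _ _).trans ((sum_le_card_nsmul _ _ (Cm * F) fun i hi => ?_).trans ?_)
    · rw [norm_mul]
      refine mul_le_mul (hc _) ?_ (norm_nonneg _) hCm
      have : x₀ + (P * len + i) ≤ X := by have := mem_range.mp hi; omega
      have h1 : ((x₀ + (P * len + i) : ℕ) : ℝ) ≤ X := by exact_mod_cast this
      refine (sm_bounds hB hK X hX β _ ?_ (by linarith)).1
      exact_mod_cast le_add_right hx₀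
    · rw [card_range, nsmul_eq_mul]
      calc (rem : ℝ) * (Cm * F) ≤ P * (Cm * F) := mul_le_mul_of_nonneg_right hremR (by positivity)
        _ = _ := by ring
  have hsplit : comp' g x₀ X c β = (∑ r ∈ range P, ∑ s ∈ range len, c (x₀ + (r + P * s)) *
      sm g U β ((x₀ + (r + P * s) : ℕ) : ℝ)) + ∑ i ∈ range rem, c (x₀ + (P * len + i)) *
      sm g U β ((x₀ + (P * len + i) : ℕ) : ℝ) :=
    split_range (fun i => c (x₀ + i) * sm g U β ((x₀ + i : ℕ) : ℝ)) (X - x₀) P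
  rw [hsplit, add_sub_right_comm]
  refine (norm_add_le _ _).trans ((add_le_add hmain htail).trans ?_)
  rw [show Cm * P * (X * L + 2 * F) + Cm * P * F = Cm * P * (X * L + 3 * F) by ring]
  refine mul_le_mul_of_nonneg_left ?_ (by positivity)
  have e3 : (X : ℝ) * (X : ℝ) ^ (K - 2) = (X : ℝ) ^ (K - 1) := by
    rw [← pow_succ']; congr 1; omega
  have e4 : X * L = 8 * H ^ 2 * (X : ℝ) ^ (K - 1) * (1 + |β| * (X : ℝ) ^ K) := by
    rw [hL, ← e3]; ring
  rw [e4, hF]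
  have e5 : H * (X : ℝ) ^ (K - 1) ≤ H ^ 2 * (X : ℝ) ^ (K - 1) * (1 + |β| * (X : ℝ) ^ K) := by
    refine le_trans ?_ (le_mul_of_one_le_right (by positivity)
      (le_add_of_nonneg_right (by positivity)))
    exact mul_le_mul_of_nonneg_right (by nlinarith) (by positivity)
  linarith

lemma mainI_norm {x₀ : ℕ} {H c : ℝ} (hB : Bounds g x₀ H c) (hK : 2 ≤ g.natDegree) (X : ℕ)
    (hX : x₀ ≤ X) (β : ℝ) : ‖mainI g x₀ X β‖ ≤ H * (X : ℝ) ^ g.natDegree := by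
  obtain ⟨hx₀, hH1, _, _, _, hU1, _⟩ := id hB
  set U := (rpoly g).eval (X : ℝ)
  have hU0 : U ≠ 0 := by have := hU1 X hX; linarith
  have hx₀R : (1 : ℝ) ≤ x₀ := by exact_mod_cast hx₀
  have hX0R : (x₀ : ℝ) ≤ X := by exact_mod_cast hX
  have := (convex_Icc (1 : ℝ) (2 * X)).norm_image_sub_le_of_norm_hasDerivWithin_le
    (fun y _ => (prim_comp_hasDerivAt g U β y hU0).hasDerivWithinAt)
    (fun y hy => (sm_bounds hB hK X hX β y hy.1 hy.2).1)
    (show (x₀ : ℝ) ∈ Set.Icc (1 : ℝ) (2 * X) from ⟨hx₀R, by linarith⟩)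
    (show (X : ℝ) ∈ Set.Icc (1 : ℝ) (2 * X) from ⟨by linarith, by linarith⟩)
  refine this.trans ?_
  rw [Real.norm_eq_abs, abs_of_nonneg (by linarith),
    show (X : ℝ) ^ g.natDegree = (X : ℝ) ^ (g.natDegree - 1) * X by
      rw [← pow_succ]; congr 1; omega,
    ← mul_assoc]
  exact mul_le_mul_of_nonneg_left (by linarith) (by positivity)

lemma minor_step' (K : ℕ) : ∃ B : ℕ, ∀ g : ℤ[X], g.natDegree = K → 2 ≤ g.natDegree →
    0 < g.leadingCoeff → ∃ C : ℝ, 1 ≤ C ∧ ∀ (X f : ℕ) (b : ℕ) (α δ : ℝ), 1 ≤ f → 1 ≤ X → 0 < δ →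
      ∀ j : ℕ, j ≤ X → δ * X < ‖∑ s ∈ range j, ee (α * (rpoly g).eval ((b + f * s : ℕ) : ℝ))‖ →
      ∃ q : ℕ, ∃ a : ℤ, 1 ≤ q ∧ IsCoprime a (q : ℤ) ∧
        (q : ℝ) ≤ C * (1 / δ) ^ B * (f : ℝ) ^ g.natDegree ∧
        |α - (a : ℝ) / q| * (X : ℝ) ^ g.natDegree ≤ C * (1 / δ) ^ B := by
  obtain ⟨B, C, hC, hW⟩ := weyl (K - 1)
  refine ⟨B + K, fun g hgK hK hl => ?_⟩
  subst hgK
  set K := g.natDegree with hKdef
  have hK1 : K - 1 + 1 = K := by omega
  set l := g.leadingCoeff.natAbs with hldef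
  have hlR : ((l : ℕ) : ℝ) = (g.leadingCoeff : ℝ) := by
    rw [hldef, ← Int.cast_natCast, Int.natAbs_of_nonneg hl.le]
  have hl1 : 1 ≤ l := Int.natAbs_pos.mpr hl.ne'
  have hlR1 : (1 : ℝ) ≤ l := by exact_mod_cast hl1
  refine ⟨C * l, one_le_mul_of_one_le_of_one_le hC hlR1,
    fun X f b α δ hf hX hδ j hjX hS => ?_⟩
  set P : ℝ[X] := Polynomial.C α * (taylor (b : ℝ) (rpoly g)).comp (Polynomial.C (f : ℝ) * Polynomial.X)
    with hP
  have hinj : Function.Injective (Int.castRingHom ℝ) := Int.cast_injective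
  have hdeg' : (rpoly g).natDegree = K := natDegree_map_eq_of_injective hinj g
  have hdeg : P.natDegree ≤ K := by
    refine (natDegree_C_mul_le _ _).trans ?_
    rw [natDegree_comp, natDegree_taylor, hdeg']
    exact (Nat.mul_le_mul_left _ ((natDegree_C_mul_le _ _).trans natDegree_X.le)).trans
      (mul_one K).le
  have hcoef : P.coeff K = α * ((g.leadingCoeff : ℝ) * (f : ℝ) ^ K) := by
    rw [hP, coeff_C_mul, comp_C_mul_X_coeff, ← hdeg', coeff_taylor_natDegree, hdeg', rpoly,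
      leadingCoeff_map_of_injective hinj]
    rfl
  have hev : ∀ s : ℕ, ee (α * (rpoly g).eval ((b + f * s : ℕ) : ℝ)) = ee (P.eval (s : ℝ)) := by
    intro s; rw [hP]; simp [taylor_eval, add_comm]
  simp only [hev] at hS
  have hjle : ‖∑ s ∈ range j, ee (P.eval (s : ℝ))‖ ≤ j := norm_esum_le P j
  have hj : δ * X < j := lt_of_lt_of_le hS hjle
  have hXR : (1 : ℝ) ≤ X := by exact_mod_cast hX
  have hj0 : (0 : ℝ) < j := lt_trans (by positivity) hj
  have hj1 : 1 ≤ j := by exact_mod_cast hj0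
  have hjXR : (j : ℝ) ≤ X := by exact_mod_cast hjX
  obtain ⟨q, hq1, hq2, hq3⟩ := hW P (by omega) j hj1 δ hδ
    ((mul_le_mul_of_nonneg_left hjXR hδ.le).trans hS.le)
  rw [hK1, hcoef] at hq3
  have hδ1 : δ ≤ 1 := by
    have h := hj.trans_le hjXR
    exact le_of_mul_le_mul_right (by linarith) (by linarith : (0:ℝ) < X)
  have hu1 : 1 ≤ 1 / δ := by rw [le_div_iff₀ hδ]; linarith
  set Q := q * l * f ^ K with hQ
  have hQ1 : 1 ≤ Q := Nat.one_le_iff_ne_zero.mpr (by positivity)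
  set a₀ := round ((q : ℝ) * (α * ((g.leadingCoeff : ℝ) * (f : ℝ) ^ K))) with ha₀
  have hQR : (Q : ℝ) * α = (q : ℝ) * (α * ((g.leadingCoeff : ℝ) * (f : ℝ) ^ K)) := by
    rw [hQ]; push_cast; rw [hlR]; ring
  have hclose : |(Q : ℝ) * α - a₀| * (X : ℝ) ^ K ≤ C * (1 / δ) ^ (B + K) := by
    rw [hQR]
    refine le_trans (mul_le_mul_of_nonneg_right hq3 (by positivity)) ?_
    rw [div_mul_eq_mul_div, div_le_iff₀ (by positivity), pow_add, ← mul_assoc]
    rw [mul_assoc _ ((1 / δ) ^ K)]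
    refine mul_le_mul_of_nonneg_left ?_ (by positivity)
    rw [← mul_pow]
    refine pow_le_pow_left₀ (by positivity) ?_ _
    rw [div_mul_eq_mul_div, one_mul, le_div_iff₀ hδ]
    linarith
  set r : ℚ := (a₀ : ℚ) / (Q : ℚ) with hr
  have hrR : (r : ℝ) = (r.num : ℝ) / r.den := by rw [Rat.cast_def]
  have hrR2 : (r : ℝ) = (a₀ : ℝ) / Q := by rw [hr]; push_cast; ring
  have hden : r.den ≤ Q := by
    refine Nat.le_of_dvd hQ1 ?_
    have h := Rat.den_dvd a₀ (Q : ℤ)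
    rw [Rat.divInt_eq_div, Int.cast_natCast, ← hr] at h
    exact_mod_cast h
  refine ⟨r.den, r.num, r.den_pos, ?_, ?_, ?_⟩
  · rw [Int.isCoprime_iff_nat_coprime]; simpa using r.reduced
  · have h0 : (r.den : ℝ) ≤ Q := by exact_mod_cast hden
    refine h0.trans ?_
    rw [hQ]; push_cast
    refine mul_le_mul_of_nonneg_right ?_ (by positivity)
    calc (q : ℝ) * l ≤ C * (1 / δ) ^ B * l := mul_le_mul_of_nonneg_right hq2 (by positivity)
      _ ≤ C * (1 / δ) ^ (B + K) * l := by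
          refine mul_le_mul_of_nonneg_right (mul_le_mul_of_nonneg_left
            (pow_le_pow_right₀ hu1 (by omega)) (by linarith)) (by positivity)
      _ = _ := by ring
  · rw [← hrR, hrR2]
    have hQ0 : (1 : ℝ) ≤ Q := by exact_mod_cast hQ1
    have e : |α - (a₀ : ℝ) / Q| ≤ |(Q : ℝ) * α - a₀| := by
      have e2 : (Q : ℝ) * α - a₀ = Q * (α - (a₀ : ℝ) / Q) := by field_simp
      rw [e2, abs_mul, Nat.abs_cast]
      exact le_mul_of_one_le_left (abs_nonneg _) hQ0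
    refine (mul_le_mul_of_nonneg_right e (by positivity)).trans (hclose.trans ?_)
    rw [mul_assoc]
    exact mul_le_mul_of_nonneg_left (le_mul_of_one_le_left (by positivity) hlR1) (by linarith)

lemma minor_step (hK : 2 ≤ g.natDegree) (hl : 0 < g.leadingCoeff) :
    ∃ B : ℕ, ∃ C : ℝ, 1 ≤ C ∧ ∀ (X f : ℕ) (b : ℕ) (α δ : ℝ), 1 ≤ f → 1 ≤ X → 0 < δ →
      ∀ j : ℕ, j ≤ X → δ * X < ‖∑ s ∈ range j, ee (α * (rpoly g).eval ((b + f * s : ℕ) : ℝ))‖ →
      ∃ q : ℕ, ∃ a : ℤ, 1 ≤ q ∧ IsCoprime a (q : ℤ) ∧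
        (q : ℝ) ≤ C * (1 / δ) ^ B * (f : ℝ) ^ g.natDegree ∧
        |α - (a : ℝ) / q| * (X : ℝ) ^ g.natDegree ≤ C * (1 / δ) ^ B := by
  obtain ⟨B, hB⟩ := minor_step' g.natDegree
  exact ⟨B, hB g rfl hK hl⟩

lemma comp_minor {x₀ : ℕ} {H c₀ : ℝ} (hB : Bounds g x₀ H c₀) (hK : 2 ≤ g.natDegree) (X f : ℕ)
    (c : ℕ → ℂ) (Cm δ α : ℝ) (hX : x₀ ≤ X) (hf : 1 ≤ f) (hfX : f ≤ X)
    (hcper : Function.Periodic c f) (hc : ∀ n, ‖c n‖ ≤ Cm) (hδX : 1 ≤ δ * X)
    (hsmall : ∀ r j : ℕ, j ≤ X →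
      ‖∑ s ∈ range j, ee (α * (rpoly g).eval ((x₀ + r + f * s : ℕ) : ℝ))‖ ≤ δ * X) :
    ‖comp' g x₀ X c α‖ ≤ 3 * H * Cm * f * δ * (X : ℝ) ^ g.natDegree := by
  obtain ⟨hx₀, hH1, _, _, _, _, hb⟩ := id hB
  set K := g.natDegree with hKdef
  set U := (rpoly g).eval (X : ℝ) with hU
  have hCm : 0 ≤ Cm := (norm_nonneg _).trans (hc 0)
  set len := (X - x₀) / f with hlen
  set rem := (X - x₀) % f with hrem
  have hdm : f * len + rem = X - x₀ := Nat.div_add_mod _ _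
  have hremP : rem < f := Nat.mod_lt _ hf
  have hlenX : len ≤ X := (Nat.div_le_self _ _).trans (Nat.sub_le _ _)
  set F := H * (X : ℝ) ^ (K - 1) with hF
  have hH0 : 0 ≤ H := by linarith
  have hF0 : 0 ≤ F := by positivity
  have hpt : ∀ n : ℕ, 1 ≤ n → n ≤ 2 * X → (1 : ℝ) ≤ n ∧ (n : ℝ) ≤ 2 * X :=
    fun n h1 h2 => ⟨by exact_mod_cast h1, by exact_mod_cast h2⟩
  have hin : ∀ r ∈ range f, ‖∑ s ∈ range len, ((wgt g U ((x₀ + r + f * s : ℕ) : ℝ) : ℝ) : ℂ) *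
      ee (α * (rpoly g).eval ((x₀ + r + f * s : ℕ) : ℝ))‖ ≤ 2 * F * (δ * X) := by
    intro r hr
    have hrf := mem_range.mp hr
    have hb1 : ∀ s ≤ len, 1 ≤ x₀ + r + f * s ∧ x₀ + r + f * s ≤ 2 * X := fun s hs => by
      have : f * s ≤ f * len := Nat.mul_le_mul_left f hs
      omega
    have hd : ∀ s < len, |wgt g U ((x₀ + r + f * (s + 1) : ℕ) : ℝ) - wgt g U ((x₀ + r + f * s : ℕ) : ℝ)|
        ≤ H * (X : ℝ) ^ (K - 2) * f := by
      intro s hs
      have h1 := hb1 s hs.le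
      have h2 := hb1 (s + 1) hs
      have := (convex_Icc (1 : ℝ) (2 * X)).norm_image_sub_le_of_norm_hasDerivWithin_le
        (fun y _ => (wgt_hasDerivAt g U y).hasDerivWithinAt)
        (fun y hy => by rw [Real.norm_eq_abs]; exact (hb X hX y hy.1 hy.2).2.1)
        (show ((x₀ + r + f * s : ℕ) : ℝ) ∈ Set.Icc (1 : ℝ) (2 * X) from hpt _ h1.1 h1.2)
        (show ((x₀ + r + f * (s + 1) : ℕ) : ℝ) ∈ Set.Icc (1 : ℝ) (2 * X) from hpt _ h2.1 h2.2)
      rw [Real.norm_eq_abs, Real.norm_eq_abs] at this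
      refine this.trans (le_of_eq ?_)
      congr 1
      rw [show ((x₀ + r + f * (s + 1) : ℕ) : ℝ) - ((x₀ + r + f * s : ℕ) : ℝ) = (f : ℝ) by
        push_cast; ring, Nat.abs_cast]
    have h3 := hb1 len le_rfl
    have := abel (fun s => wgt g U ((x₀ + r + f * s : ℕ) : ℝ))
      (fun s => ee (α * (rpoly g).eval ((x₀ + r + f * s : ℕ) : ℝ))) F
      (H * (X : ℝ) ^ (K - 2) * f) (δ * X) len
      ((hb X hX _ (hpt _ h3.1 h3.2).1 (hpt _ h3.1 h3.2).2).1) hd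
      (fun j hj => hsmall r j (hj.trans hlenX))
    refine this.trans (mul_le_mul_of_nonneg_right ?_ (by linarith))
    have h4 : (f : ℝ) * len ≤ X := by exact_mod_cast (show f * len ≤ X by omega)
    have e3 : (X : ℝ) ^ (K - 2) * X = (X : ℝ) ^ (K - 1) := by rw [← pow_succ]; congr 1; omega
    rw [two_mul]
    refine add_le_add le_rfl ?_
    calc (len : ℝ) * (H * (X : ℝ) ^ (K - 2) * f) = H * (X : ℝ) ^ (K - 2) * (f * len) := by ring
      _ ≤ H * (X : ℝ) ^ (K - 2) * X := mul_le_mul_of_nonneg_left h4 (by positivity)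
      _ = F := by rw [hF, ← e3]; ring
  have hsplit : comp' g x₀ X c α = (∑ r ∈ range f, ∑ s ∈ range len, c (x₀ + (r + f * s)) *
      sm g U α ((x₀ + (r + f * s) : ℕ) : ℝ)) + ∑ i ∈ range rem, c (x₀ + (f * len + i)) *
      sm g U α ((x₀ + (f * len + i) : ℕ) : ℝ) :=
    split_range (fun i => c (x₀ + i) * sm g U α ((x₀ + i : ℕ) : ℝ)) (X - x₀) f
  have hmain : ‖∑ r ∈ range f, ∑ s ∈ range len, c (x₀ + (r + f * s)) *
      sm g U α ((x₀ + (r + f * s) : ℕ) : ℝ)‖ ≤ (f : ℝ) * (Cm * (2 * F * (δ * X))) := by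
    refine (norm_sum_le _ _).trans ((sum_le_card_nsmul _ _ (Cm * (2 * F * (δ * X))) fun r hr => ?_).trans
      (le_of_eq (by rw [card_range, nsmul_eq_mul])))
    have e2 : ∑ s ∈ range len, c (x₀ + (r + f * s)) * sm g U α ((x₀ + (r + f * s) : ℕ) : ℝ)
        = c (x₀ + r) * ∑ s ∈ range len, ((wgt g U ((x₀ + r + f * s : ℕ) : ℝ) : ℝ) : ℂ) *
            ee (α * (rpoly g).eval ((x₀ + r + f * s : ℕ) : ℝ)) := by
      rw [mul_sum]
      refine sum_congr rfl fun s _ => ?_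
      rw [← add_assoc, sm]
      congr 1
      rw [mul_comm]; exact hcper.nat_mul s _
    rw [e2, norm_mul]
    exact mul_le_mul (hc _) (hin r hr) (norm_nonneg _) hCm
  have htail : ‖∑ i ∈ range rem, c (x₀ + (f * len + i)) *
      sm g U α ((x₀ + (f * len + i) : ℕ) : ℝ)‖ ≤ (f : ℝ) * (Cm * F) := by
    refine (norm_sum_le _ _).trans ((sum_le_card_nsmul _ _ (Cm * F) fun i hi => ?_).trans ?_)
    · rw [norm_mul]
      refine mul_le_mul (hc _) ?_ (norm_nonneg _) hCm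
      have h1 := mem_range.mp hi
      obtain ⟨a, b⟩ := hpt (x₀ + (f * len + i)) (by omega) (by omega)
      exact (sm_bounds hB hK X hX α _ a b).1
    · rw [card_range, nsmul_eq_mul]
      exact mul_le_mul_of_nonneg_right (by exact_mod_cast hremP.le) (by positivity)
  rw [hsplit]
  refine (norm_add_le _ _).trans ((add_le_add hmain htail).trans ?_)
  have e5 : F * X = H * (X : ℝ) ^ K := by
    rw [hF, mul_assoc, ← pow_succ]; congr 2; omega
  have h7 : F ≤ F * (δ * X) := le_mul_of_one_le_right hF0 hδX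
  calc (f : ℝ) * (Cm * (2 * F * (δ * X))) + (f : ℝ) * (Cm * F)
      ≤ (f : ℝ) * (Cm * (2 * F * (δ * X))) + (f : ℝ) * (Cm * (F * (δ * X))) := by
        refine add_le_add le_rfl ?_
        exact mul_le_mul_of_nonneg_left (mul_le_mul_of_nonneg_left h7 hCm) (by positivity)
    _ = 3 * Cm * f * δ * (F * X) := by ring
    _ = _ := by rw [e5]; ring

/-- The whole weighted exponential sum. -/
noncomputable def tsum' (L : LocalData g) (x₀ X D : ℕ) (α : ℝ) : ℂ :=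
  ∑ f ∈ Icc 1 D, comp' g x₀ X (fun n => ((wt L f n : ℝ) : ℂ)) α

lemma tsum_major (L : LocalData g) {x₀ : ℕ} {H c₀ : ℝ} (hB : Bounds g x₀ H c₀)
    (hK : 2 ≤ g.natDegree) (X D q : ℕ) (a : ℤ) (β α : ℝ) (hX : x₀ ≤ X) (hq : 1 ≤ q)
    (hDq : D * q ≤ X) (hα : α = (a : ℝ) / q + β) :
    ‖tsum' L x₀ X D α - major L D q a * mainI g x₀ X β‖
      ≤ (D : ℝ) ^ (L.A + 2) * q *
        (11 * H ^ 2 * (X : ℝ) ^ (g.natDegree - 1) * (1 + |β| * (X : ℝ) ^ g.natDegree)) := by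
  set R := 11 * H ^ 2 * (X : ℝ) ^ (g.natDegree - 1) * (1 + |β| * (X : ℝ) ^ g.natDegree) with hR
  have hR0 : 0 ≤ R := by positivity
  have e : ∀ f ∈ Icc 1 D, comp' g x₀ X (fun n => ((wt L f n : ℝ) : ℂ)) α
      = comp' g x₀ X (fun n => (wt L f n : ℂ) * ch q (a * g.eval (n : ℤ))) β := by
    intro f _
    refine sum_congr rfl fun i _ => ?_
    simp only [sm]
    rw [hα, add_mul, ee_add, rpoly_eval g (x₀ + i), ch,
      show ((a * g.eval ((x₀ + i : ℕ) : ℤ) : ℤ) : ℝ) / q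
        = (a : ℝ) / q * ((g.eval ((x₀ + i : ℕ) : ℤ) : ℤ) : ℝ) by push_cast; ring]
    ring
  rw [tsum', sum_congr rfl e, major, sum_mul, ← sum_sub_distrib]
  refine (norm_sum_le _ _).trans
    ((sum_le_card_nsmul _ _ ((D : ℝ) ^ L.A * (D * q) * R) fun f hf => ?_).trans (le_of_eq ?_))
  · obtain ⟨hf1, hf2⟩ := mem_Icc.mp hf
    have hfq : f * q ≤ X := le_trans (Nat.mul_le_mul_right q hf2) hDq
    have hper : Function.Periodic (fun n : ℕ => (wt L f n : ℂ) * ch q (a * g.eval (n : ℤ))) (f * q) := by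
      intro n
      simp only []
      rw [periodic_of_dvd (wt_periodic L hf1) (dvd_mul_right f q) n]
      congr 1
      simpa [eval_mul, eval_C] using
        periodic_of_dvd (ch_eval_periodic hq (Polynomial.C a * g)) (dvd_mul_left q f) n
    refine (comp_est hB hK X (f * q) _ ((D : ℝ) ^ L.A) hX
      (Nat.one_le_iff_ne_zero.mpr (Nat.mul_ne_zero (by omega) (by omega))) hfq hper
      (fun n => ?_) β).trans ?_
    · rw [norm_mul, norm_ch, mul_one, Complex.norm_real, Real.norm_eq_abs]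
      exact (abs_wt_le L hf1 n).trans (pow_le_pow_left₀ (Nat.cast_nonneg _) (by exact_mod_cast hf2) _)
    · rw [← hR]
      refine mul_le_mul_of_nonneg_right (mul_le_mul_of_nonneg_left ?_ (by positivity)) hR0
      exact_mod_cast Nat.mul_le_mul_right q hf2
  · simp; ring

lemma major_est (L : LocalData g) {x₀ : ℕ} {H c₀ : ℝ} (hB : Bounds g x₀ H c₀)
    (hK : 2 ≤ g.natDegree) (E B₁ D : ℕ) (hEdef : E = L.A + 3 + 2 * B₁ + 2) (C₁ : ℝ) (hC₁ : 1 ≤ C₁)
    (hDR : (1 : ℝ) ≤ D) (hDC : C₁ ≤ D) (hXx : x₀ ≤ D ^ E) (η : ℝ)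
    (hDη : 1 / (D : ℝ) ≤ (D : ℝ) ^ (-η)) (q : ℕ) (a : ℤ) (β α : ℝ) (hq : 1 ≤ q)
    (hα : α = (a : ℝ) / q + β) (hqb : (q : ℝ) ≤ C₁ * (D : ℝ) ^ B₁)
    (hβb : |β| * ((D : ℝ) ^ E) ^ g.natDegree ≤ C₁ * (D : ℝ) ^ B₁) :
    ‖tsum' L x₀ (D ^ E) D α - major L D q a * mainI g x₀ (D ^ E) β‖
      ≤ 22 * H ^ 2 * C₁ ^ 2 * (((D : ℝ) ^ E) ^ g.natDegree * (D : ℝ) ^ (-η)) := by
  have hH0 : 0 ≤ H := by have := hB.2.1; linarith
  set K := g.natDegree with hKdef
  set A := L.A with hA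
  set X := D ^ E with hXdef
  have hXR : (X : ℝ) = (D : ℝ) ^ E := by rw [hXdef]; push_cast; rfl
  set Y := ((D : ℝ) ^ E) ^ K with hYdef
  have hY : Y = (X : ℝ) ^ K := by rw [hXR]
  have hY0 : 0 ≤ Y := by positivity
  have hC22 : 0 ≤ 22 * H ^ 2 * C₁ ^ 2 := by positivity
  have hDq : D * q ≤ X := by
    have h1 : ((D * q : ℕ) : ℝ) ≤ (D : ℝ) ^ (B₁ + 2) := by
      push_cast
      calc (D : ℝ) * q ≤ D * (D * (D : ℝ) ^ B₁) :=
            mul_le_mul_of_nonneg_left (hqb.trans (mul_le_mul_of_nonneg_right hDC (by positivity)))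
              (by positivity)
        _ = _ := by ring
    have h2 : (D : ℝ) ^ (B₁ + 2) ≤ (X : ℝ) := by
      rw [hXR]; exact pow_le_pow_right₀ hDR (by omega)
    exact_mod_cast h1.trans h2
  refine (tsum_major L hB hK X D q a β α hXx hq hDq hα).trans ?_
  rw [← hY]
  have h1C : (1 : ℝ) ≤ C₁ * (D : ℝ) ^ B₁ :=
    one_le_mul_of_one_le_of_one_le hC₁ (one_le_pow₀ hDR)
  calc (D : ℝ) ^ (A + 2) * q * (11 * H ^ 2 * (X : ℝ) ^ (K - 1) * (1 + |β| * Y))
      ≤ (D : ℝ) ^ (A + 2) * (C₁ * (D : ℝ) ^ B₁)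
          * (11 * H ^ 2 * (X : ℝ) ^ (K - 1) * (2 * (C₁ * (D : ℝ) ^ B₁))) := by
        refine mul_le_mul (mul_le_mul_of_nonneg_left hqb (by positivity))
          (mul_le_mul_of_nonneg_left (by linarith) (by positivity)) (by positivity) (by positivity)
    _ = 22 * H ^ 2 * C₁ ^ 2 * ((D : ℝ) ^ (A + 2 + 2 * B₁) * (X : ℝ) ^ (K - 1)) := by ring
    _ ≤ 22 * H ^ 2 * C₁ ^ 2 * (Y * (D : ℝ) ^ (-η)) := by
        refine mul_le_mul_of_nonneg_left (le_trans ?_ (mul_le_mul_of_nonneg_left hDη hY0)) hC22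
        rw [mul_one_div, le_div_iff₀ (by linarith), hY,
          show (X : ℝ) ^ K = (X : ℝ) * (X : ℝ) ^ (K - 1) by rw [← pow_succ']; congr 1; omega,
          mul_right_comm, ← pow_succ]
        refine mul_le_mul_of_nonneg_right ?_ (by positivity)
        rw [hXR]; exact pow_le_pow_right₀ hDR (by omega)

lemma minor_est (L : LocalData g) {x₀ : ℕ} {H c₀ : ℝ} (hB : Bounds g x₀ H c₀)
    (hK : 2 ≤ g.natDegree) (X D : ℕ) (hXx : x₀ ≤ X) (hXD : D ≤ X) (hDR : (1 : ℝ) ≤ D) (α δ : ℝ)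
    (hδ : δ = 1 / (D : ℝ) ^ (L.A + 3)) (hδX : 1 ≤ δ * X) (η : ℝ)
    (hDη : 1 / (D : ℝ) ≤ (D : ℝ) ^ (-η))
    (hall : ∀ f ∈ Icc 1 D, ∀ r j : ℕ, j ≤ X →
        ‖∑ s ∈ range j, ee (α * (rpoly g).eval ((x₀ + r + f * s : ℕ) : ℝ))‖ ≤ δ * X)
    (Y : ℝ) (hY : Y = (X : ℝ) ^ g.natDegree) :
    ‖tsum' L x₀ X D α‖ ≤ 3 * H * (Y * (D : ℝ) ^ (-η)) := by
  have hH0 : 0 ≤ H := by have := hB.2.1; linarith
  have hY0 : 0 ≤ Y := by rw [hY]; positivity
  have hδ0 : 0 < δ := by rw [hδ]; positivity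
  refine (norm_sum_le _ _).trans
    ((sum_le_card_nsmul _ _ (3 * H * (D : ℝ) ^ L.A * D * δ * Y) fun f hf => ?_).trans ?_)
  · obtain ⟨hf1, hf2⟩ := mem_Icc.mp hf
    have hf2' : (f : ℝ) ≤ D := by exact_mod_cast hf2
    refine (comp_minor hB hK X f _ ((D : ℝ) ^ L.A) δ α hXx hf1 (hf2.trans hXD)
      (fun n => by show ((wt L f (n + f) : ℝ) : ℂ) = _; rw [wt_periodic L hf1 n]) (fun n => ?_) hδX (hall f hf)).trans ?_
    · rw [Complex.norm_real, Real.norm_eq_abs]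
      exact (abs_wt_le L hf1 n).trans (pow_le_pow_left₀ (Nat.cast_nonneg _) hf2' _)
    · rw [← hY]
      refine mul_le_mul_of_nonneg_right (mul_le_mul_of_nonneg_right
        (mul_le_mul_of_nonneg_left hf2' (by positivity)) hδ0.le) hY0
  · rw [Nat.card_Icc, Nat.add_sub_cancel, nsmul_eq_mul]
    calc (D : ℝ) * (3 * H * (D : ℝ) ^ L.A * D * δ * Y)
        = 3 * H * (Y * (((D : ℝ) ^ (L.A + 2)) * δ)) := by ring
      _ = 3 * H * (Y * (1 / (D : ℝ))) := by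
          rw [hδ]; congr 2; field_simp; ring
      _ ≤ _ := mul_le_mul_of_nonneg_left (mul_le_mul_of_nonneg_left hDη hY0) (by positivity)

lemma main_term_lower (L : LocalData g) {x₀ : ℕ} {H c₀ : ℝ} (hB : Bounds g x₀ H c₀)
    (hK : 2 ≤ g.natDegree) (X D q : ℕ) (a : ℤ) (β : ℝ) (hXx : x₀ ≤ X) (hq : 1 ≤ q)
    (hco : IsCoprime a (q : ℤ)) (hDR : (1 : ℝ) ≤ D) (Y : ℝ) (hY : Y = (X : ℝ) ^ g.natDegree)
    (η η₁ : ℝ) (hη₁ : 0 ≤ η₁) (hle : η ≤ η₁) (C₂ : ℝ) (hC₂ : 1 ≤ C₂)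
    (hsm : ‖major L D q a‖ ≤ C₂ * (q : ℝ) ^ (-η₁)) (Cu : ℝ)
    (hI : -Cu ≤ (mainI g x₀ X β).re) (hCu : 0 ≤ Cu) (hconst : Cu ≤ Cu * (Y * (D : ℝ) ^ (-η))) :
    -((C₂ * Cu + C₂ * H) * (Y * (D : ℝ) ^ (-η))) ≤ (major L D q a * mainI g x₀ X β).re := by
  have hH0 : 0 ≤ H := by have := hB.2.1; linarith
  have hY0 : 0 ≤ Y := by rw [hY]; positivity
  have hC20 : 0 ≤ C₂ := by linarith
  have hZ : 0 ≤ Y * (D : ℝ) ^ (-η) := by positivity
  have p1 : 0 ≤ C₂ * Cu * (Y * (D : ℝ) ^ (-η)) := by positivity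
  have p2 : 0 ≤ C₂ * H * (Y * (D : ℝ) ^ (-η)) := by positivity
  by_cases hqD : q ≤ D
  · obtain ⟨him, hre0⟩ := major_pos L hq hqD a hco
    rw [Complex.mul_re, him, zero_mul, sub_zero]
    have hM2 : (major L D q a).re ≤ C₂ := by
      refine (Complex.re_le_norm _).trans (hsm.trans ?_)
      exact mul_le_of_le_one_right hC20
        (Real.rpow_le_one_of_one_le_of_nonpos (by exact_mod_cast hq) (by linarith))
    have h8 : -(C₂ * Cu) ≤ (major L D q a).re * (mainI g x₀ X β).re := by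
      have t1 := mul_le_mul_of_nonneg_left hI hre0
      have t2 := mul_le_mul_of_nonneg_right hM2 hCu
      linarith
    have h9 : C₂ * Cu ≤ C₂ * (Cu * (Y * (D : ℝ) ^ (-η))) := mul_le_mul_of_nonneg_left hconst hC20
    linarith
  · have hqD' : (D : ℝ) ≤ q := by exact_mod_cast (Nat.le_of_not_le hqD)
    have h1 : ‖major L D q a * mainI g x₀ X β‖ ≤ C₂ * H * (Y * (D : ℝ) ^ (-η)) := by
      rw [norm_mul]
      refine (mul_le_mul hsm (mainI_norm hB hK X hXx _) (norm_nonneg _) (by positivity)).trans ?_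
      rw [← hY, show C₂ * (q : ℝ) ^ (-η₁) * (H * Y) = C₂ * H * (Y * (q : ℝ) ^ (-η₁)) by ring]
      refine mul_le_mul_of_nonneg_left (mul_le_mul_of_nonneg_left ?_ hY0) (by positivity)
      refine (Real.rpow_le_rpow_of_nonpos (by linarith) hqD' (by linarith)).trans ?_
      exact Real.rpow_le_rpow_of_exponent_le hDR (neg_le_neg hle)
    have := (abs_le.mp ((Complex.abs_re_le_norm _).trans h1)).1
    linarith

theorem tsum_lower (L : LocalData g) (hK : 2 ≤ g.natDegree) (hl : 0 < g.leadingCoeff) {x₀ : ℕ}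
    {H c₀ : ℝ} (hB : Bounds g x₀ H c₀) :
    ∃ E : ℕ, ∃ η : ℝ, ∃ C : ℝ, ∃ D₀ : ℕ, 1 ≤ E ∧ 0 < η ∧ 1 ≤ C ∧ 1 ≤ D₀ ∧ ∀ D : ℕ, D₀ ≤ D →
      x₀ ≤ D ^ E ∧
      (∀ α : ℝ, -(C * ((D : ℝ) ^ E) ^ g.natDegree * (D : ℝ) ^ (-η))
        ≤ (tsum' L x₀ (D ^ E) D α).re) ∧
      c₀ / 2 * ((D : ℝ) ^ E) ^ g.natDegree - C * ((D : ℝ) ^ E) ^ g.natDegree * (D : ℝ) ^ (-η)
        ≤ (tsum' L x₀ (D ^ E) D 0).re := by
  obtain ⟨hx₀, hH1, hc₀, hlow, hup, hU1, _⟩ := id hB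
  obtain ⟨B, C₁, hC₁, hstep⟩ := minor_step hK hl
  obtain ⟨η₁, hη₁, C₂, hC₂, hsmallF⟩ := major_small L (by omega : 1 ≤ g.natDegree)
  set K := g.natDegree with hKdef
  set A := L.A with hA
  set B₁ := (A + 3) * B + K with hB₁
  obtain ⟨N₀, hN₀⟩ := exists_nat_ge C₁
  set E := A + 3 + 2 * B₁ + 2 with hE
  set u₀ := (rpoly g).eval (x₀ : ℝ) with hu₀
  set Cu := |u₀| + 2 * u₀ ^ 2 with hCu
  set C := 3 * H + 22 * H ^ 2 * C₁ ^ 2 + C₂ * Cu + C₂ * H + Cu with hCdef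
  have hCu0 : 0 ≤ Cu := by positivity
  have hH0 : 0 ≤ H := by linarith
  have hC22 : 0 ≤ 22 * H ^ 2 * C₁ ^ 2 := by positivity
  have hC2u : 0 ≤ C₂ * Cu := mul_nonneg (by linarith) hCu0
  have hC2H : 0 ≤ C₂ * H := mul_nonneg (by linarith) hH0
  refine ⟨E, min η₁ 1, C, max (max x₀ N₀) 1, by omega, lt_min hη₁ one_pos, by linarith,
    le_max_right _ _, fun D hD => ?_⟩
  simp only [max_le_iff] at hD
  obtain ⟨⟨hDx, hDN⟩, hD1⟩ := hD
  have hDC : C₁ ≤ D := hN₀.trans (by exact_mod_cast hDN)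
  set X := D ^ E with hXdef
  have hXD : D ≤ X := Nat.le_self_pow (by omega) D
  have hXx : x₀ ≤ X := hDx.trans hXD
  have hX1 : 1 ≤ X := le_trans hx₀ hXx
  have hDR : (1 : ℝ) ≤ D := by exact_mod_cast hD1
  have hXR : (X : ℝ) = (D : ℝ) ^ E := by rw [hXdef]; push_cast; rfl
  set Y := ((D : ℝ) ^ E) ^ K with hYdef
  have hY : Y = (X : ℝ) ^ K := by rw [hXR]
  have hY1 : (X : ℝ) ≤ Y := by
    rw [hY]; exact le_self_pow₀ (by exact_mod_cast hX1) (by omega)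
  have hY0 : 0 ≤ Y := le_trans (Nat.cast_nonneg X) hY1
  set η := min η₁ 1 with hηdef
  have hDη : 1 / (D : ℝ) ≤ (D : ℝ) ^ (-η) := by
    rw [one_div, ← Real.rpow_neg_one]
    exact Real.rpow_le_rpow_of_exponent_le hDR (neg_le_neg (min_le_right _ _))
  have hDpos : (0 : ℝ) < (D : ℝ) ^ (-η) := by positivity
  have hconst : Cu ≤ Cu * (Y * (D : ℝ) ^ (-η)) := by
    refine le_mul_of_one_le_right hCu0 ?_
    calc (1 : ℝ) = D * (1 / (D : ℝ)) := by field_simp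
      _ ≤ Y * (D : ℝ) ^ (-η) :=
          mul_le_mul (le_trans (by exact_mod_cast hXD) hY1) hDη (by positivity) hY0
  have hZbd : 0 ≤ Y * (D : ℝ) ^ (-η) := by positivity
  have hmajor : ∀ (q : ℕ) (a : ℤ) (β α : ℝ), 1 ≤ q →
      α = (a : ℝ) / q + β → (q : ℝ) ≤ C₁ * (D : ℝ) ^ B₁ → |β| * Y ≤ C₁ * (D : ℝ) ^ B₁ →
      ‖tsum' L x₀ X D α - major L D q a * mainI g x₀ X β‖
        ≤ 22 * H ^ 2 * C₁ ^ 2 * (Y * (D : ℝ) ^ (-η)) :=
    fun q a β α hq => major_est L hB hK E B₁ D hE C₁ hC₁ hDR hDC hXx η hDη q a β α hq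
  refine ⟨hXx, fun α => ?_, ?_⟩
  · set δ : ℝ := 1 / (D : ℝ) ^ (A + 3) with hδ
    have hδ0 : 0 < δ := by rw [hδ]; positivity
    have hδX : 1 ≤ δ * X := by
      rw [hδ, hXR, div_mul_eq_mul_div, one_mul, le_div_iff₀ (by positivity), one_mul]
      exact pow_le_pow_right₀ hDR (by omega)
    by_cases hall : ∀ f ∈ Icc 1 D, ∀ r j : ℕ, j ≤ X →
        ‖∑ s ∈ range j, ee (α * (rpoly g).eval ((x₀ + r + f * s : ℕ) : ℝ))‖ ≤ δ * X
    · have n1 := mul_nonneg hC22 hZbd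
      have n2 := mul_nonneg hC2u hZbd
      have n3 := mul_nonneg hC2H hZbd
      have n4 := mul_nonneg hCu0 hZbd
      have hb : ‖tsum' L x₀ X D α‖ ≤ 3 * H * (Y * (D : ℝ) ^ (-η)) :=
        minor_est L hB hK X D hXx hXD hDR α δ hδ hδX η hDη hall Y hY
      have h1 := (abs_le.mp ((Complex.abs_re_le_norm (tsum' L x₀ X D α)).trans hb)).1
      rw [hCdef]
      linarith
    · push Not at hall
      have n1 := mul_nonneg (mul_nonneg (show (0:ℝ) ≤ 3 by norm_num) hH0) hZbd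
      have n4 := mul_nonneg hCu0 hZbd
      obtain ⟨f, hf, r, j, hj, hbig⟩ := hall
      obtain ⟨hf1, hf2⟩ := mem_Icc.mp hf
      obtain ⟨q, a, hq, hco, hqb, hβb⟩ := hstep X f (x₀ + r) α δ hf1 hX1 hδ0 j hj hbig
      have hu : (1 / δ) ^ B = (D : ℝ) ^ ((A + 3) * B) := by rw [hδ, one_div_one_div, ← pow_mul]
      rw [hu] at hqb hβb
      have hB1le : (D : ℝ) ^ ((A + 3) * B) ≤ (D : ℝ) ^ B₁ := pow_le_pow_right₀ hDR (by omega)
      have hqb' : (q : ℝ) ≤ C₁ * (D : ℝ) ^ B₁ := by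
        refine hqb.trans ?_
        rw [hB₁, pow_add, mul_assoc]
        exact mul_le_mul_of_nonneg_left (mul_le_mul_of_nonneg_left
          (pow_le_pow_left₀ (Nat.cast_nonneg _) (by exact_mod_cast hf2) _) (by positivity))
          (by linarith)
      have hβb' : |α - (a : ℝ) / q| * Y ≤ C₁ * (D : ℝ) ^ B₁ := by
        rw [hY]
        exact hβb.trans (mul_le_mul_of_nonneg_left hB1le (by linarith))
      have hm := hmajor q a (α - (a : ℝ) / q) α hq (by ring) hqb' hβb'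
      set M := major L D q a
      set I := mainI g x₀ X (α - (a : ℝ) / q)
      have hre : -((C₂ * Cu + C₂ * H) * (Y * (D : ℝ) ^ (-η))) ≤ (M * I).re :=
        main_term_lower L hB hK X D q a (α - (a : ℝ) / q) hXx hq hco hDR Y hY η η₁ hη₁.le
          (min_le_left _ _) C₂ hC₂ (hsmallF D q hq a hco) Cu
          (prim_diff_re_ge _ _ _ (hU1 X hXx)) hCu0 hconst
      have h2 := (abs_le.mp ((Complex.abs_re_le_norm (tsum' L x₀ X D α - M * I)).trans hm)).1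
      rw [Complex.sub_re] at h2
      rw [hCdef]
      linarith
  · have hco : IsCoprime (0 : ℤ) ((1 : ℕ) : ℤ) := by simp [isCoprime_one_right]
    have h1C : (1 : ℝ) ≤ C₁ * (D : ℝ) ^ B₁ :=
      one_le_mul_of_one_le_of_one_le hC₁ (one_le_pow₀ hDR)
    have hm := hmajor 1 0 0 0 le_rfl (by simp) (by simpa using h1C)
      (by simp only [abs_zero, zero_mul]; linarith)
    have hM1 : major L D 1 0 = 1 := by
      rw [major_eq L le_rfl]
      simp [Nat.divisors_one, filter_singleton, hD1, term, avg, wt_one, ch, ee_zero]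
    rw [hM1, one_mul] at hm
    have h2 := (abs_le.mp ((Complex.abs_re_le_norm _).trans hm)).1
    rw [Complex.sub_re] at h2
    have hI : (rpoly g).eval (X : ℝ) / 2 - Cu ≤ (mainI g x₀ X 0).re := by
      have hU := hU1 X hXx
      simp only [mainI, prim, if_true, Complex.sub_re, Complex.ofReal_re, ← hu₀]
      rw [show (rpoly g).eval (X : ℝ) - (rpoly g).eval (X : ℝ) ^ 2 / (2 * (rpoly g).eval (X : ℝ))
        = (rpoly g).eval (X : ℝ) / 2 by field_simp; ring, hCu]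
      have h3 : 0 ≤ u₀ ^ 2 / (2 * (rpoly g).eval (X : ℝ)) := by positivity
      have := le_abs_self u₀
      nlinarith
    have hU2 := (hlow X (by exact_mod_cast hXx)).2
    rw [← hY] at hU2
    have n1 := mul_nonneg (mul_nonneg (show (0:ℝ) ≤ 3 by norm_num) hH0) hZbd
    have n2 := mul_nonneg hC2u hZbd
    have n3 := mul_nonneg hC2H hZbd
    rw [hCdef]
    linarith

theorem core (L : LocalData g) (hK : 2 ≤ g.natDegree) (hl : 0 < g.leadingCoeff) (n₀ : ℕ) :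
    ∃ c : ℝ, 0 < c ∧ ∃ C : ℝ, ∀ N : ℕ, ∀ A : Finset ℕ, A ⊆ Icc 1 N →
      (∀ x ∈ A, ∀ y ∈ A, ∀ n : ℕ, n₀ ≤ n → (x : ℤ) - y = g.eval (n : ℤ) → x = y) →
      (A.card : ℝ) ≤ C * (N : ℝ) ^ (1 - c) := by
  obtain ⟨x', H, c₀, hB'⟩ := exists_bounds g hK hl
  set x₀ := max x' n₀ with hx₀def
  have hB : Bounds g x₀ H c₀ := by
    obtain ⟨a, b, c, d, e, f, h⟩ := hB'
    have hle : x' ≤ x₀ := le_max_left _ _
    exact ⟨le_trans a hle, b, c, fun x hx => d x (le_trans (by exact_mod_cast hle) hx), e,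
      fun X hX => f X (hle.trans hX), fun X hX => h X (hle.trans hX)⟩
  obtain ⟨hx₀1, hH1, hc₀, hlow, hup, _, hb⟩ := id hB
  obtain ⟨E, η, C, D₀, hE, hη, hC, hD₀, hT⟩ := tsum_lower L hK hl hB
  set K := g.natDegree with hKdef
  set m := E * K with hm
  have hm1 : 1 ≤ m := Nat.one_le_iff_ne_zero.mpr (Nat.mul_ne_zero (by omega) (by omega))
  have hmR : (0 : ℝ) < m := by exact_mod_cast hm1
  obtain ⟨Hn, hHn⟩ := exists_nat_ge H
  set C₃ := 4 * C / c₀ with hC₃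
  have hC₃0 : 0 ≤ C₃ := by positivity
  set c := min (η / m) (1 / 2) with hcdef
  have hc : 0 < c := lt_min (by positivity) (by norm_num)
  obtain ⟨D₁, hD₁⟩ := exists_nat_ge ((4 * C / c₀) ^ (1 / η))
  set D₂ := max D₀ D₁ with hD₂
  refine ⟨c, hc, C₃ * ((Hn : ℝ) + 3) * 2 ^ η + ((D₂ : ℝ) + 1) ^ m,
    fun N A hA hav => ?_⟩
  have hCnn : 0 ≤ C₃ * ((Hn : ℝ) + 3) * 2 ^ η := by positivity
  have hD2nn : 0 ≤ ((D₂ : ℝ) + 1) ^ m := by positivity
  rcases Nat.eq_zero_or_pos A.card with hA0 | hA0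
  · rw [hA0, Nat.cast_zero]; positivity
  have hN : 1 ≤ N := by
    obtain ⟨x, hx⟩ := card_pos.mp hA0
    have := mem_Icc.mp (hA hx); omega
  have hNR : (1 : ℝ) ≤ N := by exact_mod_cast hN
  have hcard : (A.card : ℝ) ≤ N := by
    have := card_le_card hA
    rw [Nat.card_Icc, Nat.add_sub_cancel] at this
    exact_mod_cast this
  set D := ⌊(N : ℝ) ^ (1 / (m : ℝ))⌋₊ with hD
  by_cases hsmall : D < D₂
  · have h1 : (N : ℝ) ^ (1 / (m : ℝ)) ≤ (D₂ : ℝ) + 1 := by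
      refine (Nat.lt_floor_add_one _).le.trans ?_
      rw [← hD]; have : (D : ℝ) ≤ D₂ := by exact_mod_cast hsmall.le
      linarith
    have h2 : (N : ℝ) ≤ ((D₂ : ℝ) + 1) ^ m := by
      have h := pow_le_pow_left₀ (by positivity) h1 m
      rwa [← Real.rpow_natCast ((N : ℝ) ^ _) m, ← Real.rpow_mul (by positivity),
        one_div_mul_cancel hmR.ne', Real.rpow_one] at h
    have h3 : (1 : ℝ) ≤ (N : ℝ) ^ (1 - c) :=
      Real.one_le_rpow hNR (by linarith [min_le_right (η / (m : ℝ)) (1 / 2)])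
    calc (A.card : ℝ) ≤ ((D₂ : ℝ) + 1) ^ m * 1 := by linarith
      _ ≤ _ := mul_le_mul (le_add_of_nonneg_left hCnn) h3 (by positivity) (by positivity)
  push Not at hsmall
  have hDD₀ : D₀ ≤ D := le_trans (le_max_left _ _) hsmall
  have hD1 : 1 ≤ D := le_trans hD₀ hDD₀
  have hDR : (1 : ℝ) ≤ D := by exact_mod_cast hD1
  obtain ⟨hXx, hTlow, hT0⟩ := hT D hDD₀
  set X := D ^ E with hX
  set Y := ((D : ℝ) ^ E) ^ K with hY
  have hYX : Y = (X : ℝ) ^ K := by rw [hY, hX]; push_cast; rfl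
  have hY0 : 0 < Y := by positivity
  have hDle : (D : ℝ) ≤ (N : ℝ) ^ (1 / (m : ℝ)) := Nat.floor_le (by positivity)
  have hYN : Y ≤ N := by
    have h := pow_le_pow_left₀ (by positivity) hDle m
    rw [← Real.rpow_natCast ((N : ℝ) ^ _) m, ← Real.rpow_mul (by positivity),
      one_div_mul_cancel hmR.ne', Real.rpow_one] at h
    rw [hY, ← pow_mul]; exact h
  have hDlow : (N : ℝ) ^ (1 / (m : ℝ)) ≤ 2 * D := by
    have := Nat.lt_floor_add_one ((N : ℝ) ^ (1 / (m : ℝ)))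
    rw [← hD] at this; linarith
  set V := Hn * N with hV
  have hvV : ∀ i ∈ range (X - x₀), 0 < g.eval ((x₀ + i : ℕ) : ℤ) ∧
      g.eval ((x₀ + i : ℕ) : ℤ) ≤ (V : ℤ) := by
    intro i hi
    have hi' := mem_range.mp hi
    have h1 : (x₀ : ℝ) ≤ ((x₀ + i : ℕ) : ℝ) := by exact_mod_cast Nat.le_add_right x₀ i
    have h2 : ((x₀ + i : ℕ) : ℝ) ≤ X := by exact_mod_cast (show x₀ + i ≤ X by omega)
    have h3 := (hlow _ h1).1
    rw [rpoly_eval] at h3
    refine ⟨by exact_mod_cast h3, ?_⟩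
    have h4 := (le_abs_self _).trans (hup _ (le_trans (by exact_mod_cast hx₀1) h1))
    rw [rpoly_eval] at h4
    have h5 : ((g.eval ((x₀ + i : ℕ) : ℤ) : ℤ) : ℝ) ≤ ((V : ℕ) : ℝ) := by
      refine h4.trans ?_
      rw [hV, Nat.cast_mul]
      refine mul_le_mul hHn (le_trans (pow_le_pow_left₀ (by positivity) h2 _) ?_) (by positivity)
        (by positivity)
      rw [← hYX]; exact hYN
    exact_mod_cast h5
  set U := (rpoly g).eval (X : ℝ)
  have hlp := lp_bound A N V (range (X - x₀)) (fun i => g.eval ((x₀ + i : ℕ) : ℤ))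
    (fun i => (∑ f ∈ Icc 1 D, wt L f (x₀ + i)) * wgt g U ((x₀ + i : ℕ) : ℝ))
    (C * Y * (D : ℝ) ^ (-η)) hA hvV ?_ ?_
  rotate_left
  · intro x hx y hy i hi he
    have := hav x hx y hy (x₀ + i) (le_trans (le_max_right x' n₀) (Nat.le_add_right _ _)) he
    subst this
    have := (hvV i hi).1
    rw [← he] at this; simp at this
  · intro α
    refine (hTlow α).trans (le_of_eq (congrArg Complex.re ?_))
    rw [tsum']
    simp only [comp']
    rw [sum_comm]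
    refine sum_congr rfl fun i _ => ?_
    rw [Complex.ofReal_mul, Complex.ofReal_sum, sum_mul, sum_mul]
    refine sum_congr rfl fun f _ => ?_
    rw [sm, rpoly_eval g (x₀ + i), mul_assoc]
  have hS : c₀ / 2 * Y - C * Y * (D : ℝ) ^ (-η) ≤ ∑ i ∈ range (X - x₀),
      (∑ f ∈ Icc 1 D, wt L f (x₀ + i)) * wgt g U ((x₀ + i : ℕ) : ℝ) := by
    refine hT0.trans (le_of_eq ?_)
    rw [tsum']
    simp only [comp']
    rw [sum_comm]
    rw [Complex.re_sum]
    refine sum_congr rfl fun i _ => ?_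
    rw [sum_mul, Complex.re_sum]
    refine sum_congr rfl fun f _ => ?_
    rw [sm, zero_mul, ee_zero, mul_one, ← Complex.ofReal_mul, Complex.ofReal_re]
  have hDη : 4 * C / c₀ ≤ (D : ℝ) ^ η := by
    have h1 : (4 * C / c₀) ^ (1 / η) ≤ (D : ℝ) :=
      hD₁.trans (by exact_mod_cast le_trans (le_max_right _ _) hsmall)
    have h2 := Real.rpow_le_rpow (by positivity) h1 hη.le
    rwa [← Real.rpow_mul (by positivity), one_div_mul_cancel hη.ne', Real.rpow_one] at h2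
  have hneg : (D : ℝ) ^ (-η) * (D : ℝ) ^ η = 1 := by
    rw [← Real.rpow_add (by linarith), neg_add_cancel, Real.rpow_zero]
  have hEs : C * Y * (D : ℝ) ^ (-η) ≤ c₀ / 4 * Y := by
    rw [div_le_iff₀ hc₀] at hDη
    have h1 := mul_le_mul_of_nonneg_left hDη (show 0 ≤ Y * (D : ℝ) ^ (-η) by positivity)
    have h2 : Y * (D : ℝ) ^ (-η) * ((D : ℝ) ^ η * c₀) = Y * c₀ := by
      linear_combination (Y * c₀) * hneg
    linarith
  rcases hlp with hlp | hlp
  swap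
  · omega
  have hEnn : 0 ≤ C * Y * (D : ℝ) ^ (-η) := by positivity
  have h1 : (A.card : ℝ) * (c₀ / 4 * Y) ≤ C * Y * (D : ℝ) ^ (-η) * ((N + V + 1 : ℕ) : ℝ) :=
    le_trans (mul_le_mul_of_nonneg_left (by linarith) (Nat.cast_nonneg _)) hlp
  have h2 : ((N + V + 1 : ℕ) : ℝ) ≤ ((Hn : ℝ) + 3) * N := by
    rw [hV]; push_cast; nlinarith
  have h3 : (A.card : ℝ) ≤ C₃ * (D : ℝ) ^ (-η) * (((Hn : ℝ) + 3) * N) := by
    have h4 : (A.card : ℝ) * (c₀ / 4 * Y)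
        ≤ C₃ * (D : ℝ) ^ (-η) * (((Hn : ℝ) + 3) * N) * (c₀ / 4 * Y) := by
      refine h1.trans ((mul_le_mul_of_nonneg_left h2 hEnn).trans (le_of_eq ?_))
      rw [hC₃]; field_simp
    exact le_of_mul_le_mul_right h4 (by positivity)
  refine h3.trans ?_
  have h5 : (D : ℝ) ^ (-η) ≤ 2 ^ η * (N : ℝ) ^ (-c) := by
    calc (D : ℝ) ^ (-η) = 2 ^ η * (2 * (D : ℝ)) ^ (-η) := by
          rw [Real.mul_rpow (by norm_num) (by linarith), ← mul_assoc,
            ← Real.rpow_add (by norm_num), add_neg_cancel, Real.rpow_zero, one_mul]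
      _ ≤ 2 ^ η * ((N : ℝ) ^ (1 / (m : ℝ))) ^ (-η) := mul_le_mul_of_nonneg_left
          (Real.rpow_le_rpow_of_nonpos (by positivity) hDlow (by linarith)) (by positivity)
      _ ≤ _ := by
          refine mul_le_mul_of_nonneg_left ?_ (by positivity)
          rw [← Real.rpow_mul (by positivity)]
          refine Real.rpow_le_rpow_of_exponent_le hNR ?_
          have := min_le_left (η / (m : ℝ)) (1 / 2)
          rw [mul_neg, div_mul_eq_mul_div, one_mul]; linarith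
  calc C₃ * (D : ℝ) ^ (-η) * (((Hn : ℝ) + 3) * N)
      ≤ C₃ * (2 ^ η * (N : ℝ) ^ (-c)) * (((Hn : ℝ) + 3) * N) :=
        mul_le_mul_of_nonneg_right (mul_le_mul_of_nonneg_left h5 hC₃0) (by positivity)
    _ = C₃ * ((Hn : ℝ) + 3) * 2 ^ η * (N : ℝ) ^ (1 - c) := by
        rw [sub_eq_add_neg, Real.rpow_add (by linarith), Real.rpow_one]; ring
    _ ≤ _ := mul_le_mul_of_nonneg_right (le_add_of_nonneg_right hD2nn) (by positivity)

end Vale.Agent.P042
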