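import Vale.Agent.P042.NearLocal

namespace Vale.Agent.P042.Gen.Near

open Finset Polynomial

/-- The fixed ingredients of the construction. -/
structure Ctx (h : ℤ[X]) where
  σ : ℕ → ℝ
  σ_nonneg : ∀ p, 0 ≤ σ p
  z : ℕ → ℕ → ℕ
  p₀ : ℕ
  zm : ℕ → ℕ → ℕ
  S : ℕ → Finset ℕ
  zm_root : ∀ p j, p.Prime → p₀ ≤ p → 1 ≤ j → ((p ^ j : ℕ) : ℤ) ∣ h.eval (zm p j : ℤ) ∧
    ¬ (p : ℤ) ∣ (derivative h).eval (zm p j : ℤ)
  S_pos : ∀ p, p.Prime → p₀ ≤ p → 0 < (S p).card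
  S_deriv : ∀ p, p.Prime → p₀ ≤ p → ∀ x ∈ S p, ¬ (p : ℤ) ∣ (derivative h).eval (x : ℤ)

variable {h : ℤ[X]} (c : Ctx h) (P₁ : ℕ)

/-- The densities: symmetric weights for `p₀ ≤ p ≤ P₁`, geometric ones elsewhere. -/
noncomputable def Ctx.nd : Dens h where
  δ p j n := if c.p₀ ≤ p ∧ p ≤ P₁ then
      (if j = 1 then wp p (c.zm p 1) (c.S p) n - 1
        else (1 / 2) ^ j * dodd 0 p j (n + shift c.zm p j))
    else (dens h c.σ c.σ_nonneg c.z).δ p j n
  per p j hp n := by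
    simp only []
    by_cases hm : c.p₀ ≤ p ∧ p ≤ P₁
    · simp only [if_pos hm]
      by_cases hj : j = 1
      · subst hj
        simp only [↓reduceIte, wp]
        rw [cell_periodic p _ n, sum_congr rfl fun x _ => cell_periodic p x n]
      · simp only [if_neg hj]
        rw [add_right_comm, dodd_periodic 0 p j _]
    · simp only [if_neg hm]
      exact (dens h c.σ c.σ_nonneg c.z).per p j hp n
  mean p j hp hj n := by
    by_cases hm : c.p₀ ≤ p ∧ p ≤ P₁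
    · simp only [if_pos hm]
      by_cases hj1 : j = 1
      · subst hj1
        simp only [↓reduceIte, wp, sum_sub_distrib, sum_add_distrib, ← mul_sum]
        rw [cell_sum hp, sum_comm, sum_congr rfl fun x _ => cell_sum hp x n]
        have := c.S_pos p hp hm.1
        simp only [sum_const, card_range, nsmul_eq_mul, mul_one]
        field_simp
        norm_num
      · simp only [if_neg hj1, add_right_comm n _ (shift c.zm p j)]
        rw [← mul_sum, dodd_mean 0 p j hp hj, mul_zero]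
    · simp only [if_neg hm]
      exact (dens h c.σ c.σ_nonneg c.z).mean p j hp hj n
  sup p j hp hj n := by
    by_cases hm : c.p₀ ≤ p ∧ p ≤ P₁
    · simp only [if_pos hm]
      have hp1 : (1 : ℝ) ≤ p := by exact_mod_cast hp.one_lt.le
      by_cases hj1 : j = 1
      · subst hj1
        simp only [↓reduceIte, pow_one]
        have hcell : ∀ x, 0 ≤ cell p x n ∧ cell p x n ≤ p := fun x => by
          simp only [cell, dlt, pow_one]
          split_ifs <;> constructor <;> linarith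
        have hS : (0 : ℝ) < (c.S p).card := by exact_mod_cast c.S_pos p hp hm.1
        have hsum : ∑ x ∈ c.S p, cell p x n ≤ (c.S p).card * (p : ℝ) := by
          refine (sum_le_card_nsmul _ _ (p : ℝ) fun x _ => (hcell x).2).trans ?_
          simp
        have hsum0 : 0 ≤ ∑ x ∈ c.S p, cell p x n := sum_nonneg fun x _ => (hcell x).1
        have h1 : 1 / (2 * ((c.S p).card : ℝ)) * ∑ x ∈ c.S p, cell p x n ≤ p / 2 := by
          rw [div_mul_eq_mul_div, one_mul, div_le_iff₀ (by positivity)]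
          linarith
        have h2 : 0 ≤ 1 / (2 * ((c.S p).card : ℝ)) * ∑ x ∈ c.S p, cell p x n := by positivity
        rw [wp, abs_le]
        have := hcell (c.zm p 1)
        constructor <;> linarith
      · simp only [if_neg hj1]
        rw [abs_mul, abs_of_nonneg (by positivity : (0:ℝ) ≤ (1 / 2) ^ j)]
        refine (mul_le_of_le_one_left (abs_nonneg _) (pow_le_one₀ (by norm_num) (by norm_num))).trans ?_
        simpa using dodd_sup 0 le_rfl p j hp (n + shift c.zm p j)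
    · simp only [if_neg hm]
      exact (dens h c.σ c.σ_nonneg c.z).sup p j hp hj n

lemma nd_outside {p : ℕ} (hp : ¬ (c.p₀ ≤ p ∧ p ≤ P₁)) :
    (c.nd P₁).δ p = (dens h c.σ c.σ_nonneg c.z).δ p := by
  funext j n
  simp only [Ctx.nd, if_neg hp]

lemma nd_one {p : ℕ} (hm : c.p₀ ≤ p ∧ p ≤ P₁) (n : ℕ) :
    (c.nd P₁).δ p 1 n = wp p (c.zm p 1) (c.S p) n - 1 := by
  simp [Ctx.nd, hm]

lemma locS_congr {g : ℤ[X]} {L L' : Dens g} {p : ℕ} (hδ : L.δ p = L'.δ p) (i : ℕ) (t : ℤ) :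
    locS L p i t = locS L' p i t := by
  simp only [locS, hδ]

lemma absSum_congr {g : ℤ[X]} {L L' : Dens g} {p : ℕ} (hp : p.Prime) (hδ : L.δ p = L'.δ p) (s : ℝ)
    (i : ℕ) (t : ℤ) : absSum L s (p ^ i) t = absSum L' s (p ^ i) t := by
  simp only [absSum, Nat.sum_divisors_prime_pow hp]
  refine sum_congr rfl fun j _ => ?_
  congr 2
  rcases Nat.eq_zero_or_pos j with hj | hj
  · subst hj; simp [term, wt_one]
  · simp only [term, wt_prime_pow _ hp hj, hδ]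

/-- The complete sum modulo `p ^ i`. -/
noncomputable def G0 (h : ℤ[X]) (p i : ℕ) (t : ℤ) : ℂ :=
  avg (p ^ i) fun n => ch (p ^ i) (t * h.eval (n : ℤ))

lemma avg_one {p i : ℕ} (hm : c.p₀ ≤ p ∧ p ≤ P₁) (t : ℤ) :
    avg (p ^ i) (fun n => ((c.nd P₁).δ p 1 n : ℂ) * ch (p ^ i) (t * h.eval (n : ℤ)))
      = Gw h p i (c.zm p 1) (c.S p) t - G0 h p i t := by
  simp only [avg, Gw, G0, nd_one c P₁ hm]
  rw [← sub_div, ← sum_sub_distrib]
  congr 1
  exact sum_congr rfl fun n _ => by push_cast; ring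

lemma avg_high {p i j : ℕ} (hp : p.Prime) (hm : c.p₀ ≤ p ∧ p ≤ P₁) (hj : 2 ≤ j) (hji : j ≤ i)
    (t : ℤ) (ht : ¬ (p : ℤ) ∣ t) :
    avg (p ^ i) (fun n => ((c.nd P₁).δ p j n : ℂ) * ch (p ^ i) (t * h.eval (n : ℤ)))
      = if j = i then (((1 / 2) ^ i : ℝ) : ℂ) else 0 := by
  obtain ⟨hroot, hd⟩ := c.zm_root p j hp hm.1 (by omega)
  have e := avg_delta h (fun _ => 0) (fun _ => le_rfl) (fun _ _ => c.zm p j) hp hji
    (Nat.ModEq.refl _) t
  have e2 : ∀ n, (c.nd P₁).δ p j n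
      = (1 / 2) ^ j * (dens h (fun _ => 0) (fun _ => le_rfl) (fun _ _ => c.zm p j)).δ p j n := by
    intro n
    simp only [Ctx.nd, if_pos hm, if_neg (show ¬ j = 1 by omega)]
    rfl
  simp only [e2, Complex.ofReal_mul, mul_assoc]
  rw [avg, ← mul_sum, mul_div_assoc]
  rw [avg] at e
  rw [e]
  simp only [ρp, neg_zero, Real.rpow_zero, one_pow, Complex.ofReal_one, one_mul]
  rcases eq_or_lt_of_le hji with hEq | hlt
  · subst hEq
    rw [if_pos rfl, gG_zero h hp (l := j - 1) (c.zm p j) hd (by omega) (by omega) t ht, sub_zero,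
      gG_eq_one' (taylor (c.zm p j : ℤ) h) 1 p j j ?_ t hp le_rfl (by simp), mul_one]
    intro u hu
    rw [show u = 0 by omega, taylor_coeff_zero]
    exact hroot
  · rw [if_neg hlt.ne, gG_zero h hp (l := j) (c.zm p j) hd (by omega) hlt t ht,
      gG_zero h hp (l := j - 1) (c.zm p j) hd (by omega) (by omega) t ht, sub_zero, mul_zero]

lemma locS_mid {p i : ℕ} (hp : p.Prime) (hm : c.p₀ ≤ p ∧ p ≤ P₁) (hi : 1 ≤ i) (t : ℤ)
    (ht : ¬ (p : ℤ) ∣ t) :
    locS (c.nd P₁) p i t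
      = if i = 1 then Gw h p 1 (c.zm p 1) (c.S p) t else (((1 / 2) ^ i : ℝ) : ℂ) := by
  rw [locS, ← add_sum_Ioc_eq_sum_Icc hi, avg_one c P₁ hm]
  have h2 : ∀ j ∈ Ioc 1 i, avg (p ^ i) (fun n => ((c.nd P₁).δ p j n : ℂ) * ch (p ^ i) (t * h.eval (n : ℤ)))
      = if j = i then (((1 / 2) ^ i : ℝ) : ℂ) else 0 := fun j hj =>
    avg_high c P₁ hp hm (by have := (mem_Ioc.mp hj).1; omega) (mem_Ioc.mp hj).2 t ht
  rw [sum_congr rfl h2, sum_ite_eq']
  rcases eq_or_lt_of_le hi with hEq | hlt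
  · subst hEq
    simp [G0]
  · rw [if_neg hlt.ne', if_pos (mem_Ioc.mpr ⟨hlt, le_rfl⟩),
      Gw_high h hp hlt (c.zm p 1) (c.zm_root p 1 hp hm.1 le_rfl).2]
    · simp [G0]
    · exact c.S_deriv p hp hm.1
    · exact ht

lemma absSum_mid {p i : ℕ} (hp : p.Prime) (hm : c.p₀ ≤ p ∧ p ≤ P₁) (hi : 1 ≤ i) (t : ℤ)
    (ht : ¬ (p : ℤ) ∣ t) (s β r : ℝ) (hps1 : 1 ≤ (p : ℝ) ^ s) (hps : (p : ℝ) ^ s ≤ 4 / 3)
    (hG0 : ‖G0 h p i t‖ ≤ β) (hβ : β ≤ 1 / 24)
    (hGw : i = 1 → ‖Gw h p 1 (c.zm p 1) (c.S p) t‖ ≤ r) (hr : r * (p : ℝ) ^ s + 3 * β ≤ 1) :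
    absSum (c.nd P₁) s (p ^ i) t ≤ 1 := by
  rw [absSum, Nat.sum_divisors_prime_pow hp, sum_range_succ',
    show range i = Ico 0 i from (range_eq_Ico i), sum_eq_sum_Ico_succ_bot (by omega : 0 < i)]
  have e0 : ‖term (c.nd P₁) (p ^ i) (p ^ 0) t‖ * (((p ^ 0 : ℕ)) : ℝ) ^ s = ‖G0 h p i t‖ := by
    simp [term, wt_one, G0]
  have ej : ∀ j, 1 ≤ j → ‖term (c.nd P₁) (p ^ i) (p ^ j) t‖ * (((p ^ j : ℕ)) : ℝ) ^ s
      = ‖avg (p ^ i) (fun n => ((c.nd P₁).δ p j n : ℂ) * ch (p ^ i) (t * h.eval (n : ℤ)))‖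
        * ((p : ℝ) ^ s) ^ j := by
    intro j hj
    rw [term]
    simp only [wt_prime_pow _ hp hj]
    congr 1
    push_cast
    rw [Real.rpow_pow_comm (Nat.cast_nonneg p)]
  rw [e0, zero_add, ej 1 le_rfl, avg_one c P₁ hm, pow_one]
  have hrest : ∀ j ∈ Ico 1 i, ‖term (c.nd P₁) (p ^ i) (p ^ (j + 1)) t‖ *
      (((p ^ (j + 1) : ℕ)) : ℝ) ^ s = if j + 1 = i then ((p : ℝ) ^ s / 2) ^ i else 0 := by
    intro j hj
    obtain ⟨h1, h2⟩ := mem_Ico.mp hj
    rw [ej (j + 1) (by omega), avg_high c P₁ hp hm (by omega) (by omega) t ht]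
    split_ifs with h
    · rw [Complex.norm_real, Real.norm_eq_abs, abs_of_nonneg (by positivity), h, ← mul_pow]
      congr 1; ring
    · simp
  rw [sum_congr rfl hrest]
  have hβ0 : 0 ≤ β := (norm_nonneg _).trans hG0
  have hn := norm_nonneg (G0 h p i t)
  rcases eq_or_lt_of_le hi with hEq | hlt
  · subst hEq
    rw [Ico_self, sum_empty]
    have t1 : ‖Gw h p 1 (c.zm p 1) (c.S p) t - G0 h p 1 t‖ ≤ r + β :=
      (norm_sub_le _ _).trans (add_le_add (hGw rfl) hG0)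
    have t2 := mul_le_mul_of_nonneg_right t1 (show 0 ≤ (p : ℝ) ^ s by positivity)
    have t3 := mul_le_mul_of_nonneg_left hps hβ0
    linarith
  · rw [Gw_high h hp hlt (c.zm p 1) (c.zm_root p 1 hp hm.1 le_rfl).2 (c.S p)
      (c.S_deriv p hp hm.1) t ht, zero_sub, norm_neg,
      sum_eq_single_of_mem (i - 1) (mem_Ico.mpr ⟨by omega, by omega⟩)
        (fun j hj hne => by rw [if_neg (by omega)]), if_pos (by omega)]
    have t1 := mul_le_mul hG0 hps (by positivity) hβ0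
    have t2 : ((p : ℝ) ^ s / 2) ^ i ≤ (2 / 3 : ℝ) ^ 2 := by
      calc ((p : ℝ) ^ s / 2) ^ i ≤ (2 / 3 : ℝ) ^ i := pow_le_pow_left₀ (by positivity) (by linarith) _
        _ ≤ _ := pow_le_pow_of_le_one (by norm_num) (by norm_num) hlt
    norm_num at t2 ⊢
    linarith

end Vale.Agent.P042.Gen.Near
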