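import Vale.Agent.P042.GenParams
import Vale.Agent.P042.Quad

namespace Vale.Agent.P042.Gen.Near

open Finset Polynomial

/-- A simple root modulo `p`, and many noncritical points whose values form a symmetric set. -/
def PairAt (h : ℤ[X]) (κ : ℝ) (p : ℕ) : Prop :=
  (∃ z : ℕ, (p : ℤ) ∣ h.eval (z : ℤ) ∧ ¬ (p : ℤ) ∣ (derivative h).eval (z : ℤ)) ∧
    ∃ X : Finset ℕ, κ * p ≤ X.card ∧ (∀ x ∈ X, x < p) ∧
      (∀ x ∈ X, ¬ (p : ℤ) ∣ (derivative h).eval (x : ℤ)) ∧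
      (∀ x ∈ X, ∃ y ∈ X, (p : ℤ) ∣ h.eval (x : ℤ) + h.eval (y : ℤ)) ∧
      ∀ x ∈ X, ∀ y ∈ X, (p : ℤ) ∣ h.eval (x : ℤ) - h.eval (y : ℤ) → x = y

lemma hensel_step {h : ℤ[X]} {p j : ℕ} (hp : p.Prime) (hj : 1 ≤ j) {z : ℤ}
    (hz : ((p ^ j : ℕ) : ℤ) ∣ h.eval z) (hd : ¬ (p : ℤ) ∣ (derivative h).eval z) :
    ∃ m : ℤ, ((p ^ (j + 1) : ℕ) : ℤ) ∣ h.eval (z + (p : ℤ) ^ j * m) := by
  obtain ⟨u, hu⟩ := hz
  obtain ⟨a, b, hab⟩ :=
    ((Nat.prime_iff_prime_int.mp hp).coprime_iff_not_dvd.mpr hd)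
  refine ⟨-b * u, ?_⟩
  have ht : ∀ x : ℤ, ((p : ℤ) ^ j) ^ 2 ∣ h.eval (z + (p : ℤ) ^ j * x) - h.eval z
      - (derivative h).eval z * ((p : ℤ) ^ j * x) := by
    intro x
    obtain ⟨k, hk⟩ := Polynomial.binomExpansion h z ((p : ℤ) ^ j * x)
    exact ⟨k * x ^ 2, by rw [hk]; ring⟩
  have h2 : ((p ^ (j + 1) : ℕ) : ℤ) ∣ ((p : ℤ) ^ j) ^ 2 := by
    push_cast
    rw [← pow_mul]
    exact pow_dvd_pow _ (by omega)
  have h3 := h2.trans (ht (-b * u))
  have h4 : ((p ^ (j + 1) : ℕ) : ℤ) ∣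
      h.eval z + (derivative h).eval z * ((p : ℤ) ^ j * (-b * u)) := by
    refine ⟨u * a, ?_⟩
    rw [hu]
    push_cast
    rw [pow_succ]
    linear_combination (-((p : ℤ) ^ j * u)) * hab
  have h5 := dvd_add h3 h4
  refine (Eq.subst (motive := fun e => ((p ^ (j + 1) : ℕ) : ℤ) ∣ e) ?_ h5)
  ring

lemma deriv_congr {h : ℤ[X]} {p : ℕ} {z w : ℤ} (hzw : (p : ℤ) ∣ z - w)
    (hd : ¬ (p : ℤ) ∣ (derivative h).eval w) : ¬ (p : ℤ) ∣ (derivative h).eval z := fun hh =>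
  hd ((dvd_sub_right hh).mp (hzw.trans (sub_dvd_eval_sub _ _ _)))

lemma lift_root {h : ℤ[X]} {p : ℕ} (hp : p.Prime) {z₁ : ℕ} (hz : (p : ℤ) ∣ h.eval (z₁ : ℤ))
    (hd : ¬ (p : ℤ) ∣ (derivative h).eval (z₁ : ℤ)) (j : ℕ) (hj : 1 ≤ j) :
    ∃ z : ℕ, ((p ^ j : ℕ) : ℤ) ∣ h.eval (z : ℤ) ∧ ¬ (p : ℤ) ∣ (derivative h).eval (z : ℤ) := by
  have key : ∀ j, 1 ≤ j → ∃ z : ℤ, ((p ^ j : ℕ) : ℤ) ∣ h.eval z ∧
      ¬ (p : ℤ) ∣ (derivative h).eval z := by
    intro j hj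
    induction j, hj using Nat.le_induction with
    | base => exact ⟨z₁, by simpa using hz, hd⟩
    | succ n hn ih =>
      obtain ⟨z, hz', hd'⟩ := ih
      obtain ⟨m, hm⟩ := hensel_step hp hn hz' hd'
      refine ⟨_, hm, deriv_congr (w := z) ?_ hd'⟩
      rw [add_sub_cancel_left]
      exact dvd_mul_of_dvd_left (dvd_pow_self _ (by omega)) _
  obtain ⟨z, hz', hd'⟩ := key j hj
  have hpj : (0 : ℤ) < ((p ^ j : ℕ) : ℤ) := by exact_mod_cast pow_pos hp.pos j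
  refine ⟨(z % ((p ^ j : ℕ) : ℤ)).toNat, ?_, ?_⟩
  all_goals rw [Int.toNat_of_nonneg (Int.emod_nonneg _ hpj.ne')]
  · refine (dvd_sub_right hz').mp (dvd_trans ?_ (sub_dvd_eval_sub z _ _))
    exact ⟨z / ((p ^ j : ℕ) : ℤ), by rw [Int.emod_def]; ring⟩
  · refine deriv_congr (w := z) ?_ hd'
    refine dvd_trans (show (p : ℤ) ∣ ((p ^ j : ℕ) : ℤ) by
      push_cast; exact dvd_pow_self _ (by omega)) ⟨-(z / ((p ^ j : ℕ) : ℤ)), ?_⟩
    rw [Int.emod_def]; ring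

lemma gG_zero (h : ℤ[X]) {p i l : ℕ} (hp : p.Prime) (z : ℕ)
    (hd : ¬ (p : ℤ) ∣ (derivative h).eval (z : ℤ)) (hl : 1 ≤ l) (hli : l < i) (t : ℤ)
    (ht : ¬ (p : ℤ) ∣ t) : gG (taylor (z : ℤ) h) p i t l = 0 := by
  set g := taylor (z : ℤ) h with hg
  obtain ⟨r, rfl⟩ : ∃ r, i = l + r + 1 := ⟨i - l - 1, by omega⟩
  rw [gG, avg_dlt p _ l hp (by omega), show l + r + 1 - l = r + 1 by omega]
  have hpi : 1 ≤ p ^ (l + r + 1) := Nat.one_le_pow _ _ hp.pos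
  have hd1 : (derivative g).eval 0 = (derivative h).eval (z : ℤ) := by
    rw [← coeff_zero_eq_eval_zero, coeff_derivative, hg, taylor_coeff_one]; simp
  refine avg_eq_zero_of_shift _ (p ^ r) _ (ch p (t * (derivative h).eval (z : ℤ)))
    (ch_ne_one hp (fun hh => ?_)) (fun m => ?_) (fun m => ?_)
  · exact ((Nat.prime_iff_prime_int.mp hp).dvd_or_dvd hh).elim ht hd
  · refine ch_congr hpi ?_
    rw [← mul_sub]
    refine Dvd.dvd.mul_left (dvd_trans ?_ (sub_dvd_eval_sub _ _ g)) _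
    refine ⟨1, ?_⟩
    push_cast
    rw [show l + r + 1 = l + (r + 1) by omega, pow_add]; ring
  · obtain ⟨k, hk⟩ := Polynomial.binomExpansion g ((p : ℤ) ^ l * m) ((p : ℤ) ^ (l + r))
    have h1 : (derivative g).eval ((p : ℤ) ^ l * m) * (p : ℤ) ^ (l + r)
        - (derivative h).eval (z : ℤ) * (p : ℤ) ^ (l + r)
        = ((derivative g).eval ((p : ℤ) ^ l * m) - (derivative g).eval 0) * (p : ℤ) ^ (l + r) := by
      rw [hd1]; ring
    have h2 : ((p ^ (l + r + 1) : ℕ) : ℤ) ∣ g.eval ((p : ℤ) ^ l * m + (p : ℤ) ^ (l + r))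
        - (g.eval ((p : ℤ) ^ l * m) + (derivative h).eval (z : ℤ) * (p : ℤ) ^ (l + r)) := by
      rw [hk, show g.eval ((p : ℤ) ^ l * m) + (derivative g).eval ((p : ℤ) ^ l * m) * (p : ℤ) ^ (l + r)
          + k * ((p : ℤ) ^ (l + r)) ^ 2
          - (g.eval ((p : ℤ) ^ l * m) + (derivative h).eval (z : ℤ) * (p : ℤ) ^ (l + r))
          = ((derivative g).eval ((p : ℤ) ^ l * m) * (p : ℤ) ^ (l + r)
              - (derivative h).eval (z : ℤ) * (p : ℤ) ^ (l + r))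
            + k * ((p : ℤ) ^ (l + r)) ^ 2 by ring, h1]
      push_cast
      refine dvd_add ?_ (Dvd.dvd.mul_left ?_ _)
      · rw [pow_succ, mul_comm _ (p : ℤ)]
        refine mul_dvd_mul_right (dvd_trans ?_ (sub_dvd_eval_sub _ _ (derivative g))) _
        rw [sub_zero]
        exact dvd_mul_of_dvd_left (dvd_pow_self _ (by omega)) _
      · rw [← pow_mul]; exact pow_dvd_pow _ (by omega)
    have e : ((p ^ l * (m + p ^ r) : ℕ) : ℤ) = (p : ℤ) ^ l * m + (p : ℤ) ^ (l + r) := by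
      push_cast; ring
    rw [e, ch_congr hpi
      (y := t * (derivative h).eval (z : ℤ) * (p : ℤ) ^ (l + r) + t * g.eval ((p : ℤ) ^ l * m))]
    · rw [ch, ch, ch, ← ee_add]
      congr 1
      have hpR : (p : ℝ) ≠ 0 := by exact_mod_cast hp.ne_zero
      push_cast
      rw [pow_succ]
      field_simp
    · obtain ⟨c, hc⟩ := h2
      exact ⟨t * c, by linear_combination t * hc⟩

/-- The weight of the residue class of `x` modulo `p`. -/
noncomputable def cell (p x n : ℕ) : ℝ := dlt p 1 (n + (p - x % p))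

lemma cell_periodic (p x : ℕ) : Function.Periodic (cell p x) (p ^ 1) := fun n => by
  simp only [cell]
  rw [add_right_comm]
  exact dlt_periodic dvd_rfl _

lemma cell_sum {p : ℕ} (hp : p.Prime) (x n : ℕ) :
    ∑ s ∈ range p, cell p x (n + p ^ (1 - 1) * s) = p := by
  have h := dodd_mean 0 p 1 hp le_rfl (n + (p - x % p))
  simp only [dodd, ρp, neg_zero, Real.rpow_zero, one_pow, one_mul, sum_sub_distrib] at h
  have h0 : ∑ s ∈ range p, dlt p 0 (n + (p - x % p) + p ^ (1 - 1) * s) = p := by simp [dlt]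
  rw [sum_congr rfl (fun s _ => show cell p x (n + p ^ (1 - 1) * s)
    = dlt p 1 (n + (p - x % p) + p ^ (1 - 1) * s) by rw [cell, add_right_comm])]
  linarith

lemma avg_cell (h : ℤ[X]) {p i : ℕ} (hp : p.Prime) (hi : 1 ≤ i) (x : ℕ) (t : ℤ) :
    avg (p ^ i) (fun n => ((cell p x n : ℝ) : ℂ) * ch (p ^ i) (t * h.eval (n : ℤ)))
      = gG (taylor (x : ℤ) h) p i t 1 := by
  rw [avg_recenter h (fun _ _ => x) hp t _ (fun n => by
    rw [periodic_of_dvd (cell_periodic p x) (pow_dvd_pow p hi) n]), gG]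
  congr 1
  funext m
  simp only [cell]
  congr 2
  refine periodic_modEq (dlt_periodic dvd_rfl) ?_
  rw [pow_one, add_assoc]
  have h1 : x + (p - x % p) ≡ 0 [MOD p] := by
    refine ((Nat.mod_modEq x p).symm.add_right _).trans ?_
    rw [Nat.add_sub_cancel' (Nat.mod_lt x hp.pos).le]
    exact Nat.modEq_zero_iff_dvd.mpr dvd_rfl
  simpa using h1.add_left m

lemma gG_cell_one (h : ℤ[X]) {p : ℕ} (hp : p.Prime) (x : ℕ) (t : ℤ) :
    gG (taylor (x : ℤ) h) p 1 t 1 = ch p (t * h.eval (x : ℤ)) := by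
  rw [gG, avg_dlt p 1 1 hp le_rfl]
  simp [avg, taylor_eval, pow_one]

/-- The weight modulo `p`: half on the root, half spread over the symmetric set. -/
noncomputable def wp (p z : ℕ) (S : Finset ℕ) (n : ℕ) : ℝ :=
  (1 / 2) * cell p z n + 1 / (2 * (S.card : ℝ)) * ∑ x ∈ S, cell p x n

/-- The average of the phase for `wp`. -/
noncomputable def Gw (h : ℤ[X]) (p i : ℕ) (z : ℕ) (S : Finset ℕ) (t : ℤ) : ℂ :=
  avg (p ^ i) fun n => ((wp p z S n : ℝ) : ℂ) * ch (p ^ i) (t * h.eval (n : ℤ))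

lemma Gw_eq (h : ℤ[X]) {p i : ℕ} (hp : p.Prime) (hi : 1 ≤ i) (z : ℕ) (S : Finset ℕ) (t : ℤ) :
    Gw h p i z S t = ((1 / 2 : ℝ) : ℂ) * gG (taylor (z : ℤ) h) p i t 1
      + ((1 / (2 * (S.card : ℝ)) : ℝ) : ℂ) * ∑ x ∈ S, gG (taylor (x : ℤ) h) p i t 1 := by
  simp only [← avg_cell h hp hi, Gw, avg, wp]
  rw [← sum_div, ← mul_div_assoc, ← mul_div_assoc, ← add_div, sum_comm, mul_sum, mul_sum,
    ← sum_add_distrib]
  congr 1
  refine sum_congr rfl fun n _ => ?_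
  push_cast
  rw [← sum_mul]
  ring

lemma cos_far {p r : ℕ} (hp : 1 ≤ p) {η : ℝ} (hη0 : 0 ≤ η) (hη : η ≤ 1 / 2) (h1 : η * p ≤ r)
    (h2 : (r : ℝ) ≤ (1 - η) * p) :
    Real.cos (2 * Real.pi * ((r : ℝ) / p)) ≤ Real.cos (2 * Real.pi * η) := by
  have hpR : (0 : ℝ) < p := by exact_mod_cast hp
  set u := (r : ℝ) / p with hu
  have hu1 : η ≤ u := by rw [hu, le_div_iff₀ hpR]; exact h1
  have hu2 : u ≤ 1 - η := by rw [hu, div_le_iff₀ hpR]; exact h2
  have hπ := Real.pi_pos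
  rcases le_or_gt u (1 / 2) with h | h
  · exact Real.cos_le_cos_of_nonneg_of_le_pi (by positivity) (by nlinarith)
      (mul_le_mul_of_nonneg_left hu1 (by positivity))
  · rw [← Real.cos_two_pi_sub]
    refine Real.cos_le_cos_of_nonneg_of_le_pi (by positivity) (by nlinarith) ?_
    nlinarith

lemma close_card (p : ℕ) (η : ℝ) (hη : 0 ≤ η) :
    (((range p).filter (fun r : ℕ => ¬ (η * p ≤ r ∧ (r : ℝ) ≤ (1 - η) * p))).card : ℝ)
      ≤ 2 * η * p + 2 := by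
  set m := ⌈η * (p : ℝ)⌉₊ with hm
  have hsub : (range p).filter (fun r : ℕ => ¬ (η * p ≤ r ∧ (r : ℝ) ≤ (1 - η) * p))
      ⊆ range m ∪ Ico (p - m) p := by
    intro r hr
    obtain ⟨h1, h2⟩ := mem_filter.mp hr
    have h1 := mem_range.mp h1
    rw [mem_union, mem_range, mem_Ico]
    by_contra hc
    push Not at hc
    obtain ⟨hc1, hc2⟩ := hc
    have hrlt : r + m < p := by
      by_contra h
      have := hc2 (by omega)
      omega
    refine h2 ⟨le_trans (Nat.le_ceil _) (by exact_mod_cast hc1), ?_⟩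
    have h3 : (r : ℝ) + m ≤ p := by exact_mod_cast hrlt.le
    have h4 : η * (p : ℝ) ≤ m := Nat.le_ceil _
    linarith
  have h3 := (card_le_card hsub).trans (card_union_le _ _)
  rw [card_range, Nat.card_Ico] at h3
  have h5 : ((range p).filter (fun r : ℕ => ¬ (η * p ≤ r ∧ (r : ℝ) ≤ (1 - η) * p))).card ≤ 2 * m :=
    h3.trans (by omega)
  have h6 : (m : ℝ) ≤ η * p + 1 := (Nat.ceil_lt_add_one (by positivity)).le
  calc (((range p).filter (fun r : ℕ => ¬ (η * p ≤ r ∧ (r : ℝ) ≤ (1 - η) * p))).card : ℝ)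
      ≤ ((2 * m : ℕ) : ℝ) := by exact_mod_cast h5
    _ ≤ _ := by push_cast; linarith

lemma ch_re (p : ℕ) (x : ℤ) : (ch p x).re = Real.cos (2 * Real.pi * ((x : ℝ) / p)) := by
  rw [ch, ee, mul_comm Complex.I, Complex.exp_ofReal_mul_I_re]

lemma ch_conj (p : ℕ) (x : ℤ) : (starRingEnd ℂ) (ch p x) = ch p (-x) := by
  rw [ch, ch, ee_conj]; congr 1; push_cast; ring

theorem Gw_one (h : ℤ[X]) {p : ℕ} (hp : p.Prime) {κ : ℝ} (hκ : 0 < κ) (hκ1 : κ ≤ 1)
    (hκp : 8 ≤ κ * p) (z : ℕ) (hz : (p : ℤ) ∣ h.eval (z : ℤ)) (S : Finset ℕ)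
    (hcard : κ * p ≤ S.card)
    (hsym : ∀ x ∈ S, ∃ y ∈ S, (p : ℤ) ∣ h.eval (x : ℤ) + h.eval (y : ℤ))
    (hinj : ∀ x ∈ S, ∀ y ∈ S, (p : ℤ) ∣ h.eval (x : ℤ) - h.eval (y : ℤ) → x = y)
    (t : ℤ) (ht : ¬ (p : ℤ) ∣ t) :
    ∃ R : ℝ, 0 ≤ R ∧ R ≤ 1 - (1 - Real.cos (2 * Real.pi * (κ / 8))) / 4 ∧
      Gw h p 1 z S t = (R : ℂ) := by
  classical
  have hpp := Nat.prime_iff_prime_int.mp hp
  have hp1 : 1 ≤ p := hp.one_lt.le
  have hpZ : (0 : ℤ) < p := by exact_mod_cast hp.pos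
  have hS : (0 : ℝ) < S.card := lt_of_lt_of_le (by linarith) hcard
  set F := ∑ x ∈ S, ch p (t * h.eval (x : ℤ)) with hF
  choose! y hyS hy using hsym
  have hreal : (starRingEnd ℂ) F = F := by
    rw [hF, map_sum]
    refine sum_bij' (fun x _ => y x) (fun x _ => y x) hyS hyS (fun x hx => ?_) (fun x hx => ?_)
      (fun x hx => ?_)
    · refine hinj _ (hyS _ (hyS _ hx)) _ hx ?_
      have := dvd_sub (hy _ (hyS _ hx)) (hy _ hx)
      rwa [show h.eval (y x : ℤ) + h.eval (y (y x) : ℤ) - (h.eval (x : ℤ) + h.eval (y x : ℤ))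
        = h.eval (y (y x) : ℤ) - h.eval (x : ℤ) by ring] at this
    · refine hinj _ (hyS _ (hyS _ hx)) _ hx ?_
      have := dvd_sub (hy _ (hyS _ hx)) (hy _ hx)
      rwa [show h.eval (y x : ℤ) + h.eval (y (y x) : ℤ) - (h.eval (x : ℤ) + h.eval (y x : ℤ))
        = h.eval (y (y x) : ℤ) - h.eval (x : ℤ) by ring] at this
    · rw [ch_conj]
      refine ch_congr hp1 ?_
      obtain ⟨c, hc⟩ := hy x hx
      exact ⟨-(t * c), by linear_combination (-t) * hc⟩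
  have him : F.im = 0 := Complex.conj_eq_iff_im.mp hreal
  have hlow : -(S.card : ℝ) ≤ F.re := by
    have h1 : |F.re| ≤ S.card := (Complex.abs_re_le_norm F).trans ((norm_sum_le _ _).trans (by
      simp [norm_ch]))
    exact (abs_le.mp h1).1
  set η := κ / 8 with hη
  set γ := Real.cos (2 * Real.pi * η) with hγ
  have hγ1 : γ ≤ 1 := Real.cos_le_one _
  set rr : ℕ → ℕ := fun x => ((t * h.eval (x : ℤ)) % (p : ℤ)).toNat with hrr
  have hrrZ : ∀ x, ((rr x : ℕ) : ℤ) = (t * h.eval (x : ℤ)) % (p : ℤ) := fun x =>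
    Int.toNat_of_nonneg (Int.emod_nonneg _ hpZ.ne')
  set Bad := S.filter (fun x => ¬ (η * p ≤ rr x ∧ (rr x : ℝ) ≤ (1 - η) * p)) with hBad
  have hbad : (Bad.card : ℝ) ≤ S.card / 2 := by
    have hmaps : Bad.image rr ⊆ (range p).filter
        (fun r : ℕ => ¬ (η * p ≤ r ∧ (r : ℝ) ≤ (1 - η) * p)) := by
      intro r hr
      obtain ⟨x, hx, rfl⟩ := mem_image.mp hr
      refine mem_filter.mpr ⟨mem_range.mpr ?_, (mem_filter.mp hx).2⟩
      have h1 := hrrZ x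
      have h2 := Int.emod_lt_of_pos (t * h.eval (x : ℤ)) hpZ
      omega
    have hinjr : Set.InjOn rr Bad := by
      intro a ha b hb hab
      refine hinj a (mem_filter.mp ha).1 b (mem_filter.mp hb).1 ?_
      have hd : (p : ℤ) ∣ t * (h.eval (a : ℤ) - h.eval (b : ℤ)) := by
        rw [mul_sub]
        refine Int.ModEq.dvd (show t * h.eval (b : ℤ) ≡ t * h.eval (a : ℤ) [ZMOD p] from ?_)
        show (t * h.eval (b : ℤ)) % (p : ℤ) = (t * h.eval (a : ℤ)) % (p : ℤ)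
        rw [← hrrZ, ← hrrZ, hab]
      exact (hpp.dvd_or_dvd hd).resolve_left ht
    have h1 := card_le_card hmaps
    rw [card_image_of_injOn hinjr] at h1
    have h2 : (Bad.card : ℝ) ≤ 2 * η * p + 2 :=
      le_trans (by exact_mod_cast h1) (close_card p η (by positivity))
    rw [hη] at h2
    linarith
  have hhigh : F.re ≤ S.card * ((1 + γ) / 2) := by
    have hsum : F.re ≤ ∑ x ∈ S, (γ + if x ∈ Bad then 1 - γ else 0) := by
      rw [hF, Complex.re_sum]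
      refine sum_le_sum fun x hx => ?_
      rw [ch_congr hp1 (y := ((rr x : ℕ) : ℤ))
        (by rw [hrrZ]; exact ⟨t * h.eval (x : ℤ) / (p : ℤ), by rw [Int.emod_def]; ring⟩), ch_re]
      by_cases hb : x ∈ Bad
      · rw [if_pos hb, add_sub_cancel]; exact Real.cos_le_one _
      · rw [if_neg hb, add_zero]
        have hgood : η * p ≤ rr x ∧ (rr x : ℝ) ≤ (1 - η) * p := by
          by_contra hc; exact hb (mem_filter.mpr ⟨hx, hc⟩)
        rw [Int.cast_natCast]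
        exact cos_far hp1 (by positivity) (by rw [hη]; linarith) hgood.1 hgood.2
    rw [sum_add_distrib, sum_const, nsmul_eq_mul, ← sum_filter,
      filter_mem_eq_inter, inter_eq_right.mpr (filter_subset _ _), sum_const, nsmul_eq_mul] at hsum
    have := mul_le_mul_of_nonneg_right hbad (show 0 ≤ 1 - γ by linarith)
    linarith
  refine ⟨1 / 2 + F.re / (2 * S.card), ?_, ?_, ?_⟩
  · have : -(1 / 2 : ℝ) ≤ F.re / (2 * S.card) := by
      rw [le_div_iff₀ (by positivity)]; linarith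
    linarith
  · have : F.re / (2 * S.card) ≤ (1 + γ) / 4 := by
      rw [div_le_iff₀ (by positivity)]; linarith
    linarith
  · rw [Gw_eq h hp le_rfl]
    simp only [gG_cell_one h hp]
    rw [← hF, show ch p (t * h.eval (z : ℤ)) = 1 from ?_]
    · have hFre : F = ((F.re : ℝ) : ℂ) := Complex.ext (by simp) (by simp [him])
      conv_lhs => rw [hFre]
      push_cast
      ring
    · rw [ch_congr hp1 (y := 0) (by rw [sub_zero]; exact hz.mul_left t)]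
      simp [ch, ee_zero]

theorem Gw_high (h : ℤ[X]) {p i : ℕ} (hp : p.Prime) (hi : 2 ≤ i) (z : ℕ)
    (hzd : ¬ (p : ℤ) ∣ (derivative h).eval (z : ℤ)) (S : Finset ℕ)
    (hSd : ∀ x ∈ S, ¬ (p : ℤ) ∣ (derivative h).eval (x : ℤ)) (t : ℤ) (ht : ¬ (p : ℤ) ∣ t) :
    Gw h p i z S t = 0 := by
  rw [Gw_eq h hp (by omega), gG_zero h hp z hzd le_rfl hi t ht,
    sum_eq_zero fun x hx => gG_zero h hp x (hSd x hx) le_rfl hi t ht]
  simp

end Vale.Agent.P042.Gen.Near
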