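import Vale.Agent.P042.NearDens
import Vale.Agent.P042.GenMix

namespace Vale.Agent.P042.Gen.Near

open Finset Polynomial Filter

lemma exp_quarter : Real.exp (1 / 4) ≤ 4 / 3 := by
  have := Real.exp_bound_div_one_sub_of_interval (by norm_num : (0:ℝ) ≤ 1 / 4) (by norm_num)
  norm_num at this ⊢
  linarith

/-- The fixed constants of the construction. -/
structure Par (h : ℤ[X]) (k : ℕ) where
  θ : ℝ
  C : ℝ
  hCB : CB k θ C
  hdeg : h.natDegree = k
  hk : 1 ≤ k
  N : ℕ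
  e : ℕ → ℕ
  c : Ctx h
  hR : RootData h c.z e N
  σ₁ : ℝ
  τ : ℝ
  ρ₁ : ℝ
  σ₁_pos : 0 < σ₁
  σ₁_le : σ₁ ≤ θ / 2
  τ_pos : 0 < τ
  τ_le : τ ≤ 1 / 4
  σ_eq : ∀ p, c.σ p = if p < c.p₀ then σ₁ else θ / 2
  small : σ₁ * (2 * (C * (N : ℝ) ^ θ / (1 - (2 : ℝ) ^ (-(θ / 2)))) / θ) ≤ 1 / (12 * ((c.p₀ : ℝ) + 1))
  gw : ∀ p, p.Prime → c.p₀ ≤ p → ∀ t : ℤ, ¬ (p : ℤ) ∣ t →
    ∃ R : ℝ, 0 ≤ R ∧ R ≤ ρ₁ ∧ Gw h p 1 (c.zm p 1) (c.S p) t = (R : ℂ)
  ρ₁_le : ρ₁ ≤ 1
  slack : ρ₁ * Real.exp τ + (1 - ρ₁) / 4 ≤ 1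
  beta : ∀ p : ℕ, p.Prime → c.p₀ ≤ p → C * (h.leadingCoeff.natAbs : ℝ) ^ θ * (p : ℝ) ^ (-θ)
    ≤ min (1 / 24) ((1 - ρ₁) / 12)

variable {h : ℤ[X]} {k : ℕ} (π : Par h k)

/-- The loss constant of the geometric densities. -/
noncomputable def Par.K₁ : ℝ := π.C * (π.N : ℝ) ^ π.θ / (1 - (2 : ℝ) ^ (-(π.θ / 2)))

lemma Par.θ_pos : 0 < π.θ := π.hCB.1

lemma Par.C_ge : 1 ≤ π.C := π.hCB.2.1

lemma Par.K₁_nonneg : 0 ≤ π.K₁ := by
  have := π.C_ge
  have hw : (2 : ℝ) ^ (-(π.θ / 2)) < 1 :=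
    Real.rpow_lt_one_of_one_lt_of_neg (by norm_num) (by linarith [π.θ_pos])
  exact div_nonneg (by positivity) (by linarith)

lemma Par.σ_le (p : ℕ) : π.c.σ p ≤ π.θ / 2 := by
  rw [π.σ_eq]; split_ifs
  · exact π.σ₁_le
  · exact le_rfl

lemma card_two_log (s : Finset ℕ) (q : ℕ) (hq : 1 ≤ q) (hs : s ⊆ q.primeFactors) :
    (s.card : ℝ) ≤ 2 * Real.log q := by
  have h2 : (1 : ℝ) / 2 ≤ Real.log 2 := by linarith [Real.log_two_gt_d9]
  have h1 : ∑ _p ∈ s, Real.log 2 ≤ Real.log q := by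
    rw [Real.log_nat_eq_sum_factorization q, Finsupp.sum, Nat.support_factorization]
    refine le_trans (sum_le_sum fun p hp => ?_) (sum_le_sum_of_subset_of_nonneg hs fun p _ _ =>
      mul_nonneg (Nat.cast_nonneg _) (Real.log_natCast_nonneg p))
    have hpp := Nat.prime_of_mem_primeFactors (hs hp)
    have hv : (1 : ℝ) ≤ (q.factorization p : ℝ) := by
      exact_mod_cast hpp.factorization_pos_of_dvd (by omega) (Nat.dvd_of_mem_primeFactors (hs hp))
    exact (Real.log_le_log (by norm_num) (by exact_mod_cast hpp.two_le)).trans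
      (le_mul_of_one_le_left (Real.log_natCast_nonneg p) hv)
  rw [sum_const, nsmul_eq_mul] at h1
  have := mul_le_mul_of_nonneg_left h2 (Nat.cast_nonneg (α := ℝ) s.card)
  linarith

theorem near_cone {P₁ : ℕ} (hP : π.c.p₀ ≤ P₁) (hP1 : 1 ≤ P₁) {D q : ℕ} (hq : 1 ≤ q) (hqD : q ≤ D)
    {a : ℤ} (ha : IsCoprime a (q : ℤ)) {Λ : ℝ} (hlq : Real.log q ≤ Λ)
    (hbig : 2 * Λ * (π.K₁ * (P₁ : ℝ) ^ (-(π.θ / 2))) ≤ 1 / 6) :
    |(major (π.c.nd P₁) D q a).im| ≤ (major (π.c.nd P₁) D q a).re ∧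
      ‖major (π.c.nd P₁) D q a‖ ≤ 2 := by
  have hθ := π.θ_pos
  have hK := π.K₁_nonneg
  set b := (P₁ : ℝ) ^ (-(π.θ / 2)) with hb
  have hb0 : 0 ≤ b := by positivity
  set p₀ := π.c.p₀ with hp₀
  set eB : ℕ → ℝ := fun p => if p ≤ p₀ then 1 / (12 * ((p₀ : ℝ) + 1)) else π.K₁ * b with heB
  have hloc : ∀ p i : ℕ, p.Prime → 1 ≤ i → ∀ t : ℤ, ¬ (p : ℤ) ∣ t →
      ∃ R : ℝ, 0 ≤ R ∧ R ≤ 1 ∧ ‖locS (π.c.nd P₁) p i t - (R : ℂ)‖ ≤ R * eB p := by
    intro p i hp hi t ht
    have heB0 : 0 ≤ eB p := by simp only [heB]; split_ifs <;> positivity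
    by_cases hm : π.c.p₀ ≤ p ∧ p ≤ P₁
    · rw [locS_mid π.c P₁ hp hm hi t ht]
      by_cases h1 : i = 1
      · obtain ⟨R, hR0, hR1, hR⟩ := π.gw p hp hm.1 t ht
        refine ⟨R, hR0, hR1.trans π.ρ₁_le, ?_⟩
        rw [if_pos h1, hR, sub_self, norm_zero]; positivity
      · refine ⟨(1 / 2) ^ i, by positivity, pow_le_one₀ (by norm_num) (by norm_num), ?_⟩
        rw [if_neg h1, sub_self, norm_zero]; positivity
    · rw [locS_congr (nd_outside π.c P₁ hm)]
      obtain ⟨R, h0, h1, h2⟩ := loc_bound π.hCB π.hdeg π.hR _ π.c.σ_nonneg π.σ_le hp hi t ht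
      have hp1 : (1 : ℝ) < p := by exact_mod_cast hp.one_lt
      have hρ0 : 0 ≤ ρp (π.c.σ p) p := by unfold ρp; positivity
      have hρ1 : ρp (π.c.σ p) p ≤ 1 :=
        Real.rpow_le_one_of_one_le_of_nonpos hp1.le (by linarith [π.c.σ_nonneg p])
      refine ⟨R, h0, h1.trans hρ1, h2.trans (mul_le_mul_of_nonneg_left ?_ h0)⟩
      show (1 - ρp (π.c.σ p) p) * π.K₁ * (p : ℝ) ^ (-(π.θ / 2)) ≤ eB p
      simp only [heB]
      by_cases hsm : p < π.c.p₀
      · rw [if_pos hsm.le]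
        have h3 : 1 - ρp (π.c.σ p) p ≤ π.σ₁ * ((p : ℝ) ^ (π.θ / 2) / (π.θ / 2)) := by
          rw [π.σ_eq, if_pos hsm]
          have h4 : 1 - ρp π.σ₁ p ≤ π.σ₁ * Real.log p := by
            rw [ρp, Real.rpow_def_of_pos (by linarith)]
            have := Real.add_one_le_exp (Real.log p * -π.σ₁)
            linarith
          exact h4.trans (mul_le_mul_of_nonneg_left
            (Real.log_le_rpow_div (Nat.cast_nonneg p) (by linarith)) π.σ₁_pos.le)
        calc (1 - ρp (π.c.σ p) p) * π.K₁ * (p : ℝ) ^ (-(π.θ / 2))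
            ≤ π.σ₁ * ((p : ℝ) ^ (π.θ / 2) / (π.θ / 2)) * π.K₁ * (p : ℝ) ^ (-(π.θ / 2)) :=
              mul_le_mul_of_nonneg_right (mul_le_mul_of_nonneg_right h3 hK) (by positivity)
          _ = π.σ₁ * (2 * π.K₁ / π.θ) * ((p : ℝ) ^ (π.θ / 2) * (p : ℝ) ^ (-(π.θ / 2))) := by
              field_simp
          _ = π.σ₁ * (2 * π.K₁ / π.θ) := by
              rw [← Real.rpow_add (by linarith), add_neg_cancel, Real.rpow_zero, mul_one]
          _ ≤ _ := π.small
      · have hPp : P₁ < p := by omega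
        rw [if_neg (by omega)]
        refine mul_le_mul (mul_le_of_le_one_left hK (by linarith)) ?_ (by positivity) hK
        exact Real.rpow_le_rpow_of_nonpos (by exact_mod_cast hP1) (by exact_mod_cast hPp.le)
          (by linarith)
  obtain ⟨R, hR0, hR1, hRd⟩ := gsum_near (π.c.nd P₁) eB (fun _ => 1) (fun _ => zero_le_one) hloc
    q hq a ha
  rw [prod_const_one] at hR1
  rw [show major (π.c.nd P₁) D q a = gsum (π.c.nd P₁) q a by
    rw [major_eq _ hq, gsum, filter_true_of_mem (fun f hf => (Nat.divisor_le hf).trans hqD)]]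
  set F := gsum (π.c.nd P₁) q a
  have hsum : ∑ p ∈ q.primeFactors, eB p ≤ 1 / 3 := by
    rw [← sum_filter_add_sum_filter_not q.primeFactors (fun p => p ≤ p₀),
      sum_congr rfl (fun p hp => show eB p = 1 / (12 * ((p₀ : ℝ) + 1)) by
        simp only [heB, if_pos (mem_filter.mp hp).2]),
      sum_congr rfl (fun p hp => show eB p = π.K₁ * b by
        simp only [heB, if_neg (mem_filter.mp hp).2]),
      sum_const, nsmul_eq_mul, sum_const, nsmul_eq_mul]
    have h1 := card_small_le p₀ q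
    have h2 := (card_two_log (q.primeFactors.filter (fun p => ¬ p ≤ p₀)) q hq (filter_subset _ _)).trans
      (mul_le_mul_of_nonneg_left hlq zero_le_two)
    have t1 : ((q.primeFactors.filter (fun p => p ≤ p₀)).card : ℝ) * (1 / (12 * ((p₀ : ℝ) + 1)))
        ≤ 1 / 12 := by
      rw [mul_one_div, div_le_div_iff₀ (by positivity) (by norm_num)]
      linarith
    have t2 := mul_le_mul_of_nonneg_right h2 (show 0 ≤ π.K₁ * b by positivity)
    linarith
  have he : Real.exp (∑ p ∈ q.primeFactors, eB p) ≤ 3 / 2 := (Real.exp_le_exp.mpr hsum).trans exp_third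
  have hd : ‖F - (R : ℂ)‖ ≤ R / 2 := hRd.trans (by
    have := mul_le_mul_of_nonneg_left he hR0
    linarith)
  have h1 := (Complex.abs_im_le_norm (F - R)).trans hd
  have h2 := abs_le.mp ((Complex.abs_re_le_norm (F - R)).trans hd)
  simp only [Complex.sub_im, Complex.ofReal_im, sub_zero] at h1
  simp only [Complex.sub_re, Complex.ofReal_re] at h2
  refine ⟨by linarith, ?_⟩
  have := norm_le_norm_sub_add F (R : ℂ)
  rw [Complex.norm_real, Real.norm_eq_abs, abs_of_nonneg hR0] at this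
  linarith

/-- The bound at the finitely many small primes. -/
noncomputable def Par.Cs : ℝ :=
  π.C * (h.leadingCoeff.natAbs : ℝ) ^ π.θ + 1
    + 2 * (2 : ℝ) ^ (-(π.σ₁ / 2)) / (1 - (2 : ℝ) ^ (-(π.σ₁ / 2)))

theorem near_absSum {P₁ : ℕ} (hP : π.c.p₀ ≤ P₁) (hP1 : 2 ≤ P₁)
    (hs : π.τ / Real.log P₁ ≤ min (π.σ₁ / 2) (π.θ / 4))
    (hY1 : π.C * (h.leadingCoeff.natAbs : ℝ) ^ π.θ * (P₁ : ℝ) ^ (-π.θ) ≤ 1 / 2)
    (hY2 : (P₁ : ℝ) ^ (-(π.θ / 4)) ≤ 1 / 8) (q : ℕ) (hq : 1 ≤ q) (a : ℤ)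
    (ha : IsCoprime a (q : ℤ)) :
    absSum (π.c.nd P₁) (π.τ / Real.log P₁) q a ≤ π.Cs ^ π.c.p₀ := by
  have hθ := π.θ_pos
  have hC := π.C_ge
  set s := π.τ / Real.log P₁ with hsdef
  have hlP : 0 < Real.log P₁ := Real.log_pos (by exact_mod_cast hP1)
  have hs0 : 0 ≤ s := div_nonneg π.τ_pos.le hlP.le
  set l : ℝ := (h.leadingCoeff.natAbs : ℝ) with hl
  have hx1 : (2 : ℝ) ^ (-(π.σ₁ / 2)) < 1 :=
    Real.rpow_lt_one_of_one_lt_of_neg (by norm_num) (by linarith [π.σ₁_pos])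
  have hCs1 : 1 ≤ π.Cs := by
    rw [Par.Cs]
    have h1 : 0 ≤ π.C * l ^ π.θ := by positivity
    have h2 : 0 ≤ 2 * (2 : ℝ) ^ (-(π.σ₁ / 2)) / (1 - (2 : ℝ) ^ (-(π.σ₁ / 2))) :=
      div_nonneg (by positivity) (by linarith)
    rw [← hl]
    linarith
  set ZB : ℕ → ℝ := fun p => if p < π.c.p₀ then π.Cs else 1 with hZB
  refine (absSum_bound _ s ZB (fun p => by simp only [hZB]; split_ifs <;> linarith) ?_ q hq a ha).trans ?_
  · intro p i hp hi t ht
    have hp1 : (1 : ℝ) < p := by exact_mod_cast hp.one_lt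
    have hCl : π.C * (l / (p : ℝ) ^ i) ^ π.θ ≤ π.C * l ^ π.θ * (p : ℝ) ^ (-π.θ) := by
      rw [mul_assoc]
      refine mul_le_mul_of_nonneg_left ?_ (by linarith)
      rw [Real.div_rpow (by positivity) (by positivity), div_eq_mul_inv,
        ← Real.rpow_neg (by positivity)]
      exact mul_le_mul_of_nonneg_left (Real.rpow_le_rpow_of_nonpos (by linarith)
        (le_self_pow₀ hp1.le (by omega)) (by linarith)) (by positivity)
    simp only [hZB]
    by_cases hm : π.c.p₀ ≤ p ∧ p ≤ P₁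
    · rw [if_neg (by omega)]
      have hco : IsCoprime t ((p ^ i : ℕ) : ℤ) := by
        push_cast
        exact (((Nat.prime_iff_prime_int.mp hp).coprime_iff_not_dvd.mpr ht).symm).pow_right
      have hG0 : ‖G0 h p i t‖ ≤ π.C * l ^ π.θ * (p : ℝ) ^ (-π.θ) := by
        have := term_weyl (π.c.nd P₁) π.hCB π.hk π.hdeg (Nat.one_le_pow i _ hp.pos) (one_dvd _) hco
        refine le_trans ?_ hCl
        simpa [term, wt_one, G0, hl] using this
      have hb := π.beta p hp hm.1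
      rw [← hl] at hb
      have hpe : (p : ℝ) ^ s ≤ Real.exp π.τ := by
        rw [Real.rpow_def_of_pos (by linarith)]
        refine Real.exp_le_exp.mpr ?_
        rw [hsdef, mul_div_assoc', div_le_iff₀ hlP, mul_comm]
        exact mul_le_mul_of_nonneg_left (Real.log_le_log (by linarith) (by exact_mod_cast hm.2))
          π.τ_pos.le
      refine absSum_mid π.c P₁ hp hm hi t ht s _ π.ρ₁ (Real.one_le_rpow hp1.le hs0) ?_ hG0
        (hb.trans (min_le_left _ _)) (fun _ => ?_) ?_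
      · exact hpe.trans ((Real.exp_le_exp.mpr π.τ_le).trans exp_quarter)
      · obtain ⟨R, hR0, hR1, hR⟩ := π.gw p hp hm.1 t ht
        rw [hR, Complex.norm_real, Real.norm_eq_abs, abs_of_nonneg hR0]
        exact hR1
      · have hρ0 : 0 ≤ π.ρ₁ := by
          obtain ⟨R, hR0, hR1, -⟩ := π.gw p hp hm.1 t ht
          linarith
        have h1 := mul_le_mul_of_nonneg_left hpe hρ0
        have h2 := hb.trans (min_le_right _ _)
        have h3 := π.slack
        linarith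
    · rw [absSum_congr hp (nd_outside π.c P₁ hm)]
      by_cases hsm : p < π.c.p₀
      · rw [if_pos hsm]
        refine (absSum_local π.hCB π.hk π.hdeg π.hR _ π.c.σ_nonneg hp s ((2 : ℝ) ^ (-(π.σ₁ / 2))) ?_ hx1 t ht).trans ?_
        · rw [ρp, π.σ_eq, if_pos hsm, ← Real.rpow_add (by linarith)]
          refine le_trans (Real.rpow_le_rpow_of_exponent_le hp1.le
            (show -π.σ₁ + s ≤ -(π.σ₁ / 2) by linarith [hs.trans (min_le_left _ _)]))
            (Real.rpow_le_rpow_of_nonpos (by norm_num) (by exact_mod_cast hp.two_le)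
              (by linarith [π.σ₁_pos]))
        · rw [← hl]
          have h3 : π.C * l ^ π.θ * (p : ℝ) ^ (-π.θ) ≤ π.C * l ^ π.θ :=
            mul_le_of_le_one_right (by positivity)
              (Real.rpow_le_one_of_one_le_of_nonpos hp1.le (by linarith))
          rw [Par.Cs, ← hl]
          linarith
      · rw [if_neg hsm]
        have hpY' : (P₁ : ℝ) ≤ p := by exact_mod_cast (show P₁ ≤ p by omega)
        have hP0 : (0 : ℝ) < P₁ := by exact_mod_cast (show 0 < P₁ by omega)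
        have hxe : ρp (π.c.σ p) p * (p : ℝ) ^ s ≤ 1 / 8 := by
          rw [ρp, π.σ_eq, if_neg hsm, ← Real.rpow_add (by linarith)]
          refine le_trans (le_trans (Real.rpow_le_rpow_of_exponent_le hp1.le
            (show -(π.θ / 2) + s ≤ -(π.θ / 4) by linarith [hs.trans (min_le_right _ _)]))
            (Real.rpow_le_rpow_of_nonpos hP0 hpY' (by linarith))) hY2
        refine (absSum_local π.hCB π.hk π.hdeg π.hR _ π.c.σ_nonneg hp s (1 / 8) hxe (by norm_num) t ht).trans ?_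
        have h3 : π.C * l ^ π.θ * (p : ℝ) ^ (-π.θ) ≤ 1 / 2 :=
          le_trans (mul_le_mul_of_nonneg_left
            (Real.rpow_le_rpow_of_nonpos hP0 hpY' (by linarith)) (by positivity)) hY1
        rw [← hl]
        linarith [show (2 : ℝ) * (1 / 8) / (1 - 1 / 8) = 2 / 7 by norm_num]
  · rw [← prod_filter_mul_prod_filter_not q.primeFactors (fun p => p < π.c.p₀),
      prod_congr rfl (fun p hp => show ZB p = π.Cs by simp only [hZB, if_pos (mem_filter.mp hp).2]),
      prod_const, prod_eq_one (fun p hp => show ZB p = 1 by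
        simp only [hZB, if_neg (mem_filter.mp hp).2]), mul_one]
    refine pow_le_pow_right₀ hCs1 ((card_le_card (t := range π.c.p₀) fun p hp =>
      mem_range.mpr (mem_filter.mp hp).2).trans (card_range _).le)

theorem near_tail {L : Dens h} {θ C : ℝ} (hCB : CB k θ C) (hk : 1 ≤ k) (hdeg : h.natDegree = k)
    {s K : ℝ} (hs : 0 ≤ s) {D q : ℕ} (hD : 1 ≤ D) (hDq : D ≤ q) {a : ℤ} (ha : IsCoprime a (q : ℤ))
    (habs : absSum L s q a ≤ K) :
    ‖major L D q a‖ ≤ C * (h.leadingCoeff.natAbs : ℝ) ^ θ * (D : ℝ) ^ (-(θ / 2))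
      + Real.exp (-(θ / (2 * (2 + k * θ)) * s * Real.log D)) * K := by
  obtain ⟨hθ, hC, -⟩ := id hCB
  set l : ℝ := (h.leadingCoeff.natAbs : ℝ) with hl
  have hl0 : 0 ≤ l := by positivity
  have hq : 1 ≤ q := le_trans hD hDq
  have hDR : (1 : ℝ) ≤ D := by exact_mod_cast hD
  set κ := θ / (2 * (2 + k * θ)) with hκ
  set W := (D : ℝ) ^ κ with hW
  have hW1 : 1 ≤ W := Real.one_le_rpow hDR (by positivity)
  rw [major_eq L hq]
  refine (norm_sum_le _ _).trans ?_
  rw [← sum_filter_add_sum_filter_not (q.divisors.filter (fun f => f ≤ D))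
    (fun f : ℕ => (f : ℝ) ≤ W)]
  refine add_le_add ?_ ?_
  · set S := (q.divisors.filter (fun f => f ≤ D)).filter (fun f : ℕ => (f : ℝ) ≤ W) with hS
    have hcard : (S.card : ℝ) ≤ W := by
      have h1 : S ⊆ Icc 1 ⌊W⌋₊ := fun f hf => by
        obtain ⟨h1, h2⟩ := mem_filter.mp hf
        exact mem_Icc.mpr ⟨Nat.pos_of_mem_divisors (mem_filter.mp h1).1, Nat.le_floor h2⟩
      have h2 := card_le_card h1
      rw [Nat.card_Icc, Nat.add_sub_cancel] at h2
      exact le_trans (by exact_mod_cast h2) (Nat.floor_le (by linarith))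
    refine (sum_le_card_nsmul _ _ (W * (C * ((l * W ^ k) / D) ^ θ)) fun f hf => ?_).trans ?_
    · obtain ⟨h1, h2⟩ := mem_filter.mp hf
      have hfq := Nat.dvd_of_mem_divisors (mem_filter.mp h1).1
      refine (term_weyl L hCB hk hdeg hq hfq ha).trans ?_
      refine mul_le_mul h2 (mul_le_mul_of_nonneg_left ?_ (by linarith)) (by positivity) (by linarith)
      refine Real.rpow_le_rpow (by positivity) ?_ hθ.le
      push_cast
      refine div_le_div₀ (by positivity) (mul_le_mul_of_nonneg_left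
        (pow_le_pow_left₀ (Nat.cast_nonneg f) h2 k) hl0) (by linarith) (by exact_mod_cast hDq)
    rw [nsmul_eq_mul]
    refine (mul_le_mul_of_nonneg_right hcard (by positivity)).trans (le_of_eq ?_)
    have e1 : W * W * (W ^ k) ^ θ = (D : ℝ) ^ (θ / 2) := by
      rw [hW, ← Real.rpow_natCast ((D : ℝ) ^ κ) k, ← Real.rpow_mul (by linarith),
        ← Real.rpow_mul (by linarith), ← Real.rpow_add (by linarith), ← Real.rpow_add (by linarith)]
      congr 1
      rw [hκ]; field_simp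
      ring
    rw [Real.div_rpow (by positivity) (by linarith), Real.mul_rpow hl0 (by positivity),
      Real.rpow_neg (by linarith)]
    have e2 : (D : ℝ) ^ θ = (D : ℝ) ^ (θ / 2) * (D : ℝ) ^ (θ / 2) := by
      rw [← Real.rpow_add (by linarith)]; congr 1; ring
    rw [show W * (W * (C * (l ^ θ * (W ^ k) ^ θ / (D : ℝ) ^ θ)))
      = (W * W * (W ^ k) ^ θ) * C * l ^ θ / (D : ℝ) ^ θ by ring, e1, e2]
    field_simp
  · refine le_trans (sum_le_sum (g := fun f => W ^ (-s) * (‖term L q f a‖ * (f : ℝ) ^ s))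
      fun f hf => ?_) ?_
    · have h2 : W ≤ (f : ℝ) := (not_le.mp (mem_filter.mp hf).2).le
      rw [← mul_assoc, mul_comm (W ^ (-s)), mul_assoc]
      refine le_mul_of_one_le_right (norm_nonneg _) ?_
      rw [Real.rpow_neg (by linarith), ← div_eq_inv_mul, le_div_iff₀ (by positivity), one_mul]
      exact Real.rpow_le_rpow (by linarith) h2 hs
    rw [← mul_sum]
    refine mul_le_mul ?_ ((sum_le_sum_of_subset_of_nonneg ((filter_subset _ _).trans
      (filter_subset _ _)) fun _ _ _ => by positivity).trans habs)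
      (sum_nonneg fun _ _ => by positivity) (Real.exp_pos _).le
    rw [hW, ← Real.rpow_mul (by linarith), Real.rpow_def_of_pos (by linarith)]
    refine le_of_eq (congrArg Real.exp ?_)
    ring

/-- The decay rate. -/
noncomputable def Par.rate : ℝ :=
  π.θ / (2 * (2 + k * π.θ)) * π.τ * π.θ / 8

lemma Par.rate_pos : 0 < π.rate := by
  have := π.θ_pos
  have := π.τ_pos
  unfold Par.rate; positivity

theorem near_good (B : ℕ) (C₁ : ℝ) (hC₁ : 1 ≤ C₁) :
    ∀ᶠ D : ℕ in atTop, ∃ L : Dens h, ∀ q : ℕ, 1 ≤ q → (q : ℝ) ≤ C₁ * (D : ℝ) ^ B →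
      ∀ a : ℤ, IsCoprime a (q : ℤ) →
        (|(major L D q a).im| ≤ (major L D q a).re ∧ ‖major L D q a‖ ≤ 2) ∨
          ‖major L D q a‖ ≤
            Real.exp (-(π.rate / 2 * (Real.log D / Real.log (Real.log D)))) := by
  have hθ := π.θ_pos
  have hr := π.rate_pos
  set l : ℝ := (h.leadingCoeff.natAbs : ℝ) with hl
  set Kt := π.C * l ^ π.θ + π.Cs ^ π.c.p₀ with hKt
  have hlog : Tendsto (fun D : ℕ => Real.log (D : ℝ)) atTop atTop :=
    Real.tendsto_log_atTop.comp tendsto_natCast_atTop_atTop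
  have hP : Tendsto (fun D : ℕ => ((⌈Real.log (D : ℝ) ^ (4 / π.θ)⌉₊ : ℕ) : ℝ)) atTop atTop :=
    tendsto_atTop_mono (fun D => Nat.le_ceil _) ((tendsto_rpow_atTop (by positivity)).comp hlog)
  have hneg : ∀ r : ℝ, 0 < r → ∀ ε : ℝ, 0 < ε → ∀ᶠ D : ℕ in atTop,
      ((⌈Real.log (D : ℝ) ^ (4 / π.θ)⌉₊ : ℕ) : ℝ) ^ (-r) ≤ ε := fun r hr ε hε =>
    (((tendsto_rpow_neg_atTop hr).comp hP).eventually (eventually_le_nhds hε))
  have hll : Tendsto (fun D : ℕ => Real.log (Real.log (D : ℝ))) atTop atTop :=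
    Real.tendsto_log_atTop.comp hlog
  have hsmall : ∀ ε : ℝ, 0 < ε → ∀ᶠ D : ℕ in atTop,
      Real.log (Real.log (D : ℝ)) ≤ ε * Real.log (D : ℝ) := fun ε hε => by
    filter_upwards [hlog.eventually ((Real.isLittleO_log_id_atTop).bound hε),
      hlog.eventually (eventually_ge_atTop 0)] with D h1 h2
    rw [Real.norm_eq_abs, Real.norm_eq_abs, id, abs_of_nonneg h2] at h1
    exact (le_abs_self _).trans h1
  set ε₀ := π.rate / (2 * (|Real.log (Kt + 1)| + 1)) with hε₀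
  filter_upwards [hP.eventually (eventually_ge_atTop ((π.c.p₀ : ℝ) + 3)),
    hneg π.θ hθ (1 / (2 * (π.C * l ^ π.θ + 1)))
      (by have := π.C_ge; positivity),
    hneg (π.θ / 4) (by linarith) (1 / 8) (by norm_num),
    (Real.tendsto_log_atTop.comp hP).eventually
      (eventually_ge_atTop (π.τ / min (π.σ₁ / 2) (π.θ / 4))),
    hlog.eventually (eventually_ge_atTop (24 * ((B : ℝ) + 1) * π.K₁ + 1)),
    hlog.eventually (eventually_ge_atTop (Real.log C₁ + 1)),
    hll.eventually (eventually_ge_atTop (2 * π.rate / π.θ + 1)),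
    hsmall ε₀ (div_pos hr (by positivity)), eventually_ge_atTop 1]
    with D hP0 hY1 hY2 hlP hΛK hΛC hl1 hls hD
  simp only [Function.comp] at hlP
  set Λ := Real.log (D : ℝ) with hΛ
  set P := ⌈Λ ^ (4 / π.θ)⌉₊ with hPdef
  have hPp : π.c.p₀ ≤ P := by
    have : (π.c.p₀ : ℝ) ≤ P := by linarith
    exact_mod_cast this
  have hP2 : 2 ≤ P := by
    have : (2 : ℝ) ≤ P := by linarith [Nat.cast_nonneg (α := ℝ) π.c.p₀]
    exact_mod_cast this
  refine ⟨π.c.nd P, fun q hq hqb a ha => ?_⟩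
  have hΛ1 : 1 ≤ Λ := by
    have := π.K₁_nonneg
    have : 0 ≤ 24 * ((B : ℝ) + 1) * π.K₁ := by positivity
    linarith
  have hDR : (1 : ℝ) ≤ D := by exact_mod_cast hD
  by_cases hqD : q ≤ D
  · left
    refine near_cone π hPp (by omega) hq hqD ha (Λ := ((B : ℝ) + 1) * Λ) ?_ ?_
    · have hq1 : (1 : ℝ) ≤ q := by exact_mod_cast hq
      refine (Real.log_le_log (by linarith) hqb).trans ?_
      rw [Real.log_mul (by linarith) (by positivity), Real.log_pow, ← hΛ]
      linarith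
    · have hb : (P : ℝ) ^ (-(π.θ / 2)) ≤ 1 / (Λ * Λ) := by
        refine (Real.rpow_le_rpow_of_nonpos (by positivity) (Nat.le_ceil _) (by linarith)).trans
          (le_of_eq ?_)
        rw [← Real.rpow_mul (by linarith), show 4 / π.θ * -(π.θ / 2) = -((2 : ℕ) : ℝ) by
          field_simp; ring, Real.rpow_neg (by linarith), Real.rpow_natCast, one_div, pow_two]
      have hK := π.K₁_nonneg
      calc 2 * (((B : ℝ) + 1) * Λ) * (π.K₁ * (P : ℝ) ^ (-(π.θ / 2)))
          ≤ 2 * (((B : ℝ) + 1) * Λ) * (π.K₁ * (1 / (Λ * Λ))) :=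
            mul_le_mul_of_nonneg_left (mul_le_mul_of_nonneg_left hb hK) (by positivity)
        _ = 2 * ((B : ℝ) + 1) * π.K₁ / Λ := by field_simp
        _ ≤ 1 / 6 := by rw [div_le_iff₀ (by linarith)]; linarith
  right
  have hlPpos : 0 < Real.log (P : ℝ) := Real.log_pos (by exact_mod_cast hP2)
  have hs : π.τ / Real.log P ≤ min (π.σ₁ / 2) (π.θ / 4) := by
    rw [div_le_iff₀ hlPpos]
    rw [div_le_iff₀ (lt_min (by linarith [π.σ₁_pos]) (by linarith))] at hlP
    linarith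
  have habs := near_absSum π hPp hP2 hs (by
    refine (mul_le_mul_of_nonneg_left hY1 (by have := π.C_ge; positivity)).trans ?_
    have h0 : 0 ≤ π.C * l ^ π.θ := by have := π.C_ge; positivity
    rw [← hl, mul_one_div, div_le_div_iff₀ (by positivity) (by norm_num)]
    linarith) hY2 q hq a ha
  refine (near_tail π.hCB π.hk π.hdeg (div_nonneg π.τ_pos.le hlPpos.le) hD (by omega) ha habs).trans ?_
  set u := Λ / Real.log Λ with hu
  have hl0 : 0 < Real.log Λ := by
    have : 0 ≤ 2 * π.rate / π.θ := by positivity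
    linarith
  have hlogP : Real.log (P : ℝ) ≤ 8 / π.θ * Real.log Λ := by
    have h1 : (P : ℝ) ≤ (Λ ^ (4 / π.θ)) ^ 2 := by
      have h2 := (Nat.ceil_lt_add_one (by positivity : 0 ≤ Λ ^ (4 / π.θ))).le
      rw [← hPdef] at h2
      have h3 : (3 : ℝ) ≤ P := by linarith [Nat.cast_nonneg (α := ℝ) π.c.p₀]
      nlinarith
    refine (Real.log_le_log (by positivity) h1).trans (le_of_eq ?_)
    rw [Real.log_pow, Real.log_rpow (by linarith)]; push_cast; ring
  have hW : Real.exp (-(π.θ / (2 * (2 + k * π.θ)) * (π.τ / Real.log P) * Λ)) ≤ Real.exp (-(π.rate * u)) := by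
    refine Real.exp_le_exp.mpr (neg_le_neg ?_)
    have h1 : π.θ / (8 * Real.log Λ) ≤ 1 / Real.log P := by
      rw [div_le_div_iff₀ (by positivity) hlPpos]
      have := mul_le_mul_of_nonneg_left hlogP hθ.le
      rw [show π.θ * (8 / π.θ * Real.log Λ) = 8 * Real.log Λ by field_simp] at this
      linarith
    calc π.rate * u = π.θ / (2 * (2 + k * π.θ)) * π.τ * Λ * (π.θ / (8 * Real.log Λ)) := by
          rw [Par.rate, hu]; field_simp
      _ ≤ π.θ / (2 * (2 + k * π.θ)) * π.τ * Λ * (1 / Real.log P) := by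
          refine mul_le_mul_of_nonneg_left h1 ?_
          have := π.τ_pos
          positivity
      _ = _ := by ring
  have hfirst : (D : ℝ) ^ (-(π.θ / 2)) ≤ Real.exp (-(π.rate * u)) := by
    rw [Real.rpow_def_of_pos (by linarith), ← hΛ]
    refine Real.exp_le_exp.mpr ?_
    have h1 : π.rate / Real.log Λ ≤ π.θ / 2 := by
      rw [div_le_iff₀ hl0]
      have := mul_le_mul_of_nonneg_left (show 2 * π.rate / π.θ ≤ Real.log Λ by linarith) hθ.le
      rw [show π.θ * (2 * π.rate / π.θ) = 2 * π.rate by field_simp] at this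
      linarith
    have := mul_le_mul_of_nonneg_right h1 (show 0 ≤ Λ by linarith)
    rw [hu, mul_div_assoc', ← div_mul_eq_mul_div]
    linarith
  have hC0 : 0 ≤ π.C * l ^ π.θ := by have := π.C_ge; positivity
  have hCs0 : 0 ≤ π.Cs ^ π.c.p₀ := by
    have hx1 : (2 : ℝ) ^ (-(π.σ₁ / 2)) < 1 :=
      Real.rpow_lt_one_of_one_lt_of_neg (by norm_num) (by linarith [π.σ₁_pos])
    refine pow_nonneg ?_ _
    rw [Par.Cs]
    exact add_nonneg (by rw [← hl]; linarith) (div_nonneg (by positivity) (by linarith))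
  have hKexp : Kt ≤ Real.exp (π.rate / 2 * u) := by
    have h1 : Kt + 1 ≤ Real.exp (|Real.log (Kt + 1)| + 1) := by
      refine le_trans (le_of_eq (Real.exp_log (show 0 < Kt + 1 by linarith)).symm) ?_
      exact Real.exp_le_exp.mpr (by linarith [le_abs_self (Real.log (Kt + 1))])
    have h2 : |Real.log (Kt + 1)| + 1 ≤ π.rate / 2 * u := by
      rw [hu, mul_div_assoc', le_div_iff₀ hl0]
      refine (mul_le_mul_of_nonneg_left hls (by positivity)).trans (le_of_eq ?_)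
      rw [hε₀]; field_simp
    linarith [Real.exp_le_exp.mpr h2]
  calc π.C * l ^ π.θ * (D : ℝ) ^ (-(π.θ / 2))
      + Real.exp (-(π.θ / (2 * (2 + k * π.θ)) * (π.τ / Real.log P) * Λ)) * π.Cs ^ π.c.p₀
      ≤ π.C * l ^ π.θ * Real.exp (-(π.rate * u)) + Real.exp (-(π.rate * u)) * π.Cs ^ π.c.p₀ :=
        add_le_add (mul_le_mul_of_nonneg_left hfirst hC0) (mul_le_mul_of_nonneg_right hW hCs0)
    _ = Kt * Real.exp (-(π.rate * u)) := by rw [hKt]; ring
    _ ≤ Real.exp (π.rate / 2 * u) * Real.exp (-(π.rate * u)) :=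
        mul_le_mul_of_nonneg_right hKexp (Real.exp_pos _).le
    _ = _ := by rw [← Real.exp_add]; congr 1; ring

end Vale.Agent.P042.Gen.Near
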