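import Vale.Agent.P042.SqMain
import Vale.Agent.P042.Quad

namespace Vale.Agent.P042.Gen.Sq

open Finset Polynomial

lemma sqrt_mul_log_le (e : ℝ) (he : 0 < e) : ∃ K : ℝ, ∀ ℓ : ℝ, 1 ≤ ℓ →
    Real.sqrt (ℓ * Real.log ℓ) ≤ e * ℓ + K := by
  refine ⟨|Real.log (e ^ 2)| / (2 * e), fun ℓ hℓ => ?_⟩
  have hl0 : 0 ≤ Real.log ℓ := Real.log_nonneg hℓ
  set L := Real.log ℓ
  set s := Real.sqrt (ℓ * L) with hs
  have hsq : s ^ 2 = ℓ * L := Real.sq_sqrt (mul_nonneg (by linarith) hl0)
  have h1 : L ≤ e ^ 2 * ℓ + |Real.log (e ^ 2)| := by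
    have h := Real.log_le_sub_one_of_pos (show 0 < e ^ 2 * ℓ by positivity)
    rw [Real.log_mul (by positivity) (by linarith)] at h
    linarith [neg_abs_le (Real.log (e ^ 2))]
  have h2 : 2 * e * s ≤ e ^ 2 * ℓ + L := by
    have hℓ0 : 0 < ℓ := by linarith
    have h3 := two_mul_le_add_sq (e * ℓ) s
    have h4 : 2 * (e * ℓ) * s ≤ ℓ * (e ^ 2 * ℓ + L) := by rw [hsq] at h3; linarith
    refine le_of_mul_le_mul_left ?_ hℓ0
    linarith
  have h5 : 2 * e * s ≤ 2 * e * (e * ℓ + |Real.log (e ^ 2)| / (2 * e)) := by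
    have e1 : 2 * e * (|Real.log (e ^ 2)| / (2 * e)) = |Real.log (e ^ 2)| := by field_simp
    have e2 : 0 ≤ e ^ 2 * ℓ := by positivity
    linarith
  exact le_of_mul_le_mul_left h5 (by positivity)

lemma one_le_log {N : ℕ} (hN : 3 ≤ N) : 1 ≤ Real.log (N : ℝ) := by
  rw [Real.le_log_iff_exp_le (by positivity)]
  refine le_trans (le_of_lt (lt_trans Real.exp_one_lt_d9 (by norm_num))) (show (3 : ℝ) ≤ N by
    exact_mod_cast hN)

theorem quad_bound : ∃ c : ℝ, 0 < c ∧ ∀ h : ℤ[X], h.natDegree = 2 → 0 < h.leadingCoeff →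
    (∀ q : ℕ, 1 ≤ q → ∃ t : ℤ, (q : ℤ) ∣ h.eval t) →
    ∃ C : ℝ, ∀ N : ℕ, 3 ≤ N → ∀ A : Finset ℕ, A ⊆ Icc 1 N →
      (∀ x ∈ A, ∀ y ∈ A, ∀ n : ℕ, 1 ≤ n → (x : ℤ) - y = h.eval (n : ℤ) → x = y) →
      (A.card : ℝ) ≤ C * N * Real.exp (-(c * Real.sqrt (Real.log N * Real.log (Real.log N)))) := by
  obtain ⟨c, hc, hsq⟩ := square_bound
  refine ⟨c, hc, fun h hdeg hl hint => ?_⟩
  by_cases hD : h.coeff 1 ^ 2 - 4 * h.coeff 2 * h.coeff 0 = 0
  swap
  · obtain ⟨c', hc', C, hC⟩ := power_saving_quad h hdeg hl hint hD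
    obtain ⟨K, hK⟩ := sqrt_mul_log_le (c' / c) (by positivity)
    refine ⟨|C| * Real.exp (c * K), fun N hN A hA hav => ?_⟩
    have hNR : (3 : ℝ) ≤ N := by exact_mod_cast hN
    refine (hC N A hA hav).trans ?_
    rw [sub_eq_add_neg, Real.rpow_add (by linarith), Real.rpow_one,
      Real.rpow_def_of_pos (by linarith)]
    calc C * ((N : ℝ) * Real.exp (Real.log N * -c'))
        ≤ |C| * ((N : ℝ) * Real.exp (Real.log N * -c')) :=
          mul_le_mul_of_nonneg_right (le_abs_self C) (by positivity)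
      _ ≤ |C| * ((N : ℝ) * (Real.exp (c * K) *
            Real.exp (-(c * Real.sqrt (Real.log N * Real.log (Real.log N)))))) := by
          refine mul_le_mul_of_nonneg_left (mul_le_mul_of_nonneg_left ?_ (by linarith)) (abs_nonneg C)
          rw [← Real.exp_add]
          refine Real.exp_le_exp.mpr ?_
          have h1 := mul_le_mul_of_nonneg_left (hK _ (one_le_log hN)) hc.le
          have h2 : c * (c' / c * Real.log N) = c' * Real.log N := by field_simp
          linarith
      _ = _ := by ring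
  set a := h.coeff 2 with ha
  set b := h.coeff 1 with hb
  have ha0 : 0 < a := by rwa [ha, ← hdeg, ← leadingCoeff]
  have hev : ∀ t : ℤ, h.eval t = a * t ^ 2 + b * t + h.coeff 0 := fun t => by
    rw [eval_eq_sum_range, hdeg]
    simp [sum_range_succ, ha, hb]; ring
  obtain ⟨r, hr⟩ : 2 * a ∣ b := by
    obtain ⟨t, ht⟩ := hint a.toNat (by omega)
    rw [Int.toNat_of_nonneg ha0.le] at ht
    have h1 : (2 * a) ^ 2 ∣ (2 * a * t + b) ^ 2 := by
      obtain ⟨k, hk⟩ := ht
      refine ⟨k, ?_⟩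
      rw [hev] at hk
      linear_combination (4 * a) * hk + hD
    have h2 := (Int.pow_dvd_pow_iff two_ne_zero).mp h1
    exact (dvd_add_right (dvd_mul_right _ _)).mp h2
  have hsquare : ∀ t : ℤ, h.eval t = a * (t + r) ^ 2 := fun t => by
    rw [hev]
    refine mul_left_cancel₀ (show 4 * a ≠ 0 by omega) ?_
    rw [hr] at hD ⊢
    linear_combination -hD
  set d := a.toNat with hd
  have hd1 : 1 ≤ d := by omega
  have hda : (d : ℤ) = a := Int.toNat_of_nonneg ha0.le
  obtain ⟨C, hC⟩ := hsq (r.natAbs + 1)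
  refine ⟨(d : ℝ) * (2 * |C|), fun N hN A hA hav => ?_⟩
  have hNR : (3 : ℝ) ≤ N := by exact_mod_cast hN
  set T := fun M : ℕ => Real.exp (-(c * Real.sqrt (Real.log M * Real.log (Real.log M)))) with hT
  have hclass : ∀ s ∈ range d, (((A.filter (fun x => x % d = s)).card : ℕ) : ℝ) ≤ 2 * |C| * N * T N := by
    intro s _
    set B := (A.filter (fun x => x % d = s)).image (fun x => x / d + 1) with hB
    have hcard : B.card = (A.filter (fun x => x % d = s)).card := by
      refine card_image_of_injOn fun x hx y hy hxy => ?_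
      have h1 := (mem_filter.mp hx).2
      have h2 := (mem_filter.mp hy).2
      have h3 := Nat.div_add_mod x d
      have h4 := Nat.div_add_mod y d
      simp only [Nat.add_right_cancel_iff] at hxy
      rw [hxy] at h3; omega
    have hBsub : B ⊆ Icc 1 (N + 1) := fun z hz => by
      obtain ⟨x, hx, rfl⟩ := mem_image.mp hz
      have hxN := (mem_Icc.mp (hA (mem_filter.mp hx).1)).2
      exact mem_Icc.mpr ⟨Nat.le_add_left 1 _,
        Nat.add_le_add_right ((Nat.div_le_self x d).trans hxN) 1⟩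
    have h1 := hC (N + 1) (by omega) B hBsub fun u hu v hv n hn he => by
      obtain ⟨x, hx, rfl⟩ := mem_image.mp hu
      obtain ⟨y, hy, rfl⟩ := mem_image.mp hv
      obtain ⟨hxA, hxs⟩ := mem_filter.mp hx
      obtain ⟨hyA, hys⟩ := mem_filter.mp hy
      have hm : 1 ≤ ((n : ℤ) - r).toNat := by omega
      have hxy : x = y := by
        refine hav x hxA y hyA _ hm ?_
        rw [hsquare, Int.toNat_of_nonneg (by omega), sub_add_cancel, ← he, ← hda]
        have h3 : ((d : ℤ) * (x / d : ℕ) + (x % d : ℕ)) = x := by exact_mod_cast Nat.div_add_mod x d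
        have h4 : ((d : ℤ) * (y / d : ℕ) + (y % d : ℕ)) = y := by exact_mod_cast Nat.div_add_mod y d
        rw [hxs] at h3
        rw [hys] at h4
        push_cast at h3 h4 ⊢
        linear_combination h4 - h3
      rw [hxy]
    rw [← hcard]
    refine h1.trans ?_
    have hmono : T (N + 1) ≤ T N := by
      have h2 := one_le_log hN
      have h3 : Real.log (N : ℝ) ≤ Real.log ((N + 1 : ℕ) : ℝ) :=
        Real.log_le_log (by linarith) (by exact_mod_cast Nat.le_succ N)
      refine Real.exp_le_exp.mpr (neg_le_neg (mul_le_mul_of_nonneg_left (Real.sqrt_le_sqrt ?_) hc.le))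
      exact mul_le_mul h3 (Real.log_le_log (by linarith) h3) (Real.log_nonneg h2) (by linarith)
    calc C * ((N + 1 : ℕ) : ℝ) * T (N + 1)
        ≤ |C| * (2 * N) * T N := mul_le_mul (mul_le_mul (le_abs_self C) (by push_cast; linarith)
          (Nat.cast_nonneg _) (abs_nonneg C)) hmono (Real.exp_pos _).le (by positivity)
      _ = _ := by ring
  have h2 : A.card = ∑ s ∈ range d, (A.filter (fun x => x % d = s)).card :=
    card_eq_sum_card_fiberwise fun x _ => mem_range.mpr (Nat.mod_lt x (by omega))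
  rw [h2, Nat.cast_sum]
  refine (sum_le_sum hclass).trans (le_of_eq ?_)
  rw [sum_const, card_range, nsmul_eq_mul, hT]
  ring

end Vale.Agent.P042.Gen.Sq
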