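import Vale.Agent.P042.SqMix
import Vale.Agent.P042.GenMix

namespace Vale.Agent.P042.Gen.Sq

open Finset Polynomial Filter

lemma log_small (r e : ℝ) (hr : 0 < r) (he : 0 < e) :
    ∀ᶠ x : ℝ in atTop, Real.log x ≤ e * x ^ r := by
  filter_upwards [(isLittleO_log_rpow_atTop hr).bound he, eventually_ge_atTop 0] with x h hx
  rw [Real.norm_eq_abs, Real.norm_eq_abs, abs_of_nonneg (Real.rpow_nonneg hx r)] at h
  exact (le_abs_self _).trans h

/-- Everything that is asked of `Λ = log D`. -/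
def Large (θ : ℝ) (C : ℝ) (B : ℕ) (c₁ : ℝ) (x : ℝ) : Prop :=
  1 ≤ x ∧ C ≤ θ / 4 * x ∧ 8 ≤ Real.log x ∧ (3200 : ℝ) ^ 2 * 2 * Real.log x ≤ x ∧
    2 * Real.log x ≤ Real.sqrt x ∧
    32 * (θ + 1) / θ * Real.log x ^ 2 ≤ Real.sqrt (Real.sqrt x) ∧
    20 * (2 + 4 * ((B : ℝ) + 1)) ≤ c₁ / 2 * Real.log x ∧ 8 / c₁ ≤ Real.sqrt x ∧
    Real.log x ≤ (θ / (2 * c₁)) ^ 2 * x ∧ Real.log x ≤ c₁ / 4 * Real.sqrt x ∧
    Real.log x ^ 2 ≤ Real.sqrt x

lemma large_eventually (θ C : ℝ) (B : ℕ) (c₁ : ℝ) (hθ : 0 < θ) (hc₁ : 0 < c₁) :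
    ∀ᶠ x : ℝ in atTop, Large θ C B c₁ x := by
  set A := 32 * (θ + 1) / θ with hA
  have hA0 : 0 < A := by positivity
  filter_upwards [eventually_ge_atTop 1, eventually_ge_atTop (C * 4 / θ),
    Real.tendsto_log_atTop.eventually (eventually_ge_atTop 8),
    log_small 1 (1 / ((3200 : ℝ) ^ 2 * 2)) one_pos (by norm_num),
    log_small (1 / 2) (1 / 2) (by norm_num) (by norm_num),
    log_small (1 / 8) (Real.sqrt (1 / A)) (by norm_num) (by positivity),
    Real.tendsto_log_atTop.eventually (eventually_ge_atTop (20 * (2 + 4 * ((B : ℝ) + 1)) * 2 / c₁)),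
    eventually_ge_atTop ((8 / c₁) ^ 2),
    log_small 1 ((θ / (2 * c₁)) ^ 2) one_pos (by positivity),
    log_small (1 / 2) (c₁ / 4) (by norm_num) (by positivity),
    log_small (1 / 4) 1 (by norm_num) one_pos]
    with x h1 h2 h3 h4 h5 h6 h7 h8 h9 h10 h11
  have hx0 : (0 : ℝ) ≤ x := le_trans zero_le_one h1
  have hl0 : 0 ≤ Real.log x := by linarith
  have hs : Real.sqrt x = x ^ (1 / 2 : ℝ) := Real.sqrt_eq_rpow x
  refine ⟨h1, ?_, h3, ?_, ?_, ?_, ?_, ?_, ?_, ?_, ?_⟩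
  · rw [div_le_iff₀ hθ] at h2; linarith
  · rw [Real.rpow_one] at h4; linarith
  · rw [hs]; linarith
  · have h := pow_le_pow_left₀ hl0 h6 2
    have e : (x ^ (1 / 8 : ℝ)) ^ 2 = Real.sqrt (Real.sqrt x) := by
      rw [hs, Real.sqrt_eq_rpow, ← Real.rpow_mul hx0, ← Real.rpow_natCast,
        ← Real.rpow_mul hx0]
      norm_num
    rw [mul_pow, Real.sq_sqrt (by positivity), e, one_div_mul_eq_div, le_div_iff₀ hA0] at h
    linarith
  · rw [div_le_iff₀ hc₁] at h7; linarith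
  · exact Real.le_sqrt_of_sq_le h8
  · rwa [Real.rpow_one] at h9
  · rwa [hs]
  · have h := pow_le_pow_left₀ hl0 h11 2
    rw [one_mul, ← Real.rpow_natCast (x ^ (1 / 4 : ℝ)), ← Real.rpow_mul hx0] at h
    rw [hs]
    norm_num at h ⊢
    exact h

lemma tail_arith {θ C₀ : ℝ} (hθ : 0 < θ) {B : ℕ} {c₁ Λ l s : ℝ} (hc₁ : 0 < c₁)
    (hc₁a : c₁ ≤ θ / (4 * (1 + θ)) / 3200) (hc₁b : c₁ ≤ 1 / 25600) {K D : ℕ} (hD : 2 ≤ D)
    (hΛ : Λ = Real.log (D : ℝ)) (hl : l = Real.log Λ) (hbig : Large θ C₀ B c₁ Λ) {lq lP : ℝ}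
    (hlq : lq ≤ ((B : ℝ) + 1) * Λ) (hlP : l / 2 ≤ lP)
    (hsle : s ≤ Real.sqrt Λ / Real.sqrt l) (hsge : Real.sqrt Λ / Real.sqrt l / 2 ≤ s)
    (hKge : s / 3200 ≤ K) :
    C₀ * (D : ℝ) ^ (-(θ / 2)) + (Real.exp (-(1 / (1600 * s) * (θ / (4 * (1 + θ)) / 2 * Λ)))
      + (4 * (Real.sqrt Λ * l ^ 2) / (θ / (4 * (1 + θ)) / 2 * Λ)) ^ K) *
      Real.exp (20 * (2 * s + lq / (lP * s)))
      ≤ Real.exp (-(c₁ / 4 * Real.sqrt (Λ * l))) := by
  obtain ⟨hΛ1, hCΛ, hl8, -, -, hbig3, hbig4, hbig5, hbig6, -, -⟩ := hbig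
  rw [← hl] at hl8 hbig3 hbig4 hbig6
  have hl0 : 0 < l := by linarith
  have hs0 : 0 < Real.sqrt Λ := Real.sqrt_pos.mpr (by linarith)
  have hsl0 : 0 < Real.sqrt l := Real.sqrt_pos.mpr hl0
  have hss : Real.sqrt Λ * Real.sqrt Λ = Λ := Real.mul_self_sqrt (by linarith)
  have hll : Real.sqrt l * Real.sqrt l = l := Real.mul_self_sqrt hl0.le
  have hspos : 0 < s := lt_of_lt_of_le (by positivity) hsge
  set u := Real.sqrt (Λ * l) with hu
  have hu' : u = Real.sqrt Λ * Real.sqrt l := Real.sqrt_mul (by linarith) l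
  have hu0 : 0 < u := by rw [hu']; positivity
  set κ := θ / (4 * (1 + θ)) with hκdef
  have hκ0 : 0 < κ := by positivity
  have hΛs : u ≤ Λ / s := by
    rw [le_div_iff₀ (by linarith)]
    calc u * s ≤ u * (Real.sqrt Λ / Real.sqrt l) := mul_le_mul_of_nonneg_left hsle hu0.le
      _ = Λ := by rw [hu']; field_simp; linear_combination hss
  have hA : Real.exp (-(1 / (1600 * s) * (κ / 2 * Λ))) ≤ Real.exp (-(c₁ * u)) := by
    refine Real.exp_le_exp.mpr (neg_le_neg ?_)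
    calc c₁ * u ≤ κ / 3200 * (Λ / s) := mul_le_mul hc₁a hΛs hu0.le (by positivity)
      _ = _ := by field_simp; ring
  have hsl : u / (2 * l) ≤ s := by
    refine le_trans (le_of_eq ?_) hsge
    rw [hu']; field_simp
    linear_combination hll
  have hB : (4 * (Real.sqrt Λ * l ^ 2) / (κ / 2 * Λ)) ^ K ≤ Real.exp (-(c₁ * u)) := by
    have hbase : 4 * (Real.sqrt Λ * l ^ 2) / (κ / 2 * Λ) ≤ Real.exp (-(l / 4)) := by
      have e : Real.exp (-(l / 4)) = 1 / Real.sqrt (Real.sqrt Λ) := by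
        rw [Real.exp_neg, one_div]
        congr 1
        rw [Real.sqrt_eq_rpow, Real.sqrt_eq_rpow, ← Real.rpow_mul (by linarith),
          Real.rpow_def_of_pos (by linarith)]
        congr 1; rw [hl]; ring
      rw [e, div_le_div_iff₀ (by positivity) (by positivity), one_mul]
      have hqq : Real.sqrt (Real.sqrt Λ) * Real.sqrt (Real.sqrt Λ) = Real.sqrt Λ :=
        Real.mul_self_sqrt hs0.le
      have e2 : 32 * (θ + 1) / θ * κ = 8 := by rw [hκdef]; field_simp; ring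
      set w := Real.sqrt (Real.sqrt Λ)
      set A := 32 * (θ + 1) / θ
      have h := mul_le_mul_of_nonneg_left hbig3 (show 0 ≤ κ * Real.sqrt Λ * w by positivity)
      have e3 : κ * Real.sqrt Λ * w * (A * l ^ 2) = 8 * (Real.sqrt Λ * l ^ 2 * w) := by
        linear_combination (Real.sqrt Λ * w * l ^ 2) * e2
      have e4 : κ * Real.sqrt Λ * w * w = κ * Λ := by
        linear_combination (κ * Real.sqrt Λ) * hqq + κ * hss
      linarith
    refine (pow_le_pow_left₀ (by positivity) hbase _).trans ?_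
    rw [← Real.exp_nat_mul]
    refine Real.exp_le_exp.mpr ?_
    have h1 : c₁ * u ≤ u / (2 * l) / 3200 * (l / 4) := by
      calc c₁ * u ≤ 1 / 25600 * u := mul_le_mul_of_nonneg_right hc₁b hu0.le
        _ = _ := by field_simp; ring
    have h2 := mul_le_mul_of_nonneg_right
      ((div_le_div_of_nonneg_right hsl (by norm_num : (0:ℝ) ≤ 3200)).trans hKge)
      (show 0 ≤ l / 4 by linarith)
    linarith
  have hE : 20 * (2 * s + lq / (lP * s)) ≤ c₁ / 2 * u := by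
    have h1 : s ≤ u / l := by
      refine hsle.trans (le_of_eq ?_)
      rw [hu']; field_simp
      linear_combination -hll
    have h2 : u / 4 ≤ lP * s := by
      calc u / 4 = l / 2 * (u / (2 * l)) := by field_simp; ring
        _ ≤ _ := mul_le_mul hlP hsl (by positivity) (by linarith)
    have h3 : lq / (lP * s) ≤ 4 * ((B : ℝ) + 1) * (u / l) := by
      refine (div_le_div₀ (by positivity) hlq (by positivity) h2).trans (le_of_eq ?_)
      have : u * u = Λ * l := Real.mul_self_sqrt (by positivity)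
      field_simp
      linear_combination -this
    calc 20 * (2 * s + lq / (lP * s))
        ≤ 20 * (2 + 4 * ((B : ℝ) + 1)) * (u / l) := by linarith
      _ ≤ c₁ / 2 * l * (u / l) := mul_le_mul_of_nonneg_right hbig4 (by positivity)
      _ = c₁ / 2 * u := by field_simp
  have hsu : Real.sqrt Λ ≤ u := by
    rw [hu']; exact le_mul_of_one_le_right hs0.le (Real.one_le_sqrt.mpr (by linarith))
  have hC : C₀ * (D : ℝ) ^ (-(θ / 2)) ≤ Real.exp (-(c₁ / 2 * u)) := by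
    rw [Real.rpow_def_of_pos (by positivity)]
    refine (mul_le_mul_of_nonneg_right (show C₀ ≤ Real.exp C₀ by linarith [Real.add_one_le_exp C₀])
      (Real.exp_pos _).le).trans ?_
    rw [← Real.exp_add]
    refine Real.exp_le_exp.mpr ?_
    have h1 : u ≤ θ / (2 * c₁) * Λ := by
      rw [hu, Real.sqrt_le_iff]
      refine ⟨by positivity, ?_⟩
      have := mul_le_mul_of_nonneg_left hbig6 (show 0 ≤ Λ by linarith)
      linarith
    have h2 := mul_le_mul_of_nonneg_left h1 (show 0 ≤ c₁ / 2 by linarith)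
    have e : c₁ / 2 * (θ / (2 * c₁) * Λ) = θ / 4 * Λ := by field_simp; ring
    rw [← hΛ]
    linarith
  have h3 : (3 : ℝ) ≤ Real.exp (c₁ / 4 * u) := by
    refine le_trans ?_ (Real.add_one_le_exp _)
    have h1 := mul_le_mul_of_nonneg_left (hbig5.trans hsu) (show 0 ≤ c₁ / 4 by linarith)
    have e : c₁ / 4 * (8 / c₁) = 2 := by field_simp; norm_num
    linarith
  calc C₀ * (D : ℝ) ^ (-(θ / 2)) + (Real.exp (-(1 / (1600 * s) * (κ / 2 * Λ)))
      + (4 * (Real.sqrt Λ * l ^ 2) / (κ / 2 * Λ)) ^ K) *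
      Real.exp (20 * (2 * s + lq / (lP * s)))
      ≤ Real.exp (-(c₁ / 2 * u)) + 2 * Real.exp (-(c₁ * u)) * Real.exp (c₁ / 2 * u) :=
        add_le_add hC (mul_le_mul (by linarith) (Real.exp_le_exp.mpr hE) (Real.exp_pos _).le
          (by positivity))
    _ = 3 * Real.exp (-(c₁ / 2 * u)) := by
        rw [mul_assoc, ← Real.exp_add, show -(c₁ * u) + c₁ / 2 * u = -(c₁ / 2 * u) by ring]; ring
    _ ≤ Real.exp (c₁ / 4 * u) * Real.exp (-(c₁ / 2 * u)) :=
        mul_le_mul_of_nonneg_right h3 (Real.exp_pos _).le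
    _ = _ := by rw [← Real.exp_add]; congr 1; ring


lemma par_facts {θ C₀ : ℝ} {B : ℕ} {c₁ Λ : ℝ} (hbig : Large θ C₀ B c₁ Λ) :
    ∃ π : Par, π.σ₀ = 1 / (1600 * Real.sqrt π.P) ∧ π.h = 1 / (2 * Λ) ∧
      π.T = Real.sqrt Λ * Real.log Λ ^ 2 ∧ 2 ≤ π.P ∧ 3200 ≤ Real.sqrt π.P ∧
      Real.log π.P ≤ Real.log Λ ∧ Real.log Λ / 2 ≤ Real.log π.P ∧
      (π.K : ℝ) ≤ Real.sqrt π.P / 1600 ∧ Real.sqrt π.P / 3200 ≤ π.K ∧
      π.h * (π.K * π.M) ≤ 1 / Real.log Λ ∧ 2 * Λ / (Real.sqrt Λ * Real.log Λ ^ 2) ≤ π.M ∧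
      Real.sqrt π.P ≤ Real.sqrt Λ / Real.sqrt (Real.log Λ) ∧
      Real.sqrt Λ / Real.sqrt (Real.log Λ) / 2 ≤ Real.sqrt π.P := by
  obtain ⟨hΛ1, -, hl8, hbig1, hbig2, -, -, -, -, -, -⟩ := hbig
  set l := Real.log Λ with hl
  have hl0 : 0 < l := by linarith
  have hs0 : 0 < Real.sqrt Λ := Real.sqrt_pos.mpr (by linarith)
  have hsl0 : 0 < Real.sqrt l := Real.sqrt_pos.mpr hl0
  have hss : Real.sqrt Λ * Real.sqrt Λ = Λ := Real.mul_self_sqrt (by linarith)
  have hll : Real.sqrt l * Real.sqrt l = l := Real.mul_self_sqrt hl0.le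
  set u := Real.sqrt (Λ * l) with hu
  have hu' : u = Real.sqrt Λ * Real.sqrt l := Real.sqrt_mul (by linarith) l
  have hu0 : 0 < u := by rw [hu']; positivity
  have hlΛ : l ≤ Λ := Real.log_le_self (by linarith)
  set P := ⌊Λ / l⌋₊ with hP
  have hΛl : (3200 : ℝ) ^ 2 * 2 ≤ Λ / l := by rw [le_div_iff₀ hl0]; linarith
  have hPle : (P : ℝ) ≤ Λ / l := Nat.floor_le (by positivity)
  have hPge : Λ / (2 * l) ≤ P := by
    have h := Nat.lt_floor_add_one (Λ / l)
    rw [← hP] at h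
    have e : Λ / (2 * l) = Λ / l / 2 := by ring
    rw [e]; norm_num at hΛl; linarith
  have hP3200 : (3200 : ℝ) ^ 2 ≤ P := by
    have e : Λ / (2 * l) = Λ / l / 2 := by ring
    rw [e] at hPge; linarith
  have hP2 : 2 ≤ P := by
    have : (2 : ℝ) ≤ P := le_trans (by norm_num) hP3200
    exact_mod_cast this
  set s := Real.sqrt (P : ℝ) with hs
  have hs3200 : 3200 ≤ s := Real.le_sqrt_of_sq_le hP3200
  have hsle : s ≤ Real.sqrt Λ / Real.sqrt l := by
    rw [← Real.sqrt_div (by linarith)]; exact Real.sqrt_le_sqrt hPle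
  have hsge : Real.sqrt Λ / Real.sqrt l / 2 ≤ s := by
    refine le_trans ?_ (Real.sqrt_le_sqrt hPge)
    rw [show Λ / (2 * l) = Λ / l / 2 by ring, Real.sqrt_div (by positivity) 2,
      Real.sqrt_div (by linarith) l]
    refine div_le_div_of_nonneg_left (by positivity) (by positivity) ?_
    rw [Real.sqrt_le_iff]; norm_num
  have hlogP : Real.log P ≤ l := by
    refine Real.log_le_log (by positivity) (hPle.trans ?_)
    exact div_le_self (by linarith) (by linarith)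
  have hlogP2 : l / 2 ≤ Real.log P := by
    rw [hl, ← Real.log_sqrt (by linarith)]
    refine Real.log_le_log hs0 (le_trans ?_ hPge)
    rw [le_div_iff₀ (by positivity)]
    calc Real.sqrt Λ * (2 * l) ≤ Real.sqrt Λ * Real.sqrt Λ :=
          mul_le_mul_of_nonneg_left hbig2 hs0.le
      _ = Λ := hss
  set K := ⌊s / 1600⌋₊ with hK
  have hKle : (K : ℝ) ≤ s / 1600 := Nat.floor_le (by positivity)
  have hKge : s / 3200 ≤ K := by
    have h := Nat.lt_floor_add_one (s / 1600)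
    rw [← hK] at h
    linarith
  have hKpos : (1 : ℝ) ≤ K := le_trans (by linarith) hKge
  have hKΛ : (K : ℝ) ≤ Real.sqrt Λ := by
    have : Real.sqrt Λ / Real.sqrt l ≤ Real.sqrt Λ :=
      div_le_self hs0.le (Real.one_le_sqrt.mpr (by linarith))
    linarith
  set M := ⌊2 * Λ / (K * l)⌋₊ with hM
  have hMle : (M : ℝ) ≤ 2 * Λ / (K * l) := Nat.floor_le (by positivity)
  have hMge : 2 * Λ / (Real.sqrt Λ * l ^ 2) ≤ M := by
    have h := Nat.lt_floor_add_one (2 * Λ / (K * l))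
    rw [← hM] at h
    have h1 : 2 * Real.sqrt Λ / l ≤ 2 * Λ / (K * l) := by
      rw [div_le_div_iff₀ hl0 (by positivity)]
      have := mul_le_mul_of_nonneg_left hKΛ (show 0 ≤ 2 * Real.sqrt Λ * l by positivity)
      linear_combination this + (2 * l) * hss
    have h2 : 2 * Λ / (Real.sqrt Λ * l ^ 2) = 2 * Real.sqrt Λ / l / l := by
      field_simp; linear_combination -hss
    rw [h2]
    have hy : 4 ≤ 2 * Real.sqrt Λ / l := by rw [le_div_iff₀ hl0]; linarith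
    have : 2 * Real.sqrt Λ / l / l ≤ 2 * Real.sqrt Λ / l / 2 :=
      div_le_div_of_nonneg_left (by positivity) two_pos (by linarith)
    linarith
  have hM1 : 1 ≤ M := by
    have h : (0 : ℝ) < M := lt_of_lt_of_le (by positivity) hMge
    exact_mod_cast h
  have hKM : 1 / (2 * Λ) * ((K : ℝ) * M) ≤ 1 / l := by
    calc 1 / (2 * Λ) * ((K : ℝ) * M) ≤ 1 / (2 * Λ) * ((K : ℝ) * (2 * Λ / (K * l))) :=
          mul_le_mul_of_nonneg_left (mul_le_mul_of_nonneg_left hMle (Nat.cast_nonneg _)) (by positivity)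
      _ = 1 / l := by field_simp
  exact ⟨⟨P, K, M, 1 / (1600 * s), 1 / (2 * Λ), Real.sqrt Λ * l ^ 2, by positivity, by positivity,
    by positivity, hM1, by omega⟩, rfl, rfl, rfl, hP2, hs3200, hlogP, hlogP2, hKle, hKge, hKM, hMge,
    hsle, hsge⟩

theorem sq_good {θ C₀ : ℝ} (hCB : CB 2 θ C₀) {C₁ : ℝ} (hC₁ : 1 ≤ C₁) {B : ℕ} {c₁ : ℝ} (hc₁ : 0 < c₁)
    (hc₁a : c₁ ≤ θ / (4 * (1 + θ)) / 3200) (hc₁b : c₁ ≤ 1 / 25600) {D : ℕ} (hD : 2 ≤ D)
    (hDC : C₁ ≤ D) (hbig : Large θ C₀ B c₁ (Real.log D)) :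
    ∃ π : Par, ∀ q : ℕ, 1 ≤ q → (q : ℝ) ≤ C₁ * (D : ℝ) ^ B → ∀ a : ℤ, IsCoprime a (q : ℤ) →
      (|(π.mix D q a).im| ≤ (π.mix D q a).re ∧ ‖π.mix D q a‖ ≤ 2) ∨
        ‖π.mix D q a‖ ≤ Real.exp (-(c₁ / 4 * Real.sqrt (Real.log D * Real.log (Real.log D)))) := by
  obtain ⟨hθ, -, -⟩ := id hCB
  set Λ := Real.log (D : ℝ) with hΛ
  obtain ⟨π, hσ, hh, hT, hP2, hs3200, hlogP, hlogP2, hKle, hKge, hKM, hMge, hsle, hsge⟩ :=
    par_facts hbig
  obtain ⟨hΛ1, -, hl8, -, -, -, -, -, -, -, hbig8⟩ := id hbig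
  set l := Real.log Λ with hl
  have hl0 : 0 < l := by linarith
  have hs0 : 0 < Real.sqrt Λ := Real.sqrt_pos.mpr (by linarith)
  refine ⟨π, fun q hq hqb a ha => ?_⟩
  by_cases hqD : q ≤ D
  · left
    refine mix_cone ?_ ?_ ?_ ?_ ?_ hKle (show 84 ≤ Real.sqrt π.P by linarith) hq hqD ha
    · rw [hσ]
      exact one_div_le_one_div_of_le (by norm_num) (by linarith)
    · rw [hσ, div_mul_eq_mul_div, div_le_one (by positivity), one_mul]
      have h1 : Real.log π.P = 2 * Real.log (Real.sqrt π.P) := by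
        rw [Real.log_sqrt (Nat.cast_nonneg _)]; ring
      have h2 := Real.log_le_self (show 0 ≤ Real.sqrt π.P by linarith)
      linarith
    · exact hKM.trans (one_div_le_one_div_of_le (by norm_num) (by linarith))
    · refine (mul_le_mul hKM hlogP (Real.log_natCast_nonneg π.P) (by positivity)).trans ?_
      rw [one_div_mul_cancel hl0.ne']
    · rw [hσ]
      exact le_of_eq (by field_simp)
  right
  have hκ : θ / (4 * (1 + θ)) ≤ 1 := by rw [div_le_one (by positivity)]; linarith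
  have hTΛ : Real.sqrt Λ * l ^ 2 ≤ Λ := by
    calc Real.sqrt Λ * l ^ 2 ≤ Real.sqrt Λ * Real.sqrt Λ := mul_le_mul_of_nonneg_left hbig8 hs0.le
      _ = Λ := Real.mul_self_sqrt (by linarith)
  refine (mix_tail hCB ?_ hP2 hD (by omega) ?_ ha).trans ?_
  · rw [hh, hT]
    rw [div_le_iff₀ (by positivity)] at hMge
    rw [div_mul_eq_mul_div, one_mul, div_mul_eq_mul_div, le_div_iff₀ (by positivity)]
    linarith
  · rw [hh, hT, div_mul_eq_mul_div, div_le_one (by positivity), one_mul]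
    have := mul_le_mul_of_nonneg_right hκ (show 0 ≤ Λ by linarith)
    linarith
  rw [hσ, hT]
  refine tail_arith hθ hc₁ hc₁a hc₁b hD hΛ hl hbig ?_ hlogP2 hsle hsge hKge
  have hq1 : (1 : ℝ) ≤ q := by exact_mod_cast hq
  refine (Real.log_le_log (by linarith) hqb).trans ?_
  rw [Real.log_mul (by linarith) (by positivity), Real.log_pow, ← hΛ]
  have := Real.log_le_log (by linarith) hDC
  linarith

lemma conv_arith {c₁ Λ ℓ : ℝ} {m : ℕ} (hc₁ : 0 < c₁) (hm1 : 1 ≤ m) (hℓ0 : 0 ≤ ℓ) (hΛ : 1 ≤ Λ)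
    (hl8 : 8 ≤ Real.log Λ) (hlog : Real.log Λ ≤ c₁ / 4 * Real.sqrt Λ) (hmΛ : 2 * (m : ℝ) ≤ Λ)
    (h5 : ℓ ≤ 2 * m * Λ) :
    Real.sqrt Λ * Real.exp (-(c₁ / 4 * Real.sqrt (Λ * Real.log Λ)))
      ≤ Real.exp (-(c₁ / (32 * m) * Real.sqrt (ℓ * Real.log ℓ))) := by
  set u := Real.sqrt (Λ * Real.log Λ) with hu
  have hu0 : 0 ≤ u := Real.sqrt_nonneg _
  have hsu : Real.sqrt Λ ≤ u := by
    rw [hu, Real.sqrt_mul (by linarith)]
    exact le_mul_of_one_le_right (Real.sqrt_nonneg _) (Real.one_le_sqrt.mpr (by linarith))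
  have hm1R : (1 : ℝ) ≤ m := by exact_mod_cast hm1
  have e1 : Real.sqrt Λ = Real.exp (Real.log Λ / 2) := by
    rw [← Real.log_sqrt (by linarith), Real.exp_log (Real.sqrt_pos.mpr (by linarith))]
  have e2 : Real.log Λ / 2 ≤ c₁ / 8 * u := by
    have := mul_le_mul_of_nonneg_left hsu (show 0 ≤ c₁ / 4 by linarith)
    linarith
  have h6 : ℓ * Real.log ℓ ≤ (4 * (m : ℝ)) * (Λ * Real.log Λ) := by
    rcases le_or_gt ℓ 1 with h | h
    · calc ℓ * Real.log ℓ ≤ 0 := mul_nonpos_of_nonneg_of_nonpos hℓ0 (Real.log_nonpos hℓ0 h)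
        _ ≤ _ := by positivity
    · have h7 : Real.log ℓ ≤ 2 * Real.log Λ := by
        refine (Real.log_le_log (by linarith) h5).trans ?_
        rw [Real.log_mul (by positivity) (by linarith)]
        have := Real.log_le_log (by positivity) hmΛ
        linarith
      calc ℓ * Real.log ℓ ≤ 2 * m * Λ * (2 * Real.log Λ) :=
            mul_le_mul h5 h7 (Real.log_nonneg h.le) (by positivity)
        _ = _ := by ring
  have h7 : Real.sqrt (ℓ * Real.log ℓ) ≤ 4 * m * u := by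
    refine (Real.sqrt_le_sqrt h6).trans ?_
    rw [Real.sqrt_mul (by positivity), ← hu]
    refine mul_le_mul_of_nonneg_right (Real.sqrt_le_iff.mpr ⟨by positivity, ?_⟩) hu0
    exact le_self_pow₀ (by linarith) two_ne_zero
  have e3 : c₁ / (32 * m) * Real.sqrt (ℓ * Real.log ℓ) ≤ c₁ / 8 * u := by
    calc c₁ / (32 * m) * Real.sqrt (ℓ * Real.log ℓ) ≤ c₁ / (32 * m) * (4 * m * u) :=
          mul_le_mul_of_nonneg_left h7 (by positivity)
      _ = c₁ / 8 * u := by field_simp; ring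
  rw [e1, ← Real.exp_add]
  refine Real.exp_le_exp.mpr ?_
  linarith

/-- Squares from `n₀` on, with exponent `c √(log N · log log N)`. -/
theorem square_bound : ∃ c : ℝ, 0 < c ∧ ∀ n₀ : ℕ, ∃ C : ℝ, ∀ N : ℕ, 1 ≤ N → ∀ A : Finset ℕ,
    A ⊆ Icc 1 N → (∀ x ∈ A, ∀ y ∈ A, ∀ n : ℕ, n₀ ≤ n → (x : ℤ) - y = (n : ℤ) ^ 2 → x = y) →
    (A.card : ℝ) ≤ C * N * Real.exp (-(c * Real.sqrt (Real.log N * Real.log (Real.log N)))) := by
  have hdeg : sqp.natDegree = 2 := by simp [sqp]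
  have hlc : sqp.leadingCoeff = 1 := by simp [sqp]
  obtain ⟨θ, hθ, C₀, hC₀, hcb⟩ := coeff_bound 2
  have hCB : CB 2 θ C₀ := ⟨hθ, hC₀, hcb⟩
  obtain ⟨H, hB⟩ := exists_gbounds (g := sqp) hdeg.ge (by rw [hlc]; norm_num)
  obtain ⟨E, hE, C₁, hC₁, B', C₅, hC₅, D₀, hT⟩ :=
    tsum_lower_mix (g := sqp) hdeg.ge (by rw [hlc]; norm_num) hB
  obtain ⟨hH1, -, hup, -⟩ := id hB
  set c₁ := min (θ / (4 * (1 + θ)) / 3200) (1 / 25600) with hc₁def
  have hc₁ : 0 < c₁ := lt_min (by positivity) (by norm_num)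
  set m := E * 2 with hm
  have hm1 : 1 ≤ m := by omega
  have hmR : (0 : ℝ) < m := by exact_mod_cast hm1
  set c := c₁ / (32 * m) with hcdef
  have hc : 0 < c := by positivity
  have hc1 : c ≤ 1 := by
    rw [hcdef, div_le_one (by positivity)]
    have : (1 : ℝ) ≤ m := by exact_mod_cast hm1
    linarith [min_le_right (θ / (4 * (1 + θ)) / 3200) (1 / 25600 : ℝ)]
  refine ⟨c, hc, fun n₀ => ?_⟩
  have hlog : Tendsto (fun D : ℕ => Real.log (D : ℝ)) atTop atTop :=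
    Real.tendsto_log_atTop.comp tendsto_natCast_atTop_atTop
  obtain ⟨Cn, hCn⟩ := exists_nat_ge C₁
  have hev : ∀ᶠ D : ℕ in atTop, D₀ ≤ D ∧ max 2 n₀ ≤ D ∧ Cn ≤ D ∧
      Large θ C₀ B' c₁ (Real.log (D : ℝ)) ∧ 2 * (m : ℝ) ≤ Real.log (D : ℝ) :=
    ((eventually_ge_atTop D₀).and ((eventually_ge_atTop (max 2 n₀)).and ((eventually_ge_atTop Cn).and
      ((hlog.eventually (large_eventually θ C₀ B' c₁ hθ hc₁)).and
        (hlog.eventually (eventually_ge_atTop (2 * (m : ℝ))))))))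
  obtain ⟨D₂, hD₂⟩ := eventually_atTop.mp hev
  set M₂ : ℝ := ((D₂ : ℝ) + 1) ^ m with hM₂
  set C₃ := C₅ * (H + 3) with hC₃
  have hC₃0 : 0 ≤ C₃ := by positivity
  refine ⟨C₃ + M₂, fun N hN A hA hav => ?_⟩
  rcases Nat.eq_zero_or_pos A.card with hA0 | hA0
  · rw [hA0, Nat.cast_zero]; positivity
  have hNR : (1 : ℝ) ≤ N := by exact_mod_cast hN
  have hcard : (A.card : ℝ) ≤ N := by
    have := card_le_card hA
    rw [Nat.card_Icc, Nat.add_sub_cancel] at this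
    exact_mod_cast this
  set ℓ := Real.log (N : ℝ) with hℓ
  have hℓ0 : 0 ≤ ℓ := Real.log_nonneg hNR
  set D := ⌊(N : ℝ) ^ (1 / (m : ℝ))⌋₊ with hD
  by_cases hsmall : D < D₂
  · have h1 : (N : ℝ) ^ (1 / (m : ℝ)) ≤ (D₂ : ℝ) + 1 := by
      refine (Nat.lt_floor_add_one _).le.trans ?_
      rw [← hD]; have : (D : ℝ) ≤ D₂ := by exact_mod_cast hsmall.le
      linarith
    have h2 : (N : ℝ) ≤ M₂ := by
      have h := pow_le_pow_left₀ (by positivity) h1 m
      rwa [← Real.rpow_natCast ((N : ℝ) ^ _) m, ← Real.rpow_mul (by positivity),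
        one_div_mul_cancel hmR.ne', Real.rpow_one] at h
    have h3 : c * Real.sqrt (ℓ * Real.log ℓ) ≤ ℓ := by
      refine le_trans (mul_le_of_le_one_left (Real.sqrt_nonneg _) hc1) ?_
      rw [Real.sqrt_le_iff, pow_two]
      exact ⟨hℓ0, mul_le_mul_of_nonneg_left (Real.log_le_self hℓ0) hℓ0⟩
    have h4 : 1 ≤ (N : ℝ) * Real.exp (-(c * Real.sqrt (ℓ * Real.log ℓ))) := by
      rw [← Real.exp_log (show (0 : ℝ) < N by linarith), ← hℓ, ← Real.exp_add]
      exact Real.one_le_exp (by linarith)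
    calc (A.card : ℝ) ≤ M₂ * 1 := by linarith
      _ ≤ M₂ * ((N : ℝ) * Real.exp (-(c * Real.sqrt (ℓ * Real.log ℓ)))) :=
          mul_le_mul_of_nonneg_left h4 (by positivity)
      _ ≤ _ := by
          rw [← mul_assoc]
          exact mul_le_mul_of_nonneg_right (mul_le_mul_of_nonneg_right
            (le_add_of_nonneg_left hC₃0) (by linarith)) (Real.exp_pos _).le
  push Not at hsmall
  obtain ⟨hDD₀, hD2n, hDCn, hbig, hmΛ⟩ := hD₂ D hsmall
  simp only [max_le_iff] at hD2n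
  have hD1 : 1 ≤ D := by omega
  have hDR : (1 : ℝ) ≤ D := by exact_mod_cast hD1
  have hDC : C₁ ≤ D := hCn.trans (by exact_mod_cast hDCn)
  obtain ⟨π, hgood⟩ := sq_good hCB hC₁ hc₁ (min_le_left _ _) (min_le_right _ _) hD2n.1 hDC hbig
  obtain ⟨hΛ, -, hl8, -, -, -, -, -, -, hlog7, -⟩ := hbig
  set Λ := Real.log (D : ℝ) with hΛdef
  set u := Real.sqrt (Λ * Real.log Λ) with hu
  have hlΛ : Real.log Λ ≤ Λ := Real.log_le_self (by linarith)
  have hsu : Real.sqrt Λ ≤ u := by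
    rw [hu, Real.sqrt_mul (by linarith)]
    exact le_mul_of_one_le_right (Real.sqrt_nonneg _) (Real.one_le_sqrt.mpr (by linarith))
  set ε := Real.exp (-(c₁ / 4 * u)) with hε
  have hc₁1 : c₁ ≤ 1 := (min_le_right _ _).trans (by norm_num)
  have hhalf : Real.exp (-(Λ / 2)) ≤ ε := by
    refine Real.exp_le_exp.mpr (neg_le_neg ?_)
    have h1 : u ≤ Λ := by
      rw [hu, Real.sqrt_le_iff, pow_two]
      exact ⟨by linarith, mul_le_mul_of_nonneg_left hlΛ (by linarith)⟩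
    have := mul_le_mul (show c₁ / 4 ≤ 1 / 2 by linarith) h1 (Real.sqrt_nonneg _) (by norm_num)
    linarith
  obtain ⟨lam, hTlow, hT0⟩ := hT D hDD₀ hΛ _ π.idx π.cw π.mem (fun x _ => π.cw_nonneg x) π.cw_sum
    ε hhalf hgood
  set X := D ^ E with hX
  set x₀ := D ^ (E - 1) with hx₀
  have hx₀1 : 1 ≤ x₀ := Nat.one_le_pow _ _ hD1
  have hx₀n : n₀ ≤ x₀ := hD2n.2.trans (Nat.le_self_pow (by omega) D)
  have hDle : (D : ℝ) ≤ (N : ℝ) ^ (1 / (m : ℝ)) := Nat.floor_le (by positivity)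
  have hYN : (X : ℝ) ^ 2 ≤ N := by
    have h := pow_le_pow_left₀ (by positivity) hDle m
    rw [← Real.rpow_natCast ((N : ℝ) ^ _) m, ← Real.rpow_mul (by positivity),
      one_div_mul_cancel hmR.ne', Real.rpow_one] at h
    rw [hX, Nat.cast_pow, ← pow_mul]; exact h
  set V := ⌈H * N⌉₊ with hV
  have hvV : ∀ i ∈ range (X - x₀), 0 < sqp.eval ((x₀ + i : ℕ) : ℤ) ∧
      sqp.eval ((x₀ + i : ℕ) : ℤ) ≤ (V : ℤ) := by
    intro i hi
    have hi' := mem_range.mp hi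
    set n := x₀ + i with hn
    have hn1 : (1 : ℝ) ≤ n := by exact_mod_cast (le_trans hx₀1 (Nat.le_add_right x₀ i))
    have h2 : (n : ℝ) ≤ X := by exact_mod_cast (show n ≤ X by omega)
    refine ⟨?_, ?_⟩
    · rw [sqp_eval]
      have : 1 ≤ n := le_trans hx₀1 (Nat.le_add_right x₀ i)
      positivity
    · have h4 := (le_abs_self _).trans (hup _ hn1)
      rw [rpoly_eval, hdeg] at h4
      have h5 : ((sqp.eval (n : ℤ) : ℤ) : ℝ) ≤ ((V : ℕ) : ℝ) := by
        refine h4.trans (le_trans ?_ (Nat.le_ceil _))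
        exact mul_le_mul_of_nonneg_left
          ((pow_le_pow_left₀ (Nat.cast_nonneg n) h2 2).trans hYN) (by linarith)
      exact_mod_cast h5
  set S := Sz sqp X with hS
  have hS0 : 0 < S := by
    have : (0 : ℝ) < X := by exact_mod_cast Nat.one_le_pow E D hD1
    rw [hS, Sz]; positivity
  set b : ℕ → ℝ := fun i => ∑ x ∈ π.idx,
    π.cw x * ((∑ f ∈ Icc 1 D, wt (π.mem x) f (x₀ + i)) * wG sqp lam ((x₀ + i : ℕ) : ℝ)) with hb
  have hTb : ∀ α, tMix π.idx π.cw π.mem D x₀ X lam α = ∑ i ∈ range (X - x₀),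
      ((b i : ℝ) : ℂ) * ee (α * ((sqp.eval ((x₀ + i : ℕ) : ℤ) : ℤ) : ℝ)) := by
    intro α
    simp only [tMix, tG, mul_sum]
    rw [sum_comm]
    refine sum_congr rfl fun i _ => ?_
    rw [hb, Complex.ofReal_sum, sum_mul]
    refine sum_congr rfl fun x _ => ?_
    rw [Complex.ofReal_mul (π.cw x), mul_assoc]
  have hlp := lp_bound A N V (range (X - x₀)) (fun i => sqp.eval ((x₀ + i : ℕ) : ℤ)) b
    (C₅ * S * ε) hA hvV ?_ (fun α => (hTlow α).trans (le_of_eq (congrArg Complex.re (hTb α))))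
  rotate_left
  · intro x hx y hy i hi he
    have := hav x hx y hy (x₀ + i) (le_trans hx₀n (Nat.le_add_right _ _)) (by rw [he, sqp_eval])
    subst this
    have := (hvV i hi).1
    rw [← he] at this; simp at this
  have hsum : S / Real.sqrt Λ ≤ (∑ i ∈ range (X - x₀), b i) + C₅ * S * ε := by
    rw [← sub_le_iff_le_add]
    rw [hlc, Int.cast_one, Real.sqrt_one, one_mul] at hT0
    refine hT0.trans (le_of_eq ?_)
    rw [hTb, Complex.re_sum]
    refine sum_congr rfl fun i _ => ?_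
    rw [zero_mul, ee_zero, mul_one, Complex.ofReal_re]
  rcases hlp with hlp | hlp
  swap
  · omega
  have hsΛ : 0 < Real.sqrt Λ := Real.sqrt_pos.mpr (by linarith)
  have h2 : ((N + V + 1 : ℕ) : ℝ) ≤ (H + 3) * N := by
    push_cast
    have := (Nat.ceil_lt_add_one (by positivity : 0 ≤ H * (N : ℝ))).le
    rw [← hV] at this
    linarith
  have h3 : (A.card : ℝ) ≤ C₃ * N * (Real.sqrt Λ * ε) := by
    have h4 : (A.card : ℝ) * (S / Real.sqrt Λ) ≤ C₃ * N * (Real.sqrt Λ * ε) * (S / Real.sqrt Λ) := by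
      refine ((mul_le_mul_of_nonneg_left hsum (Nat.cast_nonneg _)).trans hlp).trans
        ((mul_le_mul_of_nonneg_left h2 (by positivity)).trans (le_of_eq ?_))
      rw [hC₃]; field_simp
    exact le_of_mul_le_mul_right h4 (by positivity)
  have h4 : Real.sqrt Λ * ε ≤ Real.exp (-(c * Real.sqrt (ℓ * Real.log ℓ))) := by
    refine conv_arith hc₁ hm1 hℓ0 hΛ hl8 hlog7 hmΛ ?_
    have h6 : (N : ℝ) ^ (1 / (m : ℝ)) ≤ 2 * D := by
      have := Nat.lt_floor_add_one ((N : ℝ) ^ (1 / (m : ℝ)))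
      rw [← hD] at this; linarith
    have h7 := Real.log_le_log (by positivity) h6
    rw [Real.log_rpow (by linarith), Real.log_mul (by norm_num) (by linarith), ← hℓ, ← hΛdef,
      div_mul_eq_mul_div, one_mul, div_le_iff₀ hmR] at h7
    have h8 := mul_le_mul_of_nonneg_right
      (show Real.log 2 + Λ ≤ 2 * Λ by
        linarith [Real.log_le_sub_one_of_pos (show (0:ℝ) < 2 by norm_num)]) hmR.le
    linarith
  calc (A.card : ℝ) ≤ C₃ * N * Real.exp (-(c * Real.sqrt (ℓ * Real.log ℓ))) :=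
        h3.trans (mul_le_mul_of_nonneg_left h4 (by positivity))
    _ ≤ _ := mul_le_mul_of_nonneg_right (mul_le_mul_of_nonneg_right
        (le_add_of_nonneg_right (by positivity)) (by linarith)) (Real.exp_pos _).le

end Vale.Agent.P042.Gen.Sq
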