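import Vale.Agent.P042.SqLocal
import Vale.Agent.P042.GenParams

namespace Vale.Agent.P042.Gen.Sq

open Finset Polynomial

/-- A truncated geometric series. -/
noncomputable def gs (M : ℕ) (y : ℝ) : ℝ := ∑ n ∈ range M, Real.exp (-y * n)

lemma gs_pow (M : ℕ) (y : ℝ) : gs M y = ∑ n ∈ range M, Real.exp (-y) ^ n := by
  refine sum_congr rfl fun n _ => ?_
  rw [← Real.exp_nat_mul]; congr 1; ring

lemma gs_mul (M : ℕ) (y : ℝ) : gs M y * (1 - Real.exp (-y)) = 1 - Real.exp (-y) ^ M := by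
  rw [gs_pow, geom_sum_mul_neg]

lemma gs_nonneg (M : ℕ) (y : ℝ) : 0 ≤ gs M y := sum_nonneg fun _ _ => (Real.exp_pos _).le

lemma gs_pos {M : ℕ} (hM : 1 ≤ M) (y : ℝ) : 0 < gs M y :=
  sum_pos (fun _ _ => Real.exp_pos _) (nonempty_range_iff.mpr (by omega))

lemma gs_le (M : ℕ) {y : ℝ} (hy : 0 < y) : gs M y ≤ (1 + y) / y := by
  have h1 : Real.exp (-y) ≤ 1 / (1 + y) := by
    rw [Real.exp_neg, one_div]
    exact inv_anti₀ (by linarith) (by linarith [Real.add_one_le_exp y])
  have h2 : y / (1 + y) ≤ 1 - Real.exp (-y) := by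
    have : y / (1 + y) = 1 - 1 / (1 + y) := by field_simp; ring
    linarith
  have h3 : gs M y * (y / (1 + y)) ≤ 1 := by
    refine (mul_le_mul_of_nonneg_left h2 (gs_nonneg M y)).trans ?_
    rw [gs_mul]
    linarith [pow_nonneg (Real.exp_pos (-y)).le M]
  rw [le_div_iff₀ hy]
  rw [← mul_div_assoc, div_le_one (by linarith)] at h3
  exact h3

lemma gs_ge (M : ℕ) {y : ℝ} (hy : 0 < y) (hM : 1 ≤ y * M) : 1 / (2 * y) ≤ gs M y := by
  have h1 : Real.exp (-y) ^ M ≤ 1 / 2 := by
    rw [← Real.exp_nat_mul]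
    refine le_trans (Real.exp_le_exp.mpr (show (M : ℝ) * -y ≤ -1 by linarith)) ?_
    rw [Real.exp_neg, one_div]
    exact inv_anti₀ (by norm_num) (by linarith [Real.add_one_le_exp (1 : ℝ)])
  have h2 : 1 - Real.exp (-y) ≤ y := by linarith [Real.add_one_le_exp (-y)]
  have h3 := gs_mul M y
  have h4 := mul_le_mul_of_nonneg_left h2 (show 0 ≤ gs M y from sum_nonneg fun _ _ => (Real.exp_pos _).le)
  rw [div_le_iff₀ (by positivity)]
  linarith

lemma gs_shift (M : ℕ) {y y' : ℝ} (hy : 0 < y') (hle : y' ≤ y) :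
    gs M y' ≤ gs M y * Real.exp ((y - y') / y') := by
  have hu : Real.exp (-y) ≤ Real.exp (-y') := Real.exp_le_exp.mpr (by linarith)
  have hu1 : Real.exp (-y') < 1 := Real.exp_lt_one_iff.mpr (by linarith)
  have hn : 0 ≤ gs M y := sum_nonneg fun _ _ => (Real.exp_pos _).le
  have h1 : gs M y' * (1 - Real.exp (-y')) ≤ gs M y * (1 - Real.exp (-y)) := by
    rw [gs_mul, gs_mul]
    linarith [pow_le_pow_left₀ (Real.exp_pos (-y)).le hu M]
  have h2 : 1 - Real.exp (-y) ≤ (1 - Real.exp (-y')) * (1 + (y - y') / y') := by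
    have e1 : Real.exp (-y') - Real.exp (-y) ≤ Real.exp (-y') * (y - y') := by
      have := mul_le_mul_of_nonneg_left
        (show 1 - (y - y') ≤ Real.exp (-(y - y')) by linarith [Real.add_one_le_exp (-(y - y'))])
        (Real.exp_pos (-y')).le
      rw [← Real.exp_add, show -y' + -(y - y') = -y by ring] at this
      linarith
    have e2 : Real.exp (-y') * (y - y') ≤ (1 - Real.exp (-y')) * ((y - y') / y') := by
      have h3 : Real.exp (-y') * y' ≤ 1 - Real.exp (-y') := by
        have := mul_le_mul_of_nonneg_left (show y' + 1 ≤ Real.exp y' from Real.add_one_le_exp y')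
          (Real.exp_pos (-y')).le
        rw [← Real.exp_add, neg_add_cancel, Real.exp_zero] at this
        linarith
      calc Real.exp (-y') * (y - y') = Real.exp (-y') * y' * ((y - y') / y') := by field_simp
        _ ≤ _ := mul_le_mul_of_nonneg_right h3 (div_nonneg (by linarith) hy.le)
    linarith
  have h5 : (1 + (y - y') / y') ≤ Real.exp ((y - y') / y') := by
    linarith [Real.add_one_le_exp ((y - y') / y')]
  refine le_of_mul_le_mul_right (h1.trans ?_) (show 0 < 1 - Real.exp (-y') by linarith)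
  calc gs M y * (1 - Real.exp (-y))
      ≤ gs M y * ((1 - Real.exp (-y')) * (1 + (y - y') / y')) := mul_le_mul_of_nonneg_left h2 hn
    _ ≤ gs M y * ((1 - Real.exp (-y')) * Real.exp ((y - y') / y')) :=
        mul_le_mul_of_nonneg_left (mul_le_mul_of_nonneg_left h5 (by linarith)) hn
    _ = _ := by ring

/-- The parameters of the mixture. -/
structure Par where
  P : ℕ
  K : ℕ
  M : ℕ
  σ₀ : ℝ
  h : ℝ
  T : ℝ
  σ₀_nonneg : 0 ≤ σ₀
  h_pos : 0 < h
  T_pos : 0 < T
  M_pos : 1 ≤ M
  P_pos : 1 ≤ P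

variable (π : Par)

/-- The index set of the mixture. -/
def Par.idx : Finset (Fin π.K → ℕ) := Fintype.piFinset fun _ => range π.M

/-- The exponent of a member of the mixture. -/
noncomputable def Par.tau (x : Fin π.K → ℕ) : ℝ := π.h * ∑ i, (x i : ℝ)

lemma Par.tau_nonneg (x : Fin π.K → ℕ) : 0 ≤ π.tau x :=
  mul_nonneg π.h_pos.le (sum_nonneg fun _ _ => Nat.cast_nonneg _)

lemma Par.tau_le {x : Fin π.K → ℕ} (hx : x ∈ π.idx) : π.tau x ≤ π.h * (π.K * π.M) := by
  refine mul_le_mul_of_nonneg_left ?_ π.h_pos.le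
  refine (sum_le_card_nsmul _ _ (π.M : ℝ) fun i _ => ?_).trans (le_of_eq (by simp))
  exact_mod_cast (mem_range.mp (Fintype.mem_piFinset.mp hx i)).le

/-- The coefficient of a member of the mixture. -/
noncomputable def Par.cw (x : Fin π.K → ℕ) : ℝ :=
  (∏ i, Real.exp (-(π.h * π.T) * (x i : ℝ))) / gs π.M (π.h * π.T) ^ π.K

lemma Par.cw_nonneg (x : Fin π.K → ℕ) : 0 ≤ π.cw x :=
  div_nonneg (prod_nonneg fun _ _ => (Real.exp_pos _).le)
    (pow_nonneg (gs_pos π.M_pos _).le _)

/-- The Laplace transform of the mixture. -/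
noncomputable def Par.lap (w : ℝ) : ℝ :=
  (gs π.M (π.h * (π.T + w)) / gs π.M (π.h * π.T)) ^ π.K

lemma Par.lap_eq (w : ℝ) : ∑ x ∈ π.idx, π.cw x * Real.exp (-(π.tau x * w)) = π.lap w := by
  rw [Par.lap, div_pow, gs, sum_pow', sum_div]
  refine sum_congr rfl fun x _ => ?_
  rw [Par.cw, div_mul_eq_mul_div]
  congr 1
  rw [Par.tau, mul_sum, sum_mul, ← sum_neg_distrib, Real.exp_sum, ← prod_mul_distrib]
  refine prod_congr rfl fun i _ => ?_
  rw [← Real.exp_add]; congr 1; ring

lemma Par.cw_sum : ∑ x ∈ π.idx, π.cw x = 1 := by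
  have h := π.lap_eq 0
  simp only [mul_zero, neg_zero, Real.exp_zero, mul_one] at h
  rw [h, Par.lap, add_zero, div_self (gs_pos π.M_pos _).ne', one_pow]

lemma Par.lap_le_one {w : ℝ} (hw : 0 ≤ w) : π.lap w ≤ 1 := by
  rw [← π.lap_eq, ← π.cw_sum]
  refine sum_le_sum fun x _ => mul_le_of_le_one_right (π.cw_nonneg x) ?_
  exact Real.exp_le_one_iff.mpr (by have := mul_nonneg (π.tau_nonneg x) hw; linarith)

lemma Par.lap_anti {w w' : ℝ} (hww : w ≤ w') : π.lap w' ≤ π.lap w := by
  rw [← π.lap_eq, ← π.lap_eq]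
  refine sum_le_sum fun x _ => mul_le_mul_of_nonneg_left (Real.exp_le_exp.mpr ?_) (π.cw_nonneg x)
  have := mul_le_mul_of_nonneg_left hww (π.tau_nonneg x)
  linarith

lemma Par.lap_shift {B κ : ℝ} (hB : 0 ≤ B) (hκ0 : 0 ≤ κ) (hκ : κ ≤ 1 / 2) :
    π.lap (B - κ * B) ≤ π.lap B * Real.exp (π.K * (2 * κ)) := by
  have hpos := gs_pos π.M_pos (π.h * π.T)
  have hT := π.T_pos
  have hh := π.h_pos
  have hκB : κ * B ≤ B / 2 := by nlinarith
  have hκB0 : 0 ≤ κ * B := mul_nonneg hκ0 hB
  have hy : 0 < π.h * (π.T + (B - κ * B)) := mul_pos hh (by linarith)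
  rw [Par.lap, Par.lap, Real.exp_nat_mul, ← mul_pow]
  refine pow_le_pow_left₀ (div_nonneg (gs_pos π.M_pos _).le hpos.le) ?_ _
  rw [div_mul_eq_mul_div]
  refine div_le_div_of_nonneg_right ((gs_shift π.M (y := π.h * (π.T + B)) hy
    (mul_le_mul_of_nonneg_left (by linarith) hh.le)).trans ?_) hpos.le
  refine mul_le_mul_of_nonneg_left (Real.exp_le_exp.mpr ?_) (gs_pos π.M_pos _).le
  rw [div_le_iff₀ hy]
  have h1 : κ * B ≤ 2 * κ * (π.T + (B - κ * B)) := by
    have := mul_le_mul_of_nonneg_left (show B / 2 ≤ π.T + (B - κ * B) by linarith)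
      (show 0 ≤ 2 * κ by linarith)
    linarith
  have := mul_le_mul_of_nonneg_left h1 hh.le
  linarith

lemma Par.lap_le {w : ℝ} (hw : 0 < w) (hM : 1 ≤ π.h * π.T * π.M) (hhw : π.h * (π.T + w) ≤ 1) :
    π.lap w ≤ (4 * π.T / w) ^ π.K := by
  have hpos := gs_pos π.M_pos (π.h * π.T)
  have hT := π.T_pos
  have hh := π.h_pos
  refine pow_le_pow_left₀ (div_nonneg (gs_pos π.M_pos _).le hpos.le) ?_ _
  rw [div_le_iff₀ hpos]
  refine (gs_le π.M (mul_pos hh (by linarith))).trans ?_
  refine le_trans ?_ (mul_le_mul_of_nonneg_left (gs_ge π.M (mul_pos hh hT) hM) (by positivity))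
  have e : 4 * π.T / w * (1 / (2 * (π.h * π.T))) = 2 / (π.h * w) := by field_simp; ring
  rw [e]
  refine div_le_div₀ zero_le_two (by linarith) (mul_pos hh hw) ?_
  exact mul_le_mul_of_nonneg_left (by linarith) hh.le

/-- The exponents: `σ₀` at small primes, `τ` at large ones. -/
noncomputable def Par.sfun (τ : ℝ) (p : ℕ) : ℝ := if p ≤ π.P then π.σ₀ else τ

lemma Par.sfun_nonneg (x : Fin π.K → ℕ) (p : ℕ) : 0 ≤ π.sfun (π.tau x) p := by
  rw [Par.sfun]; split_ifs
  · exact π.σ₀_nonneg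
  · exact π.tau_nonneg x

/-- One member of the mixture. -/
noncomputable def Par.mem (x : Fin π.K → ℕ) : Dens sqp := sqL _ (π.sfun_nonneg x)

/-- The part of `q` made of small primes, measured additively. -/
noncomputable def Par.sml (e : ℕ → ℕ) (q : ℕ) : ℝ :=
  ∑ p ∈ q.primeFactors.filter (fun p => p ≤ π.P), (e (q.factorization p) : ℝ) * Real.log p

/-- The part of `q` made of large primes, measured additively. -/
noncomputable def Par.big (e : ℕ → ℕ) (q : ℕ) : ℝ :=
  ∑ p ∈ q.primeFactors.filter (fun p => ¬ p ≤ π.P), (e (q.factorization p) : ℝ) * Real.log p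

lemma Par.sml_nonneg (e : ℕ → ℕ) (q : ℕ) : 0 ≤ π.sml e q :=
  sum_nonneg fun p _ => mul_nonneg (Nat.cast_nonneg _) (Real.log_natCast_nonneg p)

lemma Par.big_nonneg (e : ℕ → ℕ) (q : ℕ) : 0 ≤ π.big e q :=
  sum_nonneg fun p _ => mul_nonneg (Nat.cast_nonneg _) (Real.log_natCast_nonneg p)

lemma Par.mulExt_eq (τ : ℝ) (e : ℕ → ℕ) (q : ℕ) :
    mulExt (fun p j => ρp (π.sfun τ p) p ^ e j) q
      = Real.exp (-(π.σ₀ * π.sml e q)) * Real.exp (-(τ * π.big e q)) := by
  rw [mulExt, Finsupp.prod, Nat.support_factorization,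
    ← prod_filter_mul_prod_filter_not q.primeFactors (fun p => p ≤ π.P), Par.sml, Par.big,
    mul_sum, mul_sum, ← sum_neg_distrib, ← sum_neg_distrib, Real.exp_sum, Real.exp_sum]
  congr 1
  all_goals
    refine prod_congr rfl fun p hp => ?_
    obtain ⟨h1, h2⟩ := mem_filter.mp hp
    have hp0 : (0 : ℝ) < p := by exact_mod_cast (Nat.prime_of_mem_primeFactors h1).pos
  · rw [Par.sfun, if_pos h2, ρp, ← Real.rpow_natCast, ← Real.rpow_mul hp0.le,
      Real.rpow_def_of_pos hp0]
    congr 1; ring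
  · rw [Par.sfun, if_neg h2, ρp, ← Real.rpow_natCast, ← Real.rpow_mul hp0.le,
      Real.rpow_def_of_pos hp0]
    congr 1; ring

lemma log_eq_sml_big {f : ℕ} : Real.log f = π.sml id f + π.big id f := by
  rw [Real.log_nat_eq_sum_factorization, Finsupp.sum, Nat.support_factorization,
    ← sum_filter_add_sum_filter_not f.primeFactors (fun p => p ≤ π.P)]
  rfl

/-- The mixed major-arc factor. -/
noncomputable def Par.mix (D q : ℕ) (a : ℤ) : ℂ :=
  ∑ x ∈ π.idx, ((π.cw x : ℝ) : ℂ) * major (π.mem x) D q a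

lemma cheb_sum (n : ℕ) :
    ∑ p ∈ (Icc 0 n).filter Nat.Prime, Real.log p / Real.sqrt p ≤ 3 * Real.sqrt n := by
  have hθ : ∀ n : ℕ, ∑ p ∈ (Icc 0 n).filter Nat.Prime, Real.log p ≤ Real.log 4 * n := fun n => by
    have h := Chebyshev.theta_le_log4_mul_x (x := (n : ℝ)) (Nat.cast_nonneg n)
    rwa [Chebyshev.theta_eq_sum_Icc, Nat.floor_natCast] at h
  have key : ∀ n : ℕ, ∑ p ∈ (Icc 0 n).filter Nat.Prime, Real.log p / Real.sqrt p ≤
      (∑ p ∈ (Icc 0 n).filter Nat.Prime, Real.log p) / Real.sqrt n + Real.log 4 * Real.sqrt n := by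
    intro n
    induction n with
    | zero => simp [sum_filter]
    | succ n ih =>
      have h4 : 0 ≤ Real.log 4 := Real.log_nonneg (by norm_num)
      rw [sum_filter] at ih ⊢
      rw [sum_filter] at ih ⊢
      rw [sum_Icc_succ_top (Nat.zero_le _), sum_Icc_succ_top (Nat.zero_le _)]
      set t := if (n + 1).Prime then Real.log ((n + 1 : ℕ) : ℝ) else 0 with ht
      have e : (if (n + 1).Prime then Real.log ((n + 1 : ℕ) : ℝ) / Real.sqrt ((n + 1 : ℕ) : ℝ) else 0)
          = t / Real.sqrt ((n + 1 : ℕ) : ℝ) := by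
        rw [ht]; split_ifs <;> simp
      rw [e, add_div]
      set S := ∑ x ∈ Icc 0 n, if x.Prime then Real.log (x : ℝ) else 0 with hS
      have hSn : S ≤ Real.log 4 * n := by
        have h := hθ n
        rw [sum_filter] at h
        exact h
      set r₁ := Real.sqrt ((n : ℕ) : ℝ) with hr₁
      set r₂ := Real.sqrt ((n + 1 : ℕ) : ℝ) with hr₂
      have hr12 : r₁ ≤ r₂ := Real.sqrt_le_sqrt (by exact_mod_cast n.le_succ)
      have hr2 : 0 < r₂ := Real.sqrt_pos.mpr (by positivity)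
      have hmain : S / r₁ - S / r₂ ≤ Real.log 4 * (r₂ - r₁) := by
        rcases Nat.eq_zero_or_pos n with h0 | h0
        · subst h0
          have : S = 0 := by simp [hS]
          rw [this]; simp only [zero_div, sub_zero]
          exact mul_nonneg h4 (by linarith)
        · have hr1 : 0 < r₁ := Real.sqrt_pos.mpr (by exact_mod_cast h0)
          have hsq : r₁ * r₁ = n := Real.mul_self_sqrt (Nat.cast_nonneg n)
          calc S / r₁ - S / r₂ = S * ((r₂ - r₁) / (r₁ * r₂)) := by field_simp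
            _ ≤ Real.log 4 * n * ((r₂ - r₁) / (r₁ * r₂)) :=
                mul_le_mul_of_nonneg_right hSn (div_nonneg (by linarith) (by positivity))
            _ = Real.log 4 * (r₂ - r₁) * (r₁ / r₂) := by rw [← hsq]; field_simp
            _ ≤ _ := mul_le_of_le_one_right (mul_nonneg h4 (by linarith))
                ((div_le_one hr2).mpr hr12)
      linarith
  refine (key n).trans ?_
  have h1 : (∑ p ∈ (Icc 0 n).filter Nat.Prime, Real.log p) / Real.sqrt n
      ≤ Real.log 4 * Real.sqrt n := by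
    rcases Nat.eq_zero_or_pos n with h0 | h0
    · subst h0; simp
    · rw [div_le_iff₀ (Real.sqrt_pos.mpr (by exact_mod_cast h0)), mul_assoc,
        Real.mul_self_sqrt (Nat.cast_nonneg n)]
      exact hθ n
  have h2 : Real.log 4 ≤ 3 / 2 := by
    have : Real.log 4 = 2 * Real.log 2 := by
      rw [show (4 : ℝ) = 2 ^ 2 by norm_num, Real.log_pow]; norm_num
    linarith [Real.log_two_lt_d9]
  have h3 := mul_le_mul_of_nonneg_right h2 (Real.sqrt_nonneg (n : ℝ))
  linarith

lemma sum_inv_sqrt (n : ℕ) : ∑ m ∈ Icc 1 n, (Real.sqrt m)⁻¹ ≤ 2 * Real.sqrt n := by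
  induction n with
  | zero => simp
  | succ n ih =>
    rw [sum_Icc_succ_top (by omega)]
    have h2 : 0 < Real.sqrt ((n + 1 : ℕ) : ℝ) := Real.sqrt_pos.mpr (by positivity)
    have e1 := Real.mul_self_sqrt (Nat.cast_nonneg (α := ℝ) n)
    have e2 := Real.mul_self_sqrt (Nat.cast_nonneg (α := ℝ) (n + 1))
    push_cast at h2 e2 ⊢
    have h3 : (Real.sqrt ((n : ℝ) + 1))⁻¹ ≤ 2 * (Real.sqrt ((n : ℝ) + 1) - Real.sqrt n) := by
      rw [inv_eq_one_div, div_le_iff₀ h2]
      nlinarith [mul_self_nonneg (Real.sqrt ((n : ℝ) + 1) - Real.sqrt n)]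
    linarith

theorem mix_cone {π : Par} (hσ4 : π.σ₀ ≤ 1 / 4) (hσP : π.σ₀ * Real.log π.P ≤ 1)
    (hτ4 : π.h * (π.K * π.M) ≤ 1 / 4) (hτP : π.h * (π.K * π.M) * Real.log π.P ≤ 1)
    (hσ : π.σ₀ * Real.sqrt π.P ≤ 1 / 1600) (hK : (π.K : ℝ) ≤ Real.sqrt π.P / 1600)
    (hP : 84 ≤ Real.sqrt π.P) {D q : ℕ} (hq : 1 ≤ q) (hqD : q ≤ D) {a : ℤ}
    (ha : IsCoprime a (q : ℤ)) :
    |(π.mix D q a).im| ≤ (π.mix D q a).re ∧ ‖π.mix D q a‖ ≤ 2 := by
  have hsP : 0 < Real.sqrt π.P := by linarith
  have hPR : (1 : ℝ) ≤ π.P := by exact_mod_cast π.P_pos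
  set κ := 42 / Real.sqrt π.P with hκdef
  have hκ0 : 0 ≤ κ := by positivity
  have hκ : κ ≤ 1 / 2 := by rw [hκdef, div_le_iff₀ hsP]; linarith
  set S := π.sml lev q with hS
  set B := π.big lev q with hB
  have hB0 : 0 ≤ B := π.big_nonneg _ _
  have hS0 : 0 ≤ S := π.sml_nonneg _ _
  have he1 : Real.exp 1 ≤ 3 := by linarith [Real.exp_one_lt_d9]
  have key : ∀ x ∈ π.idx, ‖major (π.mem x) D q a
      - ((Real.exp (-(π.σ₀ * S)) * Real.exp (-(π.tau x * B)) : ℝ) : ℂ)‖ ≤
      Real.exp (-(π.σ₀ * S)) * Real.exp (-(π.tau x * B)) *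
        (Real.exp (1 / 12) * Real.exp (π.tau x * (κ * B)) - 1) := by
    intro x hx
    have hτ0 := π.tau_nonneg x
    have hτ := π.tau_le hx
    have hs4 : ∀ p, π.sfun (π.tau x) p ≤ 1 / 4 := fun p => by
      rw [Par.sfun]; split_ifs <;> linarith
    have hnear := gsum_near_prod (π.mem x)
      (fun p => 14 * π.sfun (π.tau x) p * Real.log p * (p : ℝ) ^ π.sfun (π.tau x) p * rp p)
      (fun p i => ρp (π.sfun (π.tau x) p) p ^ lev i)
      (fun p i => by unfold ρp; positivity)
      (fun p i hp hi t ht => locS_sq _ (π.sfun_nonneg x) hp (hs4 p) hi t ht) q hq a ha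
    rw [π.mulExt_eq] at hnear
    rw [show major (π.mem x) D q a = gsum (π.mem x) q a by
      rw [major_eq _ hq, gsum, filter_true_of_mem (fun f hf => (Nat.divisor_le hf).trans hqD)]]
    refine hnear.trans (mul_le_mul_of_nonneg_left (sub_le_sub_right ?_ 1) (by positivity))
    rw [← Real.exp_add]
    refine Real.exp_le_exp.mpr ?_
    rw [← sum_filter_add_sum_filter_not q.primeFactors (fun p => p ≤ π.P)]
    refine add_le_add ?_ ?_
    · refine (sum_le_sum (g := fun p : ℕ => 42 * π.σ₀ * (Real.log p / Real.sqrt p))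
        fun p hp => ?_).trans ?_
      · obtain ⟨h1, h2⟩ := mem_filter.mp hp
        have hp1 : (1 : ℝ) ≤ p := by exact_mod_cast (Nat.prime_of_mem_primeFactors h1).one_lt.le
        rw [Par.sfun, if_pos h2]
        have hlog : 0 ≤ Real.log p := Real.log_nonneg hp1
        have hpe : (p : ℝ) ^ π.σ₀ ≤ 3 := by
          refine le_trans ?_ he1
          rw [Real.rpow_def_of_pos (by linarith)]
          refine Real.exp_le_exp.mpr (le_trans ?_ hσP)
          rw [mul_comm]
          exact mul_le_mul_of_nonneg_left (Real.log_le_log (by linarith) (by exact_mod_cast h2))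
            π.σ₀_nonneg
        rw [rp, div_eq_mul_inv]
        have h3 := π.σ₀_nonneg
        calc 14 * π.σ₀ * Real.log p * (p : ℝ) ^ π.σ₀ * (Real.sqrt p)⁻¹
            ≤ 14 * π.σ₀ * Real.log p * 3 * (Real.sqrt p)⁻¹ :=
              mul_le_mul_of_nonneg_right (mul_le_mul_of_nonneg_left hpe (by positivity)) (by positivity)
          _ = _ := by ring
      · rw [← mul_sum]
        refine (mul_le_mul_of_nonneg_left (le_trans (sum_le_sum_of_subset_of_nonneg (fun p hp => ?_)
          fun p _ _ => by positivity) (cheb_sum π.P)) (by linarith [π.σ₀_nonneg])).trans ?_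
        · obtain ⟨h1, h2⟩ := mem_filter.mp hp
          exact mem_filter.mpr ⟨mem_Icc.mpr ⟨Nat.zero_le _, h2⟩, Nat.prime_of_mem_primeFactors h1⟩
        · linarith
    · rw [hB, Par.big, ← mul_assoc, mul_sum]
      refine sum_le_sum fun p hp => ?_
      obtain ⟨h1, h2⟩ := mem_filter.mp hp
      have hpp := Nat.prime_of_mem_primeFactors h1
      have hpP : (π.P : ℝ) ≤ p := by exact_mod_cast (Nat.le_of_not_le h2)
      rw [Par.sfun, if_neg h2]
      have hp1 : (1 : ℝ) ≤ p := by linarith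
      have hlog : 0 ≤ Real.log p := Real.log_nonneg hp1
      have hlev : (1 : ℝ) ≤ (lev (q.factorization p) : ℝ) := by
        have : 1 ≤ q.factorization p :=
          hpp.factorization_pos_of_dvd (by omega) (Nat.dvd_of_mem_primeFactors h1)
        exact_mod_cast (show 1 ≤ lev (q.factorization p) by unfold lev; omega)
      have hpe : (p : ℝ) ^ π.tau x * rp p ≤ 3 / Real.sqrt π.P := by
        calc (p : ℝ) ^ π.tau x * rp p = (p : ℝ) ^ (π.tau x - 1 / 2) := by
              rw [rp, Real.sqrt_eq_rpow, ← Real.rpow_neg (by linarith),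
                ← Real.rpow_add (by linarith)]
              congr 1
          _ ≤ (π.P : ℝ) ^ (π.tau x - 1 / 2) :=
              Real.rpow_le_rpow_of_nonpos (by linarith) hpP (by linarith)
          _ = (π.P : ℝ) ^ π.tau x / Real.sqrt π.P := by
              rw [Real.sqrt_eq_rpow, Real.rpow_sub (by linarith)]
          _ ≤ 3 / Real.sqrt π.P := by
              refine div_le_div_of_nonneg_right (le_trans ?_ he1) hsP.le
              rw [Real.rpow_def_of_pos (by linarith)]
              refine Real.exp_le_exp.mpr (le_trans ?_ hτP)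
              rw [mul_comm]
              exact mul_le_mul_of_nonneg_right hτ (Real.log_nonneg hPR)
      calc 14 * π.tau x * Real.log p * (p : ℝ) ^ π.tau x * rp p
          = 14 * π.tau x * Real.log p * ((p : ℝ) ^ π.tau x * rp p) := by ring
        _ ≤ 14 * π.tau x * Real.log p * (3 / Real.sqrt π.P) :=
            mul_le_mul_of_nonneg_left hpe (by positivity)
        _ = π.tau x * κ * (1 * Real.log p) := by rw [hκdef]; ring
        _ ≤ _ := mul_le_mul_of_nonneg_left (mul_le_mul_of_nonneg_right hlev hlog) (by positivity)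
  set R₀ := Real.exp (-(π.σ₀ * S)) with hR₀
  set R := R₀ * π.lap B with hR
  have hR₀1 : R₀ ≤ 1 := Real.exp_le_one_iff.mpr (by
    have := mul_nonneg π.σ₀_nonneg hS0; linarith)
  have hlap0 : 0 ≤ π.lap B := pow_nonneg (div_nonneg (gs_pos π.M_pos _).le (gs_pos π.M_pos _).le) _
  have hR0 : 0 ≤ R := mul_nonneg (Real.exp_pos _).le hlap0
  have hR1 : R ≤ 1 := mul_le_one₀ hR₀1 hlap0 (π.lap_le_one hB0)
  have e1 : ((R : ℝ) : ℂ) = ∑ x ∈ π.idx, ((π.cw x : ℝ) : ℂ) *
      ((R₀ * Real.exp (-(π.tau x * B)) : ℝ) : ℂ) := by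
    rw [hR, ← π.lap_eq, mul_sum, Complex.ofReal_sum]
    refine sum_congr rfl fun x _ => ?_
    push_cast; ring
  have hd : ‖π.mix D q a - (R : ℂ)‖ ≤ R / 2 := by
    rw [Par.mix, e1, ← sum_sub_distrib]
    refine (norm_sum_le _ _).trans ?_
    refine le_trans (sum_le_sum (g := fun x => R₀ * (Real.exp (1 / 12) *
      (π.cw x * Real.exp (-(π.tau x * (B - κ * B))))) - R₀ * (π.cw x * Real.exp (-(π.tau x * B))))
      fun x hx => ?_) ?_
    · rw [← mul_sub, norm_mul, Complex.norm_real, Real.norm_eq_abs, abs_of_nonneg (π.cw_nonneg x)]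
      refine (mul_le_mul_of_nonneg_left (key x hx) (π.cw_nonneg x)).trans (le_of_eq ?_)
      rw [show Real.exp (-(π.tau x * (B - κ * B)))
        = Real.exp (-(π.tau x * B)) * Real.exp (π.tau x * (κ * B)) by
        rw [← Real.exp_add]; congr 1; ring]
      rw [hR₀]; ring
    · rw [sum_sub_distrib, ← mul_sum, ← mul_sum, ← mul_sum, π.lap_eq, π.lap_eq, hR]
      have h1 := π.lap_shift hB0 hκ0 hκ
      have h2 : Real.exp ((π.K : ℝ) * (2 * κ)) ≤ Real.exp (1 / 12) := by
        refine Real.exp_le_exp.mpr ?_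
        calc (π.K : ℝ) * (2 * κ) ≤ Real.sqrt π.P / 1600 * (2 * κ) :=
              mul_le_mul_of_nonneg_right hK (by positivity)
          _ = 84 / 1600 := by rw [hκdef]; field_simp; ring
          _ ≤ _ := by norm_num
      have h3 : Real.exp (1 / 12) * Real.exp (1 / 12) ≤ 3 / 2 := by
        rw [← Real.exp_add]; exact (Real.exp_le_exp.mpr (by norm_num)).trans exp_third
      have h4 : Real.exp (1 / 12) * π.lap (B - κ * B) ≤ π.lap B * (3 / 2) := by
        calc Real.exp (1 / 12) * π.lap (B - κ * B)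
            ≤ Real.exp (1 / 12) * (π.lap B * Real.exp (1 / 12)) :=
              mul_le_mul_of_nonneg_left (h1.trans (mul_le_mul_of_nonneg_left h2 hlap0))
                (Real.exp_pos _).le
          _ = π.lap B * (Real.exp (1 / 12) * Real.exp (1 / 12)) := by ring
          _ ≤ _ := mul_le_mul_of_nonneg_left h3 hlap0
      have h5 := mul_le_mul_of_nonneg_left h4 (Real.exp_pos (-(π.σ₀ * S))).le
      rw [← hR₀] at h5
      linarith
  have h1 := (Complex.abs_im_le_norm _).trans hd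
  have h2 := abs_le.mp ((Complex.abs_re_le_norm _).trans hd)
  simp only [Complex.sub_im, Complex.ofReal_im, sub_zero] at h1
  simp only [Complex.sub_re, Complex.ofReal_re] at h2
  refine ⟨by linarith, ?_⟩
  have := norm_le_norm_sub_add (π.mix D q a) (R : ℂ)
  rw [Complex.norm_real, Real.norm_eq_abs, abs_of_nonneg hR0] at this
  linarith

theorem mix_tail {π : Par} {θ C : ℝ} (hCB : CB 2 θ C) (hM : 1 ≤ π.h * π.T * π.M)
    (hP2 : 2 ≤ π.P) {D q : ℕ} (hD : 2 ≤ D) (hDq : D ≤ q)
    (hhw : π.h * (π.T + θ / (4 * (1 + θ)) * Real.log D) ≤ 1) {a : ℤ} (ha : IsCoprime a (q : ℤ)) :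
    ‖π.mix D q a‖ ≤ C * (D : ℝ) ^ (-(θ / 2)) +
      (Real.exp (-(π.σ₀ * (θ / (4 * (1 + θ)) / 2 * Real.log D)))
        + (4 * π.T / (θ / (4 * (1 + θ)) / 2 * Real.log D)) ^ π.K) *
      Real.exp (20 * (2 * Real.sqrt π.P + Real.log q / (Real.log π.P * Real.sqrt π.P))) := by
  obtain ⟨hθ, hC, -⟩ := id hCB
  have hDR : (2 : ℝ) ≤ D := by exact_mod_cast hD
  have hq : 1 ≤ q := by omega
  set κ := θ / (4 * (1 + θ)) with hκ
  have hκ0 : 0 < κ := by positivity
  set Λ := Real.log (D : ℝ) with hΛ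
  have hΛ0 : 0 < Λ := Real.log_pos (by linarith)
  set W := (D : ℝ) ^ κ with hW
  have hW1 : 1 ≤ W := Real.one_le_rpow (by linarith) hκ0.le
  set ε₂ := Real.exp (-(π.σ₀ * (κ / 2 * Λ))) + (4 * π.T / (κ / 2 * Λ)) ^ π.K with hε₂
  set Φ : ℕ → ℝ := fun f => Real.exp (-(π.σ₀ * π.sml id f)) * π.lap (π.big id f) with hΦ
  have hlap0 : ∀ w, 0 ≤ π.lap w := fun w =>
    pow_nonneg (div_nonneg (gs_pos π.M_pos _).le (gs_pos π.M_pos _).le) _
  have hexp1 : ∀ f, Real.exp (-(π.σ₀ * π.sml id f)) ≤ 1 := fun f => Real.exp_le_one_iff.mpr (by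
    have := mul_nonneg π.σ₀_nonneg (π.sml_nonneg id f); linarith)
  have hmix : π.mix D q a = ∑ f ∈ q.divisors.filter (fun f => f ≤ D),
      ((Φ f : ℝ) : ℂ) * term sqL₀ q f a := by
    simp only [Par.mix, major_eq _ hq, mul_sum]
    rw [sum_comm]
    refine sum_congr rfl fun f _ => ?_
    simp only [hΦ, Par.mem, term_sqL, ← mul_assoc, ← sum_mul]
    congr 1
    rw [← π.lap_eq, mul_sum, Complex.ofReal_sum]
    refine sum_congr rfl fun x _ => ?_
    rw [rho, π.mulExt_eq _ (fun j => j)]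
    push_cast; simp [Function.id_def]; ring
  rw [hmix]
  refine (norm_sum_le _ _).trans ?_
  rw [← sum_filter_add_sum_filter_not (q.divisors.filter (fun f => f ≤ D))
    (fun f : ℕ => (f : ℝ) ≤ W)]
  have hnorm : ∀ f, ‖((Φ f : ℝ) : ℂ) * term sqL₀ q f a‖ = Φ f * ‖term sqL₀ q f a‖ := fun f => by
    rw [norm_mul, Complex.norm_real, Real.norm_eq_abs,
      abs_of_nonneg (mul_nonneg (Real.exp_pos _).le (hlap0 _))]
  simp only [hnorm]
  refine add_le_add ?_ ?_
  · set S := (q.divisors.filter (fun f => f ≤ D)).filter (fun f : ℕ => (f : ℝ) ≤ W) with hS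
    have hcard : (S.card : ℝ) ≤ W := by
      have h1 : S ⊆ Icc 1 ⌊W⌋₊ := fun f hf => by
        obtain ⟨h1, h2⟩ := mem_filter.mp hf
        exact mem_Icc.mpr ⟨Nat.pos_of_mem_divisors (mem_filter.mp h1).1, Nat.le_floor h2⟩
      have h2 := card_le_card h1
      rw [Nat.card_Icc, Nat.add_sub_cancel] at h2
      exact le_trans (by exact_mod_cast h2) (Nat.floor_le (by linarith))
    have hdeg : sqp.natDegree = 2 := by simp [sqp]
    have hlc : sqp.leadingCoeff = 1 := by simp [sqp]
    refine (sum_le_card_nsmul _ _ (W * (C * ((W ^ 2) / D) ^ θ)) fun f hf => ?_).trans ?_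
    · obtain ⟨h1, h2⟩ := mem_filter.mp hf
      have hfq := Nat.dvd_of_mem_divisors (mem_filter.mp h1).1
      refine (mul_le_of_le_one_left (norm_nonneg _)
        (mul_le_one₀ (hexp1 f) (hlap0 _) (π.lap_le_one (π.big_nonneg _ _)))).trans ?_
      refine (term_weyl sqL₀ hCB (by norm_num) hdeg hq hfq ha).trans ?_
      refine mul_le_mul h2 (mul_le_mul_of_nonneg_left ?_ (by linarith)) (by positivity) (by linarith)
      refine Real.rpow_le_rpow (by positivity) ?_ hθ.le
      rw [hlc]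
      push_cast
      simp only [one_mul]
      refine div_le_div₀ (by positivity) (pow_le_pow_left₀ (Nat.cast_nonneg f) h2 2) (by linarith)
        (by exact_mod_cast hDq)
    rw [nsmul_eq_mul]
    refine (mul_le_mul_of_nonneg_right hcard (by positivity)).trans (le_of_eq ?_)
    have e1 : W * W * (W ^ 2) ^ θ = (D : ℝ) ^ (θ / 2) := by
      rw [hW, ← Real.rpow_natCast ((D : ℝ) ^ κ) 2, ← Real.rpow_mul (by linarith),
        ← Real.rpow_mul (by linarith), ← Real.rpow_add (by linarith), ← Real.rpow_add (by linarith)]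
      congr 1
      rw [hκ]; field_simp
      ring
    rw [Real.div_rpow (by positivity) (by linarith), Real.rpow_neg (by linarith)]
    have e2 : (D : ℝ) ^ θ = (D : ℝ) ^ (θ / 2) * (D : ℝ) ^ (θ / 2) := by
      rw [← Real.rpow_add (by linarith)]; congr 1; ring
    rw [show W * (W * (C * ((W ^ 2) ^ θ / (D : ℝ) ^ θ)))
      = (W * W * (W ^ 2) ^ θ) * C / (D : ℝ) ^ θ by ring, e1, e2]
    field_simp
  · have hε₂0 : 0 ≤ ε₂ := add_nonneg (Real.exp_pos _).le
      (pow_nonneg (div_nonneg (mul_nonneg (by norm_num) π.T_pos.le)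
        (mul_nonneg (by linarith) hΛ0.le)) _)
    refine le_trans (sum_le_sum (g := fun f => ε₂ * ‖term sqL₀ q f a‖) fun f hf => ?_) ?_
    · obtain ⟨h1, h2⟩ := mem_filter.mp hf
      refine mul_le_mul_of_nonneg_right ?_ (norm_nonneg _)
      have hlogf : κ * Λ ≤ π.sml id f + π.big id f := by
        rw [← log_eq_sml_big, hΛ, ← Real.log_rpow (by linarith)]
        exact Real.log_le_log (by positivity) (not_le.mp h2).le
      rcases le_total (κ / 2 * Λ) (π.sml id f) with h | h
      · refine le_trans (mul_le_of_le_one_right (Real.exp_pos _).le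
          (π.lap_le_one (π.big_nonneg _ _))) (le_trans (Real.exp_le_exp.mpr ?_)
            (le_add_of_nonneg_right ?_))
        · linarith [mul_le_mul_of_nonneg_left h π.σ₀_nonneg]
        · exact pow_nonneg (div_nonneg (mul_nonneg (by norm_num) π.T_pos.le) (by positivity)) _
      · refine le_trans (mul_le_of_le_one_left (hlap0 _) (hexp1 f))
          (le_trans ?_ (le_add_of_nonneg_left (Real.exp_pos _).le))
        refine (π.lap_anti (show κ / 2 * Λ ≤ π.big id f by linarith)).trans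
          (π.lap_le (by positivity) hM (le_trans ?_ hhw))
        refine mul_le_mul_of_nonneg_left (add_le_add le_rfl ?_) π.h_pos.le
        have : 0 ≤ κ * Λ := by positivity
        linarith
    rw [← mul_sum]
    refine mul_le_mul_of_nonneg_left ?_ hε₂0
    refine le_trans (sum_le_sum_of_subset_of_nonneg ((filter_subset _ _).trans (filter_subset _ _))
      fun _ _ _ => norm_nonneg _) ?_
    have h1 := absSum_bound sqL₀ 0 (fun p => Real.exp (20 * rp p)) (fun p => (Real.exp_pos _).le)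
      (fun p i hp hi t ht => absSum_sq hp hi t ht) q hq a ha
    simp only [absSum, Real.rpow_zero, mul_one] at h1
    refine h1.trans ?_
    rw [← Real.exp_sum, ← mul_sum]
    refine Real.exp_le_exp.mpr (mul_le_mul_of_nonneg_left ?_ (by norm_num))
    rw [← sum_filter_add_sum_filter_not q.primeFactors (fun p => p ≤ π.P)]
    have hlP : 0 < Real.log π.P := Real.log_pos (by exact_mod_cast hP2)
    have hsP : 0 < Real.sqrt π.P := Real.sqrt_pos.mpr (by exact_mod_cast π.P_pos)
    refine add_le_add (le_trans (sum_le_sum_of_subset_of_nonneg (fun p hp => ?_)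
      fun p _ _ => rp_nonneg p) (sum_inv_sqrt π.P)) ?_
    · obtain ⟨h1, h2⟩ := mem_filter.mp hp
      exact mem_Icc.mpr ⟨(Nat.prime_of_mem_primeFactors h1).one_lt.le, h2⟩
    · rw [le_div_iff₀ (by positivity), sum_mul,
        Real.log_nat_eq_sum_factorization q, Finsupp.sum, Nat.support_factorization]
      refine le_trans (sum_le_sum fun p hp => ?_)
        (sum_le_sum_of_subset_of_nonneg (filter_subset _ _) fun p _ _ => mul_nonneg
          (Nat.cast_nonneg _) (Real.log_natCast_nonneg p))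
      obtain ⟨h1, h2⟩ := mem_filter.mp hp
      have hpp := Nat.prime_of_mem_primeFactors h1
      have hpP : (π.P : ℝ) ≤ p := by exact_mod_cast (Nat.le_of_not_le h2)
      have hv : (1 : ℝ) ≤ (q.factorization p : ℝ) := by
        exact_mod_cast hpp.factorization_pos_of_dvd (by omega) (Nat.dvd_of_mem_primeFactors h1)
      have hP1 : (0 : ℝ) < π.P := by exact_mod_cast π.P_pos
      calc rp p * (Real.log π.P * Real.sqrt π.P)
          = (Real.sqrt π.P / Real.sqrt p) * Real.log π.P := by rw [rp]; ring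
        _ ≤ 1 * Real.log p := by
            refine mul_le_mul ((div_le_one (Real.sqrt_pos.mpr (by linarith))).mpr
              (Real.sqrt_le_sqrt hpP)) (Real.log_le_log hP1 hpP) hlP.le zero_le_one
        _ ≤ _ := mul_le_mul_of_nonneg_right hv (Real.log_natCast_nonneg p)

end Vale.Agent.P042.Gen.Sq
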