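import Vale.Agent.P042.WLocal
import Vale.Agent.P042.SqMix

/-! The mixture of densities for an arbitrary intersective polynomial. -/

namespace Vale.Agent.P042.Gen.Mid

open Finset Polynomial
open Sq (Par rp rp_nonneg cheb_sum sum_inv_sqrt gsum_near_prod mulExt rho gs gs_pos log_eq_sml_big)

variable {h : ℤ[X]} (L : Loc h)

/-- One member of the mixture. -/
noncomputable def memW (π : Par) (x : Fin π.K → ℕ) : Dens h := L.den _ (π.sfun_nonneg x)

/-- The level-weighted small-prime part of `q`. -/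
noncomputable def smlW (π : Par) (q : ℕ) : ℝ :=
  ∑ p ∈ q.primeFactors.filter (fun p => p ≤ π.P),
    (lev (L.e p) (q.factorization p) : ℝ) * Real.log p

/-- The level-weighted large-prime part of `q`. -/
noncomputable def bigW (π : Par) (q : ℕ) : ℝ :=
  ∑ p ∈ q.primeFactors.filter (fun p => ¬ p ≤ π.P),
    (lev (L.e p) (q.factorization p) : ℝ) * Real.log p

lemma smlW_nonneg (π : Par) (q : ℕ) : 0 ≤ smlW L π q :=
  sum_nonneg fun p _ => mul_nonneg (Nat.cast_nonneg _) (Real.log_natCast_nonneg p)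

lemma bigW_nonneg (π : Par) (q : ℕ) : 0 ≤ bigW L π q :=
  sum_nonneg fun p _ => mul_nonneg (Nat.cast_nonneg _) (Real.log_natCast_nonneg p)

lemma mulExtW_eq (π : Par) (τ : ℝ) (q : ℕ) :
    mulExt (fun p j => ρp (π.sfun τ p) p ^ lev (L.e p) j) q
      = Real.exp (-(π.σ₀ * smlW L π q)) * Real.exp (-(τ * bigW L π q)) := by
  rw [mulExt, Finsupp.prod, Nat.support_factorization,
    ← prod_filter_mul_prod_filter_not q.primeFactors (fun p => p ≤ π.P), smlW, bigW,
    mul_sum, mul_sum, ← sum_neg_distrib, ← sum_neg_distrib, Real.exp_sum, Real.exp_sum]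
  congr 1
  all_goals
    refine prod_congr rfl fun p hp => ?_
    obtain ⟨h1, h2⟩ := mem_filter.mp hp
    have hp0 : (0 : ℝ) < p := by exact_mod_cast (Nat.prime_of_mem_primeFactors h1).pos
  · rw [Par.sfun, if_pos h2, ρp, ← Real.rpow_natCast, ← Real.rpow_mul hp0.le,
      Real.rpow_def_of_pos hp0]
    congr 1; ring
  · rw [Par.sfun, if_neg h2, ρp, ← Real.rpow_natCast, ← Real.rpow_mul hp0.le,
      Real.rpow_def_of_pos hp0]
    congr 1; ring

/-- The mixed major-arc factor. -/
noncomputable def mixW (π : Par) (D q : ℕ) (a : ℤ) : ℂ :=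
  ∑ x ∈ π.idx, ((π.cw x : ℝ) : ℂ) * major (memW L π x) D q a

theorem mix_cone {π : Par} (hσ4 : π.σ₀ ≤ L.η / 2) (hσP : π.σ₀ * Real.log π.P ≤ 1)
    (hτ4 : π.h * (π.K * π.M) ≤ L.η / 2) (hτP : π.h * (π.K * π.M) * Real.log π.P ≤ 1)
    (hσ : π.σ₀ * Real.sqrt π.P ≤ 1 / (1600 * L.cst₀))
    (hK : (π.K : ℝ) ≤ Real.sqrt π.P / (1600 * L.cst₀))
    (hP : 84 * L.cst₀ ≤ Real.sqrt π.P) (hP₀ : L.p₀ ≤ π.P)
    (hσ₁ : π.σ₀ * (L.cst₁ * (9 * Real.sqrt L.p₀)) ≤ 1 / 24) {D q : ℕ} (hq : 1 ≤ q) (hqD : q ≤ D) {a : ℤ}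
    (ha : IsCoprime a (q : ℤ)) :
    |(mixW L π D q a).im| ≤ (mixW L π D q a).re ∧ ‖mixW L π D q a‖ ≤ 2 := by
  have hc1 := L.one_le_cst₀
  have hsP : 0 < Real.sqrt π.P := by linarith
  have hPR : (1 : ℝ) ≤ π.P := by exact_mod_cast π.P_pos
  set κ := 3 * L.cst₀ / Real.sqrt π.P with hκdef
  have hκ0 : 0 ≤ κ := by positivity
  have hκ : κ ≤ 1 / 2 := by rw [hκdef, div_le_iff₀ hsP]; linarith
  set S := smlW L π q with hS
  set B := bigW L π q with hB
  have hB0 : 0 ≤ B := bigW_nonneg L π q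
  have hS0 : 0 ≤ S := smlW_nonneg L π q
  have he1 : Real.exp 1 ≤ 3 := by linarith [Real.exp_one_lt_d9]
  have key : ∀ x ∈ π.idx, ‖major (memW L π x) D q a
      - ((Real.exp (-(π.σ₀ * S)) * Real.exp (-(π.tau x * B)) : ℝ) : ℂ)‖ ≤
      Real.exp (-(π.σ₀ * S)) * Real.exp (-(π.tau x * B)) *
        (Real.exp (1 / 12) * Real.exp (π.tau x * (κ * B)) - 1) := by
    intro x hx
    have hτ0 := π.tau_nonneg x
    have hτ := π.tau_le hx
    have hs4 : ∀ p, π.sfun (π.tau x) p ≤ L.η / 2 := fun p => by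
      rw [Par.sfun]; split_ifs <;> linarith
    have hnear := gsum_near_prod (memW L π x)
      (fun p => L.cst p * π.sfun (π.tau x) p * Real.log p * (p : ℝ) ^ π.sfun (π.tau x) p * rp p)
      (fun p i => ρp (π.sfun (π.tau x) p) p ^ Mid.lev (L.e p) i)
      (fun p i => by unfold ρp; positivity)
      (fun p i hp hi t ht => L.locS_bound _ (π.sfun_nonneg x) hp (hs4 p) hi t ht) q hq a ha
    rw [mulExtW_eq] at hnear
    rw [show major (memW L π x) D q a = gsum (memW L π x) q a by
      rw [major_eq _ hq, gsum, filter_true_of_mem (fun f hf => (Nat.divisor_le hf).trans hqD)]]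
    refine hnear.trans (mul_le_mul_of_nonneg_left (sub_le_sub_right ?_ 1) (by positivity))
    rw [← Real.exp_add]
    refine Real.exp_le_exp.mpr ?_
    rw [← sum_filter_add_sum_filter_not q.primeFactors (fun p => p ≤ π.P)]
    refine add_le_add ?_ ?_
    · refine (sum_le_sum (g := fun p : ℕ => 3 * π.σ₀ * L.cst₀ * (Real.log p / Real.sqrt p)
          + 3 * π.σ₀ * L.cst₁ * (if p ≤ L.p₀ then Real.log p / Real.sqrt p else 0))
        fun p hp => ?_).trans ?_
      · obtain ⟨h1, h2⟩ := mem_filter.mp hp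
        have hp1 : (1 : ℝ) ≤ p := by exact_mod_cast (Nat.prime_of_mem_primeFactors h1).one_lt.le
        rw [Par.sfun, if_pos h2]
        have hlog : 0 ≤ Real.log p := Real.log_nonneg hp1
        have hpe : (p : ℝ) ^ π.σ₀ ≤ 3 := by
          refine le_trans ?_ he1
          rw [Real.rpow_def_of_pos (by linarith)]
          refine Real.exp_le_exp.mpr (le_trans ?_ hσP)
          rw [mul_comm]
          exact mul_le_mul_of_nonneg_left (Real.log_le_log (by linarith) (by exact_mod_cast h2))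
            π.σ₀_nonneg
        rw [rp]
        have h3 := π.σ₀_nonneg
        have hcp := L.one_le_cst p
        refine le_trans (le_trans (mul_le_mul_of_nonneg_right (mul_le_mul_of_nonneg_left hpe
          (by positivity)) (by positivity)) (le_of_eq (show L.cst p * π.σ₀ * Real.log p * 3
            * (Real.sqrt p)⁻¹ = 3 * π.σ₀ * L.cst p * (Real.log p / Real.sqrt p) by ring))) ?_
        by_cases h4 : p ≤ L.p₀
        · rw [if_pos h4]
          have h5 : L.cst p ≤ L.cst₀ + L.cst₁ := (L.cst_le p).trans (by linarith [L.one_le_cst₀])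
          have := mul_le_mul_of_nonneg_left h5
            (show 0 ≤ 3 * π.σ₀ * (Real.log p / Real.sqrt p) by positivity)
          linarith
        · rw [if_neg h4, mul_zero, add_zero, L.cst_big (Nat.lt_of_not_le h4)]
      · rw [sum_add_distrib, ← mul_sum, ← mul_sum, ← sum_filter]
        have h3 := π.σ₀_nonneg
        have hsum : ∀ n : ℕ, ∀ T : Finset ℕ, (∀ p ∈ T, p.Prime ∧ p ≤ n) →
            ∑ p ∈ T, Real.log p / Real.sqrt p ≤ 3 * Real.sqrt n := fun n T hT =>
          le_trans (sum_le_sum_of_subset_of_nonneg (fun p hp =>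
            mem_filter.mpr ⟨mem_Icc.mpr ⟨Nat.zero_le _, (hT p hp).2⟩, (hT p hp).1⟩)
            fun p _ _ => by positivity) (cheb_sum n)
        have t1 := mul_le_mul_of_nonneg_left (hsum π.P
          (q.primeFactors.filter (fun p => p ≤ π.P)) fun p hp =>
            ⟨Nat.prime_of_mem_primeFactors (mem_filter.mp hp).1, (mem_filter.mp hp).2⟩)
          (show 0 ≤ 3 * π.σ₀ * L.cst₀ by have := L.one_le_cst₀; positivity)
        have t2 := mul_le_mul_of_nonneg_left (hsum L.p₀
          ((q.primeFactors.filter (fun p => p ≤ π.P)).filter (fun p => p ≤ L.p₀)) fun p hp =>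
            ⟨Nat.prime_of_mem_primeFactors (mem_filter.mp (mem_filter.mp hp).1).1,
              (mem_filter.mp hp).2⟩)
          (show 0 ≤ 3 * π.σ₀ * L.cst₁ by
            have := L.one_le_cst₁; positivity)
        have t3 : 3 * π.σ₀ * L.cst₀ * (3 * Real.sqrt π.P) ≤ 1 / 24 := by
          calc 3 * π.σ₀ * L.cst₀ * (3 * Real.sqrt π.P) = 9 * L.cst₀ * (π.σ₀ * Real.sqrt π.P) := by ring
            _ ≤ 9 * L.cst₀ * (1 / (1600 * L.cst₀)) :=
              mul_le_mul_of_nonneg_left hσ (by linarith [L.one_le_cst₀])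
            _ = 9 / 1600 := by field_simp
            _ ≤ 1 / 24 := by norm_num
        linarith
    · rw [hB, bigW, ← mul_assoc, mul_sum]
      refine sum_le_sum fun p hp => ?_
      obtain ⟨h1, h2⟩ := mem_filter.mp hp
      have hpp := Nat.prime_of_mem_primeFactors h1
      have hpP : (π.P : ℝ) ≤ p := by exact_mod_cast (Nat.le_of_not_le h2)
      rw [Par.sfun, if_neg h2, L.cst_big (show L.p₀ < p by omega)]
      have hp1 : (1 : ℝ) ≤ p := by linarith
      have hlog : 0 ≤ Real.log p := Real.log_nonneg hp1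
      have hlev : (1 : ℝ) ≤ (Mid.lev (L.e p) (q.factorization p) : ℝ) := by
        have : 1 ≤ q.factorization p :=
          hpp.factorization_pos_of_dvd (by omega) (Nat.dvd_of_mem_primeFactors h1)
        exact_mod_cast (lev_spec (L.e_pos p hpp) this).1
      have hpe : (p : ℝ) ^ π.tau x * rp p ≤ 3 / Real.sqrt π.P := by
        calc (p : ℝ) ^ π.tau x * rp p = (p : ℝ) ^ (π.tau x - 1 / 2) := by
              rw [rp, Real.sqrt_eq_rpow, ← Real.rpow_neg (by linarith),
                ← Real.rpow_add (by linarith)]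
              congr 1
          _ ≤ (π.P : ℝ) ^ (π.tau x - 1 / 2) :=
              Real.rpow_le_rpow_of_nonpos (by linarith) hpP (by
                refine sub_nonpos.mpr ?_
                have := hτ4
                linarith [L.η_le])
          _ = (π.P : ℝ) ^ π.tau x / Real.sqrt π.P := by
              rw [Real.sqrt_eq_rpow, Real.rpow_sub (by linarith)]
          _ ≤ 3 / Real.sqrt π.P := by
              refine div_le_div_of_nonneg_right (le_trans ?_ he1) hsP.le
              rw [Real.rpow_def_of_pos (by linarith)]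
              refine Real.exp_le_exp.mpr (le_trans ?_ hτP)
              rw [mul_comm]
              exact mul_le_mul_of_nonneg_right hτ (Real.log_nonneg hPR)
      calc L.cst₀ * π.tau x * Real.log p * (p : ℝ) ^ π.tau x * rp p
          = L.cst₀ * π.tau x * Real.log p * ((p : ℝ) ^ π.tau x * rp p) := by ring
        _ ≤ L.cst₀ * π.tau x * Real.log p * (3 / Real.sqrt π.P) :=
            mul_le_mul_of_nonneg_left hpe (by positivity)
        _ = π.tau x * κ * (1 * Real.log p) := by rw [hκdef]; ring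
        _ ≤ _ := mul_le_mul_of_nonneg_left (mul_le_mul_of_nonneg_right hlev hlog) (by positivity)
  set R₀ := Real.exp (-(π.σ₀ * S)) with hR₀
  set R := R₀ * π.lap B with hR
  have hR₀1 : R₀ ≤ 1 := Real.exp_le_one_iff.mpr (by
    have := mul_nonneg π.σ₀_nonneg hS0; linarith)
  have hlap0 : 0 ≤ π.lap B := pow_nonneg (div_nonneg (gs_pos π.M_pos _).le (gs_pos π.M_pos _).le) _
  have hR0 : 0 ≤ R := mul_nonneg (Real.exp_pos _).le hlap0
  have hR1 : R ≤ 1 := mul_le_one₀ hR₀1 hlap0 (π.lap_le_one hB0)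
  have e1 : ((R : ℝ) : ℂ) = ∑ x ∈ π.idx, ((π.cw x : ℝ) : ℂ) *
      ((R₀ * Real.exp (-(π.tau x * B)) : ℝ) : ℂ) := by
    rw [hR, ← π.lap_eq, mul_sum, Complex.ofReal_sum]
    refine sum_congr rfl fun x _ => ?_
    push_cast; ring
  have hd : ‖mixW L π D q a - (R : ℂ)‖ ≤ R / 2 := by
    rw [mixW, e1, ← sum_sub_distrib]
    refine (norm_sum_le _ _).trans ?_
    refine le_trans (sum_le_sum (g := fun x => R₀ * (Real.exp (1 / 12) *
      (π.cw x * Real.exp (-(π.tau x * (B - κ * B))))) - R₀ * (π.cw x * Real.exp (-(π.tau x * B))))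
      fun x hx => ?_) ?_
    · rw [← mul_sub, norm_mul, Complex.norm_real, Real.norm_eq_abs, abs_of_nonneg (π.cw_nonneg x)]
      refine (mul_le_mul_of_nonneg_left (key x hx) (π.cw_nonneg x)).trans (le_of_eq ?_)
      rw [show Real.exp (-(π.tau x * (B - κ * B)))
        = Real.exp (-(π.tau x * B)) * Real.exp (π.tau x * (κ * B)) by
        rw [← Real.exp_add]; congr 1; ring]
      rw [hR₀]; ring
    · rw [sum_sub_distrib, ← mul_sum, ← mul_sum, ← mul_sum, π.lap_eq, π.lap_eq, hR]
      have h1 := π.lap_shift hB0 hκ0 hκ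
      have h2 : Real.exp ((π.K : ℝ) * (2 * κ)) ≤ Real.exp (1 / 12) := by
        refine Real.exp_le_exp.mpr ?_
        calc (π.K : ℝ) * (2 * κ) ≤ Real.sqrt π.P / (1600 * L.cst₀) * (2 * κ) :=
              mul_le_mul_of_nonneg_right hK (by positivity)
          _ = 6 / 1600 := by rw [hκdef]; field_simp; ring
          _ ≤ _ := by norm_num
      have h3 : Real.exp (1 / 12) * Real.exp (1 / 12) ≤ 3 / 2 := by
        rw [← Real.exp_add]; exact (Real.exp_le_exp.mpr (by norm_num)).trans exp_third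
      have h4 : Real.exp (1 / 12) * π.lap (B - κ * B) ≤ π.lap B * (3 / 2) := by
        calc Real.exp (1 / 12) * π.lap (B - κ * B)
            ≤ Real.exp (1 / 12) * (π.lap B * Real.exp (1 / 12)) :=
              mul_le_mul_of_nonneg_left (h1.trans (mul_le_mul_of_nonneg_left h2 hlap0))
                (Real.exp_pos _).le
          _ = π.lap B * (Real.exp (1 / 12) * Real.exp (1 / 12)) := by ring
          _ ≤ _ := mul_le_mul_of_nonneg_left h3 hlap0
      have h5 := mul_le_mul_of_nonneg_left h4 (Real.exp_pos (-(π.σ₀ * S))).le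
      rw [← hR₀] at h5
      linarith
  have h1 := (Complex.abs_im_le_norm _).trans hd
  have h2 := abs_le.mp ((Complex.abs_re_le_norm _).trans hd)
  simp only [Complex.sub_im, Complex.ofReal_im, sub_zero] at h1
  simp only [Complex.sub_re, Complex.ofReal_re] at h2
  refine ⟨by linarith, ?_⟩
  have := norm_le_norm_sub_add (mixW L π D q a) (R : ℂ)
  rw [Complex.norm_real, Real.norm_eq_abs, abs_of_nonneg hR0] at this
  linarith

theorem mix_tail {π : Par} {k : ℕ} {θ C : ℝ} (hCB : CB k θ C) (hk : 1 ≤ k) (hdeg : h.natDegree = k)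
    (hM : 1 ≤ π.h * π.T * π.M)
    (hP2 : 2 ≤ π.P) {D q : ℕ} (hD : 2 ≤ D) (hDq : D ≤ q)
    (hhw : π.h * (π.T + θ / (2 * (2 + k * θ)) * Real.log D) ≤ 1) {a : ℤ} (ha : IsCoprime a (q : ℤ)) :
    ‖mixW L π D q a‖ ≤ C * (h.leadingCoeff.natAbs : ℝ) ^ θ * (D : ℝ) ^ (-(θ / 2)) +
      (Real.exp (-(π.σ₀ * (θ / (2 * (2 + k * θ)) / 2 * Real.log D)))
        + (4 * π.T / (θ / (2 * (2 + k * θ)) / 2 * Real.log D)) ^ π.K) *
      Real.exp (L.cst₀ * (2 * Real.sqrt π.P + Real.log q / (Real.log π.P * Real.sqrt π.P))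
        + L.cst₁ * (2 * Real.sqrt L.p₀)) := by
  obtain ⟨hθ, hC, -⟩ := id hCB
  have hDR : (2 : ℝ) ≤ D := by exact_mod_cast hD
  have hq : 1 ≤ q := by omega
  set κ := θ / (2 * (2 + k * θ)) with hκ
  have hκ0 : 0 < κ := by positivity
  set Λ := Real.log (D : ℝ) with hΛ
  have hΛ0 : 0 < Λ := Real.log_pos (by linarith)
  set W := (D : ℝ) ^ κ with hW
  have hW1 : 1 ≤ W := Real.one_le_rpow (by linarith) hκ0.le
  set ε₂ := Real.exp (-(π.σ₀ * (κ / 2 * Λ))) + (4 * π.T / (κ / 2 * Λ)) ^ π.K with hε₂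
  set Φ : ℕ → ℝ := fun f => Real.exp (-(π.σ₀ * π.sml id f)) * π.lap (π.big id f) with hΦ
  have hlap0 : ∀ w, 0 ≤ π.lap w := fun w =>
    pow_nonneg (div_nonneg (gs_pos π.M_pos _).le (gs_pos π.M_pos _).le) _
  have hexp1 : ∀ f, Real.exp (-(π.σ₀ * π.sml id f)) ≤ 1 := fun f => Real.exp_le_one_iff.mpr (by
    have := mul_nonneg π.σ₀_nonneg (π.sml_nonneg id f); linarith)
  have hmix : mixW L π D q a = ∑ f ∈ q.divisors.filter (fun f => f ≤ D),
      ((Φ f : ℝ) : ℂ) * term L.den₀ q f a := by
    simp only [mixW, major_eq _ hq, mul_sum]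
    rw [sum_comm]
    refine sum_congr rfl fun f _ => ?_
    simp only [hΦ, memW, L.term_den, ← mul_assoc, ← sum_mul]
    congr 1
    rw [← π.lap_eq, mul_sum, Complex.ofReal_sum]
    refine sum_congr rfl fun x _ => ?_
    rw [rho, π.mulExt_eq _ (fun j => j)]
    push_cast; simp [Function.id_def]; ring
  rw [hmix]
  refine (norm_sum_le _ _).trans ?_
  rw [← sum_filter_add_sum_filter_not (q.divisors.filter (fun f => f ≤ D))
    (fun f : ℕ => (f : ℝ) ≤ W)]
  have hnorm : ∀ f, ‖((Φ f : ℝ) : ℂ) * term L.den₀ q f a‖ = Φ f * ‖term L.den₀ q f a‖ := fun f => by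
    rw [norm_mul, Complex.norm_real, Real.norm_eq_abs,
      abs_of_nonneg (mul_nonneg (Real.exp_pos _).le (hlap0 _))]
  simp only [hnorm]
  refine add_le_add ?_ ?_
  · set S := (q.divisors.filter (fun f => f ≤ D)).filter (fun f : ℕ => (f : ℝ) ≤ W) with hS
    have hcard : (S.card : ℝ) ≤ W := by
      have h1 : S ⊆ Icc 1 ⌊W⌋₊ := fun f hf => by
        obtain ⟨h1, h2⟩ := mem_filter.mp hf
        exact mem_Icc.mpr ⟨Nat.pos_of_mem_divisors (mem_filter.mp h1).1, Nat.le_floor h2⟩
      have h2 := card_le_card h1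
      rw [Nat.card_Icc, Nat.add_sub_cancel] at h2
      exact le_trans (by exact_mod_cast h2) (Nat.floor_le (by linarith))
    set l : ℝ := (h.leadingCoeff.natAbs : ℝ) with hl
    have hl0 : 0 ≤ l := Nat.cast_nonneg _
    refine (sum_le_card_nsmul _ _ (W * (C * ((l * W ^ k) / D) ^ θ)) fun f hf => ?_).trans ?_
    · obtain ⟨h1, h2⟩ := mem_filter.mp hf
      have hfq := Nat.dvd_of_mem_divisors (mem_filter.mp h1).1
      refine (mul_le_of_le_one_left (norm_nonneg _)
        (mul_le_one₀ (hexp1 f) (hlap0 _) (π.lap_le_one (π.big_nonneg _ _)))).trans ?_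
      refine (term_weyl L.den₀ hCB hk hdeg hq hfq ha).trans ?_
      refine mul_le_mul h2 (mul_le_mul_of_nonneg_left ?_ (by linarith)) (by positivity) (by linarith)
      refine Real.rpow_le_rpow (by positivity) ?_ hθ.le
      push_cast
      refine div_le_div₀ (by positivity) (mul_le_mul_of_nonneg_left
        (pow_le_pow_left₀ (Nat.cast_nonneg f) h2 k) hl0) (by linarith) (by exact_mod_cast hDq)
    rw [nsmul_eq_mul]
    refine (mul_le_mul_of_nonneg_right hcard (by positivity)).trans (le_of_eq ?_)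
    have e1 : W * W * (W ^ k) ^ θ = (D : ℝ) ^ (θ / 2) := by
      rw [hW, ← Real.rpow_natCast ((D : ℝ) ^ κ) k, ← Real.rpow_mul (by linarith),
        ← Real.rpow_mul (by linarith), ← Real.rpow_add (by linarith), ← Real.rpow_add (by linarith)]
      congr 1
      rw [hκ]; field_simp
      ring
    rw [Real.div_rpow (by positivity) (by linarith), Real.mul_rpow hl0 (by positivity),
      Real.rpow_neg (by linarith)]
    have e2 : (D : ℝ) ^ θ = (D : ℝ) ^ (θ / 2) * (D : ℝ) ^ (θ / 2) := by
      rw [← Real.rpow_add (by linarith)]; congr 1; ring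
    rw [show W * (W * (C * (l ^ θ * (W ^ k) ^ θ / (D : ℝ) ^ θ)))
      = (W * W * (W ^ k) ^ θ) * C * l ^ θ / (D : ℝ) ^ θ by ring, e1, e2]
    field_simp
  · have hε₂0 : 0 ≤ ε₂ := add_nonneg (Real.exp_pos _).le
      (pow_nonneg (div_nonneg (mul_nonneg (by norm_num) π.T_pos.le)
        (mul_nonneg (by linarith) hΛ0.le)) _)
    refine le_trans (sum_le_sum (g := fun f => ε₂ * ‖term L.den₀ q f a‖) fun f hf => ?_) ?_
    · obtain ⟨h1, h2⟩ := mem_filter.mp hf
      refine mul_le_mul_of_nonneg_right ?_ (norm_nonneg _)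
      have hlogf : κ * Λ ≤ π.sml id f + π.big id f := by
        rw [← log_eq_sml_big, hΛ, ← Real.log_rpow (by linarith)]
        exact Real.log_le_log (by positivity) (not_le.mp h2).le
      rcases le_total (κ / 2 * Λ) (π.sml id f) with h | h
      · refine le_trans (mul_le_of_le_one_right (Real.exp_pos _).le
          (π.lap_le_one (π.big_nonneg _ _))) (le_trans (Real.exp_le_exp.mpr ?_)
            (le_add_of_nonneg_right ?_))
        · linarith [mul_le_mul_of_nonneg_left h π.σ₀_nonneg]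
        · exact pow_nonneg (div_nonneg (mul_nonneg (by norm_num) π.T_pos.le) (by positivity)) _
      · refine le_trans (mul_le_of_le_one_left (hlap0 _) (hexp1 f))
          (le_trans ?_ (le_add_of_nonneg_left (Real.exp_pos _).le))
        refine (π.lap_anti (show κ / 2 * Λ ≤ π.big id f by linarith)).trans
          (π.lap_le (by positivity) hM (le_trans ?_ hhw))
        refine mul_le_mul_of_nonneg_left (add_le_add le_rfl ?_) π.h_pos.le
        have : 0 ≤ κ * Λ := by positivity
        linarith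
    rw [← mul_sum]
    refine mul_le_mul_of_nonneg_left ?_ hε₂0
    refine le_trans (sum_le_sum_of_subset_of_nonneg ((filter_subset _ _).trans (filter_subset _ _))
      fun _ _ _ => norm_nonneg _) ?_
    have h1 := absSum_bound L.den₀ 0 (fun p => Real.exp (L.cst p * rp p)) (fun p => (Real.exp_pos _).le)
      (fun p i hp hi t ht => L.absSum_local hp hi t ht) q hq a ha
    simp only [absSum, Real.rpow_zero, mul_one] at h1
    refine h1.trans ?_
    rw [← Real.exp_sum]
    refine Real.exp_le_exp.mpr ?_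
    refine (sum_le_sum (g := fun p : ℕ => L.cst₀ * rp p + L.cst₁ * (if p ≤ L.p₀ then rp p else 0))
      fun p _ => ?_).trans ?_
    · by_cases h4 : p ≤ L.p₀
      · rw [if_pos h4]
        have := mul_le_mul_of_nonneg_right (L.cst_le p) (rp_nonneg p)
        have := mul_nonneg (show 0 ≤ L.cst₀ by linarith [L.one_le_cst₀]) (rp_nonneg p)
        linarith
      · rw [if_neg h4, mul_zero, add_zero, L.cst_big (Nat.lt_of_not_le h4)]
    rw [sum_add_distrib, ← mul_sum, ← mul_sum, ← sum_filter]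
    refine add_le_add (mul_le_mul_of_nonneg_left ?_ (by linarith [L.one_le_cst₀]))
      (mul_le_mul_of_nonneg_left ?_ (by linarith [L.one_le_cst₁]))
    swap
    · refine (sum_le_sum_of_subset_of_nonneg (fun p hp => ?_) fun p _ _ => rp_nonneg p).trans
        (sum_inv_sqrt L.p₀)
      obtain ⟨h1, h2⟩ := mem_filter.mp hp
      exact mem_Icc.mpr ⟨(Nat.prime_of_mem_primeFactors h1).one_lt.le, h2⟩
    rw [← sum_filter_add_sum_filter_not q.primeFactors (fun p => p ≤ π.P)]
    have hlP : 0 < Real.log π.P := Real.log_pos (by exact_mod_cast hP2)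
    have hsP : 0 < Real.sqrt π.P := Real.sqrt_pos.mpr (by exact_mod_cast π.P_pos)
    refine add_le_add (le_trans (sum_le_sum_of_subset_of_nonneg (fun p hp => ?_)
      fun p _ _ => rp_nonneg p) (sum_inv_sqrt π.P)) ?_
    · obtain ⟨h1, h2⟩ := mem_filter.mp hp
      exact mem_Icc.mpr ⟨(Nat.prime_of_mem_primeFactors h1).one_lt.le, h2⟩
    · rw [le_div_iff₀ (by positivity), sum_mul,
        Real.log_nat_eq_sum_factorization q, Finsupp.sum, Nat.support_factorization]
      refine le_trans (sum_le_sum fun p hp => ?_)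
        (sum_le_sum_of_subset_of_nonneg (filter_subset _ _) fun p _ _ => mul_nonneg
          (Nat.cast_nonneg _) (Real.log_natCast_nonneg p))
      obtain ⟨h1, h2⟩ := mem_filter.mp hp
      have hpp := Nat.prime_of_mem_primeFactors h1
      have hpP : (π.P : ℝ) ≤ p := by exact_mod_cast (Nat.le_of_not_le h2)
      have hv : (1 : ℝ) ≤ (q.factorization p : ℝ) := by
        exact_mod_cast hpp.factorization_pos_of_dvd (by omega) (Nat.dvd_of_mem_primeFactors h1)
      have hP1 : (0 : ℝ) < π.P := by exact_mod_cast π.P_pos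
      calc rp p * (Real.log π.P * Real.sqrt π.P)
          = (Real.sqrt π.P / Real.sqrt p) * Real.log π.P := by rw [rp]; ring
        _ ≤ 1 * Real.log p := by
            refine mul_le_mul ((div_le_one (Real.sqrt_pos.mpr (by linarith))).mpr
              (Real.sqrt_le_sqrt hpP)) (Real.log_le_log hP1 hpP) hlP.le zero_le_one
        _ ≤ _ := mul_le_mul_of_nonneg_right hv (Real.log_natCast_nonneg p)

end Vale.Agent.P042.Gen.Mid
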