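import Mathlib

/-! Stepanov–Bombieri bound for the number of points on `y ^ p - y = f x`. -/

namespace Vale.Agent.P042.Weil

open Polynomial Finset

variable {K : Type*} [Field K] (p : ℕ) [hp : Fact p.Prime] (f : K[X])

/-- The Artin–Schreier polynomial. -/
noncomputable def AS : K[X][X] := X ^ p - (X + C f)

lemma AS_monic : (AS p f).Monic := by
  refine monic_X_pow_sub (lt_of_le_of_lt (degree_add_le _ _) (max_lt ?_ ?_))
  · rw [degree_X]; exact_mod_cast hp.out.one_lt
  · exact lt_of_le_of_lt degree_C_le (by exact_mod_cast hp.out.pos)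

lemma AS_degree : (AS p f).natDegree = p := by
  rw [AS, natDegree_sub_eq_left_of_natDegree_lt] <;> rw [natDegree_X_pow]
  refine lt_of_le_of_lt ((natDegree_add_le _ _).trans (max_le (natDegree_X_le) ?_)) hp.out.one_lt
  simp

/-- The coordinate `x`. -/
noncomputable def xx : AdjoinRoot (AS p f) := AdjoinRoot.mk (AS p f) (C X)

/-- The coordinate `y`. -/
noncomputable def yy : AdjoinRoot (AS p f) := AdjoinRoot.mk (AS p f) X

/-- The monomial `x ^ i * y ^ j`. -/
noncomputable def mon (v : ℕ × ℕ) : AdjoinRoot (AS p f) := xx p f ^ v.1 * yy p f ^ v.2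

omit hp in
lemma mon_eq (v : ℕ × ℕ) : mon p f v = AdjoinRoot.mk (AS p f) (C (X ^ v.1) * X ^ v.2) := by
  simp only [mon, xx, yy, map_mul, map_pow]

omit hp in
lemma yy_pow : yy p f ^ p = yy p f + ∑ t ∈ range (f.natDegree + 1), f.coeff t • xx p f ^ t := by
  have e : AdjoinRoot.mk (AS p f) (X ^ p) = AdjoinRoot.mk (AS p f) (X + C f) :=
    AdjoinRoot.mk_eq_mk.mpr dvd_rfl
  rw [map_pow, map_add] at e
  have key : ∀ g : K[X], AdjoinRoot.mk (AS p f) (C g)
      = ∑ t ∈ range (g.natDegree + 1), g.coeff t • xx p f ^ t := by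
    intro g
    conv_lhs => rw [g.as_sum_range_C_mul_X_pow]
    rw [map_sum, map_sum]
    refine sum_congr rfl fun t _ => ?_
    rw [xx, map_mul, map_pow, map_mul, map_pow, Algebra.smul_def]
    rfl
  rw [yy, e, key]

/-- The pole order of a monomial. -/
def wt (v : ℕ × ℕ) : ℕ := p * v.1 + f.natDegree * v.2

lemma mon_mul (v w : ℕ × ℕ) : mon p f v * mon p f w = mon p f (v + w) := by
  simp only [mon, Prod.fst_add, Prod.snd_add, pow_add]
  ring

lemma mon_pow (v : ℕ × ℕ) (n : ℕ) : mon p f v ^ n = mon p f (n * v.1, n * v.2) := by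
  simp only [mon, mul_pow, ← pow_mul, mul_comm n]

/-- The span of the reduced monomials of pole order below `n`. -/
noncomputable def low (n : ℕ) : Submodule K (AdjoinRoot (AS p f)) :=
  Submodule.span K (mon p f '' {v | v.2 < p ∧ wt p f v < n})

lemma low_mono {n m : ℕ} (h : n ≤ m) : low p f n ≤ low p f m :=
  Submodule.span_mono (Set.image_mono fun _ hv => ⟨hv.1, lt_of_lt_of_le hv.2 h⟩)

/-- Every monomial is a nonzero multiple of a reduced one, up to lower pole order. -/
lemma mon_lead (hk : 1 ≤ f.natDegree) (v : ℕ × ℕ) : ∃ w : ℕ × ℕ, w.2 < p ∧ wt p f w = wt p f v ∧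
    ∃ c : K, c ≠ 0 ∧ mon p f v - c • mon p f w ∈ low p f (wt p f v) := by
  suffices H : ∀ n, ∀ v, wt p f v = n → ∃ w : ℕ × ℕ, w.2 < p ∧ wt p f w = n ∧
      ∃ c : K, c ≠ 0 ∧ mon p f v - c • mon p f w ∈ low p f n by
    obtain ⟨w, h1, h2, h3⟩ := H _ v rfl
    exact ⟨w, h1, h2, h3⟩
  intro n
  induction n using Nat.strong_induction_on with
  | _ n ih =>
    have hspan : ∀ u : ℕ × ℕ, wt p f u < n → mon p f u ∈ low p f n := by
      intro u hu
      obtain ⟨w, h1, h2, c, -, h3⟩ := ih _ hu u rfl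
      have h4 : mon p f w ∈ low p f n :=
        Submodule.subset_span ⟨w, ⟨h1, by omega⟩, rfl⟩
      have h5 := add_mem (low_mono p f hu.le h3) ((low p f n).smul_mem c h4)
      rwa [sub_add_cancel] at h5
    rintro ⟨i, j⟩
    induction j using Nat.strong_induction_on generalizing i with
    | _ j ihj =>
      intro hv
      by_cases hj : j < p
      · exact ⟨(i, j), hj, hv, 1, one_ne_zero, by simp⟩
      obtain ⟨J, rfl⟩ := Nat.exists_eq_add_of_le (Nat.le_of_not_lt hj)
      set k := f.natDegree with hkdef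
      obtain ⟨w, hw1, hw2, c, hc, hw3⟩ := ihj J (by linarith [hp.out.pos]) (i + k)
        (by simp only [wt, ← hkdef] at hv ⊢; rw [← hv]; ring)
      refine ⟨w, hw1, hw2, f.leadingCoeff * c, mul_ne_zero (leadingCoeff_ne_zero.mpr
        (ne_zero_of_natDegree_gt hk)) hc, ?_⟩
      have hexp : mon p f (i, p + J) = mon p f (i, J + 1)
          + ∑ t ∈ range (k + 1), f.coeff t • mon p f (i + t, J) := by
        simp only [mon, pow_add, pow_one, yy_pow p f, ← hkdef, add_mul, mul_add, sum_mul, mul_sum,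
          smul_mul_assoc, mul_smul_comm, mul_assoc, mul_comm (yy p f) _]
      rw [hexp, sum_range_succ, hkdef, coeff_natDegree, ← hkdef]
      have h1 : mon p f (i, J + 1) ∈ low p f n := hspan _ (by
        simp only [wt, ← hkdef] at hv ⊢
        rw [← hv, mul_add, mul_add]
        have : k * 1 < k * p := Nat.mul_lt_mul_of_pos_left hp.out.one_lt hk
        omega)
      have h2 : ∑ t ∈ range k, f.coeff t • mon p f (i + t, J) ∈ low p f n :=
        sum_mem fun t ht => (low p f n).smul_mem _ (hspan _ (by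
          simp only [wt, ← hkdef] at hv ⊢
          rw [← hv, mul_add, mul_add]
          have : p * t < p * k := Nat.mul_lt_mul_of_pos_left (mem_range.mp ht) hp.out.pos
          have : p * k = k * p := Nat.mul_comm _ _
          omega))
      have h3 := (low p f n).smul_mem f.leadingCoeff hw3
      rw [smul_sub, smul_smul] at h3
      have h4 := add_mem (add_mem h1 h2) h3
      convert h4 using 1
      abel

lemma mon_mem_low (hk : 1 ≤ f.natDegree) (v : ℕ × ℕ) {n : ℕ} (h : wt p f v < n) :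
    mon p f v ∈ low p f n := by
  obtain ⟨w, h1, h2, c, -, h3⟩ := mon_lead p f hk v
  have h4 : mon p f w ∈ low p f n := Submodule.subset_span ⟨w, ⟨h1, by omega⟩, rfl⟩
  have h5 := add_mem (low_mono p f h.le h3) ((low p f n).smul_mem c h4)
  rwa [sub_add_cancel] at h5

/-- The coefficient of a reduced monomial. -/
noncomputable def coord (v : ℕ × ℕ) : AdjoinRoot (AS p f) →ₗ[K] K where
  toFun u := ((AdjoinRoot.modByMonicHom (AS_monic p f) u).coeff v.2).coeff v.1
  map_add' u w := by simp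
  map_smul' c u := by
    rw [← algebraMap_smul K[X] c u, map_smul, coeff_smul, Polynomial.algebraMap_eq, smul_eq_mul,
      coeff_C_mul]
    rfl

lemma coord_mon {v w : ℕ × ℕ} (hw : w.2 < p) :
    coord p f v (mon p f w) = if v = w then 1 else 0 := by
  show ((AdjoinRoot.modByMonicHom (AS_monic p f) (mon p f w)).coeff v.2).coeff v.1 = _
  rw [mon_eq, AdjoinRoot.modByMonicHom_mk, (modByMonic_eq_self_iff (AS_monic p f)).mpr]
  · rw [coeff_C_mul, coeff_X_pow]
    split_ifs with h1 h2 h2
    · rw [mul_one, coeff_X_pow, h2]; simp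
    · rw [mul_one, coeff_X_pow, if_neg]
      exact fun h => h2 (Prod.ext h h1)
    · exact absurd (congrArg Prod.snd h2) h1
    · simp
  · rw [degree_C_mul_X_pow _ (pow_ne_zero _ X_ne_zero),
      degree_eq_natDegree (AS_monic p f).ne_zero, AS_degree]
    exact_mod_cast hw

lemma wt_inj (hk : ¬ p ∣ f.natDegree) {v w : ℕ × ℕ} (hv : v.2 < p) (hw : w.2 < p)
    (h : wt p f v = wt p f w) : v = w := by
  have h1 : (f.natDegree : ZMod p) * (v.2 : ZMod p) = (f.natDegree : ZMod p) * (w.2 : ZMod p) := by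
    have := congrArg (Nat.cast (R := ZMod p)) h
    simpa [wt] using this
  have h2 := mul_left_cancel₀ (fun h0 => hk ((ZMod.natCast_eq_zero_iff _ p).mp h0)) h1
  rw [ZMod.natCast_eq_natCast_iff] at h2
  have h3 : v.2 = w.2 := h2.eq_of_lt_of_lt hv hw
  refine Prod.ext ?_ h3
  simp only [wt, h3, add_left_inj] at h
  exact Nat.eq_of_mul_eq_mul_left hp.out.pos h

lemma coord_low (hk : ¬ p ∣ f.natDegree) {v : ℕ × ℕ} {n : ℕ} (hn : n ≤ wt p f v)
    {u : AdjoinRoot (AS p f)} (hu : u ∈ low p f n) : coord p f v u = 0 := by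
  induction hu using Submodule.span_induction with
  | mem x hx =>
    obtain ⟨w, ⟨hw1, hw2⟩, rfl⟩ := hx
    rw [coord_mon p f hw1, if_neg]
    rintro rfl
    omega
  | zero => simp
  | add x y _ _ h1 h2 => simp [h1, h2]
  | smul c x _ h1 => simp [h1]

/-- `u` has pole order exactly `W`. -/
def Lead (u : AdjoinRoot (AS p f)) (W : ℕ) : Prop :=
  ∃ w : ℕ × ℕ, w.2 < p ∧ wt p f w = W ∧ ∃ d : K, d ≠ 0 ∧ u - d • mon p f w ∈ low p f W

lemma lead_mon (hk1 : 1 ≤ f.natDegree) (v : ℕ × ℕ) : Lead p f (mon p f v) (wt p f v) :=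
  mon_lead p f hk1 v

lemma Lead.mem_low {u : AdjoinRoot (AS p f)} {W n : ℕ} (h : Lead p f u W) (hn : W < n) :
    u ∈ low p f n := by
  obtain ⟨w, h1, h2, d, -, h3⟩ := h
  have h4 : mon p f w ∈ low p f n := Submodule.subset_span ⟨w, ⟨h1, by omega⟩, rfl⟩
  have h5 := add_mem (low_mono p f hn.le h3) ((low p f n).smul_mem d h4)
  rwa [sub_add_cancel] at h5

lemma Lead.ne_zero (hk : ¬ p ∣ f.natDegree) {u : AdjoinRoot (AS p f)} {W : ℕ}
    (h : Lead p f u W) : u ≠ 0 := by
  obtain ⟨w, h1, h2, d, hd, h3⟩ := h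
  rintro rfl
  have h4 := coord_low p f hk h2.ge h3
  rw [map_sub, map_smul, coord_mon p f h1, if_pos rfl, map_zero, smul_eq_mul, mul_one, zero_sub,
    neg_eq_zero] at h4
  exact hd h4

lemma Lead.mul_mon (hk1 : 1 ≤ f.natDegree) {u : AdjoinRoot (AS p f)} {W : ℕ}
    (h : Lead p f u W) (e : ℕ × ℕ) : Lead p f (u * mon p f e) (W + wt p f e) := by
  obtain ⟨w, h1, h2, d, hd, h3⟩ := h
  have hadd : ∀ x : ℕ × ℕ, wt p f (x + e) = wt p f x + wt p f e := fun x => by
    simp only [wt, Prod.fst_add, Prod.snd_add]; ring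
  have h4 : (u - d • mon p f w) * mon p f e ∈ low p f (W + wt p f e) := by
    generalize u - d • mon p f w = r at h3
    induction h3 using Submodule.span_induction with
    | mem x hx =>
      obtain ⟨x, ⟨-, hx2⟩, rfl⟩ := hx
      rw [mon_mul]
      exact mon_mem_low p f hk1 _ (by rw [hadd]; omega)
    | zero => simp
    | add x y _ _ a b => rw [add_mul]; exact add_mem a b
    | smul c x _ a => rw [smul_mul_assoc]; exact Submodule.smul_mem _ c a
  obtain ⟨w', g1, g2, d', hd', g3⟩ := mon_lead p f hk1 (w + e)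
  rw [hadd, h2] at g2 g3
  refine ⟨w', g1, g2, d * d', mul_ne_zero hd hd', ?_⟩
  have h5 := add_mem h4 ((low p f (W + wt p f e)).smul_mem d g3)
  convert h5 using 1
  rw [sub_mul, smul_mul_assoc, mon_mul, smul_sub, smul_smul]
  abel

lemma lead_sum {ι : Type*} (T : Finset ι) (u : ι → AdjoinRoot (AS p f)) (W : ι → ℕ)
    (hu : ∀ a ∈ T, Lead p f (u a) (W a)) (hinj : Set.InjOn W T) (c : ι → K)
    (hne : ∃ a ∈ T, c a ≠ 0) : ∃ a ∈ T, Lead p f (∑ b ∈ T, c b • u b) (W a) := by
  classical
  obtain ⟨a₀, ha₀, hc₀⟩ := hne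
  obtain ⟨a, ha, hmax⟩ := exists_max_image (T.filter fun a => c a ≠ 0) W
    ⟨a₀, mem_filter.mpr ⟨ha₀, hc₀⟩⟩
  obtain ⟨haT, hca⟩ := mem_filter.mp ha
  obtain ⟨w, hw1, hw2, d, hd, hw3⟩ := hu a haT
  refine ⟨a, haT, w, hw1, hw2, c a * d, mul_ne_zero hca hd, ?_⟩
  rw [← add_sum_erase T _ haT, add_sub_right_comm, ← smul_smul, ← smul_sub]
  refine add_mem (Submodule.smul_mem _ _ hw3) (sum_mem fun b hb => ?_)
  obtain ⟨hba, hbT⟩ := mem_erase.mp hb
  by_cases hcb : c b = 0
  · simp [hcb]
  · exact Submodule.smul_mem _ _ ((hu b hbT).mem_low p f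
      (lt_of_le_of_ne (hmax b (mem_filter.mpr ⟨hbT, hcb⟩)) fun he => hba (hinj hbT haT he)))

/-- The reduced monomials of pole order below `n`. -/
def red (n : ℕ) : Finset (ℕ × ℕ) :=
  (range n ×ˢ range p).filter fun v => wt p f v < n

lemma mem_red {n : ℕ} {v : ℕ × ℕ} : v ∈ red p f n ↔ v.2 < p ∧ wt p f v < n := by
  refine ⟨fun h => ?_, fun ⟨h1, h2⟩ => ?_⟩
  · obtain ⟨h1, h2⟩ := mem_filter.mp h
    exact ⟨mem_range.mp (mem_product.mp h1).2, h2⟩
  · refine mem_filter.mpr ⟨mem_product.mpr ⟨mem_range.mpr ?_, mem_range.mpr h1⟩, h2⟩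
    have : v.1 ≤ p * v.1 := Nat.le_mul_of_pos_left _ hp.out.pos
    simp only [wt] at h2
    omega

lemma card_red_le (hk : ¬ p ∣ f.natDegree) (n : ℕ) : (red p f n).card ≤ n := by
  refine (card_le_card_of_injOn (t := range n) (wt p f) (fun v hv => ?_) ?_).trans (card_range n).le
  · exact mem_range.mpr ((mem_red p f).mp hv).2
  · exact fun v hv w hw he => wt_inj p f hk ((mem_red p f).mp hv).1 ((mem_red p f).mp hw).1 he

lemma card_red_ge (hk : ¬ p ∣ f.natDegree) (n : ℕ) :
    n ≤ (red p f n).card + p * f.natDegree := by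
  classical
  have h : ((range n).filter fun m => p * f.natDegree ≤ m) ⊆ (red p f n).image (wt p f) := by
    intro m hm
    obtain ⟨hm1, hm2⟩ := mem_filter.mp hm
    set k := f.natDegree
    have hk0 : (k : ZMod p) ≠ 0 := fun h0 => hk ((ZMod.natCast_eq_zero_iff _ p).mp h0)
    set j := ((m : ZMod p) / (k : ZMod p)).val with hj
    have hjp : j < p := ZMod.val_lt _
    have hkj : k * j ≤ m := (Nat.mul_le_mul_left k hjp.le).trans (by rwa [Nat.mul_comm])
    have hdvd : p ∣ m - k * j := by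
      rw [← ZMod.natCast_eq_zero_iff, Nat.cast_sub hkj, Nat.cast_mul, hj, ZMod.natCast_zmod_val,
        mul_div_cancel₀ _ hk0, sub_self]
    have hwt : wt p f ((m - k * j) / p, j) = m := by
      simp only [wt]
      rw [Nat.mul_div_cancel' hdvd]
      exact Nat.sub_add_cancel hkj
    exact mem_image.mpr ⟨_, (mem_red p f).mpr ⟨hjp, by rw [hwt]; exact mem_range.mp hm1⟩, hwt⟩
  have h1 := (card_le_card h).trans card_image_le
  have h2 := card_filter_add_card_filter_not (s := range n) (fun m => p * f.natDegree ≤ m)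
  have h3 : ((range n).filter fun m => ¬ p * f.natDegree ≤ m).card ≤ p * f.natDegree :=
    (card_le_card fun m hm => mem_range.mpr (Nat.lt_of_not_le (mem_filter.mp hm).2)).trans
      (card_range _).le
  rw [card_range] at h2
  omega

lemma low_eq (n : ℕ) : low p f n = Submodule.span K (mon p f '' (red p f n : Set (ℕ × ℕ))) := by
  rw [low]
  congr 2
  ext v
  simp [mem_red p f]

lemma finrank_low_le (hk : ¬ p ∣ f.natDegree) (n : ℕ) :
    Module.finrank K (low p f n) ≤ n := by
  classical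
  rw [low_eq, ← coe_image]
  exact (finrank_span_finset_le_card _).trans (card_image_le.trans (card_red_le p f hk n))

omit hp in
lemma exists_low (hk1 : 1 ≤ f.natDegree) [Fact p.Prime] (u : AdjoinRoot (AS p f)) :
    ∃ n, u ∈ low p f n := by
  obtain ⟨g, rfl⟩ := AdjoinRoot.mk_surjective u
  induction g using Polynomial.induction_on' with
  | add g₁ g₂ h₁ h₂ =>
    obtain ⟨n₁, h₁⟩ := h₁
    obtain ⟨n₂, h₂⟩ := h₂
    exact ⟨max n₁ n₂, by
      rw [map_add]
      exact add_mem (low_mono p f (le_max_left _ _) h₁) (low_mono p f (le_max_right _ _) h₂)⟩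
  | monomial j a =>
    induction a using Polynomial.induction_on' with
    | add a₁ a₂ h₁ h₂ =>
      obtain ⟨n₁, h₁⟩ := h₁
      obtain ⟨n₂, h₂⟩ := h₂
      exact ⟨max n₁ n₂, by
        rw [map_add (monomial j), map_add]
        exact add_mem (low_mono p f (le_max_left _ _) h₁) (low_mono p f (le_max_right _ _) h₂)⟩
    | monomial i c =>
      refine ⟨wt p f (i, j) + 1, ?_⟩
      have e : AdjoinRoot.mk (AS p f) (monomial j (monomial i c)) = c • mon p f (i, j) := by
        rw [mon_eq, Algebra.smul_def, ← C_mul_X_pow_eq_monomial, ← C_mul_X_pow_eq_monomial]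
        simp only [map_mul, map_pow, mul_assoc]
        rfl
      rw [e]
      exact Submodule.smul_mem _ _ (mon_mem_low p f hk1 _ (Nat.lt_succ_self _))

/-- Evaluation at a point of the curve. -/
noncomputable def ev (v : {v : K × K // v.2 ^ p = v.2 + f.eval v.1}) :
    AdjoinRoot (AS p f) →+* K :=
  AdjoinRoot.lift (evalRingHom v.1.1) v.1.2 (by simp [AS, v.2])

omit hp in
lemma ev_mon (v : {v : K × K // v.2 ^ p = v.2 + f.eval v.1}) (w : ℕ × ℕ) :
    ev p f v (mon p f w) = v.1.1 ^ w.1 * v.1.2 ^ w.2 := by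
  simp [ev, mon, xx, yy]

omit hp in
lemma ev_smul (v : {v : K × K // v.2 ^ p = v.2 + f.eval v.1}) (c : K) (u : AdjoinRoot (AS p f)) :
    ev p f v (c • u) = c * ev p f v u := by
  rw [Algebra.smul_def, map_mul]
  congr 1
  show ev p f v (AdjoinRoot.mk (AS p f) (C (C c))) = c
  simp [ev]

/-- The Stepanov–Bombieri bound over a field of square order. -/
theorem as_count [Fintype K] [DecidableEq K] [CharP K p] {Q m : ℕ} (hQ : Q = p ^ m)
    (hcard : Fintype.card K = Q * Q) (hk1 : 1 ≤ f.natDegree) (hk : ¬ p ∣ f.natDegree)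
    (hbig : (p * f.natDegree + 2) ^ 2 ≤ Q) :
    (univ.filter fun v : K × K => v.2 ^ p = v.2 + f.eval v.1).card
      ≤ Q * Q + (2 * (p * f.natDegree) + 3) * Q := by
  classical
  set B := p * f.natDegree with hB
  set M := Q + 2 * B + 1 with hM
  set n₀ := Q * (Q - 1) + M with hn₀
  set T := red p f Q ×ˢ red p f M with hT
  have hBQ : B * B + 4 * B + 4 ≤ Q := by linarith [show (B + 2) ^ 2 = B * B + 4 * B + 4 by ring]
  have hQ1 : 1 ≤ Q := by omega
  have hTcard : n₀ < T.card := by
    have h1 := card_red_ge p f hk Q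
    have h2 := card_red_ge p f hk M
    rw [← hB] at h1 h2
    rw [hT, card_product]
    obtain ⟨Q', hQ'⟩ := Nat.exists_eq_add_of_le (show B ≤ Q by omega)
    obtain ⟨R, rfl⟩ := Nat.exists_eq_add_of_le hQ1
    have h3 : Q' * (1 + R + B + 1) ≤ (red p f (1 + R)).card * (red p f M).card :=
      Nat.mul_le_mul (by omega) (by omega)
    have h4 : n₀ = (1 + R) * R + M := by rw [hn₀, Nat.add_sub_cancel_left]
    nlinarith
  have : FiniteDimensional K (low p f n₀) := by
    rw [low_eq]; exact FiniteDimensional.span_of_finite K (Set.toFinite _)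
  have hwadd : ∀ a b : ℕ × ℕ, ∀ N : ℕ, wt p f (N * a.1 + b.1, N * a.2 + b.2)
      = N * wt p f a + wt p f b := fun a b N => by simp only [wt]; ring
  obtain ⟨d, hd, hd0⟩ : ∃ d : ℕ × ℕ → ℕ × ℕ → K,
      ∑ t ∈ T, d t.1 t.2 • mon p f (Q * t.1.1 + t.2.1, Q * t.1.2 + t.2.2) = 0 ∧
        ∃ t ∈ T, d t.1 t.2 ≠ 0 := by
    have hmem : ∀ t : T, mon p f (Q * t.1.1.1 + t.1.2.1, Q * t.1.1.2 + t.1.2.2) ∈ low p f n₀ := by
      rintro ⟨t, ht⟩
      obtain ⟨h1, h2⟩ := mem_product.mp ht
      have h1 := ((mem_red p f).mp h1).2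
      have h2 := ((mem_red p f).mp h2).2
      refine mon_mem_low p f hk1 _ ?_
      rw [hwadd]
      have h3 : Q * wt p f t.1 ≤ Q * (Q - 1) := Nat.mul_le_mul_left Q (by omega)
      dsimp only at *
      omega
    have hdep : ¬ LinearIndependent K fun t : T =>
        (⟨_, hmem t⟩ : low p f n₀) := fun h => by
      have h1 := h.fintype_card_le_finrank
      rw [Fintype.card_coe] at h1
      have h2 := finrank_low_le p f hk n₀
      omega
    obtain ⟨g, hg, t₀, ht₀⟩ := Fintype.not_linearIndependent_iff.mp hdep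
    refine ⟨fun a b => if h : (a, b) ∈ T then g ⟨(a, b), h⟩ else 0, ?_, t₀.1, t₀.2, ?_⟩
    · have hg' := congrArg Subtype.val hg
      rw [AddSubmonoidClass.coe_finsetSum] at hg'
      rw [← sum_coe_sort T]
      refine Eq.trans (sum_congr rfl fun t _ => ?_) hg'
      simp only [Prod.mk.eta]
      rw [dif_pos t.2]
      rfl
    · simp only [Prod.mk.eta]
      rw [dif_pos t₀.2]; exact ht₀
  have hinjQ : Function.Injective fun x : K => x ^ Q := fun x y h => by
    have := sub_pow_char_pow (p := p) (n := m) x y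
    simp only at h
    rw [← hQ, h, sub_self] at this
    exact sub_eq_zero.mp ((pow_eq_zero_iff (by omega)).mp this)
  choose rt hrt using (Finite.injective_iff_surjective.mp hinjQ)
  simp only at hrt
  set g := ∑ t ∈ T, rt (d t.1 t.2) • mon p f (t.1.1 + Q * t.2.1, t.1.2 + Q * t.2.2) with hg
  obtain ⟨t₁, ht₁, hlead⟩ := lead_sum p f T
    (fun t => mon p f (t.1.1 + Q * t.2.1, t.1.2 + Q * t.2.2))
    (fun t => wt p f t.1 + Q * wt p f t.2)
    (fun t _ => by
      have := lead_mon p f hk1 (t.1.1 + Q * t.2.1, t.1.2 + Q * t.2.2)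
      rwa [show wt p f (t.1.1 + Q * t.2.1, t.1.2 + Q * t.2.2)
        = wt p f t.1 + Q * wt p f t.2 by simp only [wt]; ring] at this)
    (fun t ht u hu he => by
      obtain ⟨h1, h2⟩ := mem_product.mp ht
      obtain ⟨h3, h4⟩ := mem_product.mp hu
      rw [mem_red] at h1 h2 h3 h4
      simp only at he
      have e1 : wt p f t.1 = wt p f u.1 := by
        have := congrArg (fun x => x % Q) he
        simpa [Nat.mod_eq_of_lt h1.2, Nat.mod_eq_of_lt h3.2] using this
      rw [e1] at he
      have e2 := Nat.eq_of_mul_eq_mul_left (by omega) (Nat.add_left_cancel he)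
      exact Prod.ext (wt_inj p f hk h1.1 h3.1 e1) (wt_inj p f hk h2.1 h4.1 e2))
    (fun t => rt (d t.1 t.2)) (by
      obtain ⟨t, ht, htd⟩ := hd0
      refine ⟨t, ht, fun h => htd ?_⟩
      have := hrt (d t.1 t.2)
      rw [h, zero_pow (by omega)] at this
      exact this.symm)
  rw [← hg] at hlead
  set W := wt p f t₁.1 + Q * wt p f t₁.2 with hW
  have hWlt : W < Q * M := by
    obtain ⟨h1, h2⟩ := mem_product.mp ht₁
    have h1 := ((mem_red p f).mp h1).2
    have h2 := ((mem_red p f).mp h2).2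
    have h3 : Q * (wt p f t₁.2 + 1) ≤ Q * M := Nat.mul_le_mul_left Q h2
    rw [Nat.mul_succ] at h3
    omega
  have hqq : ∀ x : K, (x ^ Q) ^ Q = x := fun x => by
    rw [← pow_mul, ← hcard, FiniteField.pow_card]
  have hev0 : ∀ v, ev p f v g = 0 := by
    intro v
    refine (pow_eq_zero_iff (show Q ≠ 0 by omega)).mp ?_
    have h0 := congrArg (ev p f v) hd
    rw [map_zero, map_sum] at h0
    rw [hg, map_sum, hQ, sum_pow_char_pow p m, ← hQ]
    refine Eq.trans (sum_congr rfl fun t _ => ?_) h0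
    rw [ev_smul, ev_smul, ev_mon, ev_mon, mul_pow, mul_pow, hrt]
    congr 1
    simp only [pow_add, mul_pow, ← pow_mul, mul_comm _ Q]
    have e1 := hqq (v.1.1 ^ t.2.1)
    have e2 := hqq (v.1.2 ^ t.2.2)
    simp only [← pow_mul] at e1 e2
    rw [show v.1.1 ^ (Q * (Q * t.2.1)) = v.1.1 ^ t.2.1 by
        rw [show Q * (Q * t.2.1) = t.2.1 * Q * Q by ring, e1],
      show v.1.2 ^ (Q * (Q * t.2.2)) = v.1.2 ^ t.2.2 by
        rw [show Q * (Q * t.2.2) = t.2.2 * Q * Q by ring, e2]]
  set pts := {v : K × K // v.2 ^ p = v.2 + f.eval v.1}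
  let Φ : AdjoinRoot (AS p f) →ₗ[K] (pts → K) :=
    { toFun := fun u v => ev p f v u
      map_add' := fun u w => funext fun v => map_add _ u w
      map_smul' := fun c u => funext fun v => ev_smul p f v c u }
  set q := Fintype.card K
  have hq1 : q - 1 ≠ 0 := by
    have : 1 < q := Fintype.one_lt_card
    omega
  let ind : pts → AdjoinRoot (AS p f) := fun a =>
    (1 - (xx p f - algebraMap K _ a.1.1) ^ (q - 1)) * (1 - (yy p f - algebraMap K _ a.1.2) ^ (q - 1))
  have hΦind : ∀ a, Φ (ind a) = Pi.single a 1 := by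
    intro a
    funext v
    show ev p f v (ind a) = _
    have hc : ∀ c : K, ev p f v (algebraMap K _ c) = c := fun c => by
      rw [Algebra.algebraMap_eq_smul_one, ev_smul, map_one, mul_one]
    have hx : ev p f v (xx p f) = v.1.1 := by simp [ev, xx]
    have hy : ev p f v (yy p f) = v.1.2 := by simp [ev, yy]
    simp only [ind, map_mul, map_sub, map_one, map_pow, hc, hx, hy]
    by_cases hva : v = a
    · subst hva; simp [zero_pow hq1]
    · rw [Pi.single_eq_of_ne hva]
      by_cases h1 : v.1.1 = a.1.1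
      · have h2 : v.1.2 - a.1.2 ≠ 0 := sub_ne_zero.mpr fun h2 => hva (Subtype.ext (Prod.ext h1 h2))
        rw [FiniteField.pow_card_sub_one_eq_one _ h2, sub_self, mul_zero]
      · rw [FiniteField.pow_card_sub_one_eq_one _ (sub_ne_zero.mpr h1), sub_self, zero_mul]
  choose na hna using fun a => exists_low p f hk1 (ind a)
  set n := W + 1 + univ.sup na with hn
  have : FiniteDimensional K (low p f n) := by
    rw [low_eq]; exact FiniteDimensional.span_of_finite K (Set.toFinite _)
  let Ψ := Φ.domRestrict (low p f n)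
  have hsurj : LinearMap.range Ψ = ⊤ := by
    rw [LinearMap.range_eq_top]
    intro F
    refine ⟨⟨∑ a, F a • ind a, sum_mem fun a _ => Submodule.smul_mem _ _
      (low_mono p f ((le_sup (f := na) (mem_univ a)).trans (by omega)) (hna a))⟩, ?_⟩
    show Φ (∑ a, F a • ind a) = F
    simp only [map_sum, map_smul, hΦind]
    funext v
    simp only [Finset.sum_apply, Pi.smul_apply, Pi.single_apply, smul_eq_mul, mul_ite, mul_one,
      mul_zero]
    rw [Fintype.sum_eq_single v fun x hx => if_neg (Ne.symm hx), if_pos rfl]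
  have hker : (red p f (n - W)).card ≤ Module.finrank K (LinearMap.ker Ψ) := by
    have hmem : ∀ e : red p f (n - W), g * mon p f e.1 ∈ low p f n := fun e =>
      (hlead.mul_mon p f hk1 e.1).mem_low p f (by have := ((mem_red p f).mp e.2).2; omega)
    have hk0 : ∀ e : red p f (n - W),
        (⟨_, hmem e⟩ : low p f n) ∈ LinearMap.ker Ψ := fun e => by
      rw [LinearMap.mem_ker]
      funext v
      show ev p f v (g * mon p f e.1) = 0
      rw [map_mul, hev0, zero_mul]
    have hli : LinearIndependent K fun e : red p f (n - W) =>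
        (⟨_, hk0 e⟩ : LinearMap.ker Ψ) := by
      refine LinearIndependent.of_comp ((low p f n).subtype.comp (LinearMap.ker Ψ).subtype) ?_
      refine Fintype.linearIndependent_iff.mpr fun c hc' e₀ => ?_
      by_contra hne
      simp only [Function.comp_apply, LinearMap.coe_comp, Submodule.coe_subtype] at hc'
      obtain ⟨a, -, ha⟩ := lead_sum p f univ (fun e : red p f (n - W) => g * mon p f e.1)
        (fun e => W + wt p f e.1) (fun e _ => hlead.mul_mon p f hk1 e.1)
        (fun x _ y _ he => Subtype.ext (wt_inj p f hk ((mem_red p f).mp x.2).1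
          ((mem_red p f).mp y.2).1 (Nat.add_left_cancel he)))
        c ⟨e₀, mem_univ _, hne⟩
      exact ha.ne_zero p f hk hc'
    simpa [Fintype.card_coe] using hli.fintype_card_le_finrank
  have hrn := Ψ.finrank_range_add_finrank_ker
  rw [hsurj, finrank_top, Module.finrank_fintype_fun_eq_card] at hrn
  have h1 := finrank_low_le p f hk n
  have h2 := card_red_ge p f hk (n - W)
  rw [← hB] at h2
  have h3 : Fintype.card pts = (univ.filter fun v : K × K => v.2 ^ p = v.2 + f.eval v.1).card :=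
    Fintype.card_subtype _
  have h4 : Q * M = Q * Q + (2 * B + 1) * Q := by rw [hM]; ring
  have h5 : B ≤ 2 * Q := by omega
  have h6 : (2 * B + 3) * Q = (2 * B + 1) * Q + 2 * Q := by ring
  omega

end Vale.Agent.P042.Weil
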