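import Mathlib

namespace Vale.Agent.P042

open Finset Polynomial

/-- The additive character `x ↦ exp (2πix)`. -/
noncomputable def ee (x : ℝ) : ℂ := Complex.exp (Complex.I * ((2 * Real.pi * x : ℝ) : ℂ))

lemma ee_add (x y : ℝ) : ee (x + y) = ee x * ee y := by
  unfold ee; rw [← Complex.exp_add]; congr 1; push_cast; ring

lemma ee_int (n : ℤ) : ee (n : ℝ) = 1 := by
  unfold ee
  rw [← Complex.exp_int_mul_two_pi_mul_I n]
  congr 1; push_cast; ring

lemma ee_zero : ee 0 = 1 := by simpa using ee_int 0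

lemma norm_ee (x : ℝ) : ‖ee x‖ = 1 := by
  unfold ee; simp [Complex.norm_exp]

lemma ee_conj (x : ℝ) : (starRingEnd ℂ) (ee x) = ee (-x) := by
  unfold ee; rw [← Complex.exp_conj, map_mul, Complex.conj_I, Complex.conj_ofReal]; congr 1; push_cast; ring

lemma ee_sub_int (x : ℝ) (n : ℤ) : ee (x - n) = ee x := by
  rw [sub_eq_add_neg, ee_add, ← Int.cast_neg, ee_int, mul_one]

lemma ee_add_int (x : ℝ) (n : ℤ) : ee (x + n) = ee x := by
  rw [ee_add, ee_int, mul_one]

lemma ee_nat_mul (x : ℝ) (m : ℕ) : ee ((m : ℝ) * x) = ee x ^ m := by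
  induction m with
  | zero => simp [ee_zero]
  | succ k ih => rw [Nat.cast_succ, add_mul, one_mul, ee_add, ih, pow_succ]

/-- Distance to the nearest integer. -/
noncomputable def di (x : ℝ) : ℝ := |x - round x|

lemma di_le (x : ℝ) (a : ℤ) : di x ≤ |x - a| := round_le x a

lemma di_le_half (x : ℝ) : di x ≤ 1 / 2 := abs_sub_round x

lemma di_nonneg (x : ℝ) : 0 ≤ di x := abs_nonneg _

lemma geom_bound (x : ℝ) (M : ℕ) : ‖∑ m ∈ range M, ee ((m : ℝ) * x)‖ * di x ≤ 1 / 2 := by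
  have hz : ee (x - round x) = ee x := ee_sub_int x _
  set t := x - round x with ht
  have htb : |t| ≤ 1 / 2 := abs_sub_round x
  simp only [ee_nat_mul]
  have h1 : ‖(∑ m ∈ range M, ee x ^ m) * (ee x - 1)‖ ≤ 2 := by
    rw [geom_sum_mul]
    refine (norm_sub_le _ _).trans ?_
    simp only [norm_pow, norm_ee, one_pow, norm_one]; norm_num
  rw [norm_mul] at h1
  have h2 : 4 * |t| ≤ ‖ee x - 1‖ := by
    rw [← hz]; unfold ee
    rw [Complex.norm_exp_I_mul_ofReal_sub_one, Real.norm_eq_abs, abs_mul,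
      show 2 * Real.pi * t / 2 = Real.pi * t by ring]
    have h := Real.mul_abs_le_abs_sin (x := Real.pi * t) (by
      rw [abs_mul, abs_of_pos Real.pi_pos]; nlinarith [Real.pi_pos])
    rw [abs_mul, abs_of_pos Real.pi_pos, abs_two] at *
    have : 2 / Real.pi * (Real.pi * |t|) = 2 * |t| := by
      field_simp
    linarith
  have h3 := mul_le_mul_of_nonneg_left h2 (norm_nonneg (∑ m ∈ range M, ee x ^ m))
  show _ * |t| ≤ _
  linarith

lemma vdc (z : ℕ → ℂ) (M : ℕ) :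
    ‖∑ m ∈ range M, z m‖ ^ 2 ≤ ∑ m ∈ range M, ‖z m‖ ^ 2 +
      2 * ∑ h ∈ Ico 1 M, ‖∑ m ∈ range (M - h), z (m + h) * (starRingEnd ℂ) (z m)‖ := by
  have key : ∀ M : ℕ, ‖∑ m ∈ range M, z m‖ ^ 2 = ∑ m ∈ range M, ‖z m‖ ^ 2 +
      2 * (∑ h ∈ Ico 1 M, ∑ m ∈ range (M - h), z (m + h) * (starRingEnd ℂ) (z m)).re := by
    intro M
    induction M with
    | zero => simp
    | succ k ih =>
      rw [sum_range_succ, sum_range_succ]
      have h1 : (∑ h ∈ Ico 1 (k + 1), ∑ m ∈ range (k + 1 - h), z (m + h) * (starRingEnd ℂ) (z m))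
          = (∑ h ∈ Ico 1 k, ∑ m ∈ range (k - h), z (m + h) * (starRingEnd ℂ) (z m))
            + z k * (starRingEnd ℂ) (∑ m ∈ range k, z m) := by
        have e1 : ∀ h ∈ Ico 1 (k + 1),
            ∑ m ∈ range (k + 1 - h), z (m + h) * (starRingEnd ℂ) (z m)
            = (∑ m ∈ range (k - h), z (m + h) * (starRingEnd ℂ) (z m))
              + z k * (starRingEnd ℂ) (z (k - h)) := by
          intro h hh
          simp only [mem_Ico] at hh
          rw [show k + 1 - h = (k - h) + 1 by omega, sum_range_succ,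
            show k - h + h = k by omega]
        rw [sum_congr rfl e1, sum_add_distrib, ← mul_sum, ← map_sum]
        congr 1
        · rcases Nat.eq_zero_or_pos k with hk | hk
          · subst hk; simp
          · rw [sum_Ico_succ_top (by omega)]; simp
        · congr 2
          rw [sum_Ico_eq_sum_range, Nat.add_sub_cancel]
          rw [← sum_range_reflect z k]
          exact sum_congr rfl fun i _ => by congr 1; omega
      rw [h1, Complex.add_re]
      rw [Complex.sq_norm, Complex.normSq_add] at *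
      rw [Complex.sq_norm, ih] at *
      have : ((∑ m ∈ range k, z m) * (starRingEnd ℂ) (z k)).re
          = (z k * (starRingEnd ℂ) (∑ m ∈ range k, z m)).re := by
        simp [Complex.mul_re]; ring
      rw [this]
      simp only [Complex.sq_norm]
      ring
  rw [key M]
  have := Complex.re_le_norm (∑ h ∈ Ico 1 M, ∑ m ∈ range (M - h), z (m + h) * (starRingEnd ℂ) (z m))
  have := norm_sum_le (Ico 1 M) (fun h => ∑ m ∈ range (M - h), z (m + h) * (starRingEnd ℂ) (z m))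
  linarith

lemma vinogradov (β ε η : ℝ) (M : ℕ) (H : Finset ℕ) (hη : 0 < η) (hε : ε ≤ η / 40) (hM : 1 ≤ M)
    (hH : ∀ h ∈ H, 1 ≤ h ∧ h ≤ M ∧ di (h * β) ≤ ε) (hc : η * M ≤ H.card) :
    ∃ r : ℕ, 1 ≤ r ∧ (r : ℝ) ≤ 20 / η ∧ di (r * β) ≤ 20 * ε / (η ^ 2 * M) := by
  have hMr : (1 : ℝ) ≤ M := by exact_mod_cast hM
  have hne : H.Nonempty := by
    rw [← card_pos]
    have : (0 : ℝ) < H.card := lt_of_lt_of_le (by positivity) hc
    exact_mod_cast this
  obtain ⟨h₀, hh₀⟩ := hne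
  have hε0 : 0 ≤ ε := (di_nonneg _).trans (hH h₀ hh₀).2.2
  obtain ⟨Q, hQ1, hQ2⟩ := Real.exists_rat_abs_sub_le_and_den_le β (n := 4 * M) (by omega)
  set r := Q.den with hr
  set a := Q.num with ha
  have hr0 : 0 < r := Q.den_pos
  have hrR : (0 : ℝ) < r := by exact_mod_cast hr0
  have hQeq : (Q : ℝ) = (a : ℝ) / r := by rw [Rat.cast_def]
  have hclose : ∀ h ∈ H, |((h : ℤ) * a - (r : ℤ) * round ((h : ℝ) * β) : ℤ)| ≤
      ε * r + 1 / 4 := by
    intro h hh
    obtain ⟨h1, h2, h3⟩ := hH h hh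
    have h4 : |(r : ℝ) * β - a| ≤ 1 / (4 * M) := by
      rw [hQeq] at hQ1
      push_cast at hQ1
      have h5 := mul_le_mul_of_nonneg_left hQ1 hrR.le
      rw [← abs_of_pos hrR, ← abs_mul, abs_of_pos hrR, mul_sub, mul_div_cancel₀ _ hrR.ne'] at h5
      refine h5.trans ?_
      rw [← mul_div_assoc, mul_one, div_le_div_iff₀ (by positivity) (by positivity)]
      nlinarith
    have h6 : (h : ℝ) ≤ M := by exact_mod_cast h2
    push_cast
    calc |(h : ℝ) * a - r * round ((h : ℝ) * β)|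
        = |r * ((h : ℝ) * β - round ((h : ℝ) * β)) - h * ((r : ℝ) * β - a)| := by congr 1; ring
      _ ≤ |r * ((h : ℝ) * β - round ((h : ℝ) * β))| + |h * ((r : ℝ) * β - a)| := abs_sub _ _
      _ ≤ r * ε + M * (1 / (4 * M)) := by
          rw [abs_mul, abs_mul, abs_of_pos hrR, Nat.abs_cast]
          exact add_le_add (mul_le_mul_of_nonneg_left h3 hrR.le)
            (mul_le_mul h6 h4 (abs_nonneg _) (by positivity))
      _ = ε * r + 1 / 4 := by field_simp
  set T : ℤ := ⌊ε * r + 1 / 4⌋ with hT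
  have hT0 : 0 ≤ T := Int.floor_nonneg.mpr (by positivity)
  have hcard : H.card ≤ (M / r + 1) * (Icc (-T) T).card := by
    rw [← card_range (M / r + 1), ← card_product]
    refine card_le_card_of_injOn (fun h => (h / r, (h : ℤ) * a - (r : ℤ) * round ((h : ℝ) * β)))
      ?_ ?_
    · intro h hh
      simp only [coe_product, Set.mem_prod, mem_coe, mem_range, mem_Icc]
      obtain ⟨h1, h2, h3⟩ := hH h hh
      refine ⟨Nat.lt_succ_of_le (Nat.div_le_div_right h2), ?_⟩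
      rw [← abs_le, Int.le_floor]
      exact hclose h hh
    · intro h hh g hg he
      simp only [Prod.mk.injEq] at he
      have hd : (r : ℤ) ∣ ((h : ℤ) - g) * a := by
        refine ⟨round ((h : ℝ) * β) - round ((g : ℝ) * β), ?_⟩
        linear_combination he.2
      have hco : IsCoprime (r : ℤ) a := by
        rw [Int.isCoprime_iff_nat_coprime]
        simpa using Q.reduced.symm
      have := (hco.dvd_of_dvd_mul_right hd)
      have hmod : g % r = h % r := (Nat.modEq_iff_dvd.mpr this)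
      calc h = r * (h / r) + h % r := (Nat.div_add_mod h r).symm
        _ = r * (g / r) + g % r := by rw [he.1, hmod]
        _ = g := Nat.div_add_mod g r
  have hcT : ((Icc (-T) T).card : ℝ) ≤ 2 * ε * r + 2 := by
    rw [Int.card_Icc]
    have h1 : ((T + 1 - -T).toNat : ℝ) = 2 * (T : ℝ) + 1 := by
      have : (((T + 1 - -T).toNat : ℕ) : ℤ) = 2 * T + 1 := by omega
      have := congrArg (Int.cast (R := ℝ)) this
      push_cast at this
      exact this
    rw [h1]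
    have : (T : ℝ) ≤ ε * r + 1 / 4 := Int.floor_le _
    linarith
  have hdiv : ((M / r + 1 : ℕ) : ℝ) ≤ 5 * M / r := by
    push_cast
    have h1 : ((M / r : ℕ) : ℝ) ≤ M / r := Nat.cast_div_le
    have h2 : (r : ℝ) ≤ 4 * M := by exact_mod_cast hQ2
    have h3 : (1 : ℝ) ≤ 4 * M / r := by rw [le_div_iff₀ hrR]; linarith
    have : (5 * M / r : ℝ) = 4 * M / r + M / r := by ring
    linarith
  have hr20 : (r : ℝ) ≤ 20 / η := by
    have h1 : (H.card : ℝ) ≤ (5 * M / r) * (2 * ε * r + 2) :=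
      calc (H.card : ℝ) ≤ ((M / r + 1 : ℕ) : ℝ) * ((Icc (-T) T).card : ℝ) := by exact_mod_cast hcard
        _ ≤ _ := mul_le_mul hdiv hcT (by positivity) (by positivity)
    have h2 : η * M ≤ 10 * ε * M + 10 * M / r := by
      refine hc.trans (h1.trans (le_of_eq ?_)); field_simp; ring
    have h3 : η * M / 2 ≤ 10 * M / r := by nlinarith
    rw [le_div_iff₀ hrR] at h3
    rw [le_div_iff₀ hη]
    nlinarith
  have her : ε * r ≤ 1 / 2 := by
    calc ε * r ≤ η / 40 * (20 / η) := mul_le_mul hε hr20 hrR.le (by positivity)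
      _ = 1 / 2 := by field_simp; ring
  obtain ⟨g, hg, hgmax⟩ := exists_max_image H id ⟨h₀, hh₀⟩
  obtain ⟨hg1, hg2, hg3⟩ := hH g hg
  have hsub : H ⊆ Icc 1 g := fun h hh => mem_Icc.mpr ⟨(hH h hh).1, hgmax h hh⟩
  have hgbig : η * M ≤ g := hc.trans (by
    have := card_le_card hsub
    rw [Nat.card_Icc, Nat.add_sub_cancel] at this
    exact_mod_cast this)
  have ht : (g : ℤ) * a - (r : ℤ) * round ((g : ℝ) * β) = 0 := by
    have h1 := hclose g hg
    have h2 : ((|(g : ℤ) * a - (r : ℤ) * round ((g : ℝ) * β)| : ℤ) : ℝ) < 1 := by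
      refine lt_of_le_of_lt h1 ?_; linarith
    have h3 : |(g : ℤ) * a - (r : ℤ) * round ((g : ℝ) * β)| < 1 := by exact_mod_cast h2
    exact Int.abs_lt_one_iff.mp h3
  refine ⟨r, hr0, hr20, ?_⟩
  have hgpos : (0 : ℝ) < g := by exact_mod_cast hg1
  have htR : (g : ℝ) * a = r * round ((g : ℝ) * β) := by
    have := congrArg (Int.cast (R := ℝ)) ht
    push_cast at this; linarith
  have heq : g * |(r : ℝ) * β - a| = r * |(g : ℝ) * β - round ((g : ℝ) * β)| := by
    rw [← abs_of_pos hgpos, ← abs_mul, ← abs_of_pos hrR, ← abs_mul, abs_of_pos hgpos,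
      abs_of_pos hrR]
    congr 1; linear_combination -htR
  calc di (r * β) ≤ |(r : ℝ) * β - a| := di_le _ _
    _ = r * |(g : ℝ) * β - round ((g : ℝ) * β)| / g := by rw [← heq]; field_simp
    _ ≤ (20 / η) * ε / (η * M) := by
        apply div_le_div₀ (by positivity) (mul_le_mul hr20 hg3 (di_nonneg _) (by positivity))
          (by positivity) hgbig
    _ = 20 * ε / (η ^ 2 * M) := by field_simp

lemma diff_natDegree {K : ℕ} {P : ℝ[X]} (hP : P.natDegree ≤ K + 1) (h : ℝ) :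
    (taylor h P - P).natDegree ≤ K := by
  rw [natDegree_le_iff_coeff_eq_zero]
  intro n hn
  have : hasseDeriv n P = C (P.coeff n) := by
    ext j
    rw [hasseDeriv_coeff, coeff_C]
    rcases eq_or_ne j 0 with hj | hj
    · subst hj; simp
    · rw [if_neg hj, coeff_eq_zero_of_natDegree_lt (lt_of_le_of_lt hP (by omega)), mul_zero]
  rw [coeff_sub, taylor_coeff, this, eval_C, sub_self]

lemma diff_coeff {K : ℕ} {P : ℝ[X]} (hP : P.natDegree ≤ K + 1) (h : ℝ) :
    (taylor h P - P).coeff K = (K + 1 : ℕ) * P.coeff (K + 1) * h := by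
  have : hasseDeriv K P = C (P.coeff K) + C ((K + 1 : ℕ) * P.coeff (K + 1)) * X := by
    ext j
    rw [hasseDeriv_coeff, coeff_add, coeff_C, coeff_C_mul_X]
    rcases j with _ | _ | j
    · simp
    · simp [Nat.choose_succ_self_right, add_comm 1 K]
    · rw [coeff_eq_zero_of_natDegree_lt (lt_of_le_of_lt hP (by omega))]; simp
  rw [coeff_sub, taylor_coeff, this]
  simp [eval_add, eval_mul]

/-- The exponential sum of a polynomial over `0, ..., M-1`. -/
noncomputable def esum (P : ℝ[X]) (M : ℕ) : ℂ := ∑ m ∈ range M, ee (P.eval (m : ℝ))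

lemma norm_esum_le (P : ℝ[X]) (M : ℕ) : ‖esum P M‖ ≤ M := by
  refine (norm_sum_le _ _).trans ?_
  simp [norm_ee]

lemma esum_sq_le (P : ℝ[X]) (M : ℕ) :
    ‖esum P M‖ ^ 2 ≤ M + 2 * ∑ h ∈ Ico 1 M, ‖esum (taylor (h : ℝ) P - P) (M - h)‖ := by
  refine (vdc (fun m => ee (P.eval (m : ℝ))) M).trans (le_of_eq ?_)
  congr 1
  · simp [norm_ee]
  · congr 1
    refine sum_congr rfl fun h _ => ?_
    congr 1
    refine sum_congr rfl fun m _ => ?_
    rw [ee_conj, ← ee_add, eval_sub, taylor_eval]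
    push_cast
    rw [sub_eq_add_neg]

lemma pigeon (H : Finset ℕ) (f : ℕ → ℕ) (Q : ℝ) (hQ : 1 ≤ Q)
    (hf : ∀ h ∈ H, f h ∈ Icc 1 ⌊Q⌋₊) :
    ∃ q : ℕ, 1 ≤ q ∧ (q : ℝ) ≤ Q ∧ (H.card : ℝ) ≤ Q * (H.filter (fun h => f h = q)).card := by
  have hne : (Icc 1 ⌊Q⌋₊).Nonempty :=
    nonempty_Icc.mpr (Nat.le_floor ((Nat.cast_one (R := ℝ)).trans_le hQ))
  obtain ⟨q, hq, hmax⟩ :=
    exists_max_image (Icc 1 ⌊Q⌋₊) (fun q => (H.filter (fun h => f h = q)).card) hne
  obtain ⟨hq1, hq2⟩ := mem_Icc.mp hq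
  refine ⟨q, hq1, (Nat.cast_le.mpr hq2).trans (Nat.floor_le (by linarith)), ?_⟩
  have h1 : H.card ≤ ⌊Q⌋₊ * (H.filter (fun h => f h = q)).card := by
    have := sum_le_card_nsmul _ _ _ hmax
    rw [Nat.card_Icc, Nat.add_sub_cancel, smul_eq_mul] at this
    rwa [← card_eq_sum_card_fiberwise hf] at this
  calc (H.card : ℝ) ≤ (⌊Q⌋₊ : ℝ) * (H.filter (fun h => f h = q)).card := by exact_mod_cast h1
    _ ≤ _ := mul_le_mul_of_nonneg_right (Nat.floor_le (by linarith)) (by positivity)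

lemma many_large (P : ℝ[X]) (M : ℕ) (δ : ℝ) (hδ : 0 < δ) (hS : δ * M ≤ ‖esum P M‖)
    (h8 : 8 ≤ (M : ℝ) * δ ^ 2) :
    δ ^ 2 * M / 4 ≤ ((Ico 1 M).filter
      (fun h : ℕ => δ ^ 2 * M / 8 ≤ ‖esum (taylor (h : ℝ) P - P) (M - h)‖)).card := by
  set F : ℕ → ℝ := fun h => ‖esum (taylor (h : ℝ) P - P) (M - h)‖ with hF
  have h1 := esum_sq_le P M
  have h2 : (δ * M) ^ 2 ≤ ‖esum P M‖ ^ 2 := pow_le_pow_left₀ (by positivity) hS 2
  have hM0 : (0 : ℝ) < M := by nlinarith
  have h3 : 7 / 16 * (δ ^ 2 * M ^ 2) ≤ ∑ h ∈ Ico 1 M, F h := by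
    show 7 / 16 * (δ ^ 2 * (M : ℝ) ^ 2) ≤
      ∑ h ∈ Ico 1 M, ‖esum (taylor (h : ℝ) P - P) (M - h)‖
    nlinarith
  have h4 : ∑ h ∈ Ico 1 M, F h ≤ ((Ico 1 M).filter (fun h => δ ^ 2 * M / 8 ≤ F h)).card * (M : ℝ)
      + M * (δ ^ 2 * M / 8) := by
    rw [← sum_filter_add_sum_filter_not (Ico 1 M) (fun h => δ ^ 2 * M / 8 ≤ F h)]
    refine add_le_add ?_ ?_
    · rw [← nsmul_eq_mul]
      refine sum_le_card_nsmul _ _ _ fun h _ => ?_
      exact (norm_esum_le _ _).trans (by exact_mod_cast Nat.sub_le M h)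
    · refine (sum_le_card_nsmul _ _ (δ ^ 2 * M / 8) fun h hh => ?_).trans ?_
      · exact (not_le.mp (mem_filter.mp hh).2).le
      · rw [nsmul_eq_mul]
        refine mul_le_mul_of_nonneg_right ?_ (by positivity)
        have := card_filter_le (Ico 1 M) (fun h => ¬ δ ^ 2 * M / 8 ≤ F h)
        rw [Nat.card_Ico] at this
        exact_mod_cast this.trans (Nat.sub_le _ _)
  nlinarith

lemma combine (K : ℕ) (α : ℝ) (M : ℕ) (E v W : ℝ) (r q : ℕ) (hM : 1 ≤ M) (hE : 1 ≤ E)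
    (hv : 1 ≤ v) (hW : W = 40 * E * v) (hr1 : 1 ≤ r) (hq1 : 1 ≤ q) (hr2 : (r : ℝ) ≤ 20 / (1 / v))
    (hqR : (q : ℝ) ≤ E)
    (hr3 : di (r * ((q : ℝ) * (((K + 2 : ℕ) : ℝ) * α))) ≤
      20 * (E / (M : ℝ) ^ (K + 1)) / ((1 / v) ^ 2 * M)) :
    ∃ p : ℕ, 1 ≤ p ∧ (p : ℝ) ≤ (K + 2 : ℕ) * W ^ (K + 2) ∧
      di (p * α) ≤ (K + 2 : ℕ) * W ^ (K + 2) / (M : ℝ) ^ (K + 2) := by
  have hMr : (1 : ℝ) ≤ M := by exact_mod_cast hM
  have hEv : 1 ≤ E * v := one_le_mul_of_one_le_of_one_le hE hv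
  have hW1 : 1 ≤ W := by rw [hW]; linarith
  have hK1 : (1 : ℝ) ≤ (K + 2 : ℕ) := by exact_mod_cast (by omega : 1 ≤ K + 2)
  refine ⟨r * q * (K + 2), ?_, ?_, ?_⟩
  · exact Nat.one_le_iff_ne_zero.mpr (by positivity)
  · have h20 : (r : ℝ) ≤ 20 * v := hr2.trans (le_of_eq (by field_simp))
    push_cast
    calc (r : ℝ) * q * (K + 2) ≤ 20 * v * E * (K + 2) :=
          mul_le_mul_of_nonneg_right (mul_le_mul h20 hqR (by positivity) (by positivity))
            (by positivity)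
      _ ≤ (K + 2) * W ^ (K + 2) := by
          rw [mul_comm _ ((K:ℝ) + 2)]
          refine mul_le_mul_of_nonneg_left ?_ (by positivity)
          calc 20 * v * E ≤ W := by rw [hW]; linarith
            _ ≤ W ^ (K + 2) := le_self_pow₀ hW1 (by omega)
  · rw [show ((r * q * (K + 2) : ℕ) : ℝ) * α = r * ((q : ℝ) * (((K + 2 : ℕ) : ℝ) * α)) by
      push_cast; ring]
    refine hr3.trans ?_
    rw [show 20 * (E / (M : ℝ) ^ (K + 1)) / ((1 / v) ^ 2 * M)
      = 20 * E * v ^ 2 / (M : ℝ) ^ (K + 2) by field_simp; ring]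
    refine div_le_div_of_nonneg_right ?_ (by positivity)
    calc 20 * E * v ^ 2 = 20 * (E * v) * v := by ring
      _ ≤ W * W := by
          rw [hW]
          refine mul_le_mul (by linarith) ?_ (by linarith) (by linarith)
          nlinarith
      _ = W ^ 2 := by ring
      _ ≤ W ^ (K + 2) := pow_le_pow_right₀ hW1 (by omega)
      _ ≤ _ := le_mul_of_one_le_left (by positivity) hK1

theorem weyl (K : ℕ) : ∃ B : ℕ, ∃ C : ℝ, 1 ≤ C ∧ ∀ P : ℝ[X], P.natDegree ≤ K + 1 →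
    ∀ M : ℕ, 1 ≤ M → ∀ δ : ℝ, 0 < δ → δ * M ≤ ‖esum P M‖ →
    ∃ q : ℕ, 1 ≤ q ∧ (q : ℝ) ≤ C * (1 / δ) ^ B ∧
      di (q * P.coeff (K + 1)) ≤ C * (1 / δ) ^ B / (M : ℝ) ^ (K + 1) := by
  induction K with
  | zero =>
    refine ⟨1, 1, le_rfl, fun P hP M hM δ hδ hS => ?_⟩
    have hMr : (1 : ℝ) ≤ M := by exact_mod_cast hM
    have hδ1 : δ ≤ 1 := by
      by_contra hcon
      have := hS.trans (norm_esum_le P M)
      nlinarith
    have hd : di (P.coeff 1) ≤ 1 / (2 * (δ * M)) := by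
      have he : esum P M = ee (P.coeff 0) * ∑ m ∈ range M, ee ((m : ℝ) * P.coeff 1) := by
        rw [esum, mul_sum]
        refine sum_congr rfl fun m _ => ?_
        rw [← ee_add]
        conv_lhs => rw [eq_X_add_C_of_natDegree_le_one hP]
        simp; ring_nf
      rw [he, norm_mul, norm_ee, one_mul] at hS
      have h := geom_bound (P.coeff 1) M
      rw [le_div_iff₀ (by positivity)]
      have := mul_le_mul_of_nonneg_right hS (di_nonneg (P.coeff 1))
      nlinarith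
    refine ⟨1, le_rfl, ?_, ?_⟩
    · simp only [pow_one, one_mul, Nat.cast_one]
      rw [le_div_iff₀ hδ]; linarith
    · simp only [pow_one, one_mul, Nat.cast_one, zero_add]
      refine hd.trans ?_
      rw [div_div, div_le_div_iff₀ (by positivity) (by positivity)]
      nlinarith
  | succ K ih =>
    obtain ⟨B', C', hC', hW⟩ := ih
    set c₁ : ℝ := C' * 8 ^ (B' + K + 1) with hc₁
    set b : ℕ := 2 * (B' + K + 1) with hb
    refine ⟨(2 * b + 2) * (K + 2), (K + 2 : ℕ) * (160 * c₁ ^ 2) ^ (K + 2), ?_,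
      fun P hP M hM δ hδ hS => ?_⟩
    · have h1 : 1 ≤ c₁ := by
        rw [hc₁]; exact one_le_mul_of_one_le_of_one_le hC' (one_le_pow₀ (by norm_num))
      have : (1 : ℝ) ≤ (K + 2 : ℕ) := by exact_mod_cast (by omega : 1 ≤ K + 2)
      exact one_le_mul_of_one_le_of_one_le this (one_le_pow₀ (by nlinarith))
    have hc1 : 1 ≤ c₁ := by
      rw [hc₁]; exact one_le_mul_of_one_le_of_one_le hC' (one_le_pow₀ (by norm_num))
    have hMr : (1 : ℝ) ≤ M := by exact_mod_cast hM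
    have hδ1 : δ ≤ 1 := by
      by_contra hcon
      have := hS.trans (norm_esum_le P M)
      nlinarith
    set u := 1 / δ with hu
    have hu1 : 1 ≤ u := by rw [hu, le_div_iff₀ hδ]; linarith
    set E := c₁ * u ^ b with hE
    set v := 4 * c₁ * u ^ (b + 2) with hv
    set W := 160 * c₁ ^ 2 * u ^ (2 * b + 2) with hWdef
    have hE1 : 1 ≤ E := one_le_mul_of_one_le_of_one_le hc1 (one_le_pow₀ hu1)
    have hv1 : 1 ≤ v := one_le_mul_of_one_le_of_one_le (by linarith) (one_le_pow₀ hu1)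
    have hWEv : W = 40 * E * v := by rw [hWdef, hE, hv]; ring
    have hW8 : 8 * u ^ 2 ≤ W := by
      have h1 : u ^ 2 ≤ u ^ (2 * b + 2) := pow_le_pow_right₀ hu1 (by omega)
      have h2 : (8 : ℝ) ≤ 160 * c₁ ^ 2 := by nlinarith
      exact mul_le_mul h2 h1 (by positivity) (by positivity)
    have hW1 : 1 ≤ W := by nlinarith
    have hbound : ((K + 2 : ℕ) : ℝ) * (160 * c₁ ^ 2) ^ (K + 2) * u ^ ((2 * b + 2) * (K + 2))
        = (K + 2 : ℕ) * W ^ (K + 2) := by
      rw [hWdef, mul_pow _ (u ^ (2 * b + 2)), ← pow_mul]; ring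
    show ∃ q : ℕ, 1 ≤ q ∧ _ ∧ _
    rw [hbound]
    have hK1 : (1 : ℝ) ≤ (K + 2 : ℕ) := by exact_mod_cast (by omega : 1 ≤ K + 2)
    by_cases hsmall : (M : ℝ) ≤ W
    · refine ⟨1, le_rfl, ?_, ?_⟩
      · push_cast at hK1 ⊢
        exact one_le_mul_of_one_le_of_one_le hK1 (one_le_pow₀ hW1)
      · refine (di_le_half _).trans ?_
        rw [le_div_iff₀ (by positivity)]
        have := pow_le_pow_left₀ (by linarith) hsmall (K + 2)
        have : (M : ℝ) ^ (K + 2) ≤ (K + 2 : ℕ) * W ^ (K + 2) := by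
          nlinarith [pow_nonneg (by linarith : (0:ℝ) ≤ W) (K + 2)]
        have h0 : (0 : ℝ) ≤ (M : ℝ) ^ (K + 2) := by positivity
        linarith
    push Not at hsmall
    have h8 : 8 ≤ (M : ℝ) * δ ^ 2 := by
      have h3 : 8 * u ^ 2 * δ ^ 2 = 8 := by rw [hu]; field_simp
      rw [← h3]; exact mul_le_mul_of_nonneg_right (hW8.trans hsmall.le) (by positivity)
    set H := (Ico 1 M).filter
      (fun h : ℕ => δ ^ 2 * M / 8 ≤ ‖esum (taylor (h : ℝ) P - P) (M - h)‖) with hHdef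
    have hHcard : δ ^ 2 * M / 4 ≤ H.card := many_large P M δ hδ hS h8
    set Q₁ := C' * (8 * u ^ 2) ^ B' with hQ₁
    have hQE : Q₁ * (8 * u ^ 2) ^ (K + 1) = E := by
      rw [hQ₁, hE, hc₁, hb, mul_assoc, ← pow_add, mul_pow, ← pow_mul, ← add_assoc]; ring
    have hQpos : 1 ≤ Q₁ := one_le_mul_of_one_le_of_one_le hC' (one_le_pow₀ (by nlinarith))
    have hQleE : Q₁ ≤ E := by
      rw [← hQE]; exact le_mul_of_one_le_right (by linarith) (one_le_pow₀ (by nlinarith))
    clear_value Q₁ E v W u c₁ b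
    set c := ((K + 2 : ℕ) : ℝ) * P.coeff (K + 2) with hcdef
    set ε := E / (M : ℝ) ^ (K + 1) with hεdef
    have hkey : ∀ h ∈ H, ∃ q ∈ Icc 1 ⌊Q₁⌋₊, di (q * (c * h)) ≤ ε := by
      intro h hh
      rw [hHdef] at hh
      obtain ⟨hh1, hh2⟩ := mem_filter.mp hh
      rw [mem_Ico] at hh1
      have hlen : δ ^ 2 * M / 8 ≤ ((M - h : ℕ) : ℝ) := hh2.trans (norm_esum_le _ _)
      have hlenpos : 1 ≤ M - h := by omega
      have hle : ((M - h : ℕ) : ℝ) ≤ M := by exact_mod_cast Nat.sub_le M h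
      have hdeg : (taylor (h : ℝ) P - P).natDegree ≤ K + 1 := diff_natDegree hP (h : ℝ)
      have hlow : δ ^ 2 / 8 * ((M - h : ℕ) : ℝ) ≤ ‖esum (taylor (h : ℝ) P - P) (M - h)‖ := by
        refine le_trans ?_ hh2
        rw [mul_div_right_comm]
        exact mul_le_mul_of_nonneg_left hle (by positivity)
      obtain ⟨q, hq1, hq2, hq3⟩ :=
        hW (taylor (h : ℝ) P - P) hdeg (M - h) hlenpos (δ ^ 2 / 8) (by positivity) hlow
      have hu8 : 1 / (δ ^ 2 / 8) = 8 * u ^ 2 := by rw [hu]; field_simp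
      rw [hu8] at hq2 hq3
      refine ⟨q, mem_Icc.mpr ⟨hq1, Nat.le_floor (hq2.trans_eq hQ₁.symm)⟩, ?_⟩
      rw [diff_coeff hP] at hq3
      refine le_trans hq3 ?_
      rw [← hQ₁, hεdef, ← hQE, div_le_div_iff₀ (by positivity) (by positivity), mul_assoc Q₁]
      refine mul_le_mul_of_nonneg_left ?_ (by linarith)
      rw [← mul_pow]
      refine pow_le_pow_left₀ (by positivity) ?_ _
      have h5 : 8 * u ^ 2 * (δ ^ 2 * M / 8) = M := by rw [hu]; field_simp
      calc (M : ℝ) = 8 * u ^ 2 * (δ ^ 2 * M / 8) := h5.symm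
        _ ≤ _ := mul_le_mul_of_nonneg_left hlen (by positivity)
    choose! qf hqf1 hqf2 using hkey
    obtain ⟨q, hq1, hq2, hqc⟩ := pigeon H qf Q₁ hQpos hqf1
    set G := H.filter (fun h => qf h = q) with hG
    clear_value H G
    have hGcard : 1 / v * M ≤ G.card := by
      have h2 : (H.card : ℝ) ≤ E * G.card :=
        hqc.trans (mul_le_mul_of_nonneg_right hQleE (Nat.cast_nonneg _))
      have h3 : v = 4 * E * u ^ 2 := by rw [hv, hE]; ring
      rw [h3, div_mul_eq_mul_div, one_mul, div_le_iff₀ (by positivity)]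
      have h4 : u ^ 2 * δ ^ 2 = 1 := by rw [hu]; field_simp
      calc (M : ℝ) = 4 * u ^ 2 * (δ ^ 2 * M / 4) := by linear_combination (-(M:ℝ)) * h4
        _ ≤ 4 * u ^ 2 * (E * G.card) := mul_le_mul_of_nonneg_left (hHcard.trans h2) (by positivity)
        _ = G.card * (4 * E * u ^ 2) := by ring
    have hεs : ε ≤ 1 / v / 40 := by
      rw [hεdef, div_div, div_le_div_iff₀ (by positivity) (by positivity)]
      have : (M : ℝ) ≤ (M : ℝ) ^ (K + 1) := le_self_pow₀ hMr (by omega)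
      calc E * (v * 40) = W := by rw [hWEv]; ring
        _ ≤ _ := by rw [one_mul]; linarith
    obtain ⟨r, hr1, hr2, hr3⟩ := vinogradov ((q : ℝ) * c) ε (1 / v) M G (by positivity) hεs hM
      (fun h hh => by
        rw [hG] at hh
        obtain ⟨hhH, hhq⟩ := mem_filter.mp hh
        have hI := (mem_filter.mp (hHdef ▸ hhH : h ∈ _)).1
        rw [mem_Ico] at hI
        refine ⟨hI.1, hI.2.le, ?_⟩
        have := hqf2 h hhH
        rw [hhq] at this
        convert this using 2; ring) hGcard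
    exact combine K (P.coeff (K + 2)) M E v W r q hM hE1 hv1 hWEv hr1 hq1 hr2
      (hq2.trans hQleE) (by rw [hcdef, hεdef] at hr3; exact hr3)

end Vale.Agent.P042
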